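import Vale.Agent.P132.MathlibUsed
import Vale.Agent.P132.FinalDefs

set_option linter.all false

namespace AFast1b889ax5a
@[reducible] def a0.{u1} {x1 : Type u1} [x2 : NormedAddCommGroup x1] [x3 : InnerProductSpace ℂ x1] : Semiring (x1 →L[ℂ] x1) := inferInstance
@[reducible] noncomputable def a1.{u1} {x1 : Type u1} [x2 : NormedAddCommGroup x1] [x3 : InnerProductSpace ℂ x1] [x4 : CompleteSpace x1] : StarAddMonoid (x1 →L[ℂ] x1) := inferInstance
@[reducible] def a2.{u1} {x1 : Type u1} [x2 : NormedAddCommGroup x1] [x3 : InnerProductSpace ℂ x1] : Ring (x1 →L[ℂ] x1) := inferInstance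
@[reducible] def a3.{u1} {x1 : Type u1} [x2 : NormedAddCommGroup x1] [x3 : InnerProductSpace ℂ x1] : AddCommMonoid (x1 →L[ℂ] x1) := inferInstance
@[reducible] def a4.{u1} {x1 : Type u1} [x2 : NormedAddCommGroup x1] [x3 : InnerProductSpace ℂ x1] : AddMonoid (x1 →L[ℂ] x1) := inferInstance
theorem a5.{u1} {x1 : Type u1} [x2 : NormedAddCommGroup x1] [x3 : InnerProductSpace ℂ x1] [x4 : CompleteSpace x1] : ContinuousFunctionalCalculus ℂ (x1 →L[ℂ] x1) IsStarNormal := inferInstance
@[reducible] def a6.{u1} {x1 : Type u1} [x2 : NormedAddCommGroup x1] [x3 : InnerProductSpace ℂ x1] : Add (x1 →L[ℂ] x1) := inferInstance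
@[reducible] def a7.{u1} {x1 : Type u1} [x2 : NormedAddCommGroup x1] [x3 : InnerProductSpace ℂ x1] : AddZeroClass (x1 →L[ℂ] x1) := inferInstance
@[reducible] def a8.{u1} {x1 : Type u1} [x2 : NormedAddCommGroup x1] [x3 : InnerProductSpace ℂ x1] : NonAssocSemiring (x1 →L[ℂ] x1) := inferInstance
@[reducible] def a9.{u1} {x1 : Type u1} [x2 : NormedAddCommGroup x1] [x3 : InnerProductSpace ℂ x1] : NonAssocRing (x1 →L[ℂ] x1) := inferInstance
@[reducible] def a10.{u1} {x1 : Type u1} [x2 : NormedAddCommGroup x1] [x3 : InnerProductSpace ℂ x1] : Distrib (x1 →L[ℂ] x1) := inferInstance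
@[reducible] def a11.{u1} {x1 : Type u1} [x2 : NormedAddCommGroup x1] [x3 : InnerProductSpace ℂ x1] : NonUnitalNonAssocSemiring (x1 →L[ℂ] x1) := inferInstance
theorem a12 : ContinuousAdd ℂ := inferInstance
@[reducible] def a13.{u1} {x1 : Type u1} [x2 : NormedAddCommGroup x1] [x3 : InnerProductSpace ℂ x1] : NonUnitalNonAssocRing (x1 →L[ℂ] x1) := inferInstance
@[reducible] def a14.{u1} {x1 : Type u1} [x2 : NormedAddCommGroup x1] [x3 : InnerProductSpace ℂ x1] : AddZero (x1 →L[ℂ] x1) := inferInstance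
@[reducible] noncomputable def a15 : Semiring (BoundedContinuousFunction ℝ ℂ) := inferInstance
@[reducible] def a16.{u1} {x1 : Type u1} [x2 : NormedAddCommGroup x1] [x3 : InnerProductSpace ℂ x1] : Sub (x1 →L[ℂ] x1) := inferInstance
@[reducible] def a17.{u1} {x1 : Type u1} [x2 : NormedAddCommGroup x1] [x3 : InnerProductSpace ℂ x1] : AddCommMonoidWithOne (x1 →L[ℂ] x1) := inferInstance
@[reducible] def a18.{u1} {x1 : Type u1} [x2 : NormedAddCommGroup x1] [x3 : InnerProductSpace ℂ x1] : AddCommGroup (x1 →L[ℂ] x1) := inferInstance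
theorem a19 : IsTopologicalRing ℂ := inferInstance
theorem a20.{u1} {x1 : Type u1} [x2 : NormedAddCommGroup x1] [x3 : InnerProductSpace ℂ x1] : DistribMulActionSemiHomClass (x1 →L[ℂ] x1) (⇑(RingHom.id ℂ)) x1 x1 := inferInstance
@[reducible] noncomputable def a21.{u1} {x1 : Type u1} [x2 : NormedAddCommGroup x1] [x3 : InnerProductSpace ℂ x1] : TopologicalSpace (x1 →L[ℂ] x1) := inferInstance
@[reducible] def a22.{u1} {x1 : Type u1} [x2 : NormedAddCommGroup x1] [x3 : InnerProductSpace ℂ x1] : MulZeroOneClass (x1 →L[ℂ] x1) := inferInstance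
theorem a23 : IsSemitopologicalSemiring ℂ := inferInstance
@[reducible] def a24.{u1} {x1 : Type u1} [x2 : NormedAddCommGroup x1] [x3 : InnerProductSpace ℂ x1] : AddCommMagma (x1 →L[ℂ] x1) := inferInstance
@[reducible] def a25.{u1} {x1 : Type u1} [x2 : NormedAddCommGroup x1] [x3 : InnerProductSpace ℂ x1] : AddCommSemigroup (x1 →L[ℂ] x1) := inferInstance
theorem a26 : ContinuousMul ℂ := inferInstance
theorem a27 : IsSemitopologicalRing ℂ := inferInstance
theorem a28 : IsTopologicalSemiring ℂ := inferInstance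
@[reducible] def a29.{u1} {x1 : Type u1} [x2 : NormedAddCommGroup x1] [x3 : InnerProductSpace ℂ x1] : SubNegMonoid (x1 →L[ℂ] x1) := inferInstance
@[reducible] def a30.{u1} {x1 : Type u1} [x2 : NormedAddCommGroup x1] [x3 : InnerProductSpace ℂ x1] : AddGroup (x1 →L[ℂ] x1) := inferInstance
@[reducible] def a31.{u1} {x1 : Type u1} [x2 : NormedAddCommGroup x1] [x3 : InnerProductSpace ℂ x1] : MulOne (x1 →L[ℂ] x1) := inferInstance
@[reducible] def a32.{u1} {x1 : Type u1} [x2 : NormedAddCommGroup x1] [x3 : InnerProductSpace ℂ x1] : MulOneClass (x1 →L[ℂ] x1) := inferInstance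
@[reducible] def a33.{u1} {x1 : Type u1} [x2 : NormedAddCommGroup x1] [x3 : InnerProductSpace ℂ x1] : NegZeroClass (x1 →L[ℂ] x1) := inferInstance
@[reducible] def a34.{u1} {x1 : Type u1} [x2 : NormedAddCommGroup x1] [x3 : InnerProductSpace ℂ x1] : SubNegZeroMonoid (x1 →L[ℂ] x1) := inferInstance
@[reducible] def a35.{u1} {x1 : Type u1} [x2 : NormedAddCommGroup x1] [x3 : InnerProductSpace ℂ x1] : SubtractionMonoid (x1 →L[ℂ] x1) := inferInstance
@[reducible] def a36.{u1} {x1 : Type u1} [x2 : NormedAddCommGroup x1] [x3 : InnerProductSpace ℂ x1] : AddMonoidWithOne (x1 →L[ℂ] x1) := inferInstance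
theorem a37.{u1} {x1 : Type u1} [x2 : NormedAddCommGroup x1] [x3 : InnerProductSpace ℂ x1] : T2Space (x1 →L[ℂ] x1) := inferInstance
@[reducible] noncomputable def a38 : Star (BoundedContinuousFunction ℝ ℂ) := inferInstance
@[reducible] def a39.{u1} {x1 : Type u1} [x2 : NormedAddCommGroup x1] [x3 : InnerProductSpace ℂ x1] : Semigroup (x1 →L[ℂ] x1) := inferInstance
@[reducible] noncomputable def a40 : InvolutiveStar (BoundedContinuousFunction ℝ ℂ) := inferInstance
@[reducible] def a41.{u1} {x1 : Type u1} [x2 : NormedAddCommGroup x1] [x3 : InnerProductSpace ℂ x1] : AddGroupWithOne (x1 →L[ℂ] x1) := inferInstance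
@[reducible] noncomputable def a42 : StarAddMonoid (BoundedContinuousFunction ℝ ℂ) := inferInstance
@[reducible] def a43.{u1} {x1 : Type u1} [x2 : NormedAddCommGroup x1] [x3 : InnerProductSpace ℂ x1] : Neg (x1 →L[ℂ] x1) := inferInstance
theorem a44 : IsTopologicalAddGroup ℂ := inferInstance
@[reducible] noncomputable def a45.{u1} {x1 : Type u1} [x2 : NormedAddCommGroup x1] [x3 : InnerProductSpace ℂ x1] : SeminormedAddCommGroup (x1 →L[ℂ] x1) := inferInstance
@[reducible] def a46.{u1} {x1 : Type u1} [x2 : NormedAddCommGroup x1] [x3 : InnerProductSpace ℂ x1] : SubtractionCommMonoid (x1 →L[ℂ] x1) := inferInstance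
@[reducible] def a47.{u1} {x1 : Type u1} [x2 : NormedAddCommGroup x1] [x3 : InnerProductSpace ℂ x1] : SemigroupWithZero (x1 →L[ℂ] x1) := inferInstance
@[reducible] def a48.{u1} {x1 : Type u1} [x2 : NormedAddCommGroup x1] [x3 : InnerProductSpace ℂ x1] : NonUnitalSemiring (x1 →L[ℂ] x1) := inferInstance
theorem a49 : BoundedAdd ℂ := inferInstance
theorem a50.{u1} {x1 : Type u1} [x2 : NormedAddCommGroup x1] [x3 : InnerProductSpace ℂ x1] : SemilinearMapClass (x1 →L[ℂ] x1) (RingHom.id ℂ) x1 x1 := inferInstance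
@[reducible] def a51.{u1} {x1 : Type u1} [x2 : NormedAddCommGroup x1] [x3 : InnerProductSpace ℂ x1] : MulZeroClass (x1 →L[ℂ] x1) := inferInstance
theorem a52 : IsTopologicalDivisionRing ℂ := inferInstance
@[reducible] noncomputable def a53.{u1} {x1 : Type u1} [x2 : NormedAddCommGroup x1] [x3 : InnerProductSpace ℂ x1] [x4 : CompleteSpace x1] : InvolutiveStar (x1 →L[ℂ] x1) := inferInstance
@[reducible] def a54.{u1} {x1 : Type u1} [x2 : NormedAddCommGroup x1] [x3 : InnerProductSpace ℂ x1] : AddSemigroup (x1 →L[ℂ] x1) := inferInstance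
theorem a55 : Algebra.IsIntegral ℝ ℂ := inferInstance
theorem a56 : Algebra.IsAlgebraic ℝ ℂ := inferInstance
@[reducible] def a57.{u1} {x1 : Type u1} [x2 : NormedAddCommGroup x1] [x3 : InnerProductSpace ℂ x1] : Monoid (x1 →L[ℂ] x1) := inferInstance
theorem a58.{u1} {x1 : Type u1} [x2 : NormedAddCommGroup x1] [x3 : InnerProductSpace ℂ x1] [x4 : CompleteSpace x1] : OneMemClass (VonNeumannAlgebra x1) (x1 →L[ℂ] x1) := inferInstance
@[reducible] noncomputable def a59 : SMul ℝ ℂ := inferInstance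
theorem a60.{u1} {x1 : Type u1} [x2 : NormedAddCommGroup x1] [x3 : InnerProductSpace ℂ x1] [x4 : CompleteSpace x1] : AddSubmonoidWithOneClass (VonNeumannAlgebra x1) (x1 →L[ℂ] x1) := inferInstance
theorem a61.{u1} {x1 : Type u1} [x2 : NormedAddCommGroup x1] [x3 : InnerProductSpace ℂ x1] : AddHomClass (x1 →L[ℂ] x1) x1 x1 := inferInstance
theorem a62 : NormedStarGroup ℂ := inferInstance
theorem a63.{u1} {x1 : Type u1} [x2 : NormedAddCommGroup x1] [x3 : InnerProductSpace ℂ x1] : RightDistribClass (x1 →L[ℂ] x1) := inferInstance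
theorem a64 : MulHomClass (ℂ →+* ℂ) ℂ ℂ := inferInstance
@[reducible] noncomputable def a65.{u1} {x1 : Type u1} [x2 : NormedAddCommGroup x1] [x3 : InnerProductSpace ℂ x1] : Norm (x1 →L[ℂ] x1) := inferInstance
theorem a66 : RingHomIsometric (RingHom.id ℂ) := inferInstance
theorem a67.{u1} {x1 : Type u1} [x2 : NormedAddCommGroup x1] [x3 : InnerProductSpace ℂ x1] : MulActionSemiHomClass (x1 →L[ℂ] x1) (⇑(RingHom.id ℂ)) x1 x1 := inferInstance
theorem a68.{u1} {x1 : Type u1} [x2 : NormedAddCommGroup x1] [x3 : InnerProductSpace ℂ x1] [x4 : CompleteSpace x1] : AddSubgroupClass (VonNeumannAlgebra x1) (x1 →L[ℂ] x1) := inferInstance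
@[reducible] noncomputable def a69.{u1} {x1 : Type u1} [x2 : NormedAddCommGroup x1] [x3 : InnerProductSpace ℂ x1] : NormedRing (x1 →L[ℂ] x1) := inferInstance
theorem a70.{u1} {x1 : Type u1} [x2 : NormedAddCommGroup x1] [x3 : InnerProductSpace ℂ x1] : LeftDistribClass (x1 →L[ℂ] x1) := inferInstance
theorem a71.{u1} {x1 : Type u1} [x2 : NormedAddCommGroup x1] [x3 : InnerProductSpace ℂ x1] : IsSubApply (x1 →L[ℂ] x1) x1 x1 := inferInstance
theorem a72 : Module.IsTorsionFree ℝ ℂ := inferInstance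
end AFast1b889ax5a
attribute [local instance] AFast1b889ax5a.a0 AFast1b889ax5a.a1 AFast1b889ax5a.a2 AFast1b889ax5a.a3
  AFast1b889ax5a.a4 AFast1b889ax5a.a5 AFast1b889ax5a.a6 AFast1b889ax5a.a7 AFast1b889ax5a.a8
  AFast1b889ax5a.a9 AFast1b889ax5a.a10 AFast1b889ax5a.a11 AFast1b889ax5a.a12 AFast1b889ax5a.a13
  AFast1b889ax5a.a14 AFast1b889ax5a.a15 AFast1b889ax5a.a16 AFast1b889ax5a.a17 AFast1b889ax5a.a18
  AFast1b889ax5a.a19 AFast1b889ax5a.a20 AFast1b889ax5a.a21 AFast1b889ax5a.a22 AFast1b889ax5a.a23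
  AFast1b889ax5a.a24 AFast1b889ax5a.a25 AFast1b889ax5a.a26 AFast1b889ax5a.a27 AFast1b889ax5a.a28
  AFast1b889ax5a.a29 AFast1b889ax5a.a30 AFast1b889ax5a.a31 AFast1b889ax5a.a32 AFast1b889ax5a.a33
  AFast1b889ax5a.a34 AFast1b889ax5a.a35 AFast1b889ax5a.a36 AFast1b889ax5a.a37 AFast1b889ax5a.a38
  AFast1b889ax5a.a39 AFast1b889ax5a.a40 AFast1b889ax5a.a41 AFast1b889ax5a.a42 AFast1b889ax5a.a43
  AFast1b889ax5a.a44 AFast1b889ax5a.a45 AFast1b889ax5a.a46 AFast1b889ax5a.a47 AFast1b889ax5a.a48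
  AFast1b889ax5a.a49 AFast1b889ax5a.a50 AFast1b889ax5a.a51 AFast1b889ax5a.a52 AFast1b889ax5a.a53
  AFast1b889ax5a.a54 AFast1b889ax5a.a55 AFast1b889ax5a.a56 AFast1b889ax5a.a57 AFast1b889ax5a.a58
  AFast1b889ax5a.a59 AFast1b889ax5a.a60 AFast1b889ax5a.a61 AFast1b889ax5a.a62 AFast1b889ax5a.a63
  AFast1b889ax5a.a64 AFast1b889ax5a.a65 AFast1b889ax5a.a66 AFast1b889ax5a.a67 AFast1b889ax5a.a68
  AFast1b889ax5a.a69 AFast1b889ax5a.a70 AFast1b889ax5a.a71 AFast1b889ax5a.a72
namespace AFast1b889ax5b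
@[reducible] noncomputable def a0.{u1} {x1 : Type u1} [x2 : NormedAddCommGroup x1] [x3 : InnerProductSpace ℂ x1] : Algebra ℝ (x1 →L[ℂ] x1) := inferInstance
@[reducible] def a1.{u1} {x1 : Type u1} [x2 : NormedAddCommGroup x1] [x3 : InnerProductSpace ℂ x1] : Algebra ℂ (x1 →L[ℂ] x1) := inferInstance
@[reducible] def a2.{u1} {x1 : Type u1} [x2 : NormedAddCommGroup x1] [x3 : InnerProductSpace ℂ x1] : SMul ℂ (x1 →L[ℂ] x1) := inferInstance
@[reducible] def a3.{u1} {x1 : Type u1} [x2 : NormedAddCommGroup x1] [x3 : InnerProductSpace ℂ x1] : SMulZeroClass ℂ (x1 →L[ℂ] x1) := inferInstance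
@[reducible] def a4.{u1} {x1 : Type u1} [x2 : NormedAddCommGroup x1] [x3 : InnerProductSpace ℂ x1] : DistribSMul ℂ (x1 →L[ℂ] x1) := inferInstance
theorem a5.{u1} {x1 : Type u1} [x2 : NormedAddCommGroup x1] [x3 : InnerProductSpace ℂ x1] [x4 : CompleteSpace x1] : ContinuousFunctionalCalculus ℝ (x1 →L[ℂ] x1) IsSelfAdjoint := inferInstance
@[reducible] def a6.{u1} {x1 : Type u1} [x2 : NormedAddCommGroup x1] [x3 : InnerProductSpace ℂ x1] : Module ℂ (x1 →L[ℂ] x1) := inferInstance
@[reducible] noncomputable def a7.{u1} {x1 : Type u1} [x2 : NormedAddCommGroup x1] [x3 : InnerProductSpace ℂ x1] : NonUnitalNormedRing (x1 →L[ℂ] x1) := inferInstance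
@[reducible] def a8.{u1} {x1 : Type u1} [x2 : NormedAddCommGroup x1] [x3 : InnerProductSpace ℂ x1] : DistribMulAction ℂ (x1 →L[ℂ] x1) := inferInstance
@[reducible] noncomputable def a9.{u1} {x1 : Type u1} [x2 : NormedAddCommGroup x1] [x3 : InnerProductSpace ℂ x1] : NonUnitalSeminormedRing (x1 →L[ℂ] x1) := inferInstance
theorem a10 : Module.FaithfullyFlat ℝ ℂ := inferInstance
theorem a11 : Module.Free ℝ ℂ := inferInstance
@[reducible] noncomputable def a12.{u1} {x1 : Type u1} [x2 : NormedAddCommGroup x1] [x3 : InnerProductSpace ℂ x1] : SMul ℝ (x1 →L[ℂ] x1) := inferInstance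
theorem a13.{u1} {x1 : Type u1} [x2 : NormedAddCommGroup x1] [x3 : InnerProductSpace ℂ x1] [x4 : CompleteSpace x1] : IsTopologicalRing (x1 →L[ℂ] x1) := inferInstance
theorem a14.{u1} {x1 : Type u1} [x2 : NormedAddCommGroup x1] [x3 : InnerProductSpace ℂ x1] : AddMonoidHomClass (x1 →L[ℂ] x1) x1 x1 := inferInstance
@[reducible] def a15.{u1} {x1 : Type u1} [x2 : NormedAddCommGroup x1] [x3 : InnerProductSpace ℂ x1] : MulAction ℂ (x1 →L[ℂ] x1) := inferInstance
theorem a16 : Module.Flat ℝ ℂ := inferInstance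
theorem a17.{u1} {x1 : Type u1} [x2 : NormedAddCommGroup x1] [x3 : InnerProductSpace ℂ x1] : IsScalarTower ℂ (x1 →L[ℂ] x1) (x1 →L[ℂ] x1) := inferInstance
theorem a18 : FaithfulSMul ℝ ℂ := inferInstance
theorem a19.{u1} {x1 : Type u1} [x2 : NormedAddCommGroup x1] [x3 : InnerProductSpace ℂ x1] : ZeroHomClass (x1 →L[ℂ] x1) x1 x1 := inferInstance
@[reducible] noncomputable def a20.{u1} {x1 : Type u1} [x2 : NormedAddCommGroup x1] [x3 : InnerProductSpace ℂ x1] : SMulZeroClass ℝ (x1 →L[ℂ] x1) := inferInstance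
@[reducible] noncomputable def a21.{u1} {x1 : Type u1} [x2 : NormedAddCommGroup x1] [x3 : InnerProductSpace ℂ x1] : DistribSMul ℝ (x1 →L[ℂ] x1) := inferInstance
@[reducible] noncomputable def a22.{u1} {x1 : Type u1} [x2 : NormedAddCommGroup x1] [x3 : InnerProductSpace ℂ x1] : DistribMulAction ℝ (x1 →L[ℂ] x1) := inferInstance
@[reducible] noncomputable def a23.{u1} {x1 : Type u1} [x2 : NormedAddCommGroup x1] [x3 : InnerProductSpace ℂ x1] : Module ℝ (x1 →L[ℂ] x1) := inferInstance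
theorem a24.{u1} {x1 : Type u1} [x2 : NormedAddCommGroup x1] [x3 : InnerProductSpace ℂ x1] : SMulCommClass ℂ (x1 →L[ℂ] x1) (x1 →L[ℂ] x1) := inferInstance
@[reducible] def a25.{u1} {x1 : Type u1} [x2 : NormedAddCommGroup x1] [x3 : InnerProductSpace ℂ x1] : SemigroupAction ℂ (x1 →L[ℂ] x1) := inferInstance
end AFast1b889ax5b
attribute [local instance] AFast1b889ax5b.a0 AFast1b889ax5b.a1 AFast1b889ax5b.a2 AFast1b889ax5b.a3
  AFast1b889ax5b.a4 AFast1b889ax5b.a5 AFast1b889ax5b.a6 AFast1b889ax5b.a7 AFast1b889ax5b.a8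
  AFast1b889ax5b.a9 AFast1b889ax5b.a10 AFast1b889ax5b.a11 AFast1b889ax5b.a12 AFast1b889ax5b.a13
  AFast1b889ax5b.a14 AFast1b889ax5b.a15 AFast1b889ax5b.a16 AFast1b889ax5b.a17 AFast1b889ax5b.a18
  AFast1b889ax5b.a19 AFast1b889ax5b.a20 AFast1b889ax5b.a21 AFast1b889ax5b.a22 AFast1b889ax5b.a23
  AFast1b889ax5b.a24 AFast1b889ax5b.a25
section

/-!
# P132: isometric maps determined on generators
-/

open Filter Topology
open scoped InnerProductSpace

namespace Vale.Agent.P132

universe u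

theorem exists_partialIsometry {ι : Type*} {E F : Type*}
    [NormedAddCommGroup E] [InnerProductSpace ℂ E] [CompleteSpace E]
    [NormedAddCommGroup F] [InnerProductSpace ℂ F] [CompleteSpace F]
    (a : ι → E) (b : ι → F) (h : ∀ i j, ⟪a i, a j⟫_ℂ = ⟪b i, b j⟫_ℂ) :
    ∃ T : E →L[ℂ] F, (∀ i, T (a i) = b i) ∧ (∀ ζ, (∀ i, ⟪a i, ζ⟫_ℂ = 0) → T ζ = 0) := by
  classical
  -- linear maps on the free module
  let f : (ι →₀ ℂ) →ₗ[ℂ] E := Finsupp.linearCombination ℂ a
  let g : (ι →₀ ℂ) →ₗ[ℂ] F := Finsupp.linearCombination ℂ b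
  have hinner : ∀ x y : ι →₀ ℂ, ⟪f x, f y⟫_ℂ = ⟪g x, g y⟫_ℂ := by
    intro x y
    simp only [f, g, Finsupp.linearCombination_apply, Finsupp.sum, sum_inner, inner_sum,
      inner_smul_left, inner_smul_right, h]
  have hnorm : ∀ x, ‖f x‖ = ‖g x‖ := by
    intro x
    rw [@norm_eq_sqrt_re_inner ℂ, @norm_eq_sqrt_re_inner ℂ, hinner]
  have hker : LinearMap.ker f ≤ LinearMap.ker g := by
    intro x hx
    rw [LinearMap.mem_ker] at hx ⊢
    rw [← norm_eq_zero, ← hnorm, hx, norm_zero]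
  -- the map on the range
  let S : Submodule ℂ E := LinearMap.range f
  let t : S →ₗ[ℂ] F := (LinearMap.ker f).liftQ g hker ∘ₗ f.quotKerEquivRange.symm.toLinearMap
  have ht : ∀ x, t ⟨f x, LinearMap.mem_range_self f x⟩ = g x := by
    intro x
    show (LinearMap.ker f).liftQ g hker (f.quotKerEquivRange.symm ⟨f x, _⟩) = g x
    have : f.quotKerEquivRange.symm ⟨f x, LinearMap.mem_range_self f x⟩
        = Submodule.Quotient.mk x := by
      rw [LinearEquiv.symm_apply_eq]
      rfl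
    rw [this]
    rfl
  have htn : ∀ s : S, ‖t s‖ ≤ 1 * ‖s‖ := by
    rintro ⟨_, x, rfl⟩
    have := ht x
    rw [this, one_mul]
    exact (hnorm x).ge
  let tc : S →L[ℂ] F := t.mkContinuous 1 htn
  -- extension to the closure
  let C : Submodule ℂ E := S.topologicalClosure
  have hSC : S ≤ C := S.le_topologicalClosure
  let e : S →L[ℂ] C :=
    { toLinearMap := Submodule.inclusion hSC
      cont := by
        refine continuous_induced_rng.2 ?_
        exact continuous_subtype_val }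
  have he_ind : IsUniformInducing e := by
    have h1 : Isometry (e : S → C) := by
      intro x y
      rfl
    exact h1.isUniformInducing
  have he_dense : DenseRange e := by
    rw [DenseRange, dense_iff_closure_eq, Set.eq_univ_iff_forall]
    rintro ⟨x, hx⟩
    rw [closure_subtype]
    have : (Subtype.val '' Set.range (e : S → C)) = (S : Set E) := by
      ext y
      constructor
      · rintro ⟨_, ⟨s, rfl⟩, rfl⟩
        exact s.2
      · intro hy
        exact ⟨e ⟨y, hy⟩, ⟨⟨y, hy⟩, rfl⟩, rfl⟩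
    rw [this]
    exact hx
  have hCc : CompleteSpace C := Submodule.topologicalClosure.completeSpace S
  let T₀ : C →L[ℂ] F := tc.extend e
  have hT₀ : ∀ s : S, T₀ (e s) = t s := fun s => ContinuousLinearMap.extend_eq tc he_dense he_ind s
  refine ⟨T₀ ∘L C.orthogonalProjectionOnto, ?_, ?_⟩
  · intro i
    have hai : a i = f (Finsupp.single i 1) := by simp [f]
    have hbi : b i = g (Finsupp.single i 1) := by simp [g]
    have hmem : a i ∈ S := by rw [hai]; exact LinearMap.mem_range_self f _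
    have h1 : C.orthogonalProjectionOnto (a i) = e ⟨a i, hmem⟩ := by
      have h2 : a i ∈ C := hSC hmem
      exact Submodule.orthogonalProjectionOnto_mem_subspace_eq_self (K := C) ⟨a i, h2⟩
    rw [ContinuousLinearMap.comp_apply, h1, hT₀, hbi]
    have h3 : (⟨a i, hmem⟩ : S) = ⟨f (Finsupp.single i 1), LinearMap.mem_range_self f _⟩ :=
      Subtype.ext hai
    rw [h3]
    exact ht _
  · intro ζ hζ
    have hort : ζ ∈ Cᗮ := by
      rw [Submodule.orthogonal_closure]
      rw [Submodule.mem_orthogonal]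
      rintro _ ⟨x, rfl⟩
      simp only [f, Finsupp.linearCombination_apply, Finsupp.sum, sum_inner, inner_smul_left, hζ,
        mul_zero, Finset.sum_const_zero]
    have h1 : C.orthogonalProjectionOnto ζ = 0 :=
      by rwa [Submodule.orthogonalProjectionOnto_eq_zero_iff]
    rw [ContinuousLinearMap.comp_apply, h1, map_zero]

end Vale.Agent.P132
end

section

/-!
# P132: the reduced von Neumann algebra on an invariant subspace
-/

open Filter Topology
open scoped InnerProductSpace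

namespace Vale.Agent.P132

universe u v

section Closed

variable {H : Type u} [NormedAddCommGroup H] [InnerProductSpace ℂ H] [CompleteSpace H]

theorem isClosed_centralizer (s : Set (H →L[ℂ] H)) : IsClosed (Set.centralizer s) := by
  have : Set.centralizer s = ⋂ a ∈ s, {x : H →L[ℂ] H | a * x = x * a} := by
    ext x
    simp [Set.mem_centralizer_iff]
  rw [this]
  refine isClosed_biInter fun a _ => ?_
  exact isClosed_eq (continuous_const.mul continuous_id) (continuous_id.mul continuous_const)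

theorem vN_mem_iff (M : VonNeumannAlgebra H) (x : H →L[ℂ] H) :
    x ∈ M ↔ ∀ y ∈ M.commutant, y * x = x * y := by
  constructor
  · intro hx y hy
    rw [VonNeumannAlgebra.mem_commutant_iff] at hy
    exact (hy x hx).symm
  · intro h
    rw [← VonNeumannAlgebra.commutant_commutant M, VonNeumannAlgebra.mem_commutant_iff]
    exact h

end Closed

section Compress

variable {L : Type u} [NormedAddCommGroup L] [InnerProductSpace ℂ L] [CompleteSpace L]
variable {K : Type v} [NormedAddCommGroup K] [InnerProductSpace ℂ K] [CompleteSpace K]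
variable (i : K →ₗᵢ[ℂ] L)

/-- adjoint of an isometric embedding -/
noncomputable def iadj : L →L[ℂ] K := ContinuousLinearMap.adjoint i.toContinuousLinearMap

theorem iadj_inner_right (k : K) (ζ : L) : ⟪k, iadj i ζ⟫_ℂ = ⟪i k, ζ⟫_ℂ :=
  ContinuousLinearMap.adjoint_inner_right i.toContinuousLinearMap k ζ

theorem iadj_apply (k : K) : iadj i (i k) = k := by
  refine ext_inner_left ℂ fun k' => ?_
  rw [iadj_inner_right, i.inner_map_map]

/-- compression of an operator to a closed subspace -/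
noncomputable def compress (x : L →L[ℂ] L) : K →L[ℂ] K :=
  iadj i ∘L x ∘L i.toContinuousLinearMap

theorem compress_apply (x : L →L[ℂ] L) (k : K) : compress i x k = iadj i (x (i k)) := rfl

theorem coe_compress_apply {x : L →L[ℂ] L} (hx : ∀ k : K, ∃ k' : K, x (i k) = i k') (k : K) :
    i (compress i x k) = x (i k) := by
  obtain ⟨k', hk'⟩ := hx k
  rw [compress_apply, hk', iadj_apply]

theorem inner_compress (x : L →L[ℂ] L) (k k' : K) :
    ⟪k, compress i x k'⟫_ℂ = ⟪i k, x (i k')⟫_ℂ := by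
  rw [compress_apply, iadj_inner_right]

theorem star_compress (x : L →L[ℂ] L) : star (compress i x) = compress i (star x) := by
  rw [ContinuousLinearMap.star_eq_adjoint, ContinuousLinearMap.star_eq_adjoint]
  symm
  rw [ContinuousLinearMap.eq_adjoint_iff]
  intro k k'
  rw [inner_compress]
  have h := inner_compress i (ContinuousLinearMap.adjoint x) k' k
  rw [← inner_conj_symm, h, inner_conj_symm, ContinuousLinearMap.adjoint_inner_left]

variable {i}
variable {N : VonNeumannAlgebra L}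

theorem iadj_comm (hK : ∀ x ∈ N, ∀ k : K, ∃ k' : K, x (i k) = i k') {x : L →L[ℂ] L} (hx : x ∈ N)
    (ζ : L) : iadj i (x ζ) = compress i x (iadj i ζ) := by
  refine ext_inner_left ℂ fun k => ?_
  obtain ⟨k', hk'⟩ := hK _ (star_mem hx) k
  rw [iadj_inner_right, inner_compress, ← ContinuousLinearMap.adjoint_inner_left,
    ← ContinuousLinearMap.adjoint_inner_left x, ← ContinuousLinearMap.star_eq_adjoint, hk',
    i.inner_map_map, iadj_inner_right]

theorem compress_mul_right (x y : L →L[ℂ] L) (hy : ∀ k : K, ∃ k' : K, y (i k) = i k') :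
    compress i (x * y) = compress i x * compress i y := by
  ext k
  rw [mul_apply_eq_comp, compress_apply, compress_apply, coe_compress_apply i hy]
  rfl

theorem compress_mul_left (hK : ∀ x ∈ N, ∀ k : K, ∃ k' : K, x (i k) = i k') {x : L →L[ℂ] L}
    (hx : x ∈ N) (y : L →L[ℂ] L) : compress i (x * y) = compress i x * compress i y := by
  ext k
  rw [mul_apply_eq_comp, compress_apply, mul_apply_eq_comp, iadj_comm hK hx]
  rfl

variable (i) in
theorem compress_one : compress i (1 : L →L[ℂ] L) = 1 := by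
  ext k
  exact iadj_apply i k

theorem compress_add (x y : L →L[ℂ] L) : compress i (x + y) = compress i x + compress i y := by
  ext k
  simp [compress]

theorem compress_smul (c : ℂ) (x : L →L[ℂ] L) : compress i (c • x) = c • compress i x := by
  ext k
  simp [compress]

variable (i N) in
/-- the restrictions of the elements of `N` to `K` -/
def redSet : Set (K →L[ℂ] K) := {T | ∃ x ∈ N, T = compress i x}

/-- the restrictions form a unital *-algebra -/
noncomputable def redStar (hK : ∀ x ∈ N, ∀ k : K, ∃ k' : K, x (i k) = i k') :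
    StarSubalgebra ℂ (K →L[ℂ] K) where
  carrier := redSet i N
  mul_mem' := by
    rintro _ _ ⟨x, hx, rfl⟩ ⟨y, hy, rfl⟩
    exact ⟨x * y, mul_mem hx hy, (compress_mul_left hK hx y).symm⟩
  one_mem' := ⟨1, one_mem N, (compress_one i).symm⟩
  add_mem' := by
    rintro _ _ ⟨x, hx, rfl⟩ ⟨y, hy, rfl⟩
    exact ⟨x + y, add_mem hx hy, (compress_add x y).symm⟩
  zero_mem' := ⟨0, zero_mem N, by ext k; simp [compress]⟩
  algebraMap_mem' := by
    intro c
    refine ⟨c • 1, N.toStarSubalgebra.smul_mem (one_mem N) c, ?_⟩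
    rw [compress_smul, compress_one, Algebra.algebraMap_eq_smul_one]
  star_mem' := by
    rintro _ ⟨x, hx, rfl⟩
    exact ⟨star x, star_mem hx, star_compress i x⟩

theorem unitary_mem_redSet (hK : ∀ x ∈ N, ∀ k : K, ∃ k' : K, x (i k) = i k') {u : K →L[ℂ] K}
    (hu : u ∈ Set.centralizer (Set.centralizer (redSet i N))) (huu : star u * u = 1) :
    u ∈ redSet i N := by
  have hiso : ∀ k k' : K, ⟪u k, u k'⟫_ℂ = ⟪k, k'⟫_ℂ := by
    intro k k'
    rw [← ContinuousLinearMap.adjoint_inner_right, ← ContinuousLinearMap.star_eq_adjoint,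
      ← mul_apply_eq_comp, huu]
    rfl
  -- compressions of elements of the commutant
  have hcomm : ∀ y ∈ N.commutant, compress i y ∈ Set.centralizer (redSet i N) := by
    rintro y hy _ ⟨x, hx, rfl⟩
    rw [← compress_mul_left hK hx y, ← compress_mul_right y x (hK x hx)]
    rw [VonNeumannAlgebra.mem_commutant_iff] at hy
    rw [hy x hx]
  let ι := N.commutant × K
  let a : ι → L := fun j => (j.1 : L →L[ℂ] L) (i j.2)
  let b : ι → L := fun j => (j.1 : L →L[ℂ] L) (i (u j.2))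
  have hkey : ∀ (y y' : L →L[ℂ] L) (k k' : K),
      ⟪y (i k), y' (i k')⟫_ℂ = ⟪k, compress i (star y * y') k'⟫_ℂ := by
    intro y y' k k'
    rw [inner_compress, mul_apply_eq_comp, ContinuousLinearMap.star_eq_adjoint,
      ContinuousLinearMap.adjoint_inner_right]
  have hab : ∀ i j, ⟪a i, a j⟫_ℂ = ⟪b i, b j⟫_ℂ := by
    rintro ⟨⟨y, hy⟩, k⟩ ⟨⟨y', hy'⟩, k'⟩
    show ⟪y (i k), y' (i k')⟫_ℂ = ⟪y (i (u k)), y' (i (u k'))⟫_ℂ
    rw [hkey, hkey]
    have h1 : star y * y' ∈ N.commutant := mul_mem (star_mem hy) hy'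
    have h2 := hu _ (hcomm _ h1)
    have h3 : compress i (star y * y') (u k') = u (compress i (star y * y') k') := by
      have := congrArg (fun T : K →L[ℂ] K => T k') h2
      exact this
    rw [h3, hiso]
  obtain ⟨T, hT1, hT2⟩ := exists_partialIsometry a b hab
  -- `T` commutes with the commutant
  have hTN : T ∈ N := by
    rw [vN_mem_iff]
    intro z hz
    -- the closed span of the `a i`
    let S : Submodule ℂ L := (Submodule.span ℂ (Set.range a)).topologicalClosure
    have hS1 : ∀ ζ ∈ S, z (T ζ) = T (z ζ) := by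
      intro ζ hζ
      have hcl : IsClosed {ζ : L | z (T ζ) = T (z ζ)} :=
        isClosed_eq (by fun_prop) (by fun_prop)
      refine closure_minimal (s := (Submodule.span ℂ (Set.range a) : Set L)) ?_ hcl hζ
      intro ζ hζ
      refine Submodule.span_induction (p := fun ζ _ => z (T ζ) = T (z ζ)) ?_ ?_ ?_ ?_ hζ
      · rintro _ ⟨⟨⟨y, hy⟩, k⟩, rfl⟩
        have e1 : T (a (⟨y, hy⟩, k)) = y (i (u k)) := hT1 (⟨y, hy⟩, k)
        have e2 : z (a (⟨y, hy⟩, k)) = a (⟨z * y, mul_mem hz hy⟩, k) := rfl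
        have e3 : T (a (⟨z * y, mul_mem hz hy⟩, k)) = (z * y) (i (u k)) :=
          hT1 (⟨z * y, mul_mem hz hy⟩, k)
        rw [e1, e2, e3]
        rfl
      · simp
      · intro x y _ _ hx hy
        simp only [map_add, hx, hy]
      · intro c x _ hx
        simp only [map_smul, hx]
    have hS2 : ∀ ζ ∈ Sᗮ, z (T ζ) = T (z ζ) := by
      intro ζ hζ
      have h0 : ∀ i, ⟪a i, ζ⟫_ℂ = 0 := by
        intro i
        exact (Submodule.mem_orthogonal _ _).1 hζ _
          (Submodule.le_topologicalClosure _ (Submodule.subset_span ⟨i, rfl⟩))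
      have h1 : ∀ i, ⟪a i, z ζ⟫_ℂ = 0 := by
        rintro ⟨⟨y, hy⟩, k⟩
        rw [← ContinuousLinearMap.adjoint_inner_left, ← ContinuousLinearMap.star_eq_adjoint]
        exact h0 (⟨star z * y, mul_mem (star_mem hz) hy⟩, k)
      rw [hT2 ζ h0, hT2 _ h1, map_zero]
    ext ζ
    obtain ⟨ζ₁, h1, ζ₂, h2, rfl⟩ := S.exists_add_mem_mem_orthogonal ζ
    show z (T (ζ₁ + ζ₂)) = T (z (ζ₁ + ζ₂))
    simp only [map_add, hS1 ζ₁ h1, hS2 ζ₂ h2]
  refine ⟨T, hTN, ?_⟩
  ext k
  apply i.injective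
  rw [coe_compress_apply i (hK T hTN)]
  exact (hT1 (⟨1, one_mem _⟩, k)).symm

theorem redSet_centralizer (hK : ∀ x ∈ N, ∀ k : K, ∃ k' : K, x (i k) = i k') :
    Set.centralizer (Set.centralizer (redSet i N)) = redSet i N := by
  apply Set.Subset.antisymm _ Set.subset_centralizer_centralizer
  intro T hT
  let W : StarSubalgebra ℂ (K →L[ℂ] K) :=
    StarSubalgebra.centralizer ℂ (Set.centralizer (redSet i N))
  have hstar : star (redSet i N) = redSet i N := by
    have := StarMemClass.star_coe_eq (redStar hK)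
    exact this
  have hW : (W : Set (K →L[ℂ] K)) = Set.centralizer (Set.centralizer (redSet i N)) := by
    rw [StarSubalgebra.coe_centralizer]
    congr 1
    apply Set.union_eq_left.2
    intro x hx
    rw [Set.mem_star] at hx
    intro y hy
    have h1 : star y ∈ redSet i N := by
      rw [← Set.mem_star, hstar]
      exact hy
    have h2 := hx _ h1
    have h3 := congrArg star h2
    rw [star_mul, star_mul, star_star, star_star] at h3
    exact h3.symm
  have hWc : IsClosed (W : Set (K →L[ℂ] K)) := by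
    rw [hW]
    exact isClosed_centralizer _
  have hTW : T ∈ W := by
    have : T ∈ (W : Set (K →L[ℂ] K)) := by rw [hW]; exact hT
    exact this
  have : IsClosed (W : Set (K →L[ℂ] K)) := hWc
  obtain ⟨u, c, hc, -⟩ := CStarAlgebra.exists_sum_four_unitary (⟨T, hTW⟩ : W)
  have hu : ∀ j, ((u j : W) : K →L[ℂ] K) ∈ redStar hK := by
    intro j
    refine unitary_mem_redSet hK ?_ ?_
    · rw [← hW]
      exact (u j : W).2
    · have := (u j).2.1
      have h2 := congrArg (Subtype.val : W → (K →L[ℂ] K)) this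
      exact h2
  have hT' : T = ∑ j, c j • ((u j : W) : K →L[ℂ] K) := by
    have := congrArg (Subtype.val : W → (K →L[ℂ] K)) hc
    simpa using this
  rw [hT']
  exact (redStar hK).toSubalgebra.sum_mem fun j _ => (redStar hK).smul_mem (hu j) (c j)

/-- The reduced von Neumann algebra on an invariant subspace. -/
noncomputable def redVN (hK : ∀ x ∈ N, ∀ k : K, ∃ k' : K, x (i k) = i k') :
    VonNeumannAlgebra K where
  toStarSubalgebra := redStar hK
  centralizer_centralizer' := redSet_centralizer hK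

end Compress

end Vale.Agent.P132
end

section

open Filter Topology
open scoped ComplexConjugate InnerProductSpace BoundedContinuousFunction

namespace Vale.Agent.P132

universe u

variable {H : Type u} [NormedAddCommGroup H] [InnerProductSpace ℂ H] [CompleteSpace H]

/-- `J ∘ a ∘ J` as a bounded linear operator. -/
noncomputable def jconj (J : H ≃ₗᵢ⋆[ℂ] H) (a : H →L[ℂ] H) : H →L[ℂ] H :=
  LinearMap.mkContinuous
    { toFun := fun ζ => J (a (J ζ))
      map_add' := fun x y => by simp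
      map_smul' := fun c x => by simp [map_smulₛₗ] }
    ‖a‖ (fun x => by
      simpa using a.le_opNorm (J x))

@[simp] theorem jconj_apply (J : H ≃ₗᵢ⋆[ℂ] H) (a : H →L[ℂ] H) (ζ : H) :
    jconj J a ζ = J (a (J ζ)) := rfl

/-- The bounded continuous function `h ↦ exp (i t h)`. -/
noncomputable def expB (t : ℝ) : ℝ →ᵇ ℂ :=
  BoundedContinuousFunction.ofNormedAddCommGroup
    (fun h : ℝ => Complex.exp (Complex.I * ((t * h : ℝ) : ℂ))) (by fun_prop) 1
    (fun h => by
      rw [mul_comm, Complex.norm_exp_ofReal_mul_I])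

@[simp] theorem expB_apply (t h : ℝ) :
    expB t h = Complex.exp (Complex.I * ((t * h : ℝ) : ℂ)) := rfl

/-- The bounded continuous function `h ↦ conj (F (-h))`. -/
noncomputable def reflB (F : ℝ →ᵇ ℂ) : ℝ →ᵇ ℂ :=
  BoundedContinuousFunction.ofNormedAddCommGroup
    (fun h : ℝ => conj (F (-h))) (by fun_prop) ‖F‖
    (fun h => by
      simpa using F.norm_coe_le_norm (-h))

@[simp] theorem reflB_apply (F : ℝ →ᵇ ℂ) (h : ℝ) : reflB F h = conj (F (-h)) := rfl

/-- Modular data of a von Neumann algebra `M` with a cyclic and separating unit vector `ξ`: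
the antiunitary `J` and the functional calculus `Th F = F (log Δ)`. -/
structure ModData (M : VonNeumannAlgebra H) (ξ : H) where
  norm_xi : ‖ξ‖ = 1
  cyc : Dense {ζ : H | ∃ a ∈ M, a ξ = ζ}
  cyc' : Dense {ζ : H | ∃ a ∈ M.commutant, a ξ = ζ}
  J : H ≃ₗᵢ⋆[ℂ] H
  J_J : ∀ ζ, J (J ζ) = ζ
  J_xi : J ξ = ξ
  Th : (ℝ →ᵇ ℂ) →⋆ₐ[ℂ] (H →L[ℂ] H)
  Th_nondeg : ∀ ζ : H, ∀ ε > 0, ∃ F : ℝ →ᵇ ℂ, HasCompactSupport F ∧ ‖F‖ ≤ 1 ∧
    ‖Th F ζ - ζ‖ < ε
  Th_xi : ∀ F, Th F ξ = F 0 • ξ
  J_Th : ∀ F ζ, J (Th F ζ) = Th (reflB F) (J ζ)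
  kms : ∀ a ∈ M, ∀ F G : ℝ →ᵇ ℂ, (∀ h : ℝ, F h = Real.exp (h / 2) * G h) →
    Th G (J (star a ξ)) = Th F (a ξ)
  J_mem : ∀ a ∈ M, jconj J a ∈ M.commutant
  U_mem : ∀ a ∈ M, ∀ t : ℝ, Th (expB t) * a * Th (expB (-t)) ∈ M

end Vale.Agent.P132
end

section

set_option autoImplicit false

open Filter Topology
open scoped ComplexConjugate InnerProductSpace

namespace Vale.Agent.P132

universe u

variable {H : Type u} [NormedAddCommGroup H] [InnerProductSpace ℂ H] [CompleteSpace H]

theorem g4_cfc_mem (M : VonNeumannAlgebra H) {b : H →L[ℂ] H} (hb : b ∈ M) (f : ℝ → ℝ) :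
    cfc f b ∈ M := by
  rw [← M.commutant_commutant, VonNeumannAlgebra.mem_commutant_iff]
  intro g hg
  rw [VonNeumannAlgebra.mem_commutant_iff] at hg
  have h1 : Commute b g := hg b hb
  exact ((h1.cfc_real f).eq).symm

theorem g4_adj {a : H →L[ℂ] H} (ha : star a = a) (x y : H) : ⟪a x, y⟫_ℂ = ⟪x, a y⟫_ℂ := by
  have h := ContinuousLinearMap.adjoint_inner_left a y x
  rw [← ContinuousLinearMap.star_eq_adjoint, ha] at h
  exact h

theorem g4_sq_bound (x' r : H →L[ℂ] H) (hr : star r = r) (hc : r * x' = x' * r) (ξ : H) :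
    |(⟪ξ, x' (r (r ξ))⟫_ℂ).re| ≤ ‖x'‖ * (⟪ξ, r (r ξ)⟫_ℂ).re := by
  have h1 : x' (r (r ξ)) = r (x' (r ξ)) := by
    have := congrArg (fun T : H →L[ℂ] H => T (r ξ)) hc
    simpa using this.symm
  have h2 : ⟪ξ, x' (r (r ξ))⟫_ℂ = ⟪r ξ, x' (r ξ)⟫_ℂ := by
    rw [h1, g4_adj hr]
  have h3 : ⟪ξ, r (r ξ)⟫_ℂ = ⟪r ξ, r ξ⟫_ℂ := by rw [g4_adj hr]
  have h4 : (⟪r ξ, r ξ⟫_ℂ).re = ‖r ξ‖ ^ 2 := by
    have := inner_self_eq_norm_sq (𝕜 := ℂ) (r ξ)
    simpa using this
  rw [h2, h3, h4]
  calc |(⟪r ξ, x' (r ξ)⟫_ℂ).re| ≤ ‖⟪r ξ, x' (r ξ)⟫_ℂ‖ := Complex.abs_re_le_norm _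
    _ ≤ ‖r ξ‖ * ‖x' (r ξ)‖ := norm_inner_le_norm _ _
    _ ≤ ‖r ξ‖ * (‖x'‖ * ‖r ξ‖) := by
        gcongr
        exact x'.le_opNorm _
    _ = ‖x'‖ * ‖r ξ‖ ^ 2 := by ring

theorem g4_mono {b : H →L[ℂ] H} (hb : star b = b) (ξ : H) (f g : ℝ → ℝ) (hf : Continuous f)
    (hg : Continuous g) (hfg : ∀ t, f t ≤ g t) :
    (⟪ξ, cfc f b ξ⟫_ℂ).re ≤ (⟪ξ, cfc g b ξ⟫_ℂ).re := by
  have hb' : IsSelfAdjoint b := hb
  have h1 : cfc f b ≤ cfc g b := cfc_mono (fun t _ => hfg t) hf.continuousOn hg.continuousOn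
  rw [ContinuousLinearMap.le_def] at h1
  have h2 := h1.re_inner_nonneg_right ξ
  have h3 : (⟪ξ, (cfc g b - cfc f b) ξ⟫_ℂ).re = (⟪ξ, cfc g b ξ⟫_ℂ).re - (⟪ξ, cfc f b ξ⟫_ℂ).re := by
    rw [sub_apply, inner_sub_right, Complex.sub_re]
  have h4 : 0 ≤ (⟪ξ, (cfc g b - cfc f b) ξ⟫_ℂ).re := h2
  linarith

theorem g4_upper (x' b : H →L[ℂ] H) (hb : star b = b) (hc : b * x' = x' * b) (ξ : H) :
    (⟪ξ, x' (b ξ)⟫_ℂ).re ≤ ‖x'‖ * (⟪ξ, cfc (fun t : ℝ => |t|) b ξ⟫_ℂ).re := by
  have hb' : IsSelfAdjoint b := hb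
  set p : H →L[ℂ] H := cfc (fun t : ℝ => √(max t 0)) b with hp
  set m : H →L[ℂ] H := cfc (fun t : ℝ => √(max (-t) 0)) b with hm
  have hpc : p * x' = x' * p := (Commute.cfc_real (show Commute b x' from hc) _).eq
  have hmc : m * x' = x' * m := (Commute.cfc_real (show Commute b x' from hc) _).eq
  have hps : star p = p := (cfc_predicate (R := ℝ) (fun t : ℝ => √(max t 0)) b : IsSelfAdjoint _)
  have hms : star m = m := (cfc_predicate (R := ℝ) (fun t : ℝ => √(max (-t) 0)) b : IsSelfAdjoint _)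
  have hpp : p * p = cfc (fun t : ℝ => max t 0) b := by
    rw [hp, ← cfc_mul (fun t : ℝ => √(max t 0)) (fun t : ℝ => √(max t 0)) b]
    congr 1
    funext t
    exact Real.mul_self_sqrt (le_max_right _ _)
  have hmm : m * m = cfc (fun t : ℝ => max (-t) 0) b := by
    rw [hm, ← cfc_mul (fun t : ℝ => √(max (-t) 0)) (fun t : ℝ => √(max (-t) 0)) b]
    congr 1
    funext t
    exact Real.mul_self_sqrt (le_max_right _ _)
  have hbd : b = p * p - m * m := by
    rw [hpp, hmm, ← cfc_sub (fun t : ℝ => max t 0) (fun t : ℝ => max (-t) 0) b]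
    conv_lhs => rw [← cfc_id ℝ b]
    congr 1
    funext t
    rcases le_total 0 t with h | h
    · simp [h]
    · simp [h]
  have habs : cfc (fun t : ℝ => |t|) b = p * p + m * m := by
    rw [hpp, hmm, ← cfc_add b (fun t : ℝ => max t 0) (fun t : ℝ => max (-t) 0)]
    congr 1
    funext t
    rcases le_total 0 t with h | h
    · simp [h, abs_of_nonneg h]
    · simp [h, abs_of_nonpos h]
  have h1 := g4_sq_bound x' p hps hpc ξ
  have h2 := g4_sq_bound x' m hms hmc ξ
  have h3 : (⟪ξ, x' (b ξ)⟫_ℂ).re = (⟪ξ, x' (p (p ξ))⟫_ℂ).re - (⟪ξ, x' (m (m ξ))⟫_ℂ).re := by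
    conv_lhs => rw [hbd]
    simp [map_sub]
  have h4 : (⟪ξ, cfc (fun t : ℝ => |t|) b ξ⟫_ℂ).re =
      (⟪ξ, p (p ξ)⟫_ℂ).re + (⟪ξ, m (m ξ)⟫_ℂ).re := by
    rw [habs]
    simp
  rw [h3, h4]
  have h5 := (abs_le.1 h1).2
  have h6 := (abs_le.1 h2).1
  nlinarith


theorem g4_key (M : VonNeumannAlgebra H) (ξ : H) (x' : H →L[ℂ] H) (hx' : x' ∈ M.commutant)
    (hx's : star x' = x') (l : ℂ) (hl : 0 < l.re) (b : H →L[ℂ] H) (hb : b ∈ M) (hbs : star b = b)
    (ε : ℝ) (hε : 0 < ε) :
    ∃ x ∈ M, star x = x ∧ ‖x‖ ≤ ‖x'‖ / (2 * l.re) ∧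
      (⟪x' ξ, b ξ⟫_ℂ).re - ε ≤ (⟪(2 * l) • x ξ, b ξ⟫_ℂ).re := by
  have hb' : IsSelfAdjoint b := hbs
  set c : ℝ := ‖x'‖ / (2 * l.re) with hc
  have hc0 : 0 ≤ c := by positivity
  obtain ⟨δ, hδ, hδε⟩ : ∃ δ : ℝ, 0 < δ ∧ ‖x'‖ * δ * ‖ξ‖ ^ 2 ≤ ε := by
    refine ⟨ε / (‖x'‖ * ‖ξ‖ ^ 2 + 1), by positivity, ?_⟩
    have h1 : 0 ≤ ‖x'‖ * ‖ξ‖ ^ 2 := by positivity
    calc ‖x'‖ * (ε / (‖x'‖ * ‖ξ‖ ^ 2 + 1)) * ‖ξ‖ ^ 2
        = ε * ((‖x'‖ * ‖ξ‖ ^ 2) / (‖x'‖ * ‖ξ‖ ^ 2 + 1)) := by ring
      _ ≤ ε * 1 := by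
          gcongr
          rw [div_le_one (by positivity)]
          linarith
      _ = ε := mul_one ε
  have hden : ∀ t : ℝ, |t| + δ ≠ 0 := fun t => by positivity
  have hcont : Continuous (fun t : ℝ => c * t / (|t| + δ)) := by
    apply Continuous.div (by fun_prop) (by fun_prop) hden
  set x : H →L[ℂ] H := cfc (fun t : ℝ => c * t / (|t| + δ)) b with hx
  have hxs : star x = x := (cfc_predicate (R := ℝ) (fun t : ℝ => c * t / (|t| + δ)) b :
    IsSelfAdjoint _)
  refine ⟨x, g4_cfc_mem M hb _, hxs, ?_, ?_⟩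
  · apply norm_cfc_le hc0
    intro t _
    have h1 : 0 < |t| + δ := by positivity
    rw [Real.norm_eq_abs, abs_div, abs_mul, abs_of_nonneg hc0, abs_of_pos h1, div_le_iff₀ h1]
    have := abs_nonneg t
    nlinarith
  · have hbx : b * x = cfc (fun t : ℝ => t * (c * t / (|t| + δ))) b := by
      rw [cfc_mul (fun t : ℝ => t) (fun t : ℝ => c * t / (|t| + δ)) b (by fun_prop)
        hcont.continuousOn, cfc_id' ℝ b]
    have h1 : (⟪ξ, cfc (fun t : ℝ => c * |t| - c * δ) b ξ⟫_ℂ).re ≤ (⟪ξ, b (x ξ)⟫_ℂ).re := by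
      have h2 := g4_mono hbs ξ (fun t : ℝ => c * |t| - c * δ)
        (fun t : ℝ => t * (c * t / (|t| + δ))) (by fun_prop) (by fun_prop) (fun t => ?_)
      · rw [← hbx] at h2
        simpa using h2
      · have h3 : 0 < |t| + δ := by positivity
        rw [← mul_div_assoc, le_div_iff₀ h3]
        have h4 : t * (c * t) = c * |t| ^ 2 := by rw [sq_abs]; ring
        rw [h4]
        have h5 : 0 ≤ c * δ ^ 2 := by positivity
        nlinarith
    have h2 : (⟪ξ, cfc (fun t : ℝ => c * |t| - c * δ) b ξ⟫_ℂ).re =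
        c * (⟪ξ, cfc (fun t : ℝ => |t|) b ξ⟫_ℂ).re - c * δ * ‖ξ‖ ^ 2 := by
      rw [cfc_sub (fun t : ℝ => c * |t|) (fun _ : ℝ => c * δ) b,
        cfc_const_mul c (fun t : ℝ => |t|) b, cfc_const (c * δ) b]
      have h5 : (⟪ξ, ξ⟫_ℂ).re = ‖ξ‖ ^ 2 := by
        have := inner_self_eq_norm_sq (𝕜 := ℂ) ξ
        simpa using this
      have h6 : ((algebraMap ℝ (H →L[ℂ] H)) (c * δ)) ξ = ((c * δ : ℝ) : ℂ) • ξ := by
        rw [Algebra.algebraMap_eq_smul_one]
        exact (Complex.coe_smul (c * δ) ξ).symm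
      rw [sub_apply, h6, inner_sub_right, inner_smul_right, Complex.sub_re, Complex.re_ofReal_mul,
        h5]
      congr 1
      simp [inner_smul_right_eq_smul]
    have hcomm : b * x' = x' * b := (VonNeumannAlgebra.mem_commutant_iff.1 hx') b hb
    have h3 := g4_upper x' b hbs hcomm ξ
    have h4 : ⟪x' ξ, b ξ⟫_ℂ = ⟪ξ, x' (b ξ)⟫_ℂ := g4_adj hx's _ _
    have hxb : x (b ξ) = b (x ξ) := by
      have h5 : Commute b x := (Commute.cfc_real (Commute.refl b) _).symm
      have h6 := congrArg (fun T : H →L[ℂ] H => T ξ) h5.eq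
      simpa using h6.symm
    have h7 : ⟪x ξ, b ξ⟫_ℂ = ⟪ξ, b (x ξ)⟫_ℂ := by rw [g4_adj hxs, hxb]
    have h8 : (⟪ξ, b (x ξ)⟫_ℂ).im = 0 := by
      have h9 : ⟪ξ, b (x ξ)⟫_ℂ = conj ⟪ξ, b (x ξ)⟫_ℂ := by
        calc ⟪ξ, b (x ξ)⟫_ℂ = ⟪b ξ, x ξ⟫_ℂ := (g4_adj hbs _ _).symm
          _ = conj ⟪x ξ, b ξ⟫_ℂ := (inner_conj_symm _ _).symm
          _ = conj ⟪ξ, b (x ξ)⟫_ℂ := by rw [h7]
      exact Complex.conj_eq_iff_im.1 h9.symm
    have h10 : (⟪(2 * l) • x ξ, b ξ⟫_ℂ).re = 2 * l.re * (⟪ξ, b (x ξ)⟫_ℂ).re := by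
      rw [inner_smul_left, h7]
      simp [Complex.mul_re, h8]
    have h11 : 2 * l.re * c = ‖x'‖ := by
      rw [hc]
      field_simp
    rw [h4, h10]
    set Q : ℝ := (⟪ξ, cfc (fun t : ℝ => |t|) b ξ⟫_ℂ).re with hQ
    have h12 : 2 * l.re * (c * Q - c * δ * ‖ξ‖ ^ 2) ≤ 2 * l.re * (⟪ξ, b (x ξ)⟫_ℂ).re := by
      apply mul_le_mul_of_nonneg_left _ (by positivity)
      rw [← h2]
      exact h1
    have h13 : 2 * l.re * (c * Q - c * δ * ‖ξ‖ ^ 2) = ‖x'‖ * Q - ‖x'‖ * δ * ‖ξ‖ ^ 2 := by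
      rw [← h11]; ring
    linarith


theorem g4_closed (M : VonNeumannAlgebra H) (ξ : H)
    (hcyc' : Dense {ζ : H | ∃ a ∈ M.commutant, a ξ = ζ}) (c : ℝ) (k : H) (s : ℕ → H)
    (hs : ∀ n, ∃ x ∈ M, star x = x ∧ ‖x‖ ≤ c ∧ x ξ = s n) (hlim : Tendsto s atTop (𝓝 k)) :
    ∃ x ∈ M, star x = x ∧ ‖x‖ ≤ c ∧ x ξ = k := by
  choose X hXM hXs hXn hXξ using hs
  have hc0 : 0 ≤ c := (norm_nonneg _).trans (hXn 0)
  have hcomm : ∀ y ∈ M.commutant, ∀ n, ∀ z, X n (y z) = y (X n z) := by
    intro y hy n z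
    have h1 := (VonNeumannAlgebra.mem_commutant_iff.1 hy) (X n) (hXM n)
    have h2 := congrArg (fun T : H →L[ℂ] H => T z) h1
    simpa using h2
  have hpt : ∀ z : H, ∃ w : H, Tendsto (fun n => X n z) atTop (𝓝 w) := by
    intro z
    apply cauchySeq_tendsto_of_complete
    rw [Metric.cauchySeq_iff]
    intro ε hε
    have hη : 0 < ε / (4 * (c + 1)) := by positivity
    obtain ⟨z', hz', hzz'⟩ := Metric.mem_closure_iff.1 (hcyc' z) _ hη
    obtain ⟨y, hy, rfl⟩ := hz'
    have h1 : Tendsto (fun n => X n (y ξ)) atTop (𝓝 (y k)) := by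
      have h2 : (fun n => X n (y ξ)) = fun n => y (s n) := by
        funext n
        rw [hcomm y hy n ξ, hXξ n]
      rw [h2]
      exact (y.continuous.tendsto k).comp hlim
    obtain ⟨N, hN⟩ := Metric.cauchySeq_iff.1 h1.cauchySeq (ε / 4) (by positivity)
    refine ⟨N, fun m hm n hn => ?_⟩
    have h3 := hN m hm n hn
    rw [dist_eq_norm] at h3 hzz' ⊢
    have h4 : ∀ j, ‖X j (z - y ξ)‖ ≤ c * (ε / (4 * (c + 1))) := by
      intro j
      calc ‖X j (z - y ξ)‖ ≤ ‖X j‖ * ‖z - y ξ‖ := (X j).le_opNorm _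
        _ ≤ c * (ε / (4 * (c + 1))) := by
            gcongr
            exact hXn j
    have h5 : c * (ε / (4 * (c + 1))) ≤ ε / 4 := by
      have : c * (ε / (4 * (c + 1))) = (ε / 4) * (c / (c + 1)) := by
        field_simp
      rw [this]
      have h6 : c / (c + 1) ≤ 1 := by
        rw [div_le_one (by positivity)]
        linarith
      nlinarith
    have h7 : X m z - X n z = X m (z - y ξ) + (X m (y ξ) - X n (y ξ)) - X n (z - y ξ) := by
      simp only [map_sub]
      abel
    rw [h7]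
    calc ‖X m (z - y ξ) + (X m (y ξ) - X n (y ξ)) - X n (z - y ξ)‖
        ≤ ‖X m (z - y ξ)‖ + ‖X m (y ξ) - X n (y ξ)‖ + ‖X n (z - y ξ)‖ :=
          (norm_sub_le _ _).trans (by gcongr; exact norm_add_le _ _)
      _ < ε := by
          have := h4 m
          have := h4 n
          linarith
  choose f hf using hpt
  have hT : Tendsto (fun n x => X n x) atTop (𝓝 f) := tendsto_pi_nhds.2 hf
  set x : H →L[ℂ] H := continuousLinearMapOfTendsto X hT with hx
  have hxz : ∀ z, Tendsto (fun n => X n z) atTop (𝓝 (x z)) := fun z => hf z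
  refine ⟨x, ?_, ?_, ?_, ?_⟩
  · rw [← M.commutant_commutant, VonNeumannAlgebra.mem_commutant_iff]
    intro y hy
    ext z
    have h1 : Tendsto (fun n => y (X n z)) atTop (𝓝 (y (x z))) :=
      (y.continuous.tendsto _).comp (hxz z)
    have h2 : Tendsto (fun n => y (X n z)) atTop (𝓝 (x (y z))) := by
      have h3 : (fun n => y (X n z)) = fun n => X n (y z) := by
        funext n
        exact (hcomm y hy n z).symm
      rw [h3]
      exact hxz (y z)
    exact tendsto_nhds_unique h1 h2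
  · rw [ContinuousLinearMap.star_eq_adjoint]
    symm
    rw [ContinuousLinearMap.eq_adjoint_iff]
    intro u v
    have h1 : Tendsto (fun n => ⟪X n u, v⟫_ℂ) atTop (𝓝 ⟪x u, v⟫_ℂ) :=
      (hxz u).inner tendsto_const_nhds
    have h2 : Tendsto (fun n => ⟪X n u, v⟫_ℂ) atTop (𝓝 ⟪u, x v⟫_ℂ) := by
      have h3 : (fun n => ⟪X n u, v⟫_ℂ) = fun n => ⟪u, X n v⟫_ℂ := by
        funext n
        exact g4_adj (hXs n) u v
      rw [h3]
      exact tendsto_const_nhds.inner (hxz v)
    exact tendsto_nhds_unique h1 h2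
  · apply ContinuousLinearMap.opNorm_le_bound _ hc0
    intro z
    have h1 : Tendsto (fun n => ‖X n z‖) atTop (𝓝 ‖x z‖) := (hxz z).norm
    apply le_of_tendsto h1
    filter_upwards with n
    calc ‖X n z‖ ≤ ‖X n‖ * ‖z‖ := (X n).le_opNorm z
      _ ≤ c * ‖z‖ := by
          gcongr
          exact hXn n
  · have h1 : (fun n => X n ξ) = s := by
      funext n
      exact hXξ n
    have h2 := hxz ξ
    rw [h1] at h2
    exact tendsto_nhds_unique h2 hlim


theorem g4_smul_mem (M : VonNeumannAlgebra H) {a : H →L[ℂ] H} (ha : a ∈ M) (c : ℂ) :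
    c • a ∈ M :=
  (M.toStarSubalgebra.toSubalgebra.smul_mem ha c : _)

/-- the real subspace of vectors `a ξ` with `a ∈ M` selfadjoint -/
def g4_sub (M : VonNeumannAlgebra H) (ξ : H) : Submodule ℝ H where
  carrier := {ζ : H | ∃ a ∈ M, star a = a ∧ a ξ = ζ}
  add_mem' := by
    rintro _ _ ⟨a, ha, has, rfl⟩ ⟨b, hb, hbs, rfl⟩
    exact ⟨a + b, add_mem ha hb, by rw [star_add, has, hbs], by simp⟩
  zero_mem' := ⟨0, zero_mem _, by simp, by simp⟩
  smul_mem' := by
    rintro r _ ⟨a, ha, has, rfl⟩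
    refine ⟨(r : ℂ) • a, ?_, ?_, ?_⟩
    · exact (M.toStarSubalgebra.toSubalgebra.smul_mem ha (r : ℂ) : _)
    · rw [star_smul, has]
      simp
    · simp

theorem g4_real (M : VonNeumannAlgebra H) (ξ : H)
    (hcyc' : Dense {ζ : H | ∃ a ∈ M.commutant, a ξ = ζ})
    (x' : H →L[ℂ] H) (hx' : x' ∈ M.commutant) (hx's : star x' = x') (l : ℂ) (hl : 0 < l.re) :
    ∃ x ∈ M, star x = x ∧ ∀ b ∈ M, star b = b →
      (⟪x' ξ, b ξ⟫_ℂ).re = (⟪(2 * l) • x ξ, b ξ⟫_ℂ).re := by
  letI : InnerProductSpace ℝ H := InnerProductSpace.complexToReal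
  set c : ℝ := ‖x'‖ / (2 * l.re) with hc
  have hc0 : 0 ≤ c := by positivity
  set S : Submodule ℝ H := g4_sub M ξ with hS
  set K : Submodule ℝ H := S.topologicalClosure with hK
  have hKc : IsClosed (K : Set H) := S.isClosed_topologicalClosure
  haveI : CompleteSpace K := hKc.completeSpace_coe
  have hSK : ∀ ζ ∈ S, ζ ∈ K := fun ζ h => S.le_topologicalClosure h
  have hsm : ∀ (r : ℝ) (u : K), ((r • u : K) : H) = (r : ℂ) • (u : H) := fun r u => by
    rw [Submodule.coe_smul, Complex.coe_smul]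
  -- the bilinear form
  let B₀ : K →ₗ[ℝ] K →ₗ[ℝ] ℝ := LinearMap.mk₂ ℝ
    (fun u v : K => (⟪(2 * l) • (u : H), (v : H)⟫_ℂ).re)
    (fun u u' v => by
      show (⟪(2 * l) • ((u : H) + (u' : H)), (v : H)⟫_ℂ).re = _
      rw [smul_add, inner_add_left, Complex.add_re])
    (fun r u v => by
      show (⟪(2 * l) • ((r • u : K) : H), (v : H)⟫_ℂ).re =
        r * (⟪(2 * l) • (u : H), (v : H)⟫_ℂ).re
      rw [hsm, smul_comm, inner_smul_left, Complex.conj_ofReal, Complex.re_ofReal_mul])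
    (fun u v v' => by
      show (⟪(2 * l) • (u : H), (v : H) + (v' : H)⟫_ℂ).re = _
      rw [inner_add_right, Complex.add_re])
    (fun r u v => by
      show (⟪(2 * l) • (u : H), ((r • v : K) : H)⟫_ℂ).re =
        r * (⟪(2 * l) • (u : H), (v : H)⟫_ℂ).re
      rw [hsm, inner_smul_right, Complex.re_ofReal_mul])
  let B : K →L[ℝ] K →L[ℝ] ℝ := B₀.mkContinuous₂ (‖2 * l‖) (fun u v => by
    calc ‖B₀ u v‖ ≤ ‖⟪(2 * l) • (u : H), (v : H)⟫_ℂ‖ := Complex.abs_re_le_norm _
      _ ≤ ‖(2 * l) • (u : H)‖ * ‖(v : H)‖ := norm_inner_le_norm _ _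
      _ = ‖2 * l‖ * ‖u‖ * ‖v‖ := by rw [norm_smul]; rfl)
  have hB : ∀ u v : K, B u v = (⟪(2 * l) • (u : H), (v : H)⟫_ℂ).re := fun u v => rfl
  have hcoer : IsCoercive B := by
    refine ⟨2 * l.re, by positivity, fun u => ?_⟩
    have h5 : ⟪(u : H), (u : H)⟫_ℂ = ((‖(u : H)‖ ^ 2 : ℝ) : ℂ) := by
      have := inner_self_eq_norm_sq_to_K (𝕜 := ℂ) (u : H)
      rw [this]
      simp
    have h6 : ‖u‖ = ‖(u : H)‖ := rfl
    rw [hB, inner_smul_left, h5, h6, Complex.re_mul_ofReal]
    apply le_of_eq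
    simp
    ring
  set e : K ≃L[ℝ] K := hcoer.continuousLinearEquivOfBilin with he
  have heB : ∀ u v : K, inner ℝ (e u) v = B u v := fun u v =>
    hcoer.continuousLinearEquivOfBilin_apply u v
  -- the target
  let f₀ : K →L[ℝ] ℝ := LinearMap.mkContinuous
    { toFun := fun v : K => (⟪x' ξ, (v : H)⟫_ℂ).re
      map_add' := fun v v' => by
        show (⟪x' ξ, (v : H) + (v' : H)⟫_ℂ).re = _
        rw [inner_add_right, Complex.add_re]
      map_smul' := fun r v => by
        show (⟪x' ξ, ((r • v : K) : H)⟫_ℂ).re = r * (⟪x' ξ, (v : H)⟫_ℂ).re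
        rw [hsm, inner_smul_right, Complex.re_ofReal_mul] } (‖x' ξ‖)
    (fun v => (Complex.abs_re_le_norm _).trans (norm_inner_le_norm _ _))
  have hf₀ : ∀ v : K, f₀ v = (⟪x' ξ, (v : H)⟫_ℂ).re := fun v => rfl
  set t : K := (InnerProductSpace.toDual ℝ K).symm f₀ with ht
  have htv : ∀ v : K, inner ℝ t v = (⟪x' ξ, (v : H)⟫_ℂ).re := fun v => by
    rw [ht, InnerProductSpace.toDual_symm_apply, hf₀]
  -- the convex set
  let D : Set K := {k : K | ∃ x ∈ M, star x = x ∧ ‖x‖ ≤ c ∧ x ξ = (k : H)}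
  have hDconv : Convex ℝ D := by
    rintro k ⟨x, hx, hxs, hxn, hxk⟩ k' ⟨y, hy, hys, hyn, hyk⟩ a b ha hb hab
    refine ⟨(a : ℂ) • x + (b : ℂ) • y, ?_, ?_, ?_, ?_⟩
    · exact add_mem (M.toStarSubalgebra.toSubalgebra.smul_mem hx (a : ℂ) : _)
        (M.toStarSubalgebra.toSubalgebra.smul_mem hy (b : ℂ) : _)
    · rw [star_add, star_smul, star_smul, hxs, hys]
      simp
    · calc ‖(a : ℂ) • x + (b : ℂ) • y‖ ≤ ‖(a : ℂ) • x‖ + ‖(b : ℂ) • y‖ := norm_add_le _ _
        _ = a * ‖x‖ + b * ‖y‖ := by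
            rw [norm_smul, norm_smul, Complex.norm_real, Complex.norm_real,
              Real.norm_of_nonneg ha, Real.norm_of_nonneg hb]
        _ ≤ a * c + b * c := by gcongr
        _ = c := by rw [← add_mul, hab, one_mul]
    · show ((a : ℂ) • x + (b : ℂ) • y) ξ = ((a • k + b • k' : K) : H)
      rw [Submodule.coe_add, hsm, hsm, ← hxk, ← hyk]
      rfl
  have hDcl : IsClosed D := by
    apply IsSeqClosed.isClosed
    intro s k hs hlim
    have h1 : Tendsto (fun n => ((s n : K) : H)) atTop (𝓝 (k : H)) :=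
      (continuous_subtype_val.tendsto k).comp hlim
    obtain ⟨x, hx, hxs, hxn, hxk⟩ := g4_closed M ξ hcyc' c (k : H) (fun n => ((s n : K) : H))
      (fun n => hs n) h1
    exact ⟨x, hx, hxs, hxn, hxk⟩
  have hmain : t ∈ e '' D := by
    by_contra hcon
    have hEconv : Convex ℝ (e '' D) := hDconv.linear_image (e : K →ₗ[ℝ] K)
    have hEcl : IsClosed (e '' D) := e.toHomeomorph.isClosed_image.2 hDcl
    obtain ⟨f, u, hfu, hut⟩ := geometric_hahn_banach_closed_point hEconv hEcl hcon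
    set v : K := (InnerProductSpace.toDual ℝ K).symm f with hv
    have hfv : ∀ w : K, f w = inner ℝ v w := fun w => by
      rw [hv, InnerProductSpace.toDual_symm_apply]
    have h1 : ∀ k ∈ D, B k v < u := by
      intro k hk
      have h2 := hfu (e k) ⟨k, hk, rfl⟩
      rw [hfv, real_inner_comm, heB] at h2
      exact h2
    have h3 : u < (⟪x' ξ, (v : H)⟫_ℂ).re := by
      rw [hfv, real_inner_comm, htv] at hut
      exact hut
    set g : ℝ := (⟪x' ξ, (v : H)⟫_ℂ).re - u with hg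
    have hg0 : 0 < g := by rw [hg]; linarith
    obtain ⟨η, hη, hη2⟩ : ∃ η : ℝ, 0 < η ∧ (‖x' ξ‖ + ‖2 * l‖ * (c * ‖ξ‖)) * η < g / 2 := by
      have h5 : 0 ≤ ‖x' ξ‖ + ‖2 * l‖ * (c * ‖ξ‖) := by positivity
      refine ⟨g / 2 / (‖x' ξ‖ + ‖2 * l‖ * (c * ‖ξ‖) + 1), by positivity, ?_⟩
      rw [mul_div_assoc', div_lt_iff₀ (by positivity)]
      nlinarith
    obtain ⟨w, hw, hvw⟩ := Metric.mem_closure_iff.1 (show (v : H) ∈ closure (S : Set H) from v.2)
      η hη
    obtain ⟨b, hb, hbs, rfl⟩ := hw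
    obtain ⟨x, hx, hxs, hxn, hxb⟩ := g4_key M ξ x' hx' hx's l hl b hb hbs (g / 2) (by positivity)
    have hxK : x ξ ∈ K := hSK _ ⟨x, hx, hxs, rfl⟩
    have h6 := h1 ⟨x ξ, hxK⟩ ⟨x, hx, hxs, hxn, rfl⟩
    rw [hB] at h6
    have h7 : (⟪(2 * l) • x ξ, (v : H)⟫_ℂ).re =
        (⟪(2 * l) • x ξ, b ξ⟫_ℂ).re + (⟪(2 * l) • x ξ, (v : H) - b ξ⟫_ℂ).re := by
      rw [inner_sub_right, Complex.sub_re]
      ring
    have h8 : (⟪x' ξ, (v : H)⟫_ℂ).re =
        (⟪x' ξ, b ξ⟫_ℂ).re + (⟪x' ξ, (v : H) - b ξ⟫_ℂ).re := by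
      rw [inner_sub_right, Complex.sub_re]
      ring
    have h9 : ‖(v : H) - b ξ‖ < η := by rwa [dist_eq_norm] at hvw
    have h10 : |(⟪(2 * l) • x ξ, (v : H) - b ξ⟫_ℂ).re| ≤ ‖2 * l‖ * (c * ‖ξ‖) * η := by
      calc |(⟪(2 * l) • x ξ, (v : H) - b ξ⟫_ℂ).re|
          ≤ ‖⟪(2 * l) • x ξ, (v : H) - b ξ⟫_ℂ‖ := Complex.abs_re_le_norm _
        _ ≤ ‖(2 * l) • x ξ‖ * ‖(v : H) - b ξ‖ := norm_inner_le_norm _ _
        _ ≤ (‖2 * l‖ * (c * ‖ξ‖)) * η := by
            rw [norm_smul]
            gcongr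
            exact (x.le_opNorm ξ).trans (by gcongr)
    have h11 : |(⟪x' ξ, (v : H) - b ξ⟫_ℂ).re| ≤ ‖x' ξ‖ * η := by
      calc |(⟪x' ξ, (v : H) - b ξ⟫_ℂ).re|
          ≤ ‖⟪x' ξ, (v : H) - b ξ⟫_ℂ‖ := Complex.abs_re_le_norm _
        _ ≤ ‖x' ξ‖ * ‖(v : H) - b ξ‖ := norm_inner_le_norm _ _
        _ ≤ ‖x' ξ‖ * η := by gcongr
    have h12 := (abs_le.1 h10).1
    have h13 := (abs_le.1 h11).2
    have h14 : (‖x' ξ‖ + ‖2 * l‖ * (c * ‖ξ‖)) * η =
      ‖x' ξ‖ * η + ‖2 * l‖ * (c * ‖ξ‖) * η := by ring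
    have h15 : (⟪(2 * l) • x ξ, (v : H)⟫_ℂ).re < u := h6
    linarith
  obtain ⟨k, ⟨x, hx, hxs, hxn, hxk⟩, hk⟩ := hmain
  refine ⟨x, hx, hxs, fun b hb hbs => ?_⟩
  have hbK : b ξ ∈ K := hSK _ ⟨b, hb, hbs, rfl⟩
  have h1 := htv ⟨b ξ, hbK⟩
  rw [← hk, heB, hB] at h1
  rw [hxk]
  exact h1.symm

/-- G4: the linear Radon-Nikodym theorem -/
theorem RN (M : VonNeumannAlgebra H) (ξ : H)
    (hcyc' : Dense {ζ : H | ∃ a ∈ M.commutant, a ξ = ζ})
    (x' : H →L[ℂ] H) (hx' : x' ∈ M.commutant) (hx's : star x' = x') (l : ℂ) (hl : 0 < l.re) :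
    ∃ x ∈ M, star x = x ∧ ∀ b ∈ M,
      ⟪ξ, x' (b ξ)⟫_ℂ = l * ⟪ξ, b (x ξ)⟫_ℂ + conj l * ⟪ξ, x (b ξ)⟫_ℂ := by
  obtain ⟨x, hx, hxs, hxb⟩ := g4_real M ξ hcyc' x' hx' hx's l hl
  refine ⟨x, hx, hxs, ?_⟩
  have hsa : ∀ b ∈ M, star b = b →
      ⟪ξ, x' (b ξ)⟫_ℂ = l * ⟪ξ, b (x ξ)⟫_ℂ + conj l * ⟪ξ, x (b ξ)⟫_ℂ := by
    intro b hb hbs
    have h1 := hxb b hb hbs
    have hcomm : b (x' ξ) = x' (b ξ) := by
      have h2 := (VonNeumannAlgebra.mem_commutant_iff.1 hx') b hb
      have h3 := congrArg (fun T : H →L[ℂ] H => T ξ) h2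
      simpa using h3
    have h2 : ⟪x' ξ, b ξ⟫_ℂ = ⟪ξ, x' (b ξ)⟫_ℂ := g4_adj hx's _ _
    have h3 : (⟪ξ, x' (b ξ)⟫_ℂ).im = 0 := by
      have h9 : conj ⟪ξ, x' (b ξ)⟫_ℂ = ⟪ξ, x' (b ξ)⟫_ℂ := by
        calc conj ⟪ξ, x' (b ξ)⟫_ℂ = conj ⟪x' ξ, b ξ⟫_ℂ := by rw [h2]
          _ = ⟪b ξ, x' ξ⟫_ℂ := inner_conj_symm _ _
          _ = ⟪ξ, b (x' ξ)⟫_ℂ := g4_adj hbs _ _
          _ = ⟪ξ, x' (b ξ)⟫_ℂ := by rw [hcomm]
      exact Complex.conj_eq_iff_im.1 h9
    have h4 : ⟪ξ, x (b ξ)⟫_ℂ = ⟪x ξ, b ξ⟫_ℂ := (g4_adj hxs _ _).symm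
    have h5 : ⟪ξ, b (x ξ)⟫_ℂ = conj ⟪x ξ, b ξ⟫_ℂ := by
      rw [inner_conj_symm]
      exact (g4_adj hbs _ _).symm
    rw [h4, h5]
    rw [h2, inner_smul_left] at h1
    generalize ⟪x ξ, b ξ⟫_ℂ = w at h1
    apply Complex.ext
    · rw [h1]
      simp [Complex.mul_re]
      ring
    · rw [h3]
      simp [Complex.mul_im]
      ring
  intro b hb
  have hsb : star b ∈ M := star_mem hb
  have hb1 : (1 / 2 : ℂ) • (b + star b) ∈ M := g4_smul_mem M (add_mem hb hsb) _
  have hb2 : (-(Complex.I / 2) : ℂ) • (b - star b) ∈ M := g4_smul_mem M (sub_mem hb hsb) _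
  have hs1 : star ((1 / 2 : ℂ) • (b + star b)) = (1 / 2 : ℂ) • (b + star b) := by
    rw [star_smul, star_add, star_star, add_comm]
    congr 1
    simp
  have hs2 : star ((-(Complex.I / 2) : ℂ) • (b - star b)) =
      (-(Complex.I / 2) : ℂ) • (b - star b) := by
    rw [star_smul, star_sub, star_star, ← neg_sub b (star b), smul_neg, ← neg_smul]
    congr 1
    simp [neg_div]
  have e1 := hsa _ hb1 hs1
  have e2 := hsa _ hb2 hs2
  set b1 : H →L[ℂ] H := (1 / 2 : ℂ) • (b + star b) with hb1d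
  set b2 : H →L[ℂ] H := (-(Complex.I / 2) : ℂ) • (b - star b) with hb2d
  have hbd : b = b1 + Complex.I • b2 := by
    rw [hb1d, hb2d, smul_smul]
    have h1 : Complex.I * -(Complex.I / 2) = 1 / 2 := by
      have := Complex.I_mul_I
      linear_combination (-(1 / 2 : ℂ)) * this
    rw [h1, ← smul_add]
    have h2 : b + star b + (b - star b) = (2 : ℂ) • b := by
      rw [two_smul]; abel
    rw [h2, smul_smul]
    norm_num
  have h1 : ∀ z : H, b z = b1 z + Complex.I • b2 z := by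
    intro z
    conv_lhs => rw [hbd]
    rfl
  rw [h1 ξ, h1 (x ξ)]
  simp only [map_add, map_smul, inner_add_right, inner_smul_right]
  rw [e1, e2]
  ring

end Vale.Agent.P132
end

section

/-!
# P132, Part II (C): the functional calculus `Th F = F(h)`, `h = log ((2 - R)/R)`

`R` is a selfadjoint bounded operator with `0 ≤ R ≤ 2` such that `R` and `2 - R` are injective.
For a bounded continuous function `F : ℝ → ℂ` we define the bounded operator `Th F`.
-/

open scoped ComplexConjugate Topology BoundedContinuousFunction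
open Set Filter Complex ContinuousLinearMap

noncomputable section

namespace Vale.Agent.P132.G6

variable {H : Type*} [NormedAddCommGroup H] [InnerProductSpace ℂ H] [CompleteSpace H]

/-! ### Complex functions of a selfadjoint operator -/

/-- `Ph R f = f(R)` for a selfadjoint operator `R` and a function `f : ℝ → ℂ`. -/
def Ph (R : H →L[ℂ] H) (f : ℝ → ℂ) : H →L[ℂ] H :=
  cfc (fun r => (f r).re) R + Complex.I • cfc (fun r => (f r).im) R

omit [CompleteSpace H] in
lemma real_smul_op (r : ℝ) (X : H →L[ℂ] H) : r • X = (r : ℂ) • X := rfl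

section Ph

variable {R : H →L[ℂ] H} {f g : ℝ → ℂ}

lemma Ph_congr (h : EqOn f g (spectrum ℝ R)) : Ph R f = Ph R g := by
  unfold Ph
  congr 1
  · exact cfc_congr fun r hr => by simp [h hr]
  · congr 1
    exact cfc_congr fun r hr => by simp [h hr]

lemma Ph_ofReal (f : ℝ → ℝ) : Ph R (fun r => (f r : ℂ)) = cfc f R := by
  simp [Ph, cfc_const_zero]

omit [CompleteSpace H] in
lemma contRe (hf : ContinuousOn f (spectrum ℝ R)) :
    ContinuousOn (fun r => (f r).re) (spectrum ℝ R) := continuous_re.comp_continuousOn hf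

omit [CompleteSpace H] in
lemma contIm (hf : ContinuousOn f (spectrum ℝ R)) :
    ContinuousOn (fun r => (f r).im) (spectrum ℝ R) := continuous_im.comp_continuousOn hf

lemma Ph_add (hf : ContinuousOn f (spectrum ℝ R)) (hg : ContinuousOn g (spectrum ℝ R)) :
    Ph R (fun r => f r + g r) = Ph R f + Ph R g := by
  unfold Ph
  simp only [add_re, add_im]
  rw [cfc_add _ _ _ (contRe hf) (contRe hg), cfc_add _ _ _ (contIm hf) (contIm hg)]
  rw [smul_add]; abel

lemma Ph_smul (c : ℂ) (hf : ContinuousOn f (spectrum ℝ R)) :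
    Ph R (fun r => c * f r) = c • Ph R f := by
  unfold Ph
  simp only [mul_re, mul_im]
  rw [cfc_sub _ _ _ ((contRe hf).const_mul _) ((contIm hf).const_mul _),
    cfc_add _ _ _ ((contIm hf).const_mul _) ((contRe hf).const_mul _),
    cfc_const_mul _ _ _ (contRe hf), cfc_const_mul _ _ _ (contIm hf),
    cfc_const_mul _ _ _ (contRe hf), cfc_const_mul _ _ _ (contIm hf)]
  set A := cfc (fun r => (f r).re) R
  set B := cfc (fun r => (f r).im) R
  simp only [real_smul_op]
  match_scalars <;> apply Complex.ext <;> simp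

lemma Ph_mul (hf : ContinuousOn f (spectrum ℝ R)) (hg : ContinuousOn g (spectrum ℝ R)) :
    Ph R (fun r => f r * g r) = Ph R f * Ph R g := by
  unfold Ph
  simp only [mul_re, mul_im]
  rw [cfc_sub (fun r => (f r).re * (g r).re) (fun r => (f r).im * (g r).im) R
      ((contRe hf).mul (contRe hg)) ((contIm hf).mul (contIm hg)),
    cfc_add (a := R) (fun r => (f r).re * (g r).im) (fun r => (f r).im * (g r).re)
      ((contRe hf).mul (contIm hg)) ((contIm hf).mul (contRe hg)),
    cfc_mul _ _ _ (contRe hf) (contRe hg), cfc_mul _ _ _ (contIm hf) (contIm hg),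
    cfc_mul _ _ _ (contRe hf) (contIm hg), cfc_mul _ _ _ (contIm hf) (contRe hg)]
  simp only [mul_add, add_mul, smul_mul_assoc, mul_smul_comm, smul_smul, Complex.I_mul_I,
    smul_add, neg_smul, one_smul]
  abel

lemma Ph_star (f : ℝ → ℂ) : Ph R (fun r => conj (f r)) = star (Ph R f) := by
  unfold Ph
  rw [star_add, star_smul, ← cfc_star, ← cfc_star]
  simp only [conj_re, conj_im, star_trivial, Complex.star_def, conj_I, neg_smul]
  rw [cfc_neg, smul_neg]

lemma Ph_one (hR : IsSelfAdjoint R) : Ph R (fun _ => 1) = 1 := by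
  simp [Ph, cfc_const_zero, cfc_const_one, hR]

/-- The norm of `f(R) z` is monotone in `|f|`. -/
lemma norm_Ph_le (hf : ContinuousOn f (spectrum ℝ R)) (hg : ContinuousOn g (spectrum ℝ R))
    (hfg : ∀ r ∈ spectrum ℝ R, ‖f r‖ ≤ ‖g r‖) (z : H) : ‖Ph R f z‖ ≤ ‖Ph R g z‖ := by
  have key : ∀ f : ℝ → ℂ, ContinuousOn f (spectrum ℝ R) →
      ‖Ph R f z‖ ^ 2 = RCLike.re (inner ℂ (cfc (fun r => ‖f r‖ ^ 2) R z) z) := by
    intro f hf
    have h1 : star (Ph R f) * Ph R f = cfc (fun r => ‖f r‖ ^ 2) R := by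
      rw [← Ph_star, ← Ph_mul (f := fun r => conj (f r)) (continuous_conj.comp_continuousOn hf) hf,
        ← Ph_ofReal]
      apply Ph_congr
      intro r _
      simp [Complex.conj_mul']
    rw [← h1, mul_apply_eq_comp, star_eq_adjoint, adjoint_inner_left]
    exact (inner_self_eq_norm_sq (𝕜 := ℂ) _).symm
  have hle : cfc (fun r => ‖f r‖ ^ 2) R ≤ cfc (fun r => ‖g r‖ ^ 2) R := by
    apply cfc_mono
    · intro r hr
      exact pow_le_pow_left₀ (norm_nonneg _) (hfg r hr) 2
    · exact hf.norm.pow 2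
    · exact hg.norm.pow 2
  have h2 : ‖Ph R f z‖ ^ 2 ≤ ‖Ph R g z‖ ^ 2 := by
    rw [key f hf, key g hg]
    have h3 := (ContinuousLinearMap.le_def _ _).1 hle
    have h4 := h3.2 z
    rw [ContinuousLinearMap.reApplyInnerSelf_apply, sub_apply, inner_sub_left, map_sub] at h4
    linarith
  exact (abs_le_of_sq_le_sq' h2 (norm_nonneg _)).2

end Ph

/-! ### The operator `Th F` -/

/-- Hypotheses on `R`. -/
structure RData (R : H →L[ℂ] H) : Prop where
  sa : IsSelfAdjoint R
  spec : spectrum ℝ R ⊆ Icc 0 2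
  inj0 : ∀ z, R z = 0 → z = 0
  inj2 : ∀ z, R z = (2 : ℂ) • z → z = 0

/-- The weight `r (2 - r)`. -/
def ww (r : ℝ) : ℝ := r * (2 - r)

/-- The change of variable `h = log ((2 - r)/r)`. -/
def hh (r : ℝ) : ℝ := Real.log ((2 - r) / r)

/-- `r (2 - r) F(h(r))` -/
def GG (F : ℝ → ℂ) (r : ℝ) : ℂ := (ww r : ℂ) * F (hh r)

lemma ww_nonneg {r : ℝ} (hr : r ∈ Icc (0 : ℝ) 2) : 0 ≤ ww r :=
  mul_nonneg hr.1 (by linarith [hr.2])

lemma continuous_ww : Continuous ww := by unfold ww; fun_prop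

lemma continuousOn_hh : ContinuousOn hh (Ioo 0 2) := by
  unfold hh
  apply ContinuousOn.log
  · exact (continuousOn_const.sub continuousOn_id).div continuousOn_id fun r hr => hr.1.ne'
  · intro r hr
    exact (div_pos (by linarith [hr.2]) hr.1).ne'

lemma continuousOn_GG {F : ℝ → ℂ} (hF : Continuous F) {C : ℝ} (hC : ∀ x, ‖F x‖ ≤ C) :
    ContinuousOn (GG F) (Icc 0 2) := by
  intro r hr
  by_cases h0 : ww r = 0
  · have hG0 : GG F r = 0 := by simp [GG, h0]
    rw [ContinuousWithinAt, hG0]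
    apply squeeze_zero_norm (a := fun s => |ww s| * C)
    · intro s
      rw [GG, norm_mul, Complex.norm_real, Real.norm_eq_abs]
      exact mul_le_mul_of_nonneg_left (hC _) (abs_nonneg _)
    · have h1 : Tendsto (fun s => |ww s| * C) (𝓝[Icc 0 2] r) (𝓝 (|ww r| * C)) :=
        (continuous_ww.abs.mul continuous_const).continuousAt.mono_left nhdsWithin_le_nhds
      rwa [h0, abs_zero, zero_mul] at h1
  · have hr' : r ∈ Ioo (0 : ℝ) 2 := by
      refine ⟨lt_of_le_of_ne hr.1 ?_, lt_of_le_of_ne hr.2 ?_⟩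
      · rintro rfl; simp [ww] at h0
      · rintro rfl; simp [ww] at h0
    have h1 : ContinuousAt hh r := continuousOn_hh.continuousAt (Ioo_mem_nhds hr'.1 hr'.2)
    have h2 : ContinuousAt (GG F) r := by
      unfold GG
      exact (continuous_ofReal.comp continuous_ww).continuousAt.mul (hF.continuousAt.comp h1)
    exact h2.continuousWithinAt

/-- `W = R (2 - R)` -/
def Wop (R : H →L[ℂ] H) : H →L[ℂ] H := Ph R (fun r => (ww r : ℂ))

namespace RData

variable {R : H →L[ℂ] H} (hR : RData R)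
include hR

lemma contG (F : ℝ →ᵇ ℂ) : ContinuousOn (GG F) (spectrum ℝ R) :=
  (continuousOn_GG F.continuous F.norm_coe_le_norm).mono hR.spec

omit hR [CompleteSpace H] in
lemma contW : ContinuousOn (fun r => (ww r : ℂ)) (spectrum ℝ R) :=
  (continuous_ofReal.comp continuous_ww).continuousOn

lemma Wop_eq : Wop R = R * ((2 : ℂ) • 1 - R) := by
  unfold Wop
  have h1 : (fun r : ℝ => (ww r : ℂ)) = fun r : ℝ => (r : ℂ) * ((2 - r : ℝ) : ℂ) := by
    funext r; simp [ww]
  rw [h1, Ph_mul continuous_ofReal.continuousOn (by fun_prop), Ph_ofReal, Ph_ofReal]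
  have h2 : cfc (fun r : ℝ => r) R = R := cfc_id' ℝ R hR.sa
  have h3 : cfc (fun r : ℝ => 2 - r) R = (2 : ℂ) • 1 - R := by
    rw [cfc_sub (fun _ => (2 : ℝ)) (fun r => r) R, h2, cfc_const (2 : ℝ) R hR.sa]
    congr 1
  rw [h2, h3]

lemma Wop_inj (z : H) (hz : Wop R z = 0) : z = 0 := by
  rw [hR.Wop_eq, mul_apply_eq_comp] at hz
  have h1 := hR.inj0 _ hz
  apply hR.inj2
  simp only [sub_apply, smul_apply, one_apply_eq_self, sub_eq_zero] at h1
  exact h1.symm

omit hR in
lemma Wop_sa : IsSelfAdjoint (Wop R) := by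
  unfold Wop
  rw [Ph_ofReal]
  exact cfc_predicate _ _

lemma dense_Wop : DenseRange (Wop R) := by
  have h1 : (Wop R).rangeᗮ = ⊥ := by
    rw [ContinuousLinearMap.orthogonal_range, ← star_eq_adjoint, Wop_sa.star_eq]
    rw [Submodule.eq_bot_iff]
    intro z hz
    exact hR.Wop_inj z hz
  have h2 := (Submodule.topologicalClosure_eq_top_iff).2 h1
  have h3 := (Submodule.dense_iff_topologicalClosure_eq_top).2 h2
  exact h3

omit hR in
/-- The operator `W F(h)` -/
def Bop (R : H →L[ℂ] H) (F : ℝ →ᵇ ℂ) : H →L[ℂ] H := Ph R (GG F)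

lemma norm_Bop_le (F : ℝ →ᵇ ℂ) (z : H) : ‖Bop R F z‖ ≤ ‖F‖ * ‖Wop R z‖ := by
  have h1 : ‖Bop R F z‖ ≤ ‖Ph R (fun r => (‖F‖ : ℂ) * (ww r : ℂ)) z‖ := by
    apply norm_Ph_le (hR.contG F) (contW.const_mul _)
    intro r hr
    rw [GG, norm_mul, norm_mul, Complex.norm_real, Complex.norm_real, norm_norm, mul_comm]
    exact mul_le_mul_of_nonneg_right (F.norm_coe_le_norm _) (norm_nonneg _)
  rw [Ph_smul _ contW] at h1
  rw [smul_apply, norm_smul, Complex.norm_real, norm_norm] at h1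
  exact h1

omit hR in
/-- `F(h)` as an operator. -/
def _root_.Vale.Agent.P132.G6.ThOp (R : H →L[ℂ] H) (F : ℝ →ᵇ ℂ) : H →L[ℂ] H :=
  (Bop R F : H →ₗ[ℂ] H).extendOfNorm (Wop R : H →ₗ[ℂ] H)

lemma ThOp_W (F : ℝ →ᵇ ℂ) (z : H) : ThOp R F (Wop R z) = Bop R F z :=
  LinearMap.extendOfNorm_eq (f := (Bop R F : H →ₗ[ℂ] H)) (e := (Wop R : H →ₗ[ℂ] H))
    hR.dense_Wop ⟨‖F‖, fun x => hR.norm_Bop_le F x⟩ z

lemma norm_ThOp_le (F : ℝ →ᵇ ℂ) (z : H) : ‖ThOp R F z‖ ≤ ‖F‖ * ‖z‖ :=
  LinearMap.norm_extendOfNorm_apply_le (f := (Bop R F : H →ₗ[ℂ] H)) (e := (Wop R : H →ₗ[ℂ] H))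
    hR.dense_Wop ‖F‖ (fun x => hR.norm_Bop_le F x) z

/-- Equality of continuous maps can be tested on the range of `W`. -/
lemma ext_W {X Y : H →L[ℂ] H} (h : ∀ z, X (Wop R z) = Y (Wop R z)) : X = Y := by
  ext z
  exact hR.dense_Wop.induction_on z (isClosed_eq X.continuous Y.continuous) h

lemma W_ThOp (F : ℝ →ᵇ ℂ) : Wop R * ThOp R F = Bop R F := by
  apply hR.ext_W
  intro z
  rw [mul_apply_eq_comp, hR.ThOp_W]
  have h1 : Wop R * Bop R F = Bop R F * Wop R := by
    unfold Wop Bop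
    rw [← Ph_mul contW (hR.contG F), ← Ph_mul (hR.contG F) contW]
    simp only [mul_comm]
  have := congrArg (fun X : H →L[ℂ] H => X z) h1
  simpa using this

lemma ThOp_W' (F : ℝ →ᵇ ℂ) : ThOp R F * Wop R = Bop R F := by
  ext z
  rw [mul_apply_eq_comp, hR.ThOp_W]

lemma ThOp_eq_of {F : ℝ →ᵇ ℂ} {X : H →L[ℂ] H} (h : X * Wop R = Bop R F) : ThOp R F = X := by
  apply hR.ext_W
  intro z
  rw [hR.ThOp_W, ← h]
  rfl

/-- `Th F`, as a star-algebra homomorphism -/
def Th : (ℝ →ᵇ ℂ) →⋆ₐ[ℂ] (H →L[ℂ] H) where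
  toFun F := ThOp R F
  map_one' := by
    apply hR.ThOp_eq_of
    rw [one_mul]
    unfold Wop Bop
    congr 1
    funext r
    simp [GG]
  map_mul' F G := by
    apply hR.ThOp_eq_of
    apply hR.ext_W
    intro z
    have h1 : (ThOp R F * ThOp R G * Wop R) (Wop R z) = Bop R F (Bop R G z) := by
      rw [mul_assoc, hR.ThOp_W']
      simp only [mul_apply_eq_comp]
      have h2 : Bop R G (Wop R z) = Wop R (Bop R G z) := by
        have h3 : Wop R * Bop R G = Bop R G * Wop R := by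
          unfold Wop Bop
          rw [← Ph_mul contW (hR.contG G), ← Ph_mul (hR.contG G) contW]
          simp only [mul_comm]
        have h4 := congrArg (fun X : H →L[ℂ] H => X z) h3
        exact h4.symm
      rw [h2, hR.ThOp_W]
    rw [h1]
    have h5 : Bop R F * Bop R G = Bop R (F * G) * Wop R := by
      unfold Bop Wop
      rw [← Ph_mul (hR.contG F) (hR.contG G), ← Ph_mul (hR.contG (F * G)) contW]
      congr 1
      funext r
      simp only [GG, BoundedContinuousFunction.coe_mul, Pi.mul_apply]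
      ring
    exact congrArg (fun X : H →L[ℂ] H => X z) h5
  map_zero' := by
    apply hR.ThOp_eq_of
    rw [zero_mul]
    unfold Bop
    have : GG ((0 : ℝ →ᵇ ℂ) : ℝ → ℂ) = fun r => 0 * (0 : ℂ) := by funext r; simp [GG]
    rw [this, Ph_smul 0 continuousOn_const, zero_smul]
  map_add' F G := by
    apply hR.ThOp_eq_of
    rw [add_mul, hR.ThOp_W', hR.ThOp_W']
    unfold Bop
    rw [← Ph_add (hR.contG F) (hR.contG G)]
    congr 1
    funext r
    simp only [GG, BoundedContinuousFunction.coe_add, Pi.add_apply]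
    ring
  commutes' c := by
    apply hR.ThOp_eq_of
    rw [Algebra.algebraMap_eq_smul_one, smul_mul_assoc, one_mul]
    unfold Bop Wop
    rw [← Ph_smul c contW]
    congr 1
    funext r
    simp [GG, Algebra.algebraMap_eq_smul_one, mul_comm]
  map_star' F := by
    apply hR.ThOp_eq_of
    have h1 := congrArg star (hR.W_ThOp F)
    rw [star_mul, Wop_sa.star_eq] at h1
    rw [h1]
    unfold Bop
    rw [← Ph_star]
    congr 1
    funext r
    simp [GG]

lemma Th_apply (F : ℝ →ᵇ ℂ) : hR.Th F = ThOp R F := rfl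

end RData

end Vale.Agent.P132.G6
end
end

section

/-! P132: Cayley transforms inside a von Neumann algebra. -/

namespace Vale.Agent.P132

variable {H : Type*} [NormedAddCommGroup H] [InnerProductSpace ℂ H] [CompleteSpace H]

theorem mem_of_commute (M : VonNeumannAlgebra H) {a : H →L[ℂ] H}
    (h : ∀ g ∈ M.commutant, g * a = a * g) : a ∈ M := by
  rw [← M.commutant_commutant, VonNeumannAlgebra.mem_commutant_iff]
  exact h

theorem mul_comm_of_mem_commutant {M : VonNeumannAlgebra H} {a g : H →L[ℂ] H} (ha : a ∈ M)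
    (hg : g ∈ M.commutant) : g * a = a * g :=
  (VonNeumannAlgebra.mem_commutant_iff.1 hg a ha).symm

/-- Cayley transform of a self-adjoint element of `M`. -/
theorem cayley (M : VonNeumannAlgebra H) {A : H →L[ℂ] H} (hA : A ∈ M) (hsa : IsSelfAdjoint A)
    {s : ℝ} (hs : 0 < s) (hs1 : s * ‖A‖ < 1) :
    ∃ u b c : H →L[ℂ] H, u ∈ M ∧ c ∈ M ∧ star u * u = 1 ∧ u * star u = 1 ∧
      b = 1 - (Complex.I * s) • A ∧ c * b = 1 ∧ b * c = 1 ∧ u = (2 : ℂ) • c - 1 ∧ ‖c‖ ≤ 1 := by
  set t : ℂ := Complex.I * s with ht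
  have hnt : ‖t‖ = s := by
    rw [ht, norm_mul, Complex.norm_I, one_mul, Complex.norm_real, Real.norm_of_nonneg hs.le]
  have hst : (starRingEnd ℂ) t = -t := by
    rw [ht, map_mul, Complex.conj_I, Complex.conj_ofReal]; ring
  have hlt : ‖t • A‖ < 1 := by rw [norm_smul, hnt]; exact hs1
  have hlt' : ‖-(t • A)‖ < 1 := by rw [norm_neg]; exact hlt
  set B : (H →L[ℂ] H)ˣ := Units.oneSub (t • A) hlt with hB
  set B' : (H →L[ℂ] H)ˣ := Units.oneSub (-(t • A)) hlt' with hB'
  have hBv : (B : H →L[ℂ] H) = 1 - t • A := rfl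
  have hBv' : (B' : H →L[ℂ] H) = 1 + t • A := by
    rw [hB', Units.val_oneSub, sub_neg_eq_add]
  have hstarB : star (B : H →L[ℂ] H) = B' := by
    rw [hBv, hBv', star_sub, star_one, star_smul, hsa.star_eq, ← starRingEnd_apply, hst, neg_smul,
      sub_neg_eq_add]
  have hcomm : (B : H →L[ℂ] H) * B' = B' * B := by
    rw [hBv, hBv']
    generalize t • A = T
    noncomm_ring
  have hcommu : B * B' = B' * B := Units.ext hcomm
  set c : H →L[ℂ] H := ((B⁻¹ : (H →L[ℂ] H)ˣ) : H →L[ℂ] H) with hc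
  have hcb : c * B = 1 := by rw [hc, Units.inv_mul]
  have hbc : (B : H →L[ℂ] H) * c = 1 := by rw [hc, Units.mul_inv]
  have hstarc : star c = ((B'⁻¹ : (H →L[ℂ] H)ˣ) : H →L[ℂ] H) := by
    have h1 : star c * B' = 1 := by
      rw [← hstarB, ← star_mul, hbc, star_one]
    exact (Units.inv_eq_of_mul_eq_one_left h1).symm ▸ rfl
  set u : H →L[ℂ] H := (2 : ℂ) • c - 1 with hu
  have hu1 : u = (B' : H →L[ℂ] H) * c := by
    have : (B' : H →L[ℂ] H) = (2 : ℂ) • 1 - B := by
      rw [hBv, hBv', two_smul]; abel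
    rw [this, sub_mul, hbc, smul_mul_assoc, one_mul]
  have hu2 : star u = (B : H →L[ℂ] H) * ((B'⁻¹ : (H →L[ℂ] H)ˣ) : H →L[ℂ] H) := by
    rw [hu1, star_mul, ← hstarc, ← hstarB, star_star]
    rw [hstarc]
    have h3 : B'⁻¹ * B = B * B'⁻¹ := by
      rw [inv_mul_eq_iff_eq_mul, ← mul_assoc, ← hcommu, mul_inv_cancel_right]
    exact congrArg Units.val h3
  have hUu : u = ((B' * B⁻¹ : (H →L[ℂ] H)ˣ) : H →L[ℂ] H) := by rw [hu1, Units.val_mul]
  have hUs : star u = ((B * B'⁻¹ : (H →L[ℂ] H)ˣ) : H →L[ℂ] H) := by rw [hu2, Units.val_mul]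
  have hm1 : star u * u = 1 := by
    rw [hUs, hUu, ← Units.val_mul, mul_assoc, inv_mul_cancel_left, mul_inv_cancel, Units.val_one]
  have hm2 : u * star u = 1 := by
    rw [hUs, hUu, ← Units.val_mul, mul_assoc, inv_mul_cancel_left, mul_inv_cancel, Units.val_one]
  have hcM : c ∈ M := by
    refine mem_of_commute M fun g hg => ?_
    have h1 : g * A = A * g := mul_comm_of_mem_commutant hA hg
    have h2 : g * (B : H →L[ℂ] H) = (B : H →L[ℂ] H) * g := by
      rw [hBv, mul_sub, sub_mul, mul_one, one_mul, mul_smul_comm, smul_mul_assoc, h1]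
    calc g * c = c * B * (g * c) := by rw [hcb, one_mul]
      _ = c * (B * g) * c := by noncomm_ring
      _ = c * (g * B) * c := by rw [h2]
      _ = c * g * (B * c) := by noncomm_ring
      _ = c * g := by rw [hbc, mul_one]
  have huM : u ∈ M := by
    rw [hu, two_smul]
    exact sub_mem (add_mem hcM hcM) (one_mem _)
  refine ⟨u, B, c, huM, hcM, hm1, hm2, hBv, hcb, hbc, rfl, ?_⟩
  refine ContinuousLinearMap.opNorm_le_bound _ zero_le_one fun y => ?_
  rw [one_mul]
  have h1 : ∀ x : H, ‖x‖ ≤ ‖(B : H →L[ℂ] H) x‖ := fun x => by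
    have h2 : ‖(B : H →L[ℂ] H) x‖ ^ 2 = ‖x‖ ^ 2 + ‖(t • A) x‖ ^ 2 := by
      have h3 : (B : H →L[ℂ] H) x = x - (t • A) x := rfl
      have h4 : (inner ℂ x ((t • A) x)).re = 0 := by
        have h5 : (t • A) x = t • A x := rfl
        have h6 : (starRingEnd ℂ) (inner ℂ x (A x)) = inner ℂ x (A x) := by
          rw [inner_conj_symm]
          have h7 := ContinuousLinearMap.adjoint_inner_left A x x
          rw [← ContinuousLinearMap.star_eq_adjoint, hsa.star_eq] at h7
          exact h7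
        have h8 : (inner ℂ x (A x) : ℂ).im = 0 := by
          rw [← Complex.conj_eq_iff_im]; exact h6
        rw [h5, inner_smul_right, ht]
        simp [h8]
      rw [h3, @norm_sub_sq ℂ H]
      have h9 : RCLike.re (inner ℂ x ((t • A) x)) = (inner ℂ x ((t • A) x)).re := rfl
      rw [h9, h4]
      ring
    refine le_of_sq_le_sq ?_ (norm_nonneg _)
    rw [h2]
    have : 0 ≤ ‖(t • A) x‖ ^ 2 := by positivity
    linarith
  calc ‖c y‖ ≤ ‖(B : H →L[ℂ] H) (c y)‖ := h1 _
    _ = ‖((B : H →L[ℂ] H) * c) y‖ := rfl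
    _ = ‖y‖ := by rw [hbc]; rfl

end Vale.Agent.P132
end

section

/-!
# P132: comparison theory in a σ-finite factor of type III

In a factor `M` with a countable separating family of vectors (for instance a faithful normal
state) in which every nonzero projection is infinite, every nonzero projection is equivalent
to `1`.
-/

open Filter Topology
open scoped InnerProductSpace

namespace Vale.Agent.P132

universe u

variable {H : Type u} [NormedAddCommGroup H] [InnerProductSpace ℂ H] [CompleteSpace H]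

namespace Cmp

/-- `K` is invariant under the commutant of `M`. -/
def Aff (M : VonNeumannAlgebra H) (K : Submodule ℂ H) : Prop :=
  ∀ y ∈ M.commutant, ∀ x ∈ K, y x ∈ K

variable {M : VonNeumannAlgebra H}

theorem mem_of_commute {a : H →L[ℂ] H} (h : ∀ y ∈ M.commutant, y * a = a * y) : a ∈ M := by
  rw [← M.commutant_commutant, VonNeumannAlgebra.mem_commutant_iff]
  exact h

theorem comm_of_mem {a y : H →L[ℂ] H} (ha : a ∈ M) (hy : y ∈ M.commutant) : y * a = a * y := by
  rw [VonNeumannAlgebra.mem_commutant_iff] at hy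
  exact (hy a ha).symm

theorem comm_apply {a y : H →L[ℂ] H} (ha : a ∈ M) (hy : y ∈ M.commutant) (x : H) :
    y (a x) = a (y x) := by
  have := comm_of_mem ha hy
  exact congrArg (fun T : H →L[ℂ] H => T x) this

theorem Aff.orthogonal {K : Submodule ℂ H} (hK : Aff M K) : Aff M Kᗮ := by
  intro y hy x hx
  rw [Submodule.mem_orthogonal] at hx ⊢
  intro u hu
  have h1 : ⟪u, y x⟫_ℂ = ⟪(star y) u, x⟫_ℂ := by
    rw [ContinuousLinearMap.star_eq_adjoint, ContinuousLinearMap.adjoint_inner_left]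
  rw [h1]
  exact hx _ (hK _ (star_mem hy) _ hu)

theorem Aff.closure {K : Submodule ℂ H} (hK : Aff M K) : Aff M K.topologicalClosure := by
  intro y hy x hx
  have h1 : Set.MapsTo y (K : Set H) (K : Set H) := fun z hz => hK y hy z hz
  have := h1.closure y.continuous
  rw [← SetLike.mem_coe, Submodule.topologicalClosure_coe] at hx ⊢
  exact this hx

theorem Aff.span {s : Set H} (hs : ∀ y ∈ M.commutant, ∀ x ∈ s, y x ∈ s) :
    Aff M (Submodule.span ℂ s) := by
  intro y hy x hx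
  induction hx using Submodule.span_induction with
  | mem x hx => exact Submodule.subset_span (hs y hy x hx)
  | zero => simp
  | add x z _ _ hx hz => rw [map_add]; exact add_mem hx hz
  | smul c x _ hx => rw [map_smul]; exact Submodule.smul_mem _ _ hx

theorem Aff.iSup {ι : Sort*} {K : ι → Submodule ℂ H} (hK : ∀ i, Aff M (K i)) :
    Aff M (⨆ i, K i) := by
  intro y hy x hx
  have h1 : (⨆ i, K i) ≤ (⨆ i, K i).comap (y : H →ₗ[ℂ] H) := by
    refine iSup_le fun i z hz => ?_
    exact Submodule.mem_iSup_of_mem i (hK i y hy z hz)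
  exact h1 hx

theorem Aff.proj_mem {K : Submodule ℂ H} [K.HasOrthogonalProjection] (hK : Aff M K) :
    K.starProjection ∈ M := by
  refine mem_of_commute fun y hy => ?_
  ext x
  show y (K.starProjection x) = K.starProjection (y x)
  have h1 : y (x - K.starProjection x) ∈ Kᗮ :=
    hK.orthogonal y hy _ (K.sub_starProjection_mem_orthogonal x)
  have h2 : y (K.starProjection x) ∈ K := hK y hy _ (K.starProjection_apply_mem x)
  have h3 : y x - y (K.starProjection x) ∈ Kᗮ := by rw [← map_sub]; exact h1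
  exact (Submodule.eq_starProjection_of_mem_orthogonal h2 h3).symm

/-- fixed space of `e`. -/
def fix (e : H →L[ℂ] H) : Submodule ℂ H :=
  LinearMap.eqLocus (e : H →ₗ[ℂ] H) (LinearMap.id : H →ₗ[ℂ] H)

omit [CompleteSpace H] in
theorem mem_fix {e : H →L[ℂ] H} {x : H} : x ∈ fix e ↔ e x = x := by
  simp [fix, LinearMap.mem_eqLocus]

omit [CompleteSpace H] in
theorem isClosed_fix (e : H →L[ℂ] H) : IsClosed ((fix e : Submodule ℂ H) : Set H) := by
  have : ((fix e : Submodule ℂ H) : Set H) = {x | e x = x} := by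
    ext x; simp [mem_fix]
  rw [this]
  exact isClosed_eq e.continuous continuous_id

theorem Aff.fix {e : H →L[ℂ] H} (he : e ∈ M) : Aff M (fix e) := by
  intro y hy x hx
  rw [mem_fix] at hx ⊢
  rw [← comm_apply he hy, hx]

/-- In a factor the central support of a nonzero projection is `1`. -/
theorem exists_ne_zero (hM : IsFactor M) {K L : Submodule ℂ H}
    (hK : Aff M K) (hK0 : K ≠ ⊥) (hL0 : L ≠ ⊥) :
    ∃ a ∈ M, ∃ x ∈ K, ∃ z ∈ L, ⟪z, a x⟫_ℂ ≠ 0 := by
  by_contra hcon
  push Not at hcon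
  set s : Set H := {z | ∃ a ∈ M, ∃ x ∈ K, a x = z} with hs
  set Z : Submodule ℂ H := (Submodule.span ℂ s).topologicalClosure with hZ
  have hZM : Aff M Z := by
    refine Aff.closure (Aff.span ?_)
    rintro y hy _ ⟨a, ha, x, hx, rfl⟩
    exact ⟨a, ha, y x, hK y hy x hx, (comm_apply ha hy x).symm⟩
  have hZM' : Aff M.commutant Z := by
    refine Aff.closure (Aff.span ?_)
    rintro b hb _ ⟨a, ha, x, hx, rfl⟩
    rw [VonNeumannAlgebra.commutant_commutant] at hb
    exact ⟨b * a, mul_mem hb ha, x, hx, rfl⟩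
  have : CompleteSpace Z := (Submodule.isClosed_topologicalClosure _).completeSpace_coe
  have hP1 : Z.starProjection ∈ M := hZM.proj_mem
  have hP2 : Z.starProjection ∈ M.commutant := hZM'.proj_mem
  obtain ⟨c, hc⟩ := hM _ hP1 hP2
  obtain ⟨x, hx, hx0⟩ := Submodule.exists_mem_ne_zero_of_ne_bot hK0
  have hxZ : x ∈ Z := by
    apply Submodule.le_topologicalClosure
    exact Submodule.subset_span ⟨1, one_mem _, x, hx, rfl⟩
  have hPx : Z.starProjection x = x := Submodule.starProjection_eq_self_iff.2 hxZ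
  have hc1 : c = 1 := by
    rw [hc] at hPx
    have h2 : c • x = x := by simpa using hPx
    have h3 : (c - 1) • x = 0 := by rw [sub_smul, h2, one_smul, sub_self]
    rcases smul_eq_zero.1 h3 with h | h
    · exact sub_eq_zero.1 h
    · exact absurd h hx0
  obtain ⟨z, hz, hz0⟩ := Submodule.exists_mem_ne_zero_of_ne_bot hL0
  have hzZ : z ∈ Z := by
    rw [← Submodule.starProjection_eq_self_iff, hc, hc1]; simp
  have hzort : z ∈ (Submodule.span ℂ s)ᗮ := by
    rw [Submodule.mem_orthogonal']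
    intro w hw
    induction hw using Submodule.span_induction with
    | mem w hw =>
      obtain ⟨a, ha, x, hx, rfl⟩ := hw
      exact hcon a ha x hx z hz
    | zero => simp
    | add x y _ _ hx hy => rw [inner_add_right, hx, hy, add_zero]
    | smul c x _ hx => rw [inner_smul_right, hx, mul_zero]
  have hzort' : z ∈ Zᗮ := by
    rw [hZ, Submodule.orthogonal_closure]; exact hzort
  have : ⟪z, z⟫_ℂ = 0 := by
    rw [Submodule.mem_orthogonal] at hzort'
    exact hzort' z hzZ
  exact hz0 (inner_self_eq_zero.1 this)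

/-- Cutting down: a nonzero operator between affiliated subspaces yields a nonzero affiliated
subspace on which some element of `M` is isometric. -/
theorem exists_isom (hM : IsFactor M) {K L : Submodule ℂ H}
    (hK : Aff M K) (hKc : IsClosed (K : Set H)) (hK0 : K ≠ ⊥)
    (hL : Aff M L) (hLc : IsClosed (L : Set H)) (hL0 : L ≠ ⊥) :
    ∃ K₁ : Submodule ℂ H, K₁ ≤ K ∧ IsClosed (K₁ : Set H) ∧ Aff M K₁ ∧ K₁ ≠ ⊥ ∧
      ∃ w ∈ M, (∀ x ∈ K₁, ‖w x‖ = ‖x‖) ∧ ∀ x, w x ∈ L := by
  obtain ⟨a, ha, x₀, hx₀, z₀, hz₀, hne⟩ := exists_ne_zero hM hK hK0 hL0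
  have : CompleteSpace K := hKc.completeSpace_coe
  have : CompleteSpace L := hLc.completeSpace_coe
  set P := K.starProjection with hP
  set Q := L.starProjection with hQ
  have hPM : P ∈ M := hK.proj_mem
  have hQM : Q ∈ M := hL.proj_mem
  have hPs : star P = P := (isSelfAdjoint_starProjection K).star_eq
  have hQs : star Q = Q := (isSelfAdjoint_starProjection L).star_eq
  have hPP : P * P = P := K.isIdempotentElem_starProjection
  set b : H →L[ℂ] H := Q * a * P with hb
  have hbM : b ∈ M := mul_mem (mul_mem hQM ha) hPM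
  have hb0 : b ≠ 0 := by
    intro h0
    apply hne
    have h1 : ⟪z₀, a x₀⟫_ℂ = ⟪z₀, b x₀⟫_ℂ := by
      have e1 : P x₀ = x₀ := Submodule.starProjection_eq_self_iff.2 hx₀
      have e2 : Q z₀ = z₀ := Submodule.starProjection_eq_self_iff.2 hz₀
      have e3 : b x₀ = Q (a x₀) := by
        show Q (a (P x₀)) = _
        rw [e1]
      rw [e3, ← ContinuousLinearMap.adjoint_inner_left Q, ← ContinuousLinearMap.star_eq_adjoint, hQs,
        e2]
    rw [h1, h0]; simp
  set t : H →L[ℂ] H := star b * b with ht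
  have htM : t ∈ M := mul_mem (star_mem hbM) hbM
  have ht_sa : IsSelfAdjoint t := IsSelfAdjoint.star_mul_self b
  have ht_nonneg : 0 ≤ t := star_mul_self_nonneg b
  have htn : ‖t‖ = ‖b‖ * ‖b‖ := CStarRing.norm_star_mul_self
  set s : ℝ := ‖t‖ / 2 with hs
  have ht0 : 0 < ‖t‖ := by
    rw [htn]; have := norm_pos_iff.2 hb0; positivity
  have hs0 : 0 < s := by positivity
  set f : ℝ → ℝ := fun r => max (r - s) 0 with hf
  set g : ℝ → ℝ := fun r => (Real.sqrt (max r s))⁻¹ with hg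
  set k : ℝ → ℝ := fun r => (max (r - s) 0) / (max r s) with hk
  have hms : ∀ r : ℝ, 0 < max r s := fun r => lt_of_lt_of_le hs0 (le_max_right _ _)
  have hfc : Continuous f := by fun_prop
  have hgc : Continuous g := by
    refine Continuous.inv₀ (by fun_prop) fun r => ?_
    exact (Real.sqrt_pos.2 (hms r)).ne'
  have hkc : Continuous k := by
    refine Continuous.div (by fun_prop) (by fun_prop) fun r => (hms r).ne'
  have cfcM : ∀ u : ℝ → ℝ, cfc u t ∈ M := by
    intro u
    refine mem_of_commute fun y hy => ?_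
    have h1 : Commute t y := (comm_of_mem htM hy).symm
    exact (h1.cfc_real u).eq.symm
  set d : H →L[ℂ] H := cfc f t with hd
  set c : H →L[ℂ] H := cfc g t with hc
  have hd0 : d ≠ 0 := by
    intro h0
    have : Nontrivial H := by
      by_contra hcon
      rw [not_nontrivial_iff_subsingleton] at hcon
      exact hb0 (by ext x; exact Subsingleton.elim _ _)
    have h1 : ‖t‖ ∈ spectrum ℝ t := CStarAlgebra.norm_mem_spectrum_of_nonneg ht_nonneg
    have h2 : cfc f t = cfc (fun _ : ℝ => (0 : ℝ)) t := by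
      rw [← hd, h0, cfc_const_zero]
    have h3 := (cfc_eq_cfc_iff_eqOn (hf := hfc.continuousOn) (hg := continuousOn_const)
      (ha := ht_sa)).1 h2 h1
    simp only [hf] at h3
    have : max (‖t‖ - s) 0 = ‖t‖ / 2 := by
      rw [max_eq_left] <;> simp only [hs] <;> linarith
    rw [this] at h3
    linarith
  have hPt : P * t = t := by
    have h1 : P * star b = star b := by
      rw [hb, star_mul, star_mul, hPs, ← mul_assoc, hPP]
    rw [ht, ← mul_assoc, h1]
  have hd_eq : d = t * cfc k t := by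
    have h1 : t * cfc k t = cfc (fun r => r * k r) t := by
      rw [cfc_mul (fun r => r) k t continuousOn_id hkc.continuousOn, cfc_id' ℝ t]
    rw [h1, hd]
    congr 1
    funext r
    simp only [hf, hk]
    rcases le_total r s with h | h
    · rw [max_eq_right (by linarith : r - s ≤ 0)]; simp
    · rw [max_eq_left h, mul_div_cancel₀]
      linarith
  have hPd : P * d = d := by rw [hd_eq, ← mul_assoc, hPt]
  have hctcd : c * t * c * d = d := by
    have h1 : c * t * c * d = cfc (fun r => g r * r * g r * f r) t := by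
      rw [cfc_mul (fun r => g r * r * g r) f t (by fun_prop) (by fun_prop),
        cfc_mul (fun r => g r * r) g t (by fun_prop) (by fun_prop),
        cfc_mul g (fun r => r) t (by fun_prop) (by fun_prop), cfc_id' ℝ t]
    rw [h1, hd]
    congr 1
    funext r
    simp only [hf, hg]
    rcases le_total r s with h | h
    · rw [max_eq_right (by linarith : r - s ≤ 0)]; simp
    · rw [max_eq_left h]
      have hr : 0 < r := lt_of_lt_of_le hs0 h
      have : (√r)⁻¹ * r * (√r)⁻¹ = 1 := by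
        have h2 : √r * √r = r := Real.mul_self_sqrt hr.le
        have h3 : √r ≠ 0 := (Real.sqrt_pos.2 hr).ne'
        calc (√r)⁻¹ * r * (√r)⁻¹ = (√r)⁻¹ * (√r * √r) * (√r)⁻¹ := by rw [h2]
          _ = 1 := by field_simp
      rw [this, one_mul]
  have hcs : star c = c := (cfc_predicate g t : IsSelfAdjoint (cfc g t)).star_eq
  set w : H →L[ℂ] H := b * c with hw
  have hwd : ∀ y : H, ‖w (d y)‖ = ‖d y‖ := by
    intro y
    have h1 : star w * w * d = d := by
      rw [hw, star_mul, hcs]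
      calc c * star b * (b * c) * d = c * (star b * b) * c * d := by simp only [mul_assoc]
        _ = d := hctcd
    have h2 : ⟪w (d y), w (d y)⟫_ℂ = ⟪d y, d y⟫_ℂ := by
      rw [← ContinuousLinearMap.adjoint_inner_right, ← ContinuousLinearMap.star_eq_adjoint]
      have : (star w) (w (d y)) = d y := congrArg (fun T : H →L[ℂ] H => T y) h1
      rw [this]
    rw [inner_self_eq_norm_sq_to_K, inner_self_eq_norm_sq_to_K] at h2
    have h3 : ‖w (d y)‖ ^ 2 = ‖d y‖ ^ 2 := by exact_mod_cast h2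
    exact (sq_eq_sq₀ (norm_nonneg _) (norm_nonneg _)).1 h3
  refine ⟨(LinearMap.range (d : H →ₗ[ℂ] H)).topologicalClosure, ?_,
    Submodule.isClosed_topologicalClosure _, ?_, ?_, w, mul_mem hbM (cfcM g), ?_, ?_⟩
  · refine Submodule.topologicalClosure_minimal _ ?_ hKc
    rintro _ ⟨y, rfl⟩
    have : P (d y) = d y := congrArg (fun T : H →L[ℂ] H => T y) hPd
    exact Submodule.starProjection_eq_self_iff.1 this
  · refine Aff.closure ?_
    rintro y hy _ ⟨x, rfl⟩
    exact ⟨y x, (comm_apply (cfcM f) hy x).symm⟩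
  · intro h0
    apply hd0
    ext y
    have h1 : d y ∈ (LinearMap.range (d : H →ₗ[ℂ] H)).topologicalClosure :=
      Submodule.le_topologicalClosure _ ⟨y, rfl⟩
    rw [h0, Submodule.mem_bot] at h1
    simpa using h1
  · intro x hx
    rw [← SetLike.mem_coe, Submodule.topologicalClosure_coe] at hx
    have hcl : IsClosed {x : H | ‖w x‖ = ‖x‖} :=
      isClosed_eq (w.continuous.norm) continuous_norm
    have hsub : ((LinearMap.range (d : H →ₗ[ℂ] H) : Submodule ℂ H) : Set H) ⊆
        {x : H | ‖w x‖ = ‖x‖} := by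
      rintro _ ⟨y, rfl⟩
      exact hwd y
    exact closure_minimal hsub hcl hx
  · intro x
    show Q (a (P (c x))) ∈ L
    exact Submodule.starProjection_apply_mem _ _

/-- The family of small subspaces: affiliated closed nonzero subspaces equivalent to a subspace
of `L`. -/
def Small (M : VonNeumannAlgebra H) (L : Submodule ℂ H) : Set (Submodule ℂ H) :=
  {K | IsClosed (K : Set H) ∧ Aff M K ∧ K ≠ ⊥ ∧
      ∃ w ∈ M, (∀ x ∈ K, ‖w x‖ = ‖x‖) ∧ ∀ x, w x ∈ L}

theorem exists_maximal_family (hM : IsFactor M) {L : Submodule ℂ H}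
    (hL : Aff M L) (hLc : IsClosed (L : Set H)) (hL0 : L ≠ ⊥) :
    ∃ S : Set (Submodule ℂ H), S ⊆ Small M L ∧ S.Pairwise (fun K K' => K ⟂ K') ∧
      (⨆ K : S, (K : Submodule ℂ H))ᗮ = ⊥ := by
  obtain ⟨S, hS⟩ := zorn_subset {S : Set (Submodule ℂ H) | S ⊆ Small M L ∧
    S.Pairwise (fun K K' => K ⟂ K')} (by
      intro c hc hchain
      refine ⟨⋃₀ c, ⟨Set.sUnion_subset fun s hs => (hc hs).1, ?_⟩,
        fun s hs => Set.subset_sUnion_of_mem hs⟩
      exact (Set.pairwise_sUnion hchain.directedOn).2 fun s hs => (hc hs).2)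
  refine ⟨S, hS.prop.1, hS.prop.2, ?_⟩
  by_contra hne
  set K₀ : Submodule ℂ H := (⨆ K : S, (K : Submodule ℂ H))ᗮ with hK₀
  have hK₀a : Aff M K₀ := (Aff.iSup fun K : S => (hS.prop.1 K.2).2.1).orthogonal
  have hK₀c : IsClosed (K₀ : Set H) := Submodule.isClosed_orthogonal _
  obtain ⟨K₁, hle, hc, ha, h0, w, hw⟩ := exists_isom hM hK₀a hK₀c hne hL hLc hL0
  have hK₁ : K₁ ∈ Small M L := ⟨hc, ha, h0, w, hw⟩
  have hort : ∀ K ∈ S, K ⟂ K₁ := by
    intro K hK
    rw [Submodule.isOrtho_iff_le]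
    refine le_trans (le_iSup (fun K : S => (K : Submodule ℂ H)) ⟨K, hK⟩) ?_
    refine le_trans (Submodule.le_orthogonal_orthogonal _) ?_
    exact Submodule.orthogonal_le hle
  have hins : insert K₁ S ∈ {S : Set (Submodule ℂ H) | S ⊆ Small M L ∧
    S.Pairwise (fun K K' => K ⟂ K')} := by
    refine ⟨Set.insert_subset hK₁ hS.prop.1, ?_⟩
    refine Set.pairwise_insert.2 ⟨hS.prop.2, ?_⟩
    intro K hK _
    exact ⟨(hort K hK).symm, hort K hK⟩
  have hmem : K₁ ∈ S := (hS.le_of_ge hins (Set.subset_insert _ _)) (Set.mem_insert _ _)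
  exact h0 (Submodule.isOrtho_self.1 (hort K₁ hmem))

/-- countability of an orthogonal family charged by countably many vectors -/
theorem countable_family {η : ℕ → H}
    (hη : ∀ x ∈ M, (∀ i, x (η i) = 0) → x = 0) {L : Submodule ℂ H}
    {S : Set (Submodule ℂ H)} (hS : S ⊆ Small M L) (hS2 : S.Pairwise (fun K K' => K ⟂ K')) :
    S.Countable := by
  classical
  have key : ∀ v : H, {K ∈ S | ∃ x ∈ K, ⟪x, v⟫_ℂ ≠ 0}.Countable := by
    intro v
    set T := {K ∈ S | ∃ x ∈ K, ⟪x, v⟫_ℂ ≠ 0} with hT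
    have hch : ∀ K : T, ∃ x ∈ (K : Submodule ℂ H), ‖x‖ = 1 ∧ ⟪x, v⟫_ℂ ≠ 0 := by
      rintro ⟨K, hK⟩
      obtain ⟨x, hx, hxv⟩ := hK.2
      have hx0 : x ≠ 0 := by rintro rfl; simp at hxv
      refine ⟨((‖x‖ : ℂ)⁻¹) • x, Submodule.smul_mem _ _ hx, ?_, ?_⟩
      · rw [norm_smul, norm_inv, Complex.norm_real, norm_norm]
        exact inv_mul_cancel₀ (norm_ne_zero_iff.2 hx0)
      · rw [inner_smul_left]
        refine mul_ne_zero ?_ hxv
        simpa using hx0
    choose e he1 he2 he3 using hch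
    have hon : Orthonormal ℂ e := by
      refine ⟨he2, ?_⟩
      intro K K' hne
      have hne' : (K : Submodule ℂ H) ≠ K' := fun h => hne (Subtype.ext h)
      exact (hS2 K.2.1 K'.2.1 hne').inner_eq (he1 K) (he1 K')
    have hsum := hon.inner_products_summable v
    have hc := hsum.countable_support
    have huniv : (Function.support fun i : T => ‖⟪e i, v⟫_ℂ‖ ^ 2) = Set.univ := by
      ext K
      simp only [Function.mem_support, Set.mem_univ, iff_true]
      have := he3 K
      positivity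
    rw [huniv, Set.countable_univ_iff] at hc
    exact Set.countable_coe_iff.1 hc
  have hsub : S ⊆ ⋃ i, {K ∈ S | ∃ x ∈ K, ⟪x, η i⟫_ℂ ≠ 0} := by
    intro K hK
    obtain ⟨hc, ha, h0, -⟩ := hS hK
    have : CompleteSpace K := hc.completeSpace_coe
    by_contra hcon
    simp only [Set.mem_iUnion, Set.mem_ofPred_eq, not_exists, not_and] at hcon
    have hz : K.starProjection = 0 := by
      refine hη _ ha.proj_mem fun i => ?_
      rw [Submodule.starProjection_apply_eq_zero_iff, Submodule.mem_orthogonal]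
      intro x hx
      by_contra hne
      exact hcon i hK x hx hne
    obtain ⟨x, hx, hx0⟩ := Submodule.exists_mem_ne_zero_of_ne_bot h0
    apply hx0
    rw [← Submodule.starProjection_eq_self_iff.2 hx, hz]; simp
  exact (Set.countable_iUnion fun i => key (η i)).mono hsub

/-- Gluing: from a countable orthogonal decomposition into small subspaces and infinitely many
orthogonal copies of `L` inside `G` we get an isometry of `M` with values in `G`. -/
theorem exists_isometry {L G : Submodule ℂ H} (hGc : IsClosed (G : Set H))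
    {S : Set (Submodule ℂ H)} (hS : S ⊆ Small M L) (hS2 : S.Pairwise (fun K K' => K ⟂ K'))
    (hS3 : (⨆ K : S, (K : Submodule ℂ H))ᗮ = ⊥) (hcount : S.Countable)
    {v : ℕ → H →L[ℂ] H} (hvM : ∀ n, v n ∈ M) (hviso : ∀ n, ∀ x ∈ L, ‖v n x‖ = ‖x‖)
    (hvG : ∀ n, ∀ x ∈ L, v n x ∈ G)
    (hvort : ∀ m n, m ≠ n → ∀ x ∈ L, ∀ y ∈ L, ⟪v m x, v n y⟫_ℂ = 0) :
    ∃ U ∈ M, star U * U = 1 ∧ ∀ x, U x ∈ G := by
  classical
  have : Countable S := hcount.to_subtype
  obtain ⟨n, hn⟩ := exists_injective_nat S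
  have hw : ∀ K : S, ∃ w ∈ M, (∀ x ∈ (K : Submodule ℂ H), ‖w x‖ = ‖x‖) ∧ ∀ x, w x ∈ L :=
    fun K => (hS K.2).2.2.2
  choose w hwM hwiso hwL using hw
  have hcs : ∀ K : S, CompleteSpace (K : Submodule ℂ H) :=
    fun K => (hS K.2).1.completeSpace_coe
  have hortF : OrthogonalFamily ℂ (fun K : S => (K : Submodule ℂ H))
      fun K : S => (K : Submodule ℂ H).subtypeₗᵢ := by
    intro K K' hne x y
    have hne' : (K : Submodule ℂ H) ≠ K' := fun h => hne (Subtype.ext h)
    exact (hS2 K.2 K'.2 hne').inner_eq x.2 y.2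
  have htot : ⊤ ≤ (⨆ K : S, (K : Submodule ℂ H)).topologicalClosure := by
    rw [← Submodule.orthogonal_orthogonal_eq_closure, hS3, Submodule.bot_orthogonal_eq_top]
  have hHS := IsHilbertSum.mkInternal (𝕜 := ℂ) (F := fun K : S => (K : Submodule ℂ H)) hortF htot
  let V : ∀ K : S, (K : Submodule ℂ H) →ₗᵢ[ℂ] H := fun K =>
    { toLinearMap := ((v (n K) * w K : H →L[ℂ] H) : H →ₗ[ℂ] H).domRestrict (K : Submodule ℂ H)
      norm_map' := fun x => by
        show ‖v (n K) (w K x)‖ = ‖x‖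
        rw [hviso _ _ (hwL K _), hwiso K _ x.2]; rfl }
  have hV : ∀ (K : S) (x : (K : Submodule ℂ H)), V K x = v (n K) (w K x) := fun K x => rfl
  have hVort : OrthogonalFamily ℂ (fun K : S => (K : Submodule ℂ H)) V := by
    intro K K' hne x y
    rw [hV, hV]
    exact hvort _ _ (hn.ne hne) _ (hwL K _) _ (hwL K' _)
  let U₀ : H →ₗᵢ[ℂ] H := hVort.linearIsometry.comp hHS.linearIsometryEquiv.toLinearIsometry
  have hU₀ : ∀ (K : S) (x : (K : Submodule ℂ H)), U₀ x = v (n K) (w K x) := by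
    intro K x
    show hVort.linearIsometry (hHS.linearIsometryEquiv (x : H)) = _
    have h1 : hHS.linearIsometryEquiv (x : H) = lp.single 2 K x := by
      rw [← hHS.linearIsometryEquiv.symm.injective.eq_iff, LinearIsometryEquiv.symm_apply_apply,
        IsHilbertSum.linearIsometryEquiv_symm_apply_single]
      rfl
    rw [h1, OrthogonalFamily.linearIsometry_apply_single, hV]
  set U : H →L[ℂ] H := U₀.toContinuousLinearMap with hU
  have hUapp : ∀ (K : S) (x : H), x ∈ (K : Submodule ℂ H) → U x = v (n K) (w K x) :=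
    fun K x hx => hU₀ K ⟨x, hx⟩
  have hext : ∀ E : Submodule ℂ H, IsClosed (E : Set H) →
      (∀ K : S, (K : Submodule ℂ H) ≤ E) → E = ⊤ := by
    intro E hE hK
    rw [eq_top_iff]
    refine le_trans htot (Submodule.topologicalClosure_minimal _ (iSup_le hK) hE)
  refine ⟨U, ?_, ?_, ?_⟩
  · refine mem_of_commute fun y hy => ?_
    have hE := hext (LinearMap.eqLocus ((y * U : H →L[ℂ] H) : H →ₗ[ℂ] H)
      ((U * y : H →L[ℂ] H) : H →ₗ[ℂ] H)) (by
        have : ((LinearMap.eqLocus ((y * U : H →L[ℂ] H) : H →ₗ[ℂ] H)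
          ((U * y : H →L[ℂ] H) : H →ₗ[ℂ] H) : Submodule ℂ H) : Set H) =
          {x | (y * U) x = (U * y) x} := by
          ext x; simp [LinearMap.mem_eqLocus]
        rw [this]
        exact isClosed_eq (y * U).continuous (U * y).continuous) (by
        intro K x hx
        rw [LinearMap.mem_eqLocus]
        show y (U x) = U (y x)
        have hyx : y x ∈ (K : Submodule ℂ H) := (hS K.2).2.1 y hy x hx
        rw [hUapp K x hx, hUapp K _ hyx, comm_apply (hvM _) hy, comm_apply (hwM K) hy])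
    ext x
    have hx : x ∈ (⊤ : Submodule ℂ H) := trivial
    rw [← hE, LinearMap.mem_eqLocus] at hx
    exact hx
  · ext x
    refine ext_inner_left ℂ fun z => ?_
    show ⟪z, (star U) (U x)⟫_ℂ = ⟪z, x⟫_ℂ
    rw [ContinuousLinearMap.star_eq_adjoint, ContinuousLinearMap.adjoint_inner_right]
    exact U₀.inner_map_map z x
  · have hE := hext (G.comap (U : H →ₗ[ℂ] H)) (by
      exact hGc.preimage U.continuous) (by
      intro K x hx
      show U x ∈ G
      rw [hUapp K x hx]
      exact hvG _ _ (hwL K x))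
    intro x
    have hx : x ∈ (⊤ : Submodule ℂ H) := trivial
    rw [← hE] at hx
    exact hx

/-- Schröder–Bernstein: an isometry of `M` with range below the projection `e` can be replaced by
an isometry of `M` with range exactly `e`. -/
theorem schroeder_bernstein {e U : H →L[ℂ] H} (heM : e ∈ M) (hes : star e = e) (hee : e * e = e)
    (hUM : U ∈ M) (hU : star U * U = 1) (heU : e * U = U) :
    ∃ w ∈ M, star w * w = 1 ∧ w * star w = e := by
  set f : H →L[ℂ] H := 1 - e with hf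
  set s : Set H := {z | ∃ (n : ℕ) (x : H), (U ^ n) (f x) = z} with hs
  set K : Submodule ℂ H := (Submodule.span ℂ s).topologicalClosure with hK
  have hKaff : Aff M K := by
    refine Aff.closure (Aff.span ?_)
    rintro y hy _ ⟨n, x, rfl⟩
    refine ⟨n, y x, ?_⟩
    have h1 : U ^ n * f ∈ M := mul_mem (pow_mem hUM n) (sub_mem (one_mem _) heM)
    exact (comm_apply h1 hy x).symm
  have hKc : IsClosed (K : Set H) := Submodule.isClosed_topologicalClosure _
  have : CompleteSpace K := hKc.completeSpace_coe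
  set P := K.starProjection with hP
  have hPM : P ∈ M := hKaff.proj_mem
  have hPs : star P = P := (isSelfAdjoint_starProjection K).star_eq
  have hPP : P * P = P := K.isIdempotentElem_starProjection
  have hPK : ∀ x ∈ K, P x = x := fun x hx => Submodule.starProjection_eq_self_iff.2 hx
  have hsK : ∀ z ∈ s, z ∈ K := fun z hz =>
    Submodule.le_topologicalClosure _ (Submodule.subset_span hz)
  -- closed submodules containing the generators contain `K`
  have hmin : ∀ E : Submodule ℂ H, IsClosed (E : Set H) → s ⊆ E → K ≤ E := by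
    intro E hE hsE
    exact Submodule.topologicalClosure_minimal _ (Submodule.span_le.2 hsE) hE
  -- U K ⊆ K
  have hUK : ∀ x ∈ K, U x ∈ K := by
    have h1 := hmin (K.comap (U : H →ₗ[ℂ] H)) (hKc.preimage U.continuous) (by
      rintro _ ⟨n, x, rfl⟩
      show U ((U ^ n) (f x)) ∈ K
      exact hsK _ ⟨n + 1, x, by rw [pow_succ']; rfl⟩)
    exact fun x hx => h1 hx
  have hPUP : P * U * P = U * P := by
    ext x
    show P (U (P x)) = U (P x)
    exact hPK _ (hUK _ (Submodule.starProjection_apply_mem _ _))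
  have hPUP' : P * star U * P = P * star U := by
    have := congrArg star hPUP
    simpa only [star_mul, hPs, mul_assoc] using this
  have hPf : P * f = f := by
    ext x
    exact hPK _ (hsK _ ⟨0, x, rfl⟩)
  have hfs : star f = f := by rw [hf, star_sub, star_one, hes]
  have hfU : f * U = 0 := by rw [hf, sub_mul, one_mul, heU, sub_self]
  have hUf : star U * f = 0 := by
    have := congrArg star hfU
    simpa only [star_mul, hfs, star_zero] using this
  have hef : e * f = 0 := by rw [hf, mul_sub, mul_one, hee, sub_self]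
  have hfP : f * P = f := by
    have := congrArg star hPf
    simpa only [star_mul, hPs, hfs] using this
  -- the operator `e (1 - U U*)` vanishes on `K`
  have hT : (e * (1 - U * P * star U)) * P = 0 := by
    have h1 := hmin (LinearMap.ker ((e * (1 - U * P * star U) : H →L[ℂ] H) : H →ₗ[ℂ] H)) (by
      have : ((LinearMap.ker ((e * (1 - U * P * star U) : H →L[ℂ] H) : H →ₗ[ℂ] H) :
        Submodule ℂ H) : Set H) = {x | (e * (1 - U * P * star U)) x = 0} := by
        ext x; simp [LinearMap.mem_ker]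
      rw [this]
      exact isClosed_eq (e * (1 - U * P * star U)).continuous continuous_const) (by
      rintro _ ⟨n, x, rfl⟩
      show (e * (1 - U * P * star U)) ((U ^ n) (f x)) = 0
      rcases n with _ | n
      · have : (e * (1 - U * P * star U)) * f = 0 := by
          calc (e * (1 - U * P * star U)) * f
              = e * f - e * (U * P) * (star U * f) := by
                simp only [mul_sub, sub_mul, mul_one, mul_assoc]
            _ = 0 := by rw [hef, hUf, mul_zero, sub_zero]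
        exact congrArg (fun T : H →L[ℂ] H => T x) this
      · have hz : (U ^ n) (f x) ∈ K := hsK _ ⟨n, x, rfl⟩
        have h2 : (U ^ (n + 1)) (f x) = U ((U ^ n) (f x)) := by rw [pow_succ']; rfl
        rw [h2]
        set z := (U ^ n) (f x) with hzdef
        show e (U z - U (P ((star U) (U z)))) = 0
        have h3 : (star U) (U z) = z := congrArg (fun T : H →L[ℂ] H => T z) hU
        rw [h3, hPK z hz, sub_self, map_zero])
    ext x
    exact h1 (Submodule.starProjection_apply_mem _ x)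
  have hUPU : U * P * star U = P - f := by
    have h1 : e * P = e * U * P * star U * P := by
      have := hT
      rw [mul_sub, sub_mul, mul_one, sub_eq_zero] at this
      rw [this]; simp only [mul_assoc]
    have h2 : e * P = U * P * star U := by
      rw [h1, heU]
      calc U * P * star U * P = U * (P * star U * P) := by simp only [mul_assoc]
        _ = U * (P * star U) := by rw [hPUP']
        _ = U * P * star U := by simp only [mul_assoc]
    rw [← h2]
    have h3 : e = 1 - f := by rw [hf]; abel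
    rw [h3, sub_mul, one_mul, hfP]
  set w : H →L[ℂ] H := U * P + (1 - P) with hw
  have hws : star w = P * star U + (1 - P) := by
    rw [hw, star_add, star_mul, star_sub, star_one, hPs]
  have hP1 : (1 - P) * P = 0 := by rw [sub_mul, one_mul, hPP, sub_self]
  have hP2 : P * (1 - P) = 0 := by rw [mul_sub, mul_one, hPP, sub_self]
  have hP3 : (1 - P) * (1 - P) = 1 - P := by rw [mul_sub, mul_one, hP1, sub_zero]
  have hc1 : (1 - P) * (U * P) = 0 := by
    rw [sub_mul, one_mul, ← mul_assoc, hPUP, sub_self]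
  have hc2 : (P * star U) * (1 - P) = 0 := by
    rw [mul_sub, mul_one, hPUP', sub_self]
  refine ⟨w, add_mem (mul_mem hUM hPM) (sub_mem (one_mem _) hPM), ?_, ?_⟩
  · rw [hws, hw, add_mul, mul_add, mul_add, hc1, hc2, hP3, add_zero, zero_add]
    have : P * star U * (U * P) = P := by
      calc P * star U * (U * P) = P * (star U * U) * P := by simp only [mul_assoc]
        _ = P := by rw [hU, mul_one, hPP]
    rw [this]; abel
  · rw [hws, hw, add_mul, mul_add, mul_add, hP3]
    have h1 : U * P * (P * star U) = P - f := by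
      rw [← hUPU]
      calc U * P * (P * star U) = U * (P * P) * star U := by simp only [mul_assoc]
        _ = U * P * star U := by rw [hPP]
    have h2 : U * P * (1 - P) = 0 := by rw [mul_assoc, hP2, mul_zero]
    have h3 : (1 - P) * (P * star U) = 0 := by rw [← mul_assoc, hP1, zero_mul]
    rw [h1, h2, h3, hf]; abel

/-- Main theorem of comparison theory used for `P132`: in a factor with a countable separating
family of vectors, an infinite projection is equivalent to `1`. -/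
theorem equiv_one_of_infinite (hM : IsFactor M) {η : ℕ → H}
    (hη : ∀ x ∈ M, (∀ i, x (η i) = 0) → x = 0)
    {e v : H →L[ℂ] H} (heM : e ∈ M) (hes : star e = e) (hee : e * e = e) (hvM : v ∈ M)
    (hv : star v * v = e) (hle : e * (v * star v) = v * star v) (hne : v * star v ≠ e) :
    ∃ u ∈ M, star u * u = e ∧ u * star u = 1 := by
  set f : H →L[ℂ] H := v * star v with hf
  have hfM : f ∈ M := mul_mem hvM (star_mem hvM)
  have hfs : star f = f := by rw [hf, star_mul, star_star]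
  -- `v = v e`
  have hve : v * e = v := by
    have h1 : star (v * e - v) * (v * e - v) = 0 := by
      rw [star_sub, star_mul, hes, sub_mul, mul_sub, mul_sub]
      have e1 : e * star v * (v * e) = e := by
        calc e * star v * (v * e) = e * (star v * v) * e := by simp only [mul_assoc]
          _ = e := by rw [hv, hee, hee]
      have e2 : e * star v * v = e := by rw [mul_assoc, hv, hee]
      have e3 : star v * (v * e) = e := by rw [← mul_assoc, hv, hee]
      rw [e1, e2, e3, hv]; abel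
    exact sub_eq_zero.1 ((CStarRing.star_mul_self_eq_zero_iff _).1 h1)
  have hvs : e * star v = star v := by
    have := congrArg star hve
    simpa only [star_mul, hes] using this
  have hff : f * f = f := by
    calc f * f = v * (star v * v) * star v := by rw [hf]; simp only [mul_assoc]
      _ = f := by rw [hv, mul_assoc, hvs]
  have hfv : f * v = v := by rw [hf, mul_assoc, hv, hve]
  have hev : e * v = v := by rw [← hfv, ← mul_assoc, hle]
  have hfe : f * e = f := by
    have := congrArg star hle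
    rw [star_mul, hes, hfs] at this
    exact this
  -- `L` is the range of `e - f`
  set L : Submodule ℂ H := fix (e - f) with hL
  have hLc : IsClosed (L : Set H) := isClosed_fix _
  have hLa : Aff M L := Aff.fix (sub_mem heM hfM)
  have hidem : (e - f) * (e - f) = e - f := by
    rw [sub_mul, mul_sub, mul_sub, hee, hfe, hff, hle]; abel
  have hL0 : L ≠ ⊥ := by
    intro h0
    apply hne
    have : e - f = 0 := by
      ext x
      have h1 : (e - f) x ∈ L := mem_fix.2 (congrArg (fun T : H →L[ℂ] H => T x) hidem)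
      rw [h0, Submodule.mem_bot] at h1
      simpa using h1
    exact (sub_eq_zero.1 this).symm
  have hLe : ∀ x ∈ L, e x = x := by
    intro x hx
    rw [hL, mem_fix] at hx
    have h1 : e * (e - f) = e - f := by rw [mul_sub, hee, hle]
    calc e x = (e * (e - f)) x := by
          conv_lhs => rw [← hx]
          rfl
      _ = x := by rw [h1, hx]
  have hLf : ∀ x ∈ L, f x = 0 := by
    intro x hx
    rw [hL, mem_fix] at hx
    have h1 : f * (e - f) = 0 := by rw [mul_sub, hfe, hff, sub_self]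
    calc f x = (f * (e - f)) x := by
          conv_lhs => rw [← hx]
          rfl
      _ = 0 := by rw [h1]; rfl
  -- powers of `v`
  have hpe : ∀ (n : ℕ) (x : H), e x = x → e ((v ^ n) x) = (v ^ n) x := by
    intro n x hx
    rcases n with _ | n
    · exact hx
    · have : e * v ^ (n + 1) = v ^ (n + 1) := by rw [pow_succ', ← mul_assoc, hev]
      exact congrArg (fun T : H →L[ℂ] H => T x) this
  have hsv : ∀ x : H, e x = x → (star v) (v x) = x := by
    intro x hx
    have := congrArg (fun T : H →L[ℂ] H => T x) hv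
    exact this.trans hx
  have hinner : ∀ (x y : H), e y = y → ⟪v x, v y⟫_ℂ = ⟪x, y⟫_ℂ := by
    intro x y hy
    conv_rhs => rw [← hsv y hy]
    rw [ContinuousLinearMap.star_eq_adjoint, ContinuousLinearMap.adjoint_inner_right]
  have hinner' : ∀ (n : ℕ) (x y : H), e y = y → ⟪(v ^ n) x, (v ^ n) y⟫_ℂ = ⟪x, y⟫_ℂ := by
    intro n
    induction n with
    | zero => intro x y _; rfl
    | succ n ih =>
      intro x y hy
      have h1 : ∀ z : H, (v ^ (n + 1)) z = v ((v ^ n) z) := fun z => by rw [pow_succ']; rfl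
      rw [h1, h1, hinner _ _ (hpe n y hy), ih x y hy]
  have hort : ∀ (n k : ℕ) (x y : H), x ∈ L → y ∈ L →
      ⟪(v ^ n) x, (v ^ (n + (k + 1))) y⟫_ℂ = 0 := by
    intro n k x y hx hy
    have h1 : (v ^ (n + (k + 1))) y = (v ^ n) ((v ^ (k + 1)) y) := by rw [pow_add]; rfl
    rw [h1, hinner' n _ _ (hpe _ _ (hLe y hy))]
    have h2 : (v ^ (k + 1)) y = f ((v ^ (k + 1)) y) := by
      have : f * v ^ (k + 1) = v ^ (k + 1) := by rw [pow_succ', ← mul_assoc, hfv]
      exact (congrArg (fun T : H →L[ℂ] H => T y) this).symm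
    rw [h2, ← ContinuousLinearMap.adjoint_inner_left f, ← ContinuousLinearMap.star_eq_adjoint, hfs,
      hLf x hx, inner_zero_left]
  obtain ⟨S, hS, hS2, hS3⟩ := exists_maximal_family hM hLa hLc hL0
  have hcount := countable_family hη hS hS2
  obtain ⟨U, hUM, hU, hUG⟩ := exists_isometry (M := M) (L := L) (G := fix e) (isClosed_fix e)
    hS hS2 hS3 hcount (v := fun n => v ^ n) (fun n => pow_mem hvM n)
    (fun n x hx => by
      have h1 := hinner' n x x (hLe x hx)
      rw [inner_self_eq_norm_sq_to_K, inner_self_eq_norm_sq_to_K] at h1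
      have h2 : ‖(v ^ n) x‖ ^ 2 = ‖x‖ ^ 2 := by exact_mod_cast h1
      exact (sq_eq_sq₀ (norm_nonneg _) (norm_nonneg _)).1 h2)
    (fun n x hx => mem_fix.2 (hpe n x (hLe x hx)))
    (fun m n hmn x hx y hy => by
      rcases lt_or_gt_of_ne hmn with h | h
      · obtain ⟨k, rfl⟩ := Nat.exists_eq_add_of_lt h
        exact hort m k x y hx hy
      · obtain ⟨k, rfl⟩ := Nat.exists_eq_add_of_lt h
        rw [← inner_conj_symm]
        have := hort n k y x hy hx
        rw [show n + k + 1 = n + (k + 1) from rfl, this]; simp)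
  have heU : e * U = U := by
    ext x
    exact mem_fix.1 (hUG x)
  obtain ⟨w, hwM, hw1, hw2⟩ := schroeder_bernstein heM hes hee hUM hU heU
  exact ⟨star w, star_mem hwM, by rw [star_star, hw2], by rw [star_star, hw1]⟩

end Cmp

/-- every nonzero projection of `M` is equivalent to `1` -/
def AllEquivOne (M : VonNeumannAlgebra H) : Prop :=
  ∀ e ∈ M, star e = e → e * e = e → e ≠ 0 → ∃ v ∈ M, star v * v = e ∧ v * star v = 1

/-- A factor without nonzero finite projections which has a countable separating family of vectors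
(in particular: a faithful normal state) satisfies `IsTypeIII`: all nonzero projections are
equivalent to `1`. -/
theorem isTypeIII_of_literal {M : VonNeumannAlgebra H} (hM : IsFactor M) {η : ℕ → H}
    (hη : ∀ x ∈ M, (∀ i, x (η i) = 0) → x = 0) (h3 : IsTypeIII M) : AllEquivOne M := by
  intro e heM hes hee he0
  have h1 := h3 e heM hes hee he0
  unfold IsFiniteProj at h1
  push Not at h1
  obtain ⟨f, hfM, hfs, hff, hef, ⟨v, hvM, hv1, hv2⟩, hne⟩ := h1
  exact Cmp.equiv_one_of_infinite hM hη heM hes hee hvM hv1 (by rw [hv2, hef]) (by rw [hv2]; exact hne)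

/-- The version with a faithful normal state. -/
theorem isTypeIII_of_state {M : VonNeumannAlgebra H} (hM : IsFactor M)
    {φ : (H →L[ℂ] H) → ℂ} (hφ : IsNormalState M φ) (hφ' : IsFaithful M φ)
    (h3 : IsTypeIII M) : AllEquivOne M := by
  obtain ⟨η, -, hη⟩ := hφ
  refine isTypeIII_of_literal hM (η := η) ?_ h3
  intro x hx h0
  apply hφ' x hx
  have h1 := hη _ (mul_mem (star_mem hx) hx)
  have h2 : (fun i => ⟪η i, (star x * x) (η i)⟫_ℂ) = fun _ => 0 := by
    funext i
    show ⟪η i, (star x) (x (η i))⟫_ℂ = 0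
    rw [h0 i, map_zero, inner_zero_right]
  rw [h2] at h1
  exact h1.unique hasSum_zero

end Vale.Agent.P132
end

section

/-!
# P132: more comparison theory (projection language)
-/

open Filter Topology
open scoped InnerProductSpace

namespace Vale.Agent.P132

universe u

variable {H : Type u} [NormedAddCommGroup H] [InnerProductSpace ℂ H] [CompleteSpace H]

namespace Cmp

variable {M : VonNeumannAlgebra H}

/-- `e` is a projection of `M`. -/
structure IsPr (M : VonNeumannAlgebra H) (e : H →L[ℂ] H) : Prop where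
  mem : e ∈ M
  sa : star e = e
  idem : e * e = e

omit [CompleteSpace H] in
theorem eq_of_inner_self {S T : H →L[ℂ] H} (h : ∀ x, ⟪x, S x⟫_ℂ = ⟪x, T x⟫_ℂ) : S = T := by
  have h1 : (S : H →ₗ[ℂ] H) = (T : H →ₗ[ℂ] H) := by
    rw [← ext_inner_map]
    intro x
    have := congrArg (starRingEnd ℂ) (h x)
    rw [inner_conj_symm, inner_conj_symm] at this
    exact this
  ext x
  exact congrArg (fun L : H →ₗ[ℂ] H => L x) h1

theorem inner_star_mul_self (v : H →L[ℂ] H) (x : H) : ⟪x, (star v * v) x⟫_ℂ = (‖v x‖ : ℂ) ^ 2 := by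
  show ⟪x, (star v) (v x)⟫_ℂ = _
  rw [ContinuousLinearMap.star_eq_adjoint, ContinuousLinearMap.adjoint_inner_right,
    inner_self_eq_norm_sq_to_K]
  rfl

theorem inner_pr {e : H →L[ℂ] H} (hs : star e = e) (hi : e * e = e) (x : H) :
    ⟪x, e x⟫_ℂ = (‖e x‖ : ℂ) ^ 2 := by
  have : e = star e * e := by rw [hs, hi]
  conv_lhs => rw [this]
  exact inner_star_mul_self e x

end Cmp

end Vale.Agent.P132
end
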