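import Vale.Agent.P132.MathlibUsed
import Vale.Agent.P132.Bd8.B1

set_option linter.all false

namespace AFast084bfcx5a
@[reducible] def a0.{u1} {x1 : Type u1} [x2 : NormedAddCommGroup x1] [x3 : InnerProductSpace ℂ x1] : Semiring (x1 →L[ℂ] x1) := inferInstance
theorem a1 : ContinuousAdd ℂ := inferInstance
@[reducible] noncomputable def a2 : Semiring (BoundedContinuousFunction ℝ ℂ) := inferInstance
theorem a3.{u1} {x1 : Type u1} [x2 : NormedAddCommGroup x1] [x3 : InnerProductSpace ℂ x1] : DistribMulActionSemiHomClass (x1 →L[ℂ] x1) (⇑(RingHom.id ℂ)) x1 x1 := inferInstance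
theorem a4 : ContinuousMul ℂ := inferInstance
theorem a5 : IsSemitopologicalSemiring ℂ := inferInstance
theorem a6 : BoundedAdd ℂ := inferInstance
@[reducible] def a7.{u1} {x1 : Type u1} [x2 : NormedAddCommGroup x1] [x3 : InnerProductSpace ℂ x1] : NonAssocSemiring (x1 →L[ℂ] x1) := inferInstance
theorem a8 : IsTopologicalSemiring ℂ := inferInstance
theorem a9 : IsSemitopologicalRing ℂ := inferInstance
@[reducible] noncomputable def a10 : Star (BoundedContinuousFunction ℝ ℂ) := inferInstance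
@[reducible] noncomputable def a11 : InvolutiveStar (BoundedContinuousFunction ℝ ℂ) := inferInstance
@[reducible] def a12.{u1} {x1 : Type u1} [x2 : NormedAddCommGroup x1] [x3 : InnerProductSpace ℂ x1] : MulOneClass (x1 →L[ℂ] x1) := inferInstance
@[reducible] noncomputable def a13 : StarAddMonoid (BoundedContinuousFunction ℝ ℂ) := inferInstance
theorem a14 : IsTopologicalRing ℂ := inferInstance
theorem a15 : IsTopologicalAddGroup ℂ := inferInstance
theorem a16.{u1} {x1 : Type u1} [x2 : NormedAddCommGroup x1] [x3 : InnerProductSpace ℂ x1] : SemilinearMapClass (x1 →L[ℂ] x1) (RingHom.id ℂ) x1 x1 := inferInstance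
@[reducible] def a17.{u1} {x1 : Type u1} [x2 : NormedAddCommGroup x1] [x3 : InnerProductSpace ℂ x1] : Monoid (x1 →L[ℂ] x1) := inferInstance
@[reducible] noncomputable def a18 : NonAssocSemiring (BoundedContinuousFunction ℝ ℂ) := inferInstance
@[reducible] def a19.{u1} {x1 : Type u1} [x2 : NormedAddCommGroup x1] [x3 : InnerProductSpace ℂ x1] : MulZeroOneClass (x1 →L[ℂ] x1) := inferInstance
@[reducible] def a20.{u1} {x1 : Type u1} [x2 : NormedAddCommGroup x1] [x3 : InnerProductSpace ℂ x1] : AddMonoid (x1 →L[ℂ] x1) := inferInstance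
@[reducible] noncomputable def a21 : Module ℂ (BoundedContinuousFunction ℝ ℂ) := inferInstance
@[reducible] def a22.{u1} {x1 : Type u1} [x2 : NormedAddCommGroup x1] [x3 : InnerProductSpace ℂ x1] : NonAssocRing (x1 →L[ℂ] x1) := inferInstance
@[reducible] def a23.{u1} {x1 : Type u1} [x2 : NormedAddCommGroup x1] [x3 : InnerProductSpace ℂ x1] : AddCommMonoid (x1 →L[ℂ] x1) := inferInstance
@[reducible] def a24.{u1} {x1 : Type u1} [x2 : NormedAddCommGroup x1] [x3 : InnerProductSpace ℂ x1] : Add (x1 →L[ℂ] x1) := inferInstance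
@[reducible] def a25.{u1} {x1 : Type u1} [x2 : NormedAddCommGroup x1] [x3 : InnerProductSpace ℂ x1] : Ring (x1 →L[ℂ] x1) := inferInstance
@[reducible] def a26.{u1} {x1 : Type u1} [x2 : NormedAddCommGroup x1] [x3 : InnerProductSpace ℂ x1] : NonUnitalNonAssocSemiring (x1 →L[ℂ] x1) := inferInstance
theorem a27 : NormedStarGroup ℂ := inferInstance
@[reducible] def a28.{u1} {x1 : Type u1} [x2 : NormedAddCommGroup x1] [x3 : InnerProductSpace ℂ x1] : AddZero (x1 →L[ℂ] x1) := inferInstance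
@[reducible] def a29.{u1} {x1 : Type u1} [x2 : NormedAddCommGroup x1] [x3 : InnerProductSpace ℂ x1] : AddZeroClass (x1 →L[ℂ] x1) := inferInstance
@[reducible] noncomputable def a30 : Mul (BoundedContinuousFunction ℝ ℂ) := inferInstance
theorem a31 : CharZero ℝ := inferInstance
@[reducible] noncomputable def a32 : NormedSpace ℝ ℝ := inferInstance
theorem a33 : IsTopologicalDivisionRing ℂ := inferInstance
@[reducible] def a34.{u1} {x1 : Type u1} [x2 : NormedAddCommGroup x1] [x3 : InnerProductSpace ℂ x1] : SubNegMonoid (x1 →L[ℂ] x1) := inferInstance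
@[reducible] noncomputable def a35.{u1} {x1 : Type u1} [x2 : NormedAddCommGroup x1] [x3 : InnerProductSpace ℂ x1] : Norm (x1 →L[ℂ] x1) := inferInstance
theorem a36.{u1} {x1 : Type u1} [x2 : NormedAddCommGroup x1] [x3 : InnerProductSpace ℂ x1] : DistribMulActionSemiHomClass (x1 ≃ₗᵢ⋆[ℂ] x1) (⇑(starRingEnd ℂ)) x1 x1 := inferInstance
@[reducible] def a37.{u1} {x1 : Type u1} [x2 : NormedAddCommGroup x1] [x3 : InnerProductSpace ℂ x1] : NonUnitalNonAssocRing (x1 →L[ℂ] x1) := inferInstance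
@[reducible] noncomputable def a38.{u1} {x1 : Type u1} [x2 : NormedAddCommGroup x1] [x3 : InnerProductSpace ℂ x1] : SeminormedAddCommGroup (x1 →L[ℂ] x1) := inferInstance
@[reducible] def a39.{u1} {x1 : Type u1} [x2 : NormedAddCommGroup x1] [x3 : InnerProductSpace ℂ x1] : AddCommGroup (x1 →L[ℂ] x1) := inferInstance
@[reducible] noncomputable def a40 : NormedSpace ℝ ℂ := inferInstance
theorem a41.{u1} {x1 : Type u1} [x2 : NormedAddCommGroup x1] [x3 : InnerProductSpace ℂ x1] : MulActionSemiHomClass (x1 →L[ℂ] x1) (⇑(RingHom.id ℂ)) x1 x1 := inferInstance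
@[reducible] def a42.{u1} {x1 : Type u1} [x2 : NormedAddCommGroup x1] [x3 : InnerProductSpace ℂ x1] : Sub (x1 →L[ℂ] x1) := inferInstance
@[reducible] def a43.{u1} {x1 : Type u1} [x2 : NormedAddCommGroup x1] [x3 : InnerProductSpace ℂ x1] : MulOne (x1 →L[ℂ] x1) := inferInstance
end AFast084bfcx5a
attribute [local instance] AFast084bfcx5a.a0 AFast084bfcx5a.a1 AFast084bfcx5a.a2 AFast084bfcx5a.a3
  AFast084bfcx5a.a4 AFast084bfcx5a.a5 AFast084bfcx5a.a6 AFast084bfcx5a.a7 AFast084bfcx5a.a8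
  AFast084bfcx5a.a9 AFast084bfcx5a.a10 AFast084bfcx5a.a11 AFast084bfcx5a.a12 AFast084bfcx5a.a13
  AFast084bfcx5a.a14 AFast084bfcx5a.a15 AFast084bfcx5a.a16 AFast084bfcx5a.a17 AFast084bfcx5a.a18
  AFast084bfcx5a.a19 AFast084bfcx5a.a20 AFast084bfcx5a.a21 AFast084bfcx5a.a22 AFast084bfcx5a.a23
  AFast084bfcx5a.a24 AFast084bfcx5a.a25 AFast084bfcx5a.a26 AFast084bfcx5a.a27 AFast084bfcx5a.a28
  AFast084bfcx5a.a29 AFast084bfcx5a.a30 AFast084bfcx5a.a31 AFast084bfcx5a.a32 AFast084bfcx5a.a33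
  AFast084bfcx5a.a34 AFast084bfcx5a.a35 AFast084bfcx5a.a36 AFast084bfcx5a.a37 AFast084bfcx5a.a38
  AFast084bfcx5a.a39 AFast084bfcx5a.a40 AFast084bfcx5a.a41 AFast084bfcx5a.a42 AFast084bfcx5a.a43
namespace AFast084bfcx5b
@[reducible] def a0.{u1} {x1 : Type u1} [x2 : NormedAddCommGroup x1] [x3 : InnerProductSpace ℂ x1] : Algebra ℂ (x1 →L[ℂ] x1) := inferInstance
@[reducible] def a1.{u1} {x1 : Type u1} [x2 : NormedAddCommGroup x1] [x3 : InnerProductSpace ℂ x1] : Module ℂ (x1 →L[ℂ] x1) := inferInstance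
theorem a2.{u1} {x1 : Type u1} [x2 : NormedAddCommGroup x1] [x3 : InnerProductSpace ℂ x1] [x4 : CompleteSpace x1] : NonUnitalAlgHomClass (BoundedContinuousFunction ℝ ℂ →⋆ₐ[ℂ] x1 →L[ℂ] x1) ℂ (BoundedContinuousFunction ℝ ℂ) (x1 →L[ℂ] x1) := inferInstance
theorem a3.{u1} {x1 : Type u1} [x2 : NormedAddCommGroup x1] [x3 : InnerProductSpace ℂ x1] : AddMonoidHomClass (x1 →L[ℂ] x1) x1 x1 := inferInstance
theorem a4.{u1} {x1 : Type u1} [x2 : NormedAddCommGroup x1] [x3 : InnerProductSpace ℂ x1] [x4 : CompleteSpace x1] : LinearMapClass (BoundedContinuousFunction ℝ ℂ →⋆ₐ[ℂ] x1 →L[ℂ] x1) ℂ (BoundedContinuousFunction ℝ ℂ) (x1 →L[ℂ] x1) := inferInstance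
@[reducible] def a5.{u1} {x1 : Type u1} [x2 : NormedAddCommGroup x1] [x3 : InnerProductSpace ℂ x1] : SMul ℂ (x1 →L[ℂ] x1) := inferInstance
theorem a6.{u1} {x1 : Type u1} [x2 : NormedAddCommGroup x1] [x3 : InnerProductSpace ℂ x1] [x4 : CompleteSpace x1] : MulActionSemiHomClass (BoundedContinuousFunction ℝ ℂ →⋆ₐ[ℂ] x1 →L[ℂ] x1) (⇑(RingHom.id ℂ)) (BoundedContinuousFunction ℝ ℂ) (x1 →L[ℂ] x1) := inferInstance
@[reducible] noncomputable def a7.{u1} {x1 : Type u1} [x2 : NormedAddCommGroup x1] [x3 : InnerProductSpace ℂ x1] : NonUnitalNormedRing (x1 →L[ℂ] x1) := inferInstance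
theorem a8.{u1} {x1 : Type u1} [x2 : NormedAddCommGroup x1] [x3 : InnerProductSpace ℂ x1] [x4 : CompleteSpace x1] : MonoidWithZeroHomClass (BoundedContinuousFunction ℝ ℂ →⋆ₐ[ℂ] x1 →L[ℂ] x1) (BoundedContinuousFunction ℝ ℂ) (x1 →L[ℂ] x1) := inferInstance
theorem a9.{u1} {x1 : Type u1} [x2 : NormedAddCommGroup x1] [x3 : InnerProductSpace ℂ x1] [x4 : CompleteSpace x1] : AddHomClass (BoundedContinuousFunction ℝ ℂ →⋆ₐ[ℂ] x1 →L[ℂ] x1) (BoundedContinuousFunction ℝ ℂ) (x1 →L[ℂ] x1) := inferInstance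
theorem a10.{u1} {x1 : Type u1} [x2 : NormedAddCommGroup x1] [x3 : InnerProductSpace ℂ x1] [x4 : CompleteSpace x1] : OneHomClass (BoundedContinuousFunction ℝ ℂ →⋆ₐ[ℂ] x1 →L[ℂ] x1) (BoundedContinuousFunction ℝ ℂ) (x1 →L[ℂ] x1) := inferInstance
theorem a11.{u1} {x1 : Type u1} [x2 : NormedAddCommGroup x1] [x3 : InnerProductSpace ℂ x1] [x4 : CompleteSpace x1] : MonoidHomClass (BoundedContinuousFunction ℝ ℂ →⋆ₐ[ℂ] x1 →L[ℂ] x1) (BoundedContinuousFunction ℝ ℂ) (x1 →L[ℂ] x1) := inferInstance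
theorem a12.{u1} {x1 : Type u1} [x2 : NormedAddCommGroup x1] [x3 : InnerProductSpace ℂ x1] [x4 : CompleteSpace x1] : MulHomClass (BoundedContinuousFunction ℝ ℂ →⋆ₐ[ℂ] x1 →L[ℂ] x1) (BoundedContinuousFunction ℝ ℂ) (x1 →L[ℂ] x1) := inferInstance
theorem a13.{u1} {x1 : Type u1} [x2 : NormedAddCommGroup x1] [x3 : InnerProductSpace ℂ x1] [x4 : CompleteSpace x1] : AddMonoidHomClass (BoundedContinuousFunction ℝ ℂ →⋆ₐ[ℂ] x1 →L[ℂ] x1) (BoundedContinuousFunction ℝ ℂ) (x1 →L[ℂ] x1) := inferInstance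
theorem a14.{u1} {x1 : Type u1} [x2 : NormedAddCommGroup x1] [x3 : InnerProductSpace ℂ x1] [x4 : CompleteSpace x1] : DistribMulActionSemiHomClass (BoundedContinuousFunction ℝ ℂ →⋆ₐ[ℂ] x1 →L[ℂ] x1) (⇑(MonoidHom.id ℂ)) (BoundedContinuousFunction ℝ ℂ) (x1 →L[ℂ] x1) := inferInstance
@[reducible] noncomputable def a15.{u1} {x1 : Type u1} [x2 : NormedAddCommGroup x1] [x3 : InnerProductSpace ℂ x1] : NonUnitalSeminormedRing (x1 →L[ℂ] x1) := inferInstance
theorem a16.{u1} {x1 : Type u1} [x2 : NormedAddCommGroup x1] [x3 : InnerProductSpace ℂ x1] : ZeroHomClass (x1 →L[ℂ] x1) x1 x1 := inferInstance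
theorem a17.{u1} {x1 : Type u1} [x2 : NormedAddCommGroup x1] [x3 : InnerProductSpace ℂ x1] : AddMonoidHomClass (x1 ≃ₗᵢ⋆[ℂ] x1) x1 x1 := inferInstance
@[reducible] def a18.{u1} {x1 : Type u1} [x2 : NormedAddCommGroup x1] [x3 : InnerProductSpace ℂ x1] : SMulZeroClass ℂ (x1 →L[ℂ] x1) := inferInstance
@[reducible] def a19.{u1} {x1 : Type u1} [x2 : NormedAddCommGroup x1] [x3 : InnerProductSpace ℂ x1] : DistribSMul ℂ (x1 →L[ℂ] x1) := inferInstance
end AFast084bfcx5b
attribute [local instance] AFast084bfcx5b.a0 AFast084bfcx5b.a1 AFast084bfcx5b.a2 AFast084bfcx5b.a3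
  AFast084bfcx5b.a4 AFast084bfcx5b.a5 AFast084bfcx5b.a6 AFast084bfcx5b.a7 AFast084bfcx5b.a8
  AFast084bfcx5b.a9 AFast084bfcx5b.a10 AFast084bfcx5b.a11 AFast084bfcx5b.a12 AFast084bfcx5b.a13
  AFast084bfcx5b.a14 AFast084bfcx5b.a15 AFast084bfcx5b.a16 AFast084bfcx5b.a17 AFast084bfcx5b.a18
  AFast084bfcx5b.a19
section

/-!
# P132: the amplification of a von Neumann algebra to `ℓ²(ℕ, H)`
-/

open Filter Topology
open scoped InnerProductSpace ENNReal

namespace Vale.Agent.P132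

universe u

variable {H : Type u} [NormedAddCommGroup H] [InnerProductSpace ℂ H] [CompleteSpace H]

/-- `ℓ²(ℕ, H)` -/
abbrev EllTwo (H : Type u) [NormedAddCommGroup H] : Type u := lp (fun _ : ℕ => H) 2

theorem memℓp_two_iff (f : ℕ → H) : Memℓp f 2 ↔ Summable fun i => ‖f i‖ ^ 2 := by
  rw [memℓp_gen_iff (by norm_num)]
  norm_num

theorem L2_norm_sq (f : EllTwo H) : HasSum (fun i => ‖f i‖ ^ 2) (‖f‖ ^ 2) := by
  have h := lp.hasSum_inner (𝕜 := ℂ) f f
  have h2 := Complex.reCLM.hasSum h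
  simp only [Complex.reCLM_apply, inner_self_eq_norm_sq_to_K] at h2
  norm_cast at h2

theorem amp_mem (x : H →L[ℂ] H) (f : EllTwo H) : Memℓp (fun i => x (f i)) 2 := by
  rw [memℓp_two_iff]
  refine Summable.of_nonneg_of_le (fun _ => by positivity) (fun i => ?_)
    ((L2_norm_sq f).summable.mul_left (‖x‖ ^ 2))
  rw [← mul_pow]
  exact pow_le_pow_left₀ (norm_nonneg _) (x.le_opNorm _) 2

/-- the diagonal operator -/
noncomputable def amp (x : H →L[ℂ] H) : EllTwo H →L[ℂ] EllTwo H :=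
  LinearMap.mkContinuous
    { toFun := fun f => ⟨fun i => x (f i), amp_mem x f⟩
      map_add' := fun f g => by
        ext i
        exact x.map_add (f i) (g i)
      map_smul' := fun c f => by
        ext i
        exact x.map_smul c (f i) }
    ‖x‖ (fun f => by
      have h1 := (L2_norm_sq f).mul_left (‖x‖ ^ 2)
      have h2 := L2_norm_sq (⟨fun i => x (f i), amp_mem x f⟩ : EllTwo H)
      have h3 := hasSum_le (fun i => by
        rw [← mul_pow]
        exact pow_le_pow_left₀ (norm_nonneg _) (x.le_opNorm _) 2) h2 h1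
      rw [← mul_pow] at h3
      exact le_of_sq_le_sq h3 (by positivity))

@[simp] theorem amp_apply (x : H →L[ℂ] H) (f : EllTwo H) (i : ℕ) : amp x f i = x (f i) := rfl

theorem amp_mul (x y : H →L[ℂ] H) : amp (x * y) = amp x * amp y := rfl

theorem amp_add (x y : H →L[ℂ] H) : amp (x + y) = amp x + amp y := rfl

theorem amp_smul (c : ℂ) (x : H →L[ℂ] H) : amp (c • x) = c • amp x := rfl

theorem amp_one : amp (1 : H →L[ℂ] H) = 1 := rfl

theorem amp_zero : amp (0 : H →L[ℂ] H) = 0 := rfl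

theorem amp_star (x : H →L[ℂ] H) : amp (star x) = star (amp x) := by
  rw [ContinuousLinearMap.star_eq_adjoint (amp x), ContinuousLinearMap.eq_adjoint_iff]
  intro f g
  rw [lp.inner_eq_tsum, lp.inner_eq_tsum]
  congr 1
  funext i
  rw [amp_apply, amp_apply, ContinuousLinearMap.star_eq_adjoint,
    ContinuousLinearMap.adjoint_inner_left]

/-- embedding of the `i`-th coordinate -/
noncomputable def emb (i : ℕ) : H →L[ℂ] EllTwo H :=
  LinearMap.mkContinuous
    { toFun := fun x => lp.single (E := fun _ : ℕ => H) 2 i x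
      map_add' := fun x y => lp.single_add (E := fun _ : ℕ => H) 2 i x y
      map_smul' := fun c x => lp.single_smul (E := fun _ : ℕ => H) 2 i c x } 1 (fun x => by
    show ‖lp.single (E := fun _ : ℕ => H) 2 i x‖ ≤ 1 * ‖x‖
    rw [lp.norm_single (by norm_num), one_mul])

theorem emb_apply_self (i : ℕ) (x : H) : emb i x i = x :=
  lp.single_apply_self (E := fun _ : ℕ => H) 2 i x

theorem emb_apply_ne {i j : ℕ} (h : j ≠ i) (x : H) : emb i x j = 0 :=
  lp.single_apply_ne (E := fun _ : ℕ => H) 2 i x h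

/-- the `i`-th coordinate -/
noncomputable def crd (i : ℕ) : EllTwo H →L[ℂ] H :=
  LinearMap.mkContinuous
    { toFun := fun f => f i
      map_add' := fun f g => rfl
      map_smul' := fun c f => rfl } 1 (fun f => by
    rw [one_mul]
    exact lp.norm_apply_le_norm (by norm_num) f i)

@[simp] theorem crd_apply (i : ℕ) (f : EllTwo H) : crd i f = f i := rfl

theorem amp_emb (x : H →L[ℂ] H) (i : ℕ) (h : H) : amp x (emb i h) = emb i (x h) := by
  ext j
  rw [amp_apply]
  by_cases hj : j = i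
  · subst hj
    rw [emb_apply_self, emb_apply_self]
  · rw [emb_apply_ne hj, emb_apply_ne hj, map_zero]

variable (M : VonNeumannAlgebra H)

/-- the set of all diagonal operators with entries in `M` -/
def ampSet : Set (EllTwo H →L[ℂ] EllTwo H) := {T | ∃ x ∈ M, T = amp x}

/-- the amplification is a unital *-algebra -/
noncomputable def ampStar : StarSubalgebra ℂ (EllTwo H →L[ℂ] EllTwo H) where
  carrier := ampSet M
  mul_mem' := by
    rintro _ _ ⟨x, hx, rfl⟩ ⟨y, hy, rfl⟩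
    exact ⟨x * y, mul_mem hx hy, rfl⟩
  one_mem' := ⟨1, one_mem M, rfl⟩
  add_mem' := by
    rintro _ _ ⟨x, hx, rfl⟩ ⟨y, hy, rfl⟩
    exact ⟨x + y, add_mem hx hy, rfl⟩
  zero_mem' := ⟨0, zero_mem M, rfl⟩
  algebraMap_mem' := by
    intro c
    refine ⟨c • 1, M.toStarSubalgebra.smul_mem (one_mem M) c, ?_⟩
    rw [amp_smul, amp_one, Algebra.algebraMap_eq_smul_one]
  star_mem' := by
    rintro _ ⟨x, hx, rfl⟩
    exact ⟨star x, star_mem hx, (amp_star x).symm⟩

theorem ampSet_centralizer : Set.centralizer (Set.centralizer (ampSet M)) = ampSet M := by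
  apply Set.Subset.antisymm _ Set.subset_centralizer_centralizer
  intro T hT
  have hE : ∀ i j, emb i ∘L crd j ∈ Set.centralizer (ampSet M) := by
    rintro i j _ ⟨x, -, rfl⟩
    ext f : 1
    show amp x (emb i (f j)) = emb i (x (f j))
    exact amp_emb x i (f j)
  have hD : ∀ y ∈ M.commutant, amp y ∈ Set.centralizer (ampSet M) := by
    rintro y hy _ ⟨x, hx, rfl⟩
    rw [VonNeumannAlgebra.mem_commutant_iff] at hy
    rw [← amp_mul, ← amp_mul, hy x hx]
  let x₀ : H →L[ℂ] H := crd 0 ∘L T ∘L emb 0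
  have h1 : T = amp x₀ := by
    ext f i
    have h2 := hT _ (hE 0 i)
    have h3 := congrArg (fun S : EllTwo H →L[ℂ] EllTwo H => S f 0) h2
    have h4 : emb 0 (T f i) 0 = T (emb 0 (f i)) 0 := h3
    rw [emb_apply_self] at h4
    rw [h4]
    rfl
  refine ⟨x₀, ?_, h1⟩
  rw [vN_mem_iff]
  intro y hy
  have h2 := hT _ (hD y hy)
  ext h
  have h3 := congrArg (fun S : EllTwo H →L[ℂ] EllTwo H => S (emb 0 h) 0) h2
  have h4 : y (T (emb 0 h) 0) = T (amp y (emb 0 h)) 0 := h3
  rw [amp_emb] at h4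
  exact h4

/-- the amplification as a von Neumann algebra -/
noncomputable def ampVN : VonNeumannAlgebra (EllTwo H) where
  toStarSubalgebra := ampStar M
  centralizer_centralizer' := ampSet_centralizer M

end Vale.Agent.P132
end
namespace AFast084bfcx176a
@[reducible] noncomputable def a0.{u1} {x1 : Type u1} [x2 : NormedAddCommGroup x1] : SeminormedAddCommGroup (Vale.Agent.P132.EllTwo x1) := inferInstance
@[reducible] noncomputable def a1.{u1} {x1 : Type u1} [x2 : NormedAddCommGroup x1] : TopologicalSpace (Vale.Agent.P132.EllTwo x1) := inferInstance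
@[reducible] noncomputable def a2.{u1} {x1 : Type u1} [x2 : NormedAddCommGroup x1] : UniformSpace (Vale.Agent.P132.EllTwo x1) := inferInstance
@[reducible] noncomputable def a3.{u1} {x1 : Type u1} [x2 : NormedAddCommGroup x1] : PseudoMetricSpace (Vale.Agent.P132.EllTwo x1) := inferInstance
@[reducible] noncomputable def a4.{u1} {x1 : Type u1} [x2 : NormedAddCommGroup x1] : AddMonoid (Vale.Agent.P132.EllTwo x1) := inferInstance
@[reducible] noncomputable def a5.{u1} {x1 : Type u1} [x2 : NormedAddCommGroup x1] : AddZero (Vale.Agent.P132.EllTwo x1) := inferInstance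
@[reducible] noncomputable def a6.{u1} {x1 : Type u1} [x2 : NormedAddCommGroup x1] : AddZeroClass (Vale.Agent.P132.EllTwo x1) := inferInstance
@[reducible] noncomputable def a7.{u1} {x1 : Type u1} [x2 : NormedAddCommGroup x1] : AddCommMagma (Vale.Agent.P132.EllTwo x1) := inferInstance
@[reducible] noncomputable def a8.{u1} {x1 : Type u1} [x2 : NormedAddCommGroup x1] : AddCommSemigroup (Vale.Agent.P132.EllTwo x1) := inferInstance
theorem a9.{u1} {x1 : Type u1} [x2 : NormedAddCommGroup x1] [x3 : InnerProductSpace ℂ x1] : UniformContinuousConstSMul ℂ (Vale.Agent.P132.EllTwo x1) := inferInstance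
end AFast084bfcx176a
attribute [local instance] AFast084bfcx176a.a0 AFast084bfcx176a.a1 AFast084bfcx176a.a2
  AFast084bfcx176a.a3 AFast084bfcx176a.a4 AFast084bfcx176a.a5 AFast084bfcx176a.a6
  AFast084bfcx176a.a7 AFast084bfcx176a.a8 AFast084bfcx176a.a9
namespace AFast084bfcx176b
@[reducible] noncomputable def a0.{u1} {x1 : Type u1} [x2 : NormedAddCommGroup x1] [x3 : InnerProductSpace ℂ x1] : SMul ℂ (Vale.Agent.P132.EllTwo x1) := inferInstance
@[reducible] noncomputable def a1.{u1} {x1 : Type u1} [x2 : NormedAddCommGroup x1] : AddCommMonoid (Vale.Agent.P132.EllTwo x1) := inferInstance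
@[reducible] noncomputable def a2.{u1} {x1 : Type u1} [x2 : NormedAddCommGroup x1] [x3 : InnerProductSpace ℂ x1] : SMulZeroClass ℂ (Vale.Agent.P132.EllTwo x1) := inferInstance
@[reducible] noncomputable def a3.{u1} {x1 : Type u1} [x2 : NormedAddCommGroup x1] [x3 : InnerProductSpace ℂ x1] : DistribSMul ℂ (Vale.Agent.P132.EllTwo x1) := inferInstance
@[reducible] noncomputable def a4.{u1} {x1 : Type u1} [x2 : NormedAddCommGroup x1] [x3 : InnerProductSpace ℂ x1] : DistribMulAction ℂ (Vale.Agent.P132.EllTwo x1) := inferInstance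
@[reducible] noncomputable def a5.{u1} {x1 : Type u1} [x2 : NormedAddCommGroup x1] [x3 : InnerProductSpace ℂ x1] : SMul ℂ (Vale.Agent.P132.EllTwo x1 →L[ℂ] Vale.Agent.P132.EllTwo x1) := inferInstance
theorem a6.{u1} {x1 : Type u1} [x2 : NormedAddCommGroup x1] [x3 : InnerProductSpace ℂ x1] : ContinuousConstSMul ℂ (Vale.Agent.P132.EllTwo x1) := inferInstance
@[reducible] noncomputable def a7.{u1} {x1 : Type u1} [x2 : NormedAddCommGroup x1] [x3 : InnerProductSpace ℂ x1] : Semiring (Vale.Agent.P132.EllTwo x1 →L[ℂ] Vale.Agent.P132.EllTwo x1) := inferInstance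
@[reducible] noncomputable def a8.{u1} {x1 : Type u1} [x2 : NormedAddCommGroup x1] [x3 : InnerProductSpace ℂ x1] : Algebra ℂ (Vale.Agent.P132.EllTwo x1 →L[ℂ] Vale.Agent.P132.EllTwo x1) := inferInstance
@[reducible] noncomputable def a9.{u1} {x1 : Type u1} [x2 : NormedAddCommGroup x1] [x3 : InnerProductSpace ℂ x1] : Add (Vale.Agent.P132.EllTwo x1 →L[ℂ] Vale.Agent.P132.EllTwo x1) := inferInstance
theorem a10.{u1} {x1 : Type u1} [x2 : NormedAddCommGroup x1] : IsTopologicalAddGroup (Vale.Agent.P132.EllTwo x1) := inferInstance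
theorem a11.{u1} {x1 : Type u1} [x2 : NormedAddCommGroup x1] : ContinuousAdd (Vale.Agent.P132.EllTwo x1) := inferInstance
@[reducible] noncomputable def a12.{u1} {x1 : Type u1} [x2 : NormedAddCommGroup x1] [x3 : InnerProductSpace ℂ x1] : AddMonoid (Vale.Agent.P132.EllTwo x1 →L[ℂ] Vale.Agent.P132.EllTwo x1) := inferInstance
@[reducible] noncomputable def a13.{u1} {x1 : Type u1} [x2 : NormedAddCommGroup x1] [x3 : InnerProductSpace ℂ x1] : AddCommMonoid (Vale.Agent.P132.EllTwo x1 →L[ℂ] Vale.Agent.P132.EllTwo x1) := inferInstance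
@[reducible] noncomputable def a14.{u1} {x1 : Type u1} [x2 : NormedAddCommGroup x1] [x3 : InnerProductSpace ℂ x1] : MulAction ℂ (Vale.Agent.P132.EllTwo x1) := inferInstance
@[reducible] noncomputable def a15.{u1} {x1 : Type u1} [x2 : NormedAddCommGroup x1] [x3 : InnerProductSpace ℂ x1] : SemigroupAction ℂ (Vale.Agent.P132.EllTwo x1) := inferInstance
@[reducible] noncomputable def a16.{u1} {x1 : Type u1} [x2 : NormedAddCommGroup x1] [x3 : InnerProductSpace ℂ x1] : NonUnitalNonAssocSemiring (Vale.Agent.P132.EllTwo x1 →L[ℂ] Vale.Agent.P132.EllTwo x1) := inferInstance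
@[reducible] noncomputable def a17.{u1} {x1 : Type u1} [x2 : NormedAddCommGroup x1] [x3 : InnerProductSpace ℂ x1] : AddZero (Vale.Agent.P132.EllTwo x1 →L[ℂ] Vale.Agent.P132.EllTwo x1) := inferInstance
@[reducible] noncomputable def a18.{u1} {x1 : Type u1} [x2 : NormedAddCommGroup x1] [x3 : InnerProductSpace ℂ x1] : MulOne (Vale.Agent.P132.EllTwo x1 →L[ℂ] Vale.Agent.P132.EllTwo x1) := inferInstance
@[reducible] noncomputable def a19.{u1} {x1 : Type u1} [x2 : NormedAddCommGroup x1] [x3 : InnerProductSpace ℂ x1] : AddZeroClass (Vale.Agent.P132.EllTwo x1 →L[ℂ] Vale.Agent.P132.EllTwo x1) := inferInstance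
@[reducible] noncomputable def a20.{u1} {x1 : Type u1} [x2 : NormedAddCommGroup x1] [x3 : InnerProductSpace ℂ x1] : MulOneClass (Vale.Agent.P132.EllTwo x1 →L[ℂ] Vale.Agent.P132.EllTwo x1) := inferInstance
@[reducible] noncomputable def a21.{u1} {x1 : Type u1} [x2 : NormedAddCommGroup x1] [x3 : InnerProductSpace ℂ x1] : NonAssocSemiring (Vale.Agent.P132.EllTwo x1 →L[ℂ] Vale.Agent.P132.EllTwo x1) := inferInstance
end AFast084bfcx176b
attribute [local instance] AFast084bfcx176b.a0 AFast084bfcx176b.a1 AFast084bfcx176b.a2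
  AFast084bfcx176b.a3 AFast084bfcx176b.a4 AFast084bfcx176b.a5 AFast084bfcx176b.a6
  AFast084bfcx176b.a7 AFast084bfcx176b.a8 AFast084bfcx176b.a9 AFast084bfcx176b.a10
  AFast084bfcx176b.a11 AFast084bfcx176b.a12 AFast084bfcx176b.a13 AFast084bfcx176b.a14
  AFast084bfcx176b.a15 AFast084bfcx176b.a16 AFast084bfcx176b.a17 AFast084bfcx176b.a18
  AFast084bfcx176b.a19 AFast084bfcx176b.a20 AFast084bfcx176b.a21

section

open Filter Topology
open scoped ComplexConjugate InnerProductSpace BoundedContinuousFunction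

namespace Vale.Agent.P132

universe u

variable {H : Type u} [NormedAddCommGroup H] [InnerProductSpace ℂ H] [CompleteSpace H]

namespace ModData

variable {M : VonNeumannAlgebra H} {ξ : H} (D : ModData M ξ)

/-- right multiplication `ζ ↦ ζ a = J a* J ζ` -/
noncomputable def Rm (a : H →L[ℂ] H) : H →L[ℂ] H := jconj D.J (star a)

/-- the commutator `[a, ζ] = a ζ - ζ a` -/
noncomputable def cm (a : H →L[ℂ] H) (ζ : H) : H := a ζ - D.Rm a ζ

/-- `U t = Δ^{it}` -/
noncomputable def U (t : ℝ) : H →L[ℂ] H := D.Th (expB t)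

/-- the modular group `sg t a = Δ^{it} a Δ^{-it}` -/
noncomputable def sg (t : ℝ) (a : H →L[ℂ] H) : H →L[ℂ] H := D.U t * a * D.U (-t)

/-- `x ∈ M` asymptotically commutes with unitaries almost commuting with `ξ`. -/
def InN (x : H →L[ℂ] H) : Prop :=
  x ∈ M ∧ ∀ ε > 0, ∃ δ > 0, ∀ u ∈ M, u ∈ unitary (H →L[ℂ] H) → ‖D.cm u ξ‖ ≤ δ →
    ‖x (u ξ) - u (x ξ)‖ ≤ ε

theorem inner_J_J (ζ η : H) : ⟪D.J ζ, D.J η⟫_ℂ = ⟪η, ζ⟫_ℂ := by
  have h1 := inner_eq_sum_norm_sq_div_four (𝕜 := ℂ) (D.J ζ) (D.J η)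
  have h2 := inner_eq_sum_norm_sq_div_four (𝕜 := ℂ) η ζ
  have e1 : ‖D.J ζ + D.J η‖ = ‖ζ + η‖ := by rw [← map_add, D.J.norm_map]
  have e2 : ‖D.J ζ - D.J η‖ = ‖ζ - η‖ := by rw [← map_sub, D.J.norm_map]
  have e3 : ‖D.J ζ - RCLike.I (K := ℂ) • D.J η‖ = ‖η - RCLike.I (K := ℂ) • ζ‖ := by
    have : D.J ζ - RCLike.I (K := ℂ) • D.J η = D.J (ζ + RCLike.I (K := ℂ) • η) := by
      simp [map_smulₛₗ, sub_eq_add_neg]
    rw [this, D.J.norm_map]
    have : ζ + RCLike.I (K := ℂ) • η = RCLike.I (K := ℂ) • (η - RCLike.I (K := ℂ) • ζ) := by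
      rw [smul_sub, smul_smul]; simp [add_comm]
    rw [this, norm_smul]; simp
  have e4 : ‖D.J ζ + RCLike.I (K := ℂ) • D.J η‖ = ‖η + RCLike.I (K := ℂ) • ζ‖ := by
    have : D.J ζ + RCLike.I (K := ℂ) • D.J η = D.J (ζ - RCLike.I (K := ℂ) • η) := by
      simp [map_smulₛₗ, sub_eq_add_neg]
    rw [this, D.J.norm_map]
    have : ζ - RCLike.I (K := ℂ) • η = -(RCLike.I (K := ℂ) • (η + RCLike.I (K := ℂ) • ζ)) := by
      rw [smul_add, smul_smul]; simp [sub_eq_add_neg, add_comm]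
    rw [this, norm_neg, norm_smul]; simp
  rw [h1, h2, e1, e2, e3, e4, add_comm ζ η, norm_sub_rev ζ η]

theorem inner_J_left (ζ η : H) : ⟪D.J ζ, η⟫_ℂ = ⟪D.J η, ζ⟫_ℂ := by
  conv_lhs => rw [← D.J_J η]
  rw [D.inner_J_J]

theorem inner_J_right (ζ η : H) : ⟪ζ, D.J η⟫_ℂ = ⟪η, D.J ζ⟫_ℂ := by
  conv_lhs => rw [← D.J_J ζ]
  rw [D.inner_J_J]

@[simp] theorem norm_J (ζ : H) : ‖D.J ζ‖ = ‖ζ‖ := D.J.norm_map ζ

/-! ### right action -/

theorem Rm_apply (a : H →L[ℂ] H) (ζ : H) : D.Rm a ζ = D.J (star a (D.J ζ)) := rfl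

theorem jconj_mul (a b : H →L[ℂ] H) : jconj D.J (a * b) = jconj D.J a * jconj D.J b := by
  ext ζ; simp [D.J_J]

theorem star_jconj (a : H →L[ℂ] H) : star (jconj D.J a) = jconj D.J (star a) := by
  rw [ContinuousLinearMap.star_eq_adjoint]
  symm
  rw [ContinuousLinearMap.eq_adjoint_iff]
  intro x y
  rw [jconj_apply, jconj_apply, D.inner_J_left, D.inner_J_right, ContinuousLinearMap.star_eq_adjoint,
    ContinuousLinearMap.adjoint_inner_right]

theorem Rm_xi (a : H →L[ℂ] H) : D.Rm a ξ = D.J (star a ξ) := by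
  rw [Rm_apply, D.J_xi]

@[simp] theorem Rm_one : D.Rm 1 = 1 := by
  ext ζ; simp [Rm_apply, D.J_J]

@[simp] theorem Rm_zero : D.Rm 0 = 0 := by
  ext ζ; simp [Rm_apply]

theorem Rm_add (a b : H →L[ℂ] H) : D.Rm (a + b) = D.Rm a + D.Rm b := by
  ext ζ; simp [Rm_apply]

theorem Rm_sub (a b : H →L[ℂ] H) : D.Rm (a - b) = D.Rm a - D.Rm b := by
  ext ζ; simp [Rm_apply]

theorem Rm_smul (c : ℂ) (a : H →L[ℂ] H) : D.Rm (c • a) = c • D.Rm a := by
  ext ζ; simp [Rm_apply, map_smulₛₗ]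

theorem Rm_mul (a b : H →L[ℂ] H) : D.Rm (a * b) = D.Rm b * D.Rm a := by
  simp only [Rm, star_mul, jconj_mul]

theorem Rm_sum {ι : Type*} (s : Finset ι) (f : ι → H →L[ℂ] H) :
    D.Rm (∑ i ∈ s, f i) = ∑ i ∈ s, D.Rm (f i) := by
  classical
  induction s using Finset.induction_on with
  | empty => simp
  | insert i s hi ih => rw [Finset.sum_insert hi, Finset.sum_insert hi, Rm_add, ih]

theorem star_Rm (a : H →L[ℂ] H) : star (D.Rm a) = D.Rm (star a) := by
  rw [Rm, star_jconj, Rm]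

theorem norm_Rm_le (a : H →L[ℂ] H) : ‖D.Rm a‖ ≤ ‖a‖ := by
  refine ContinuousLinearMap.opNorm_le_bound _ (norm_nonneg _) fun ζ => ?_
  rw [Rm_apply, D.norm_J]
  calc ‖star a (D.J ζ)‖ ≤ ‖star a‖ * ‖D.J ζ‖ := (star a).le_opNorm _
    _ = ‖a‖ * ‖ζ‖ := by rw [norm_star, D.norm_J]

theorem Rm_mem {a : H →L[ℂ] H} (ha : a ∈ M) : D.Rm a ∈ M.commutant :=
  D.J_mem _ (star_mem ha)

theorem comm_apply {a : H →L[ℂ] H} (ha : a ∈ M) {b : H →L[ℂ] H} (hb : b ∈ M.commutant) (ζ : H) :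
    a (b ζ) = b (a ζ) := by
  have := (VonNeumannAlgebra.mem_commutant_iff.1 hb) a ha
  exact congrArg (fun f : H →L[ℂ] H => f ζ) this

theorem comm_Rm {a b : H →L[ℂ] H} (ha : a ∈ M) (hb : b ∈ M) (ζ : H) :
    a (D.Rm b ζ) = D.Rm b (a ζ) := comm_apply ha (D.Rm_mem hb) ζ

/-- `J (a ζ) = (J ζ) a*` -/
theorem J_apply_eq (a : H →L[ℂ] H) (ζ : H) : D.J (a ζ) = D.Rm (star a) (D.J ζ) := by
  simp [Rm_apply, D.J_J]

/-- `J (ζ a) = a* (J ζ)` -/
theorem J_Rm (a : H →L[ℂ] H) (ζ : H) : D.J (D.Rm a ζ) = star a (D.J ζ) := by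
  simp [Rm_apply, D.J_J]

theorem norm_Rm_xi (a : H →L[ℂ] H) : ‖D.Rm a ξ‖ = ‖star a ξ‖ := by
  rw [D.Rm_xi, D.norm_J]

theorem cm_star_xi (a : H →L[ℂ] H) : D.cm (star a) ξ = -D.J (D.cm a ξ) := by
  simp [cm, Rm_apply, D.J_xi, map_sub, D.J_J]

theorem norm_cm_star_xi (a : H →L[ℂ] H) : ‖D.cm (star a) ξ‖ = ‖D.cm a ξ‖ := by
  rw [cm_star_xi, norm_neg, D.norm_J]

theorem cm_add (a b : H →L[ℂ] H) (ζ : H) : D.cm (a + b) ζ = D.cm a ζ + D.cm b ζ := by
  simp [cm, Rm_add]; abel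

theorem cm_smul (c : ℂ) (a : H →L[ℂ] H) (ζ : H) : D.cm (c • a) ζ = c • D.cm a ζ := by
  simp [cm, Rm_smul, smul_sub]

/-! ### the unitary group -/

@[simp] theorem expB_zero : expB 0 = 1 := by
  ext h; simp

theorem expB_add (s t : ℝ) : expB (s + t) = expB s * expB t := by
  ext h
  simp only [expB_apply, BoundedContinuousFunction.coe_mul, Pi.mul_apply, ← Complex.exp_add]
  congr 1; push_cast; ring

theorem star_expB (t : ℝ) : star (expB t) = expB (-t) := by
  ext h
  simp only [BoundedContinuousFunction.coe_star, Pi.star_apply, expB_apply, RCLike.star_def,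
    ← Complex.exp_conj]
  congr 1
  simp

theorem reflB_expB (t : ℝ) : reflB (expB t) = expB t := by
  ext h
  simp only [reflB_apply, expB_apply, ← Complex.exp_conj]
  congr 1
  simp

@[simp] theorem U_zero : D.U 0 = 1 := by
  simp [U]

theorem U_add (s t : ℝ) : D.U (s + t) = D.U s * D.U t := by
  simp [U, expB_add]

theorem star_U (t : ℝ) : star (D.U t) = D.U (-t) := by
  rw [U, ← map_star, star_expB]; rfl

theorem U_mul_U_neg (t : ℝ) : D.U t * D.U (-t) = 1 := by
  rw [← U_add]; simp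

theorem U_neg_mul_U (t : ℝ) : D.U (-t) * D.U t = 1 := by
  rw [← U_add]; simp

theorem U_neg_apply (t : ℝ) (ζ : H) : D.U (-t) (D.U t ζ) = ζ := by
  have := congrArg (fun f : H →L[ℂ] H => f ζ) (D.U_neg_mul_U t)
  simpa using this

theorem U_apply_neg (t : ℝ) (ζ : H) : D.U t (D.U (-t) ζ) = ζ := by
  have := congrArg (fun f : H →L[ℂ] H => f ζ) (D.U_mul_U_neg t)
  simpa using this

theorem U_add_apply (s t : ℝ) (ζ : H) : D.U (s + t) ζ = D.U s (D.U t ζ) := by
  rw [U_add]; rfl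

theorem inner_U_U (t : ℝ) (ζ η : H) : ⟪D.U t ζ, D.U t η⟫_ℂ = ⟪ζ, η⟫_ℂ := by
  rw [← ContinuousLinearMap.adjoint_inner_right, ← ContinuousLinearMap.star_eq_adjoint, star_U,
    U_neg_apply]

@[simp] theorem norm_U (t : ℝ) (ζ : H) : ‖D.U t ζ‖ = ‖ζ‖ := by
  rw [@norm_eq_sqrt_re_inner ℂ, @norm_eq_sqrt_re_inner ℂ _ _ _ _ ζ, inner_U_U]

@[simp] theorem U_xi (t : ℝ) : D.U t ξ = ξ := by
  rw [U, D.Th_xi]; simp

theorem J_U (t : ℝ) (ζ : H) : D.J (D.U t ζ) = D.U t (D.J ζ) := by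
  rw [U, D.J_Th, reflB_expB]

theorem sg_apply (t : ℝ) (a : H →L[ℂ] H) (ζ : H) : D.sg t a ζ = D.U t (a (D.U (-t) ζ)) := rfl

theorem sg_mem {a : H →L[ℂ] H} (ha : a ∈ M) (t : ℝ) : D.sg t a ∈ M := D.U_mem a ha t

@[simp] theorem sg_zero (a : H →L[ℂ] H) : D.sg 0 a = a := by
  simp [sg]

theorem sg_add_left (s t : ℝ) (a : H →L[ℂ] H) : D.sg (s + t) a = D.sg s (D.sg t a) := by
  simp only [sg, U_add, neg_add_rev, mul_assoc]

theorem sg_mul (t : ℝ) (a b : H →L[ℂ] H) : D.sg t (a * b) = D.sg t a * D.sg t b := by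
  ext ζ
  simp [sg_apply, U_neg_apply]

@[simp] theorem sg_one (t : ℝ) : D.sg t 1 = 1 := by
  simp [sg, U_mul_U_neg]

theorem star_sg (t : ℝ) (a : H →L[ℂ] H) : star (D.sg t a) = D.sg t (star a) := by
  simp [sg, star_mul, star_U, mul_assoc]

theorem norm_sg_le (t : ℝ) (a : H →L[ℂ] H) : ‖D.sg t a‖ ≤ ‖a‖ := by
  refine ContinuousLinearMap.opNorm_le_bound _ (norm_nonneg _) fun ζ => ?_
  rw [sg_apply, norm_U]
  calc ‖a (D.U (-t) ζ)‖ ≤ ‖a‖ * ‖D.U (-t) ζ‖ := a.le_opNorm _
    _ = ‖a‖ * ‖ζ‖ := by rw [norm_U]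

theorem sg_xi (t : ℝ) (a : H →L[ℂ] H) : D.sg t a ξ = D.U t (a ξ) := by
  rw [sg_apply, U_xi]

theorem sg_U_apply (t : ℝ) (a : H →L[ℂ] H) (ζ : H) : D.sg t a (D.U t ζ) = D.U t (a ζ) := by
  rw [sg_apply, U_neg_apply]

theorem Rm_sg (t : ℝ) (a : H →L[ℂ] H) : D.Rm (D.sg t a) = D.sg t (D.Rm a) := by
  ext ζ
  rw [Rm_apply, star_sg, sg_apply, sg_apply, J_U, Rm_apply, ← J_U]
  simp [J_U]

theorem Rm_sg_U (t : ℝ) (a : H →L[ℂ] H) (ζ : H) :
    D.Rm (D.sg t a) (D.U t ζ) = D.U t (D.Rm a ζ) := by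
  rw [Rm_sg, sg_U_apply]

theorem cm_sg_U (t : ℝ) (a : H →L[ℂ] H) (ζ : H) :
    D.cm (D.sg t a) (D.U t ζ) = D.U t (D.cm a ζ) := by
  rw [cm, cm, sg_U_apply, Rm_sg_U, map_sub]

theorem cm_sg_xi (t : ℝ) (a : H →L[ℂ] H) : D.cm (D.sg t a) ξ = D.U t (D.cm a ξ) := by
  have := D.cm_sg_U t a ξ
  rwa [U_xi] at this

theorem sg_mem_commutant {y : H →L[ℂ] H} (hy : y ∈ M.commutant) (t : ℝ) :
    D.sg t y ∈ M.commutant := by
  rw [VonNeumannAlgebra.mem_commutant_iff] at hy ⊢
  intro g hg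
  have h1 := hy _ (D.sg_mem hg (-t))
  have h2 := congrArg (D.sg t) h1
  rw [sg_mul, sg_mul, ← sg_add_left] at h2
  simpa using h2

theorem sg_mem_unitary {u : H →L[ℂ] H} (hu : u ∈ unitary (H →L[ℂ] H)) (t : ℝ) :
    D.sg t u ∈ unitary (H →L[ℂ] H) := by
  rw [Unitary.mem_iff] at hu ⊢
  rw [star_sg, ← sg_mul, ← sg_mul, hu.1, hu.2, sg_one]
  exact ⟨rfl, rfl⟩

include D in
/-- elements of `M` are determined by their action on `ξ` -/
theorem ext_xi {a b : H →L[ℂ] H} (ha : a ∈ M) (hb : b ∈ M) (h : a ξ = b ξ) : a = b := by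
  refine ContinuousLinearMap.ext fun ζ => ?_
  have hcl : IsClosed {ζ : H | a ζ = b ζ} := isClosed_eq a.continuous b.continuous
  have hsub : {ζ : H | ∃ c ∈ M.commutant, c ξ = ζ} ⊆ {ζ : H | a ζ = b ζ} := by
    rintro _ ⟨c, hc, rfl⟩
    show a (c ξ) = b (c ξ)
    rw [comm_apply ha hc, comm_apply hb hc, h]
  have := D.cyc'.closure_eq ▸ hcl.closure_subset_iff.2 hsub
  exact this (Set.mem_univ ζ)

include D in
/-- elements of the commutant are determined by their action on `ξ` -/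
theorem ext_xi' {a b : H →L[ℂ] H} (ha : a ∈ M.commutant) (hb : b ∈ M.commutant)
    (h : a ξ = b ξ) : a = b := by
  refine ContinuousLinearMap.ext fun ζ => ?_
  have hcl : IsClosed {ζ : H | a ζ = b ζ} := isClosed_eq a.continuous b.continuous
  have hsub : {ζ : H | ∃ c ∈ M, c ξ = ζ} ⊆ {ζ : H | a ζ = b ζ} := by
    rintro _ ⟨c, hc, rfl⟩
    show a (c ξ) = b (c ξ)
    rw [← comm_apply hc ha, ← comm_apply hc hb, h]
  have := D.cyc.closure_eq ▸ hcl.closure_subset_iff.2 hsub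
  exact this (Set.mem_univ ζ)

theorem norm_Th_le (F : ℝ →ᵇ ℂ) : ‖D.Th F‖ ≤ ‖F‖ :=
  NonUnitalStarAlgHom.norm_apply_le D.Th F

end ModData

end Vale.Agent.P132
end

section

open Filter Topology
open scoped ComplexConjugate InnerProductSpace BoundedContinuousFunction

namespace Vale.Agent.P132

universe u

variable {H : Type u} [NormedAddCommGroup H] [InnerProductSpace ℂ H] [CompleteSpace H]

namespace ModData

variable {M : VonNeumannAlgebra H} {ξ : H} (D : ModData M ξ)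

/-- `ζ` has spectral support (for `log Δ`) inside the open interval `(h₁, h₂)`. -/
def Win (h₁ h₂ : ℝ) (ζ : H) : Prop :=
  ∃ F : ℝ →ᵇ ℂ, (∀ h, h ∉ Set.Ioo h₁ h₂ → F h = 0) ∧ D.Th F ζ = ζ

/-- the modular group acts ergodically on `N` (i.e. `N ∩ M_φ = ℂ`). -/
def Erg : Prop := ∀ x, D.InN x → (∀ t : ℝ, D.U t (x ξ) = x ξ) → ∃ c : ℂ, x = c • 1

/-- average of `f` over `j τ / n`, `j < n ^ 3` -/
noncomputable def avg {E : Type*} [AddCommGroup E] [Module ℝ E] (τ : ℝ) (n : ℕ) (f : ℝ → E) : E :=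
  ((n : ℝ) ^ 3)⁻¹ • ∑ j ∈ Finset.range (n ^ 3), f (j * τ / n)

/-- `g_k = (1/K) ∑_{r<K} ω^{-rk} U(rτ)`, `ω = exp (2πi/K)` -/
noncomputable def gg (τ : ℝ) (K k : ℕ) : H →L[ℂ] H :=
  ((K : ℂ))⁻¹ • ∑ r ∈ Finset.range K,
    Complex.exp (-(2 * Real.pi * Complex.I * (r * k : ℕ) / K)) • D.U (r * τ)

/-- `η ↦ E_t b_t η b_t*` -/
noncomputable def TT (τ : ℝ) (n : ℕ) (b : H →L[ℂ] H) : H →L[ℂ] H :=
  avg τ n (fun t => D.sg t b * D.Rm (star (D.sg t b)))

end ModData

end Vale.Agent.P132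
end

section

open Filter Topology MeasureTheory
open scoped ComplexConjugate InnerProductSpace BoundedContinuousFunction CompactlySupported

namespace Vale.Agent.P132

universe u

variable {H : Type u} [NormedAddCommGroup H] [InnerProductSpace ℂ H] [CompleteSpace H]

/-- real valued compactly supported function as a bounded complex function -/
noncomputable def ccB (f : C_c(ℝ, ℝ)) : ℝ →ᵇ ℂ :=
  BoundedContinuousFunction.ofNormedAddCommGroup (fun h : ℝ => ((f h : ℝ) : ℂ))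
    (by have := f.continuous; fun_prop)
    (Classical.choose (f.hasCompactSupport.exists_bound_of_continuous f.continuous))
    (fun h => by
      rw [Complex.norm_real]
      exact Classical.choose_spec
        (f.hasCompactSupport.exists_bound_of_continuous f.continuous) h)

@[simp] theorem ccB_apply (f : C_c(ℝ, ℝ)) (h : ℝ) : ccB f h = ((f h : ℝ) : ℂ) := rfl

/-- the cutoff `1` on `[-n,n]`, `0` outside `[-n-1,n+1]` -/
noncomputable def cutoff (n : ℕ) : C_c(ℝ, ℝ) where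
  toFun h := max 0 (min 1 (n + 1 - |h|))
  continuous_toFun := by fun_prop
  hasCompactSupport' := by
    apply HasCompactSupport.intro (K := Set.Icc (-(n + 1 : ℝ)) (n + 1)) isCompact_Icc
    intro x hx
    have : (n : ℝ) + 1 < |x| := by
      by_contra hcon
      push Not at hcon
      exact hx (abs_le.mp hcon)
    apply max_eq_left
    exact (min_le_right _ _).trans (by linarith)

theorem cutoff_apply (n : ℕ) (h : ℝ) : cutoff n h = max 0 (min 1 (n + 1 - |h|)) := rfl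

theorem cutoff_nonneg (n : ℕ) (h : ℝ) : 0 ≤ cutoff n h := le_max_left _ _

theorem cutoff_le_one (n : ℕ) (h : ℝ) : cutoff n h ≤ 1 :=
  max_le zero_le_one (min_le_left _ _)

theorem cutoff_eq_one (n : ℕ) (h : ℝ) (hh : |h| ≤ n) : cutoff n h = 1 := by
  rw [cutoff_apply, min_eq_left (by linarith), max_eq_right zero_le_one]

theorem tendsto_cutoff (h : ℝ) : Tendsto (fun n : ℕ => cutoff n h) atTop (𝓝 1) := by
  apply tendsto_const_nhds.congr'
  filter_upwards [eventually_ge_atTop ⌈|h|⌉₊] with n hn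
  exact (cutoff_eq_one n h ((Nat.le_ceil _).trans (by exact_mod_cast hn))).symm

section general

variable (Th : (ℝ →ᵇ ℂ) →⋆ₐ[ℂ] (H →L[ℂ] H))

theorem Th_norm_sq (F : ℝ →ᵇ ℂ) (v : H) :
    ⟪v, Th (star F * F) v⟫_ℂ = ((‖Th F v‖ ^ 2 : ℝ) : ℂ) := by
  rw [map_mul, map_star, mul_apply_eq_comp, ContinuousLinearMap.star_eq_adjoint,
    ContinuousLinearMap.adjoint_inner_right, inner_self_eq_norm_sq_to_K]
  push_cast
  rfl

/-- positivity of `Th` on nonnegative real functions -/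
theorem Th_pos (F : ℝ →ᵇ ℂ) (f : ℝ → ℝ) (hf : Continuous f) (hF : ∀ h, F h = (f h : ℂ))
    (hpos : ∀ h, 0 ≤ f h) (v : H) :
    0 ≤ (⟪v, Th F v⟫_ℂ).re ∧ (⟪v, Th F v⟫_ℂ).im = 0 := by
  let G : ℝ →ᵇ ℂ := BoundedContinuousFunction.ofNormedAddCommGroup
    (fun h : ℝ => ((Real.sqrt (f h) : ℝ) : ℂ)) (by fun_prop) (Real.sqrt ‖F‖)
    (fun h => by
      rw [Complex.norm_real, Real.norm_of_nonneg (Real.sqrt_nonneg _)]
      apply Real.sqrt_le_sqrt
      have h1 := F.norm_coe_le_norm h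
      rw [hF, Complex.norm_real, Real.norm_of_nonneg (hpos h)] at h1
      exact h1)
  have hG : F = star G * G := by
    ext h
    simp only [BoundedContinuousFunction.coe_mul, Pi.mul_apply,
      BoundedContinuousFunction.coe_star, Pi.star_apply]
    change F h = star ((Real.sqrt (f h) : ℝ) : ℂ) * ((Real.sqrt (f h) : ℝ) : ℂ)
    rw [hF, Complex.star_def, Complex.conj_ofReal, ← Complex.ofReal_mul,
      Real.mul_self_sqrt (hpos h)]
  rw [hG, Th_norm_sq]
  exact ⟨by rw [Complex.ofReal_re]; positivity, Complex.ofReal_im _⟩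

/-- the real linear functional on `C_c(ℝ, ℝ)` -/
noncomputable def specFun (v : H) : C_c(ℝ, ℝ) →ₚ[ℝ] ℝ :=
  PositiveLinearMap.mk₀
    { toFun := fun f => (⟪v, Th (ccB f) v⟫_ℂ).re
      map_add' := fun f g => by
        have : ccB (f + g) = ccB f + ccB g := by ext h; simp
        rw [this, map_add, _root_.add_apply, inner_add_right, Complex.add_re]
      map_smul' := fun c f => by
        have : ccB (c • f) = (c : ℂ) • ccB f := by ext h; simp
        rw [this, map_smul, _root_.smul_apply, inner_smul_right,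
          Complex.re_ofReal_mul]
        rfl }
    (fun f hf => (Th_pos Th (ccB f) f f.continuous (fun h => rfl) (fun h => hf h) v).1)

/-- cutoffs converge strongly to `1` -/
theorem tendsto_Th_cutoff
    (hnd : ∀ ζ : H, ∀ ε > 0, ∃ F : ℝ →ᵇ ℂ, HasCompactSupport F ∧ ‖F‖ ≤ 1 ∧ ‖Th F ζ - ζ‖ < ε)
    (v : H) : Tendsto (fun n : ℕ => Th (ccB (cutoff n)) v) atTop (𝓝 v) := by
  have hnorm : ∀ n : ℕ, ∀ w : H, ‖Th (ccB (cutoff n)) w‖ ≤ ‖w‖ := by
    intro n w
    have h1 : ‖Th (ccB (cutoff n))‖ ≤ 1 := by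
      refine (NonUnitalStarAlgHom.norm_apply_le Th _).trans ?_
      rw [BoundedContinuousFunction.norm_le zero_le_one]
      intro x
      rw [ccB_apply, Complex.norm_real, Real.norm_of_nonneg (cutoff_nonneg n x)]
      exact cutoff_le_one n x
    calc ‖Th (ccB (cutoff n)) w‖ ≤ ‖Th (ccB (cutoff n))‖ * ‖w‖ := ContinuousLinearMap.le_opNorm _ _
      _ ≤ 1 * ‖w‖ := by gcongr
      _ = ‖w‖ := one_mul _
  rw [Metric.tendsto_atTop]
  intro ε hε
  obtain ⟨G, hGc, hG1, hG2⟩ := hnd v (ε / 2) (by positivity)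
  obtain ⟨R, hR⟩ := hGc.isCompact.isBounded.subset_closedBall 0
  refine ⟨⌈R⌉₊, fun n hn => ?_⟩
  have hmul : ccB (cutoff n) * G = G := by
    ext h
    rw [BoundedContinuousFunction.coe_mul, Pi.mul_apply, ccB_apply]
    by_cases hh : h ∈ tsupport G
    · have h1 := hR hh
      rw [mem_closedBall_zero_iff, Real.norm_eq_abs] at h1
      rw [cutoff_eq_one n h (h1.trans ((Nat.le_ceil _).trans (by exact_mod_cast hn)))]
      simp
    · rw [image_eq_zero_of_notMem_tsupport hh, mul_zero]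
  have h2 : Th (ccB (cutoff n)) (Th G v) = Th G v := by
    rw [← mul_apply_eq_comp, ← map_mul, hmul]
  rw [dist_eq_norm]
  have h3 : Th (ccB (cutoff n)) v - v
      = (Th G v - v) - Th (ccB (cutoff n)) (Th G v - v) := by
    rw [map_sub, h2]; abel
  rw [h3]
  calc _ ≤ ‖Th G v - v‖ + ‖Th (ccB (cutoff n)) (Th G v - v)‖ := norm_sub_le _ _
    _ ≤ ‖Th G v - v‖ + ‖Th G v - v‖ := by gcongr; exact hnorm _ _
    _ < ε := by linarith

/-- **Spectral measures** of a nondegenerate functional calculus. -/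
theorem exists_spectral_measure
    (hnd : ∀ ζ : H, ∀ ε > 0, ∃ F : ℝ →ᵇ ℂ, HasCompactSupport F ∧ ‖F‖ ≤ 1 ∧ ‖Th F ζ - ζ‖ < ε)
    (v : H) : ∃ μ : Measure ℝ, IsFiniteMeasure μ ∧
      ∀ F : ℝ →ᵇ ℂ, ⟪v, Th F v⟫_ℂ = ∫ h, F h ∂μ := by
  set μ : Measure ℝ := RealRMK.rieszMeasure (specFun Th v) with hμ
  have hint : ∀ f : C_c(ℝ, ℝ), ∫ x, f x ∂μ = (⟪v, Th (ccB f) v⟫_ℂ).re := fun f =>
    RealRMK.integral_rieszMeasure (specFun Th v) f
  have hfin : μ Set.univ ≤ ENNReal.ofReal (‖v‖ ^ 2) := by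
    have hU : (Set.univ : Set ℝ) = ⋃ n : ℕ, Set.Icc (-(n : ℝ)) n := by
      symm
      rw [Set.eq_univ_iff_forall]
      intro x
      obtain ⟨n, hn⟩ := exists_nat_ge |x|
      exact Set.mem_iUnion.2 ⟨n, abs_le.1 hn⟩
    have hmono : Monotone fun n : ℕ => Set.Icc (-(n : ℝ)) n := by
      intro m n hmn
      have : (m : ℝ) ≤ n := by exact_mod_cast hmn
      exact Set.Icc_subset_Icc (by linarith) this
    rw [hU, hmono.measure_iUnion]
    refine iSup_le fun n => ?_
    have hle : μ.real (Set.Icc (-(n : ℝ)) n) ≤ ‖v‖ ^ 2 := by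
      calc μ.real (Set.Icc (-(n : ℝ)) n)
          = ∫ x, (Set.Icc (-(n : ℝ)) n).indicator (1 : ℝ → ℝ) x ∂μ :=
            (integral_indicator_one measurableSet_Icc).symm
        _ ≤ ∫ x, cutoff n x ∂μ := by
            refine integral_mono ?_ (cutoff n).integrable fun x => ?_
            · exact (continuousOn_const.integrableOn_compact isCompact_Icc).integrable_indicator
                measurableSet_Icc
            · by_cases hx : x ∈ Set.Icc (-(n : ℝ)) n
              · rw [Set.indicator_of_mem hx, cutoff_eq_one n x (abs_le.2 hx)]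
                rfl
              · rw [Set.indicator_of_notMem hx]
                exact cutoff_nonneg n x
        _ = (⟪v, Th (ccB (cutoff n)) v⟫_ℂ).re := hint _
        _ ≤ ‖⟪v, Th (ccB (cutoff n)) v⟫_ℂ‖ := Complex.re_le_norm _
        _ ≤ ‖v‖ * ‖Th (ccB (cutoff n)) v‖ := norm_inner_le_norm _ _
        _ ≤ ‖v‖ * (1 * ‖v‖) := by
            gcongr
            refine (ContinuousLinearMap.le_opNorm _ _).trans ?_
            gcongr
            refine (NonUnitalStarAlgHom.norm_apply_le Th _).trans ?_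
            rw [BoundedContinuousFunction.norm_le zero_le_one]
            intro x
            rw [ccB_apply, Complex.norm_real, Real.norm_of_nonneg (cutoff_nonneg n x)]
            exact cutoff_le_one n x
        _ = ‖v‖ ^ 2 := by ring
    have hfinK : μ (Set.Icc (-(n : ℝ)) n) ≠ ⊤ := isCompact_Icc.measure_lt_top.ne
    rw [← ENNReal.ofReal_toReal hfinK]
    exact ENNReal.ofReal_le_ofReal hle
  have hF : IsFiniteMeasure μ := ⟨hfin.trans_lt ENNReal.ofReal_lt_top⟩
  refine ⟨μ, hF, ?_⟩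
  -- compactly supported real functions
  have hreal : ∀ f : C_c(ℝ, ℝ), ⟪v, Th (ccB f) v⟫_ℂ = ((∫ x, f x ∂μ : ℝ) : ℂ) := by
    intro f
    have himp : ∀ g : C_c(ℝ, ℝ), (∀ x, 0 ≤ g x) → (⟪v, Th (ccB g) v⟫_ℂ).im = 0 := fun g hg =>
      (Th_pos Th (ccB g) g g.continuous (fun h => rfl) hg v).2
    have him : (⟪v, Th (ccB f) v⟫_ℂ).im = 0 := by
      have h1 : ccB f = ccB (f ⊔ 0) - ccB ((-f) ⊔ 0) := by
        ext h
        simp only [BoundedContinuousFunction.coe_sub, Pi.sub_apply, ccB_apply]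
        have : f h = (f ⊔ 0) h - ((-f) ⊔ 0) h := by
          simp only [CompactlySupportedContinuousMap.coe_sup, Pi.sup_apply,
            CompactlySupportedContinuousMap.coe_zero, Pi.zero_apply,
            CompactlySupportedContinuousMap.coe_neg, Pi.neg_apply]
          rcases le_total 0 (f h) with h0 | h0
          · rw [sup_of_le_left h0, sup_of_le_right (by linarith)]; ring
          · rw [sup_of_le_right h0, sup_of_le_left (by linarith)]; ring
        rw [this]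
        push_cast
        rfl
      rw [h1, map_sub, _root_.sub_apply, inner_sub_right, Complex.sub_im,
        himp (f ⊔ 0) (fun x => by simp), himp ((-f) ⊔ 0) (fun x => by simp), sub_zero]
    rw [hint f]
    apply Complex.ext
    · simp
    · simpa using him
  -- general bounded functions
  intro F
  have hcomp : ∀ n : ℕ, ⟪v, Th (F * ccB (cutoff n)) v⟫_ℂ
      = ∫ h, F h * (cutoff n h : ℂ) ∂μ := by
    intro n
    let f1 : C_c(ℝ, ℝ) :=
      { toFun := fun h => (F h).re * cutoff n h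
        continuous_toFun := by have := (cutoff n).continuous; continuity
        hasCompactSupport' := (cutoff n).hasCompactSupport.mul_left }
    let f2 : C_c(ℝ, ℝ) :=
      { toFun := fun h => (F h).im * cutoff n h
        continuous_toFun := by have := (cutoff n).continuous; fun_prop
        hasCompactSupport' := (cutoff n).hasCompactSupport.mul_left }
    have h1 : F * ccB (cutoff n) = ccB f1 + Complex.I • ccB f2 := by
      ext h
      simp only [BoundedContinuousFunction.coe_mul, Pi.mul_apply,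
        BoundedContinuousFunction.coe_add, Pi.add_apply, BoundedContinuousFunction.coe_smul,
        ccB_apply]
      change F h * _ = (((F h).re * cutoff n h : ℝ) : ℂ)
        + Complex.I • (((F h).im * cutoff n h : ℝ) : ℂ)
      conv_lhs => rw [← Complex.re_add_im (F h)]
      push_cast
      rw [smul_eq_mul]
      ring
    rw [h1, map_add, map_smul, _root_.add_apply, _root_.smul_apply,
      inner_add_right, inner_smul_right, hreal f1, hreal f2]
    have h2 : ∀ h : ℝ, F h * (cutoff n h : ℂ) = ((f1 h : ℝ) : ℂ) + Complex.I * ((f2 h : ℝ) : ℂ) := by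
      intro h
      change F h * _ = (((F h).re * cutoff n h : ℝ) : ℂ)
        + Complex.I * (((F h).im * cutoff n h : ℝ) : ℂ)
      conv_lhs => rw [← Complex.re_add_im (F h)]
      push_cast
      ring
    simp_rw [h2]
    rw [integral_add, integral_const_mul, integral_complex_ofReal, integral_complex_ofReal]
    · exact f1.integrable.ofReal
    · exact f2.integrable.ofReal.const_mul _
  have hL : Tendsto (fun n : ℕ => ⟪v, Th (F * ccB (cutoff n)) v⟫_ℂ) atTop
      (𝓝 ⟪v, Th F v⟫_ℂ) := by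
    have : ∀ n, Th (F * ccB (cutoff n)) v = Th F (Th (ccB (cutoff n)) v) := fun n => by
      rw [map_mul, mul_apply_eq_comp]
    simp_rw [this]
    exact tendsto_const_nhds.inner
      (((Th F).continuous.tendsto _).comp (tendsto_Th_cutoff Th hnd v))
  have hR : Tendsto (fun n : ℕ => ∫ h, F h * (cutoff n h : ℂ) ∂μ) atTop
      (𝓝 (∫ h, F h ∂μ)) := by
    apply tendsto_integral_of_dominated_convergence (fun _ => ‖F‖)
    · intro n
      have := (cutoff n).continuous
      exact (by fun_prop : Continuous fun h => F h * (cutoff n h : ℂ)).aestronglyMeasurable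
    · exact integrable_const _
    · intro n
      refine Eventually.of_forall fun h => ?_
      rw [norm_mul, Complex.norm_real, Real.norm_of_nonneg (cutoff_nonneg n h)]
      calc ‖F h‖ * cutoff n h ≤ ‖F‖ * 1 :=
            mul_le_mul (F.norm_coe_le_norm h) (cutoff_le_one n h) (cutoff_nonneg n h)
              (norm_nonneg _)
        _ = ‖F‖ := mul_one _
    · refine Eventually.of_forall fun h => ?_
      have h1 : Tendsto (fun n : ℕ => ((cutoff n h : ℝ) : ℂ)) atTop (𝓝 ((1 : ℝ) : ℂ)) :=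
        (Complex.continuous_ofReal.tendsto _).comp (tendsto_cutoff h)
      simpa using h1.const_mul (F h)
  simp_rw [hcomp] at hL
  exact tendsto_nhds_unique hL hR

/-- norms through a spectral measure -/
theorem norm_sq_of_spec {v : H} {μ : Measure ℝ}
    (hμ : ∀ F : ℝ →ᵇ ℂ, ⟪v, Th F v⟫_ℂ = ∫ h, F h ∂μ) (F : ℝ →ᵇ ℂ) :
    ‖Th F v‖ ^ 2 = ∫ h, ‖F h‖ ^ 2 ∂μ := by
  have h1 := Th_norm_sq Th F v
  rw [hμ] at h1
  have h2 : ∀ h, (star F * F) h = ((‖F h‖ ^ 2 : ℝ) : ℂ) := by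
    intro h
    rw [BoundedContinuousFunction.coe_mul, Pi.mul_apply, BoundedContinuousFunction.coe_star,
      Pi.star_apply, Complex.star_def, ← Complex.normSq_eq_conj_mul_self,
      Complex.normSq_eq_norm_sq]
  simp_rw [h2] at h1
  rw [integral_complex_ofReal] at h1
  exact_mod_cast h1.symm

variable (hnd : ∀ ζ : H, ∀ ε > 0, ∃ F : ℝ →ᵇ ℂ, HasCompactSupport F ∧ ‖F‖ ≤ 1 ∧
  ‖Th F ζ - ζ‖ < ε)

include hnd

/-- domination -/
theorem norm_Th_le_of_le (v : H) (F G : ℝ →ᵇ ℂ) (c : ℝ) (hc : 0 ≤ c)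
    (h : ∀ x, ‖F x‖ ≤ c * ‖G x‖) : ‖Th F v‖ ≤ c * ‖Th G v‖ := by
  obtain ⟨μ, hf, hμ⟩ := exists_spectral_measure Th hnd v
  apply le_of_sq_le_sq _ (by positivity)
  rw [mul_pow, norm_sq_of_spec Th hμ, norm_sq_of_spec Th hμ, ← integral_const_mul]
  apply integral_mono
  · refine Integrable.mono' (integrable_const (‖F‖ ^ 2)) (by
      exact (by continuity : Continuous fun a => ‖F a‖ ^ 2).aestronglyMeasurable) ?_
    refine Eventually.of_forall fun x => ?_
    rw [Real.norm_of_nonneg (by positivity)]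
    have := F.norm_coe_le_norm x
    gcongr
  · refine Integrable.mono' (integrable_const (c ^ 2 * ‖G‖ ^ 2)) (by
      exact (by continuity : Continuous fun a => c ^ 2 * ‖G a‖ ^ 2).aestronglyMeasurable) ?_
    refine Eventually.of_forall fun x => ?_
    rw [Real.norm_of_nonneg (by positivity)]
    have := G.norm_coe_le_norm x
    gcongr
  · intro x
    change ‖F x‖ ^ 2 ≤ c ^ 2 * ‖G x‖ ^ 2
    rw [← mul_pow]
    have := h x
    gcongr

/-- bounded pointwise convergence implies strong convergence -/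
theorem tendsto_Th (v : H) {ι : Type*} {l : Filter ι} [l.IsCountablyGenerated]
    (F : ι → ℝ →ᵇ ℂ) (G : ℝ →ᵇ ℂ) (C : ℝ) (hC : ∀ᶠ n in l, ∀ x, ‖F n x‖ ≤ C)
    (h : ∀ x, Tendsto (fun n => F n x) l (𝓝 (G x))) :
    Tendsto (fun n => Th (F n) v) l (𝓝 (Th G v)) := by
  obtain ⟨μ, hf, hμ⟩ := exists_spectral_measure Th hnd v
  rw [tendsto_iff_norm_sub_tendsto_zero]
  have h1 : ∀ n, ‖Th (F n) v - Th G v‖ ^ 2 = ∫ x, ‖(F n - G) x‖ ^ 2 ∂μ := by
    intro n
    rw [← norm_sq_of_spec Th hμ, map_sub, _root_.sub_apply]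
  have h2 : Tendsto (fun n => ∫ x, ‖(F n - G) x‖ ^ 2 ∂μ) l (𝓝 (∫ x, (0 : ℝ) ∂μ)) := by
    apply tendsto_integral_filter_of_dominated_convergence (fun _ => (|C| + ‖G‖) ^ 2)
    · refine Eventually.of_forall fun n => ?_
      exact (by continuity : Continuous fun a => ‖(F n - G) a‖ ^ 2).aestronglyMeasurable
    · filter_upwards [hC] with n hn
      refine Eventually.of_forall fun x => ?_
      rw [Real.norm_of_nonneg (by positivity)]
      have h3 : ‖(F n - G) x‖ ≤ |C| + ‖G‖ := by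
        rw [BoundedContinuousFunction.coe_sub, Pi.sub_apply]
        exact (norm_sub_le _ _).trans
          (add_le_add ((hn x).trans (le_abs_self C)) (G.norm_coe_le_norm x))
      gcongr
    · exact integrable_const _
    · refine Eventually.of_forall fun x => ?_
      have h4 : Tendsto (fun n => ‖F n x - G x‖) l (𝓝 0) :=
        tendsto_iff_norm_sub_tendsto_zero.1 (h x)
      simpa using h4.pow 2
  rw [integral_zero] at h2
  simp_rw [← h1] at h2
  have h5 := h2.sqrt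
  simpa [Real.sqrt_sq (norm_nonneg _)] using h5

end general

/-- spectral measures for modular data -/
theorem ModData.spec {M : VonNeumannAlgebra H} {ξ : H} (D : ModData M ξ) (v : H) :
    ∃ μ : Measure ℝ, IsFiniteMeasure μ ∧ ∀ F : ℝ →ᵇ ℂ, ⟪v, D.Th F v⟫_ℂ = ∫ h, F h ∂μ :=
  exists_spectral_measure D.Th D.Th_nondeg v

theorem ModData.norm_Th_le_of_le {M : VonNeumannAlgebra H} {ξ : H} (D : ModData M ξ) (v : H)
    (F G : ℝ →ᵇ ℂ) (c : ℝ) (hc : 0 ≤ c) (h : ∀ x, ‖F x‖ ≤ c * ‖G x‖) :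
    ‖D.Th F v‖ ≤ c * ‖D.Th G v‖ :=
  P132.norm_Th_le_of_le D.Th D.Th_nondeg v F G c hc h

theorem ModData.tendsto_Th {M : VonNeumannAlgebra H} {ξ : H} (D : ModData M ξ) (v : H)
    {ι : Type*} {l : Filter ι} [l.IsCountablyGenerated]
    (F : ι → ℝ →ᵇ ℂ) (G : ℝ →ᵇ ℂ) (C : ℝ) (hC : ∀ᶠ n in l, ∀ x, ‖F n x‖ ≤ C)
    (h : ∀ x, Tendsto (fun n => F n x) l (𝓝 (G x))) :
    Tendsto (fun n => D.Th (F n) v) l (𝓝 (D.Th G v)) :=
  P132.tendsto_Th D.Th D.Th_nondeg v F G C hC h

end Vale.Agent.P132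
end

section

/-!
# P132 Part I, E1: the set `N` is a `*`-subalgebra, invariant under the modular group and closed
-/

open Filter Topology
open scoped ComplexConjugate InnerProductSpace BoundedContinuousFunction

namespace Vale.Agent.P132

universe u

variable {H : Type u} [NormedAddCommGroup H] [InnerProductSpace ℂ H] [CompleteSpace H]

/-! ### unitaries -/

theorem norm_unitary_apply {u : H →L[ℂ] H} (hu : u ∈ unitary (H →L[ℂ] H)) (ζ : H) :
    ‖u ζ‖ = ‖ζ‖ := by
  have h1 : ⟪u ζ, u ζ⟫_ℂ = ⟪ζ, ζ⟫_ℂ := by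
    rw [← ContinuousLinearMap.adjoint_inner_right, ← ContinuousLinearMap.star_eq_adjoint]
    have := congrArg (fun T : H →L[ℂ] H => T ζ) (Unitary.mem_iff.1 hu).1
    have h2 : star u (u ζ) = ζ := this
    rw [h2]
  rw [@norm_eq_sqrt_re_inner ℂ, @norm_eq_sqrt_re_inner ℂ, h1]

theorem norm_unitary_le_one {u : H →L[ℂ] H} (hu : u ∈ unitary (H →L[ℂ] H)) : ‖u‖ ≤ 1 :=
  ContinuousLinearMap.opNorm_le_bound _ zero_le_one fun ζ => by
    rw [norm_unitary_apply hu, one_mul]

theorem unitary_star_apply {u : H →L[ℂ] H} (hu : u ∈ unitary (H →L[ℂ] H)) (ζ : H) :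
    star u (u ζ) = ζ :=
  congrArg (fun T : H →L[ℂ] H => T ζ) (Unitary.mem_iff.1 hu).1

theorem unitary_apply_star {u : H →L[ℂ] H} (hu : u ∈ unitary (H →L[ℂ] H)) (ζ : H) :
    u (star u ζ) = ζ :=
  congrArg (fun T : H →L[ℂ] H => T ζ) (Unitary.mem_iff.1 hu).2

theorem star_mem_unitary {u : H →L[ℂ] H} (hu : u ∈ unitary (H →L[ℂ] H)) :
    star u ∈ unitary (H →L[ℂ] H) := by
  rw [Unitary.mem_iff] at hu ⊢
  rw [star_star]
  exact ⟨hu.2, hu.1⟩

namespace ModData

variable {M : VonNeumannAlgebra H} {ξ : H} (D : ModData M ξ)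

theorem Rm_mem_unitary {u : H →L[ℂ] H} (hu : u ∈ unitary (H →L[ℂ] H)) :
    D.Rm u ∈ unitary (H →L[ℂ] H) := by
  rw [Unitary.mem_iff] at hu ⊢
  rw [star_Rm, ← Rm_mul, ← Rm_mul, hu.1, hu.2, Rm_one]
  exact ⟨rfl, rfl⟩

/-- a bound valid for elements of `M` -/
theorem norm_unitary_xi_le {a u : H →L[ℂ] H} (ha : a ∈ M) (hu : u ∈ M)
    (hu' : u ∈ unitary (H →L[ℂ] H)) : ‖a (u ξ)‖ ≤ ‖a ξ‖ + ‖a‖ * ‖D.cm u ξ‖ := by
  have e : a (u ξ) = D.Rm u (a ξ) + a (D.cm u ξ) := by
    rw [cm, map_sub, D.comm_Rm ha hu]; abel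
  rw [e]
  refine (norm_add_le _ _).trans (add_le_add ?_ (a.le_opNorm _))
  rw [norm_unitary_apply (D.Rm_mem_unitary hu')]

variable {D}

theorem InN.zero : D.InN 0 :=
  ⟨zero_mem M, fun ε hε => ⟨1, one_pos, fun u _ _ _ => by simp [hε.le]⟩⟩

theorem InN.add {x y : H →L[ℂ] H} (hx : D.InN x) (hy : D.InN y) : D.InN (x + y) := by
  refine ⟨add_mem hx.1 hy.1, fun ε hε => ?_⟩
  obtain ⟨δ1, hδ1, h1⟩ := hx.2 (ε / 2) (half_pos hε)
  obtain ⟨δ2, hδ2, h2⟩ := hy.2 (ε / 2) (half_pos hε)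
  refine ⟨min δ1 δ2, lt_min hδ1 hδ2, fun u hu hu' hu3 => ?_⟩
  have e : (x + y) (u ξ) - u ((x + y) ξ) = (x (u ξ) - u (x ξ)) + (y (u ξ) - u (y ξ)) := by
    simp only [add_apply, map_add]
    abel
  rw [e]
  refine (norm_add_le _ _).trans ?_
  have := h1 u hu hu' (hu3.trans (min_le_left _ _))
  have := h2 u hu hu' (hu3.trans (min_le_right _ _))
  linarith

theorem InN.smul {x : H →L[ℂ] H} (hx : D.InN x) (c : ℂ) : D.InN (c • x) := by
  refine ⟨M.toStarSubalgebra.smul_mem hx.1 c, fun ε hε => ?_⟩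
  obtain ⟨δ1, hδ1, h1⟩ := hx.2 (ε / (‖c‖ + 1)) (by positivity)
  refine ⟨δ1, hδ1, fun u hu hu' hu3 => ?_⟩
  have e : (c • x) (u ξ) - u ((c • x) ξ) = c • (x (u ξ) - u (x ξ)) := by
    simp only [smul_apply, map_smul, smul_sub]
  rw [e, norm_smul]
  have h2 := h1 u hu hu' hu3
  calc ‖c‖ * ‖x (u ξ) - u (x ξ)‖ ≤ (‖c‖ + 1) * (ε / (‖c‖ + 1)) := by
        gcongr; linarith
    _ = ε := by field_simp

theorem InN.neg {x : H →L[ℂ] H} (hx : D.InN x) : D.InN (-x) := by
  simpa using hx.smul (-1)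

theorem InN.sub {x y : H →L[ℂ] H} (hx : D.InN x) (hy : D.InN y) : D.InN (x - y) := by
  rw [sub_eq_add_neg]; exact hx.add hy.neg

theorem InN.sum {ι : Type*} (s : Finset ι) {f : ι → H →L[ℂ] H} (h : ∀ i ∈ s, D.InN (f i)) :
    D.InN (∑ i ∈ s, f i) := by
  classical
  induction s using Finset.induction_on with
  | empty => simpa using InN.zero
  | insert i t hi ih =>
    rw [Finset.sum_insert hi]
    exact (h i (Finset.mem_insert_self _ _)).add
      (ih fun j hj => h j (Finset.mem_insert_of_mem hj))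

/-- N1, products -/
theorem InN.mul {x y : H →L[ℂ] H} (hx : D.InN x) (hy : D.InN y) : D.InN (x * y) := by
  refine ⟨mul_mem hx.1 hy.1, fun ε hε => ?_⟩
  -- approximate `y ξ` by `y' ξ` with `y' ∈ M'`
  obtain ⟨_, hyy, ⟨y', hy', rfl⟩⟩ := Metric.dense_iff.1 D.cyc' (y ξ) (ε / (4 * (2 * ‖x‖ + 1)))
    (by positivity)
  rw [Metric.mem_ball, dist_comm, dist_eq_norm] at hyy
  obtain ⟨δ1, hδ1, h1⟩ := hx.2 (ε / (4 * (‖y'‖ + 1))) (by positivity)
  obtain ⟨δ2, hδ2, h2⟩ := hy.2 (ε / (2 * (‖x‖ + 1))) (by positivity)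
  refine ⟨min δ1 δ2, lt_min hδ1 hδ2, fun u hu hu' hu3 => ?_⟩
  have b1 := h1 u hu hu' (hu3.trans (min_le_left _ _))
  have b2 := h2 u hu hu' (hu3.trans (min_le_right _ _))
  have hc' : x (u (y' ξ)) - u (x (y' ξ)) = y' (x (u ξ) - u (x ξ)) := by
    rw [comm_apply hu hy', comm_apply hx.1 hy', comm_apply hx.1 hy', comm_apply hu hy', map_sub]
  have e : (x * y) (u ξ) - u ((x * y) ξ) = x (y (u ξ) - u (y ξ)) +
      (x (u (y ξ - y' ξ)) - u (x (y ξ - y' ξ))) + y' (x (u ξ) - u (x ξ)) := by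
    rw [← hc']
    simp only [map_sub]
    change x (y (u ξ)) - u (x (y ξ)) = _
    abel
  have nu : ‖u‖ ≤ 1 := norm_unitary_le_one hu'
  have c1 : ‖x (y (u ξ) - u (y ξ))‖ ≤ ε / 2 := by
    refine (x.le_opNorm _).trans ?_
    calc ‖x‖ * ‖y (u ξ) - u (y ξ)‖ ≤ (‖x‖ + 1) * (ε / (2 * (‖x‖ + 1))) := by
          gcongr; linarith
      _ = ε / 2 := by field_simp
  have c2 : ‖x (u (y ξ - y' ξ)) - u (x (y ξ - y' ξ))‖ ≤ ε / 4 := by
    refine (norm_sub_le _ _).trans ?_
    have d1 : ‖x (u (y ξ - y' ξ))‖ ≤ ‖x‖ * ‖y ξ - y' ξ‖ := by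
      refine (x.le_opNorm _).trans_eq ?_
      rw [norm_unitary_apply hu']
    have d2 : ‖u (x (y ξ - y' ξ))‖ ≤ ‖x‖ * ‖y ξ - y' ξ‖ := by
      rw [norm_unitary_apply hu']
      exact x.le_opNorm _
    calc ‖x (u (y ξ - y' ξ))‖ + ‖u (x (y ξ - y' ξ))‖
        ≤ (2 * ‖x‖) * ‖y ξ - y' ξ‖ := by linarith
      _ ≤ (2 * ‖x‖ + 1) * (ε / (4 * (2 * ‖x‖ + 1))) := by
          gcongr; linarith
      _ = ε / 4 := by field_simp
  have c3 : ‖y' (x (u ξ) - u (x ξ))‖ ≤ ε / 4 := by
    refine (y'.le_opNorm _).trans ?_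
    calc ‖y'‖ * ‖x (u ξ) - u (x ξ)‖ ≤ (‖y'‖ + 1) * (ε / (4 * (‖y'‖ + 1))) := by
          gcongr; linarith
      _ = ε / 4 := by field_simp
  rw [e]
  refine (norm_add_le _ _).trans ?_
  refine (add_le_add (norm_add_le _ _) le_rfl).trans ?_
  linarith

/-- N1, adjoints -/
theorem InN.star {x : H →L[ℂ] H} (hx : D.InN x) : D.InN (star x) := by
  refine ⟨star_mem hx.1, fun ε hε => ?_⟩
  set K : ℝ := ‖x‖ + 1 with hK
  have hK0 : 0 < K := by positivity
  -- target precision for the square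
  obtain ⟨_, hyy, ⟨y', hy', rfl⟩⟩ := Metric.dense_iff.1 D.cyc' (Star.star x ξ)
    (ε ^ 2 / (16 * K)) (by positivity)
  rw [Metric.mem_ball, dist_comm, dist_eq_norm] at hyy
  obtain ⟨δ1, hδ1, h1⟩ := hx.2 (ε ^ 2 / (8 * (‖y'‖ + 1))) (by positivity)
  refine ⟨min δ1 (ε ^ 2 / (8 * K ^ 2)), lt_min hδ1 (by positivity), fun u hu hu' hu3 => ?_⟩
  have b1 := h1 u hu hu' (hu3.trans (min_le_left _ _))
  have b2 := hu3.trans (min_le_right _ _)
  have hxs : Star.star x ∈ M := star_mem hx.1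
  have hus : Star.star u ∈ M := star_mem hu
  have hus' : Star.star u ∈ unitary (H →L[ℂ] H) := star_mem_unitary hu'
  -- `b = u* x u`
  set b : H →L[ℂ] H := Star.star u * x * u with hb
  have hbM : b ∈ M := mul_mem (mul_mem hus hx.1) hu
  have hbs : Star.star b = Star.star u * Star.star x * u := by
    rw [hb, star_mul, star_mul, star_star, mul_assoc]
  have e1 : ‖Star.star x (u ξ) - u (Star.star x ξ)‖ = ‖Star.star b ξ - Star.star x ξ‖ := by
    rw [← norm_unitary_apply hus' (Star.star x (u ξ) - u (Star.star x ξ)), map_sub,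
      unitary_star_apply hu', hbs]
    rfl
  have e2 : ‖b ξ - x ξ‖ = ‖x (u ξ) - u (x ξ)‖ := by
    rw [← norm_unitary_apply hus' (x (u ξ) - u (x ξ)), map_sub, unitary_star_apply hu']
    rfl
  -- norms
  have n1 : ‖Star.star b ξ‖ ≤ ‖Star.star x ξ‖ + ε ^ 2 / (8 * K) := by
    have : Star.star b ξ = Star.star u (Star.star x (u ξ)) := by
      rw [hbs]; rfl
    rw [this, norm_unitary_apply hus']
    refine (D.norm_unitary_xi_le hxs hu hu').trans ?_
    gcongr
    rw [norm_star]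
    calc ‖x‖ * ‖D.cm u ξ‖ ≤ K * (ε ^ 2 / (8 * K ^ 2)) := by
          gcongr; linarith
      _ = ε ^ 2 / (8 * K) := by field_simp
  have nxi : ‖Star.star x ξ‖ ≤ K := by
    have := (Star.star x).le_opNorm ξ
    rw [D.norm_xi, norm_star] at this
    linarith
  have nb : ‖Star.star b ξ‖ ≤ K := by
    have h3 := (Star.star b).le_opNorm ξ
    rw [D.norm_xi, norm_star, mul_one] at h3
    have h4 : ‖b‖ ≤ ‖x‖ := by
      have c0 : ‖Star.star u‖ ≤ 1 := norm_unitary_le_one hus'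
      have c1 : ‖u‖ ≤ 1 := norm_unitary_le_one hu'
      have c2 := norm_mul_le (Star.star u * x) u
      have c3 := norm_mul_le (Star.star u) x
      have c4 : ‖Star.star u‖ * ‖x‖ ≤ 1 * ‖x‖ := by gcongr
      have c5 : ‖Star.star u * x‖ * ‖u‖ ≤ ‖Star.star u * x‖ * 1 := by gcongr
      linarith only [c5, c4, c3, c2]
    linarith only [h4, h3]
  -- inner products
  have i1 : ⟪y' ξ, Star.star b ξ - Star.star x ξ⟫_ℂ = ⟪b ξ - x ξ, Star.star y' ξ⟫_ℂ := by
    have c1 : ∀ c ∈ M, ⟪y' ξ, Star.star c ξ⟫_ℂ = ⟪c ξ, Star.star y' ξ⟫_ℂ := by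
      intro c hc
      rw [ContinuousLinearMap.star_eq_adjoint, ContinuousLinearMap.star_eq_adjoint,
        ContinuousLinearMap.adjoint_inner_right, ContinuousLinearMap.adjoint_inner_right,
        comm_apply hc hy']
    rw [inner_sub_right, inner_sub_left, c1 b hbM, c1 x hx.1]
  have i2 : ‖⟪y' ξ, Star.star b ξ - Star.star x ξ⟫_ℂ‖ ≤ ε ^ 2 / 8 := by
    rw [i1]
    refine (norm_inner_le_norm _ _).trans ?_
    have c1 : ‖Star.star y' ξ‖ ≤ ‖y'‖ := by
      have := (Star.star y').le_opNorm ξ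
      rwa [D.norm_xi, norm_star, mul_one] at this
    rw [e2]
    calc ‖x (u ξ) - u (x ξ)‖ * ‖Star.star y' ξ‖
        ≤ (ε ^ 2 / (8 * (‖y'‖ + 1))) * (‖y'‖ + 1) := by
          gcongr; linarith
      _ = ε ^ 2 / 8 := by field_simp
  have i3 : ‖⟪Star.star x ξ - y' ξ, Star.star b ξ - Star.star x ξ⟫_ℂ‖ ≤ ε ^ 2 / 8 := by
    refine (norm_inner_le_norm _ _).trans ?_
    have c1 : ‖Star.star b ξ - Star.star x ξ‖ ≤ 2 * K := (norm_sub_le _ _).trans (by linarith only [nb, nxi])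
    calc ‖Star.star x ξ - y' ξ‖ * ‖Star.star b ξ - Star.star x ξ‖
        ≤ (ε ^ 2 / (16 * K)) * (2 * K) := by
          gcongr
      _ = ε ^ 2 / 8 := by field_simp; norm_num
  have i4 : ‖⟪Star.star x ξ, Star.star b ξ - Star.star x ξ⟫_ℂ‖ ≤ ε ^ 2 / 4 := by
    have : ⟪Star.star x ξ, Star.star b ξ - Star.star x ξ⟫_ℂ =
        ⟪Star.star x ξ - y' ξ, Star.star b ξ - Star.star x ξ⟫_ℂ +
        ⟪y' ξ, Star.star b ξ - Star.star x ξ⟫_ℂ := by
      rw [← inner_add_left, sub_add_cancel]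
    rw [this]
    refine (norm_add_le _ _).trans ?_
    linarith only [i3, i2]
  -- conclusion
  have main : ‖Star.star b ξ - Star.star x ξ‖ ^ 2 ≤ ε ^ 2 := by
    have c1 : ‖Star.star b ξ‖ ^ 2 = ‖Star.star x ξ‖ ^ 2 +
        2 * (⟪Star.star x ξ, Star.star b ξ - Star.star x ξ⟫_ℂ).re +
        ‖Star.star b ξ - Star.star x ξ‖ ^ 2 := by
      have := @norm_add_sq ℂ H _ _ _ (Star.star x ξ) (Star.star b ξ - Star.star x ξ)
      rw [add_sub_cancel] at this
      exact this
    have c2 : -(ε ^ 2 / 4) ≤ (⟪Star.star x ξ, Star.star b ξ - Star.star x ξ⟫_ℂ).re := by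
      have := Complex.abs_re_le_norm (⟪Star.star x ξ, Star.star b ξ - Star.star x ξ⟫_ℂ)
      have := abs_le.1 this
      linarith only [this.1, i4]
    have c3 : ‖Star.star b ξ‖ ^ 2 - ‖Star.star x ξ‖ ^ 2 ≤ ε ^ 2 / 4 := by
      have d1 : ‖Star.star b ξ‖ ^ 2 - ‖Star.star x ξ‖ ^ 2 =
          (‖Star.star b ξ‖ - ‖Star.star x ξ‖) * (‖Star.star b ξ‖ + ‖Star.star x ξ‖) := by ring
      rw [d1]
      calc (‖Star.star b ξ‖ - ‖Star.star x ξ‖) * (‖Star.star b ξ‖ + ‖Star.star x ξ‖)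
          ≤ (ε ^ 2 / (8 * K)) * (‖Star.star b ξ‖ + ‖Star.star x ξ‖) := by
            gcongr; linarith only [n1]
        _ ≤ (ε ^ 2 / (8 * K)) * (K + K) := by gcongr
        _ = ε ^ 2 / 4 := by field_simp; norm_num
    have c4 : 0 < ε ^ 2 := by positivity
    linarith only [c4, c3, c2, c1]
  rw [e1]
  exact (pow_le_pow_iff_left₀ (norm_nonneg _) hε.le two_ne_zero).1 main

/-- N2 -/
theorem InN.sg {x : H →L[ℂ] H} (hx : D.InN x) (t : ℝ) : D.InN (D.sg t x) := by
  refine ⟨D.sg_mem hx.1 t, fun ε hε => ?_⟩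
  obtain ⟨δ, hδ, h⟩ := hx.2 ε hε
  refine ⟨δ, hδ, fun u hu hu' hu3 => ?_⟩
  have h1 := h (D.sg (-t) u) (D.sg_mem hu _) (D.sg_mem_unitary hu' _)
    (by rw [cm_sg_xi, norm_U]; exact hu3)
  have e : D.sg t x (u ξ) - u (D.sg t x ξ) =
      D.U t (x (D.sg (-t) u ξ) - D.sg (-t) u (x ξ)) := by
    rw [sg_xi, sg_xi, map_sub, sg_apply, sg_apply, U_apply_neg, neg_neg]
  rw [e, norm_U]
  exact h1

/-- `N` is closed in the `L²`-norm relative to `M` (N3) -/
theorem InN.of_closure {x : H →L[ℂ] H} (hx : x ∈ M)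
    (h : ∀ ε > 0, ∃ y, D.InN y ∧ ‖x ξ - y ξ‖ ≤ ε) : D.InN x := by
  refine ⟨hx, fun ε hε => ?_⟩
  obtain ⟨y, hy, hxy⟩ := h (ε / 4) (by positivity)
  obtain ⟨δ1, hδ1, h1⟩ := hy.2 (ε / 4) (by positivity)
  refine ⟨min δ1 (ε / (4 * (‖x - y‖ + 1))), lt_min hδ1 (by positivity),
    fun u hu hu' hu3 => ?_⟩
  have e : x (u ξ) - u (x ξ) = (y (u ξ) - u (y ξ)) + (x - y) (u ξ) - u ((x - y) ξ) := by
    simp only [sub_apply, map_sub]
    abel
  have hxyM : x - y ∈ M := sub_mem hx hy.1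
  have a1 := h1 u hu hu' (hu3.trans (min_le_left _ _))
  have a2 := D.norm_unitary_xi_le hxyM hu hu'
  have a3 : ‖u ((x - y) ξ)‖ = ‖(x - y) ξ‖ := norm_unitary_apply hu' _
  have a4 : ‖x - y‖ * ‖D.cm u ξ‖ ≤ ε / 4 := by
    have := hu3.trans (min_le_right _ _)
    calc ‖x - y‖ * ‖D.cm u ξ‖ ≤ (‖x - y‖ + 1) * (ε / (4 * (‖x - y‖ + 1))) := by
          gcongr; linarith
      _ = ε / 4 := by field_simp
  have a5 : ‖(x - y) ξ‖ ≤ ε / 4 := by
    rw [sub_apply]; exact hxy
  rw [e]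
  refine (norm_sub_le _ _).trans ?_
  refine (add_le_add (norm_add_le _ _) le_rfl).trans ?_
  linarith

end ModData

end Vale.Agent.P132
end

section

open Filter Topology MeasureTheory
open scoped ComplexConjugate InnerProductSpace BoundedContinuousFunction FourierTransform SchwartzMap

namespace Vale.Agent.P132

universe u

variable {H : Type u} [NormedAddCommGroup H] [InnerProductSpace ℂ H] [CompleteSpace H]

omit [CompleteSpace H] in
/-- weak integrals of bounded strongly continuous families of operators -/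
theorem e3_intOp (G : ℝ → ℂ) (hG : Integrable G) (hGc : Continuous G) (T : ℝ → H →L[ℂ] H)
    (hT : ∀ η, Continuous fun w => T w η) (C : ℝ) (hC : ∀ w, ‖T w‖ ≤ C) :
    ∃ b : H →L[ℂ] H, (∀ η, Integrable fun w => G w • T w η) ∧
      (∀ η, b η = ∫ w, G w • T w η) := by
  have hC0 : 0 ≤ C := (norm_nonneg _).trans (hC 0)
  have hint : ∀ η, Integrable fun w => G w • T w η := by
    intro η
    refine Integrable.mono' (hG.norm.mul_const (C * ‖η‖))
      (hGc.smul (hT η)).aestronglyMeasurable (Eventually.of_forall fun w => ?_)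
    rw [norm_smul]
    have := (T w).le_of_opNorm_le (hC w) η
    gcongr
  refine ⟨LinearMap.mkContinuous
    { toFun := fun η => ∫ w, G w • T w η
      map_add' := fun η η' => by
        rw [← integral_add (hint η) (hint η')]
        simp only [map_add, smul_add]
      map_smul' := fun c η => by
        rw [RingHom.id_apply, ← integral_smul]
        simp only [map_smul]
        congr 1
        ext w
        rw [smul_comm] } ((∫ w, ‖G w‖) * C) (fun η => ?_), hint, fun η => rfl⟩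
  change ‖∫ w, G w • T w η‖ ≤ _
  refine (norm_integral_le_integral_norm _).trans ?_
  rw [mul_assoc, ← integral_mul_const]
  refine integral_mono (hint η).norm (hG.norm.mul_const _) fun w => ?_
  change ‖G w • T w η‖ ≤ ‖G w‖ * (C * ‖η‖)
  rw [norm_smul]
  have := (T w).le_of_opNorm_le (hC w) η
  gcongr

namespace ModData

variable {M : VonNeumannAlgebra H} {ξ : H} (D : ModData M ξ)

theorem continuous_U (ζ : H) : Continuous fun t => D.U t ζ := by
  rw [continuous_iff_continuousAt]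
  intro t₀
  refine D.tendsto_Th ζ (fun t => expB t) (expB t₀) 1
    (Eventually.of_forall fun t x => ?_) (fun x => ?_)
  · rw [expB_apply, mul_comm, Complex.norm_exp_ofReal_mul_I]
  · have : Continuous fun t : ℝ => expB t x := by
      simp only [expB_apply]
      fun_prop
    exact this.tendsto t₀

theorem continuous_U_comp {φ : ℝ → H} (hφ : Continuous φ) {s : ℝ → ℝ} (hs : Continuous s) :
    Continuous fun t => D.U (s t) (φ t) := by
  rw [continuous_iff_continuousAt]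
  intro t₀
  rw [ContinuousAt, tendsto_iff_norm_sub_tendsto_zero]
  have h1 : Tendsto (fun t => ‖φ t - φ t₀‖ + ‖D.U (s t) (φ t₀) - D.U (s t₀) (φ t₀)‖) (𝓝 t₀)
      (𝓝 (0 + 0)) := by
    refine Tendsto.add ?_ ?_
    · exact tendsto_iff_norm_sub_tendsto_zero.1 (hφ.tendsto t₀)
    · exact tendsto_iff_norm_sub_tendsto_zero.1
        (((D.continuous_U (φ t₀)).comp hs).tendsto t₀)
  rw [add_zero] at h1
  refine squeeze_zero (fun t => norm_nonneg _) (fun t => ?_) h1
  have h2 : D.U (s t) (φ t) - D.U (s t₀) (φ t₀) =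
      D.U (s t) (φ t - φ t₀) + (D.U (s t) (φ t₀) - D.U (s t₀) (φ t₀)) := by
    rw [map_sub]; abel
  rw [h2]
  refine (norm_add_le _ _).trans (le_of_eq ?_)
  rw [norm_U]

theorem continuous_sg (x : H →L[ℂ] H) (η : H) {s : ℝ → ℝ} (hs : Continuous s) :
    Continuous fun t => D.sg (s t) x η := by
  simp only [sg_apply]
  refine D.continuous_U_comp (x.continuous.comp ?_) hs
  exact D.continuous_U_comp continuous_const hs.neg

include D in
/-- bounded sequences in `M` converging on `ξ` converge strongly to an element of `M` -/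
theorem exists_limit (a : ℕ → H →L[ℂ] H) (ha : ∀ n, a n ∈ M) (C : ℝ) (hC : ∀ n, ‖a n‖ ≤ C)
    (ζ : H) (h : Tendsto (fun n => a n ξ) atTop (𝓝 ζ)) :
    ∃ b ∈ M, b ξ = ζ ∧ ‖b‖ ≤ C ∧ ∀ η, Tendsto (fun n => a n η) atTop (𝓝 (b η)) := by
  have hC0 : 0 ≤ C := (norm_nonneg _).trans (hC 0)
  have hlim : ∀ η, ∃ l, Tendsto (fun n => a n η) atTop (𝓝 l) := by
    intro η
    apply cauchySeq_tendsto_of_complete
    rw [Metric.cauchySeq_iff]
    intro ε hε
    obtain ⟨_, ⟨c, hc, rfl⟩, hcη⟩ := Metric.mem_closure_iff.1 (D.cyc' η) (ε / (4 * (C + 1)))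
      (by positivity)
    have h1 : Tendsto (fun n => c (a n ξ)) atTop (𝓝 (c ζ)) := (c.continuous.tendsto ζ).comp h
    obtain ⟨N, hN⟩ := Metric.cauchySeq_iff.1 h1.cauchySeq (ε / 2) (by positivity)
    refine ⟨N, fun m hm n hn => ?_⟩
    have h2 := hN m hm n hn
    rw [dist_eq_norm] at h2 ⊢
    have h3 : a m η - a n η = a m (η - c ξ) - a n (η - c ξ) + (c (a m ξ) - c (a n ξ)) := by
      rw [map_sub, map_sub, comm_apply (ha m) hc, comm_apply (ha n) hc]
      abel
    rw [h3]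
    have h4 : ∀ k, ‖a k (η - c ξ)‖ ≤ C * (ε / (4 * (C + 1))) := by
      intro k
      refine ((a k).le_of_opNorm_le (hC k) _).trans ?_
      rw [dist_eq_norm] at hcη
      gcongr
    have h5 : C * (ε / (4 * (C + 1))) < ε / 4 := by
      rw [mul_div_assoc', div_lt_div_iff₀ (by positivity) (by positivity)]
      linarith only [hε]
    calc ‖a m (η - c ξ) - a n (η - c ξ) + (c (a m ξ) - c (a n ξ))‖
        ≤ ‖a m (η - c ξ)‖ + ‖a n (η - c ξ)‖ + ‖c (a m ξ) - c (a n ξ)‖ :=
          (norm_add_le _ _).trans (add_le_add (norm_sub_le _ _) le_rfl)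
      _ < ε := by
          have := h4 m
          have := h4 n
          linarith
  choose b₀ hb₀ using hlim
  have hb : ∀ η, ‖b₀ η‖ ≤ C * ‖η‖ := fun η =>
    le_of_tendsto (hb₀ η).norm (Eventually.of_forall fun n => (a n).le_of_opNorm_le (hC n) η)
  set b : H →L[ℂ] H := LinearMap.mkContinuous
    { toFun := b₀
      map_add' := fun η η' => by
        refine tendsto_nhds_unique (hb₀ (η + η')) ?_
        simp only [map_add]
        exact (hb₀ η).add (hb₀ η')
      map_smul' := fun c η => by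
        refine tendsto_nhds_unique (hb₀ (c • η)) ?_
        simp only [map_smul]
        exact (hb₀ η).const_smul c } C hb with hbdef
  have hbη : ∀ η, b η = b₀ η := fun η => rfl
  refine ⟨b, ?_, ?_, LinearMap.mkContinuous_norm_le _ hC0 _, fun η => by rw [hbη]; exact hb₀ η⟩
  · rw [← M.commutant_commutant, VonNeumannAlgebra.mem_commutant_iff]
    intro c hc
    ext η
    change c (b η) = b (c η)
    rw [hbη, hbη]
    have h1 : Tendsto (fun n => c (a n η)) atTop (𝓝 (c (b₀ η))) :=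
      (c.continuous.tendsto _).comp (hb₀ η)
    refine tendsto_nhds_unique h1 ?_
    have h2 : ∀ n, c (a n η) = a n (c η) := fun n => (comm_apply (ha n) hc η).symm
    simp only [h2]
    exact hb₀ (c η)
  · rw [hbη]
    exact tendsto_nhds_unique (hb₀ ξ) h

/-- Fourier representation of `Th f` for `f` smooth of compact support -/
theorem exists_fourier (f : ℝ →ᵇ ℂ) (hf : ContDiff ℝ (⊤ : ℕ∞) f) (hf' : HasCompactSupport f) :
    ∃ G : ℝ → ℂ, Continuous G ∧ Integrable G ∧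
      (∀ h, f h = ∫ w, G w * Complex.exp (Complex.I * ((2 * Real.pi * w * h : ℝ) : ℂ))) ∧
      ∀ v, D.Th f v = ∫ w, G w • D.U (2 * Real.pi * w) v := by
  set g : 𝓢(ℝ, ℂ) := hf'.toSchwartzMap hf with hg
  have hgf : ∀ h, g h = f h := fun h => rfl
  set G : 𝓢(ℝ, ℂ) := 𝓕 g with hG
  have hGi : Integrable (fun w => G w) := G.integrable
  have hGc : Continuous (fun w => G w) := G.continuous
  have hinv : ∀ h, f h = ∫ w, G w * Complex.exp (Complex.I * ((2 * Real.pi * w * h : ℝ) : ℂ)) := by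
    intro h
    have h1 : (𝓕⁻ G : 𝓢(ℝ, ℂ)) = g := FourierTransform.fourierInv_fourier_eq g
    have h2 : (𝓕⁻ G : 𝓢(ℝ, ℂ)) h = 𝓕⁻ (G : ℝ → ℂ) h := congrFun (SchwartzMap.fourierInv_coe G) h
    rw [h1, hgf, Real.fourierInv_eq'] at h2
    rw [h2]
    congr 1
    ext w
    rw [smul_eq_mul, mul_comm]
    congr 2
    simp only [RCLike.inner_apply, conj_trivial]
    push_cast
    ring
  refine ⟨fun w => G w, hGc, hGi, hinv, ?_⟩
  have hUc : ∀ η, Continuous fun w => D.U (2 * Real.pi * w) η := fun η =>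
    D.continuous_U_comp continuous_const (by fun_prop)
  obtain ⟨A, hA1, hA2⟩ := e3_intOp (fun w => G w) hGi hGc (fun w => D.U (2 * Real.pi * w)) hUc 1
    (fun w => ContinuousLinearMap.opNorm_le_bound _ zero_le_one fun ζ => by
      rw [norm_U, one_mul])
  have hquad : ∀ v, ⟪v, A v⟫_ℂ = ⟪v, D.Th f v⟫_ℂ := by
    intro v
    obtain ⟨μ, hμf, hμ⟩ := D.spec v
    rw [hA2, hμ f, ← integral_inner (hA1 v)]
    have h1 : ∀ w : ℝ, ⟪v, G w • D.U (2 * Real.pi * w) v⟫_ℂ =
        ∫ h, G w * Complex.exp (Complex.I * ((2 * Real.pi * w * h : ℝ) : ℂ)) ∂μ := by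
      intro w
      rw [inner_smul_right, U, hμ, ← integral_const_mul]
      rfl
    simp only [h1]
    rw [integral_integral_swap]
    · congr 1
      ext h
      exact (hinv h).symm
    · refine Integrable.mono' (hGi.norm.comp_fst μ) ?_ (Eventually.of_forall fun p => ?_)
      · have : Continuous (Function.uncurry fun (w h : ℝ) =>
            G w * Complex.exp (Complex.I * ((2 * Real.pi * w * h : ℝ) : ℂ))) := by
          simp only [Function.uncurry_def]
          exact (hGc.comp continuous_fst).mul (by fun_prop)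
        exact this.aestronglyMeasurable
      · rw [Function.uncurry_def, norm_mul, mul_comm Complex.I, Complex.norm_exp_ofReal_mul_I,
          mul_one]
  have hAT : A = D.Th f := by
    have h1 : (A : H →ₗ[ℂ] H) = (D.Th f : H →ₗ[ℂ] H) := by
      rw [← ext_inner_map]
      intro x
      have := hquad x
      change ⟪A x, x⟫_ℂ = ⟪D.Th f x, x⟫_ℂ
      rw [← inner_conj_symm, this, inner_conj_symm]
    exact ContinuousLinearMap.coe_injective h1
  intro v
  rw [← hAT, hA2]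

/-- smoothing, for a general linear predicate -/
theorem smooth_core {x : H →L[ℂ] H} (hx : x ∈ M) (f : ℝ →ᵇ ℂ) (hf : ContDiff ℝ (⊤ : ℕ∞) f)
    (hf' : HasCompactSupport f) (P : (H →L[ℂ] H) → Prop) (hP0 : P 0)
    (hPadd : ∀ a b, P a → P b → P (a + b)) (hPsmul : ∀ (c : ℂ) a, P a → P (c • a))
    (hPsg : ∀ t, P (D.sg t x)) :
    ∃ y ∈ M, y ξ = D.Th f (x ξ) ∧ ∀ ε > 0, ∃ z, P z ∧ ‖y ξ - z ξ‖ ≤ ε := by
  obtain ⟨G, hGc, hGi, -, hGv⟩ := D.exists_fourier f hf hf'
  obtain ⟨b, hb1, hb2⟩ := e3_intOp G hGi hGc (fun w => D.sg (2 * Real.pi * w) x)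
    (fun η => D.continuous_sg x η (by fun_prop)) ‖x‖ (fun w => D.norm_sg_le _ _)
  have hbξ : b ξ = D.Th f (x ξ) := by
    rw [hb2, hGv]
    simp only [sg_xi]
  refine ⟨b, ?_, hbξ, ?_⟩
  · rw [← M.commutant_commutant, VonNeumannAlgebra.mem_commutant_iff]
    intro c hc
    ext η
    change c (b η) = b (c η)
    rw [hb2, hb2, ← ContinuousLinearMap.integral_comp_comm c (hb1 η)]
    congr 1
    ext w
    rw [map_smul, comm_apply (D.sg_mem hx _) hc]
  · set V₀ : Submodule ℂ H :=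
      { carrier := {w | ∃ z, P z ∧ z ξ = w}
        zero_mem' := ⟨0, hP0, rfl⟩
        add_mem' := by
          rintro _ _ ⟨a, ha, rfl⟩ ⟨b, hb, rfl⟩
          exact ⟨a + b, hPadd a b ha hb, rfl⟩
        smul_mem' := by
          rintro c _ ⟨a, ha, rfl⟩
          exact ⟨c • a, hPsmul c a ha, rfl⟩ } with hV₀
    set V := V₀.topologicalClosure with hV
    have hVc : CompleteSpace V := (Submodule.isClosed_topologicalClosure V₀).completeSpace_coe
    have hmem : b ξ ∈ V := by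
      rw [← Submodule.starProjection_eq_self_iff, hb2,
        ← ContinuousLinearMap.integral_comp_comm _ (hb1 ξ)]
      congr 1
      ext w
      rw [map_smul]
      congr 1
      rw [Submodule.starProjection_eq_self_iff]
      exact V₀.le_topologicalClosure ⟨_, hPsg _, rfl⟩
    intro ε hε
    obtain ⟨_, ⟨z, hz, rfl⟩, hzb⟩ := Metric.mem_closure_iff.1 hmem ε hε
    exact ⟨z, hz, by rw [← dist_eq_norm]; exact hzb.le⟩

theorem InN.smooth {x : H →L[ℂ] H} (hx : D.InN x) (f : ℝ →ᵇ ℂ) (hf : ContDiff ℝ (⊤ : ℕ∞) f)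
    (hf' : HasCompactSupport f) : ∃ y, D.InN y ∧ y ξ = D.Th f (x ξ) := by
  obtain ⟨y, hyM, hy, hcl⟩ := D.smooth_core hx.1 f hf hf' D.InN
    InN.zero (fun a b ha hb => ha.add hb) (fun c a ha => ha.smul c) (fun t => hx.sg t)
  exact ⟨y, InN.of_closure hyM hcl, hy⟩

/-- version of `InN.smooth` for all elements of `M` -/
theorem smooth_mem {x : H →L[ℂ] H} (hx : x ∈ M) (f : ℝ →ᵇ ℂ) (hf : ContDiff ℝ (⊤ : ℕ∞) f)
    (hf' : HasCompactSupport f) : ∃ y ∈ M, y ξ = D.Th f (x ξ) := by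
  obtain ⟨y, hyM, hy, -⟩ := D.smooth_core hx f hf hf' (fun _ => True)
    trivial (fun _ _ _ _ => trivial) (fun _ _ _ => trivial) (fun _ => trivial)
  exact ⟨y, hyM, hy⟩

end ModData

end Vale.Agent.P132
end

section

open Filter Topology
open scoped ComplexConjugate InnerProductSpace BoundedContinuousFunction

namespace Vale.Agent.P132

universe u

variable {H : Type u} [NormedAddCommGroup H] [InnerProductSpace ℂ H] [CompleteSpace H]

/-- graph of the closure of `a ξ ↦ a* ξ` -/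
def gS (M : VonNeumannAlgebra H) (ξ : H) : Set (H × H) :=
  closure {p | ∃ a ∈ M, p = (a ξ, star a ξ)}

/-- graph of `S* S` -/
def gD (M : VonNeumannAlgebra H) (ξ : H) : Set (H × H) :=
  {p | ∃ θ : H, (p.1, θ) ∈ gS M ξ ∧ ∀ a ∈ M, ⟪star a ξ, θ⟫_ℂ = ⟪p.2, a ξ⟫_ℂ}

/-- smoothing property -/
def Smth {M : VonNeumannAlgebra H} {ξ : H} (D : ModData M ξ) : Prop :=
  ∀ x ∈ M, ∀ f : ℝ →ᵇ ℂ, ContDiff ℝ (⊤ : ℕ∞) f → HasCompactSupport f →
    ∃ y ∈ M, y ξ = D.Th f (x ξ)

namespace ModData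

variable {M : VonNeumannAlgebra H} {ξ : H} (D : ModData M ξ)

theorem gd_Th_mul (F G : ℝ →ᵇ ℂ) (ζ : H) : D.Th (F * G) ζ = D.Th F (D.Th G ζ) := by
  rw [map_mul]; rfl

theorem gd_Th_congr {F G : ℝ →ᵇ ℂ} (h : ∀ x, F x = G x) : D.Th F = D.Th G := by
  have : F = G := by ext x; exact h x
  rw [this]

/-- a bounded continuous function from a continuous function with compact support -/
noncomputable def gdC (f : ℝ → ℂ) (hf : Continuous f) (hc : HasCompactSupport f) : ℝ →ᵇ ℂ :=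
  BoundedContinuousFunction.ofNormedAddCommGroup f hf
    (Classical.choose (hc.exists_bound_of_continuous hf))
    (Classical.choose_spec (hc.exists_bound_of_continuous hf))

/-- multiplication of a compactly supported function by a continuous one -/
noncomputable def gdM (g : ℝ → ℝ) (hg : Continuous g) (F : ℝ →ᵇ ℂ) (hF : HasCompactSupport F) :
    ℝ →ᵇ ℂ :=
  gdC (fun h => (g h : ℂ) * F h) (by continuity) (hF.mul_left)

theorem gdM_apply (g : ℝ → ℝ) (hg : Continuous g) (F : ℝ →ᵇ ℂ) (hF : HasCompactSupport F)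
    (x : ℝ) : gdM g hg F hF x = (g x : ℂ) * F x := rfl

/-- vectors killed by all compactly supported functions vanish -/
theorem gd_zero {ζ : H} (h : ∀ F : ℝ →ᵇ ℂ, HasCompactSupport F → D.Th F ζ = 0) : ζ = 0 := by
  by_contra hne
  have hpos : 0 < ‖ζ‖ := norm_pos_iff.2 hne
  obtain ⟨F, hF, -, h2⟩ := D.Th_nondeg ζ ‖ζ‖ hpos
  rw [h F hF, zero_sub, norm_neg] at h2
  exact lt_irrefl _ h2

/-- the bounded continuous function attached to a smooth bump -/
noncomputable def gdB {c : ℝ} (f : ContDiffBump c) : ℝ →ᵇ ℂ :=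
  BoundedContinuousFunction.ofNormedAddCommGroup (fun x => ((f x : ℝ) : ℂ))
    (by have := f.continuous; fun_prop) 1 (fun x => by
      rw [Complex.norm_real, Real.norm_of_nonneg f.nonneg]; exact f.le_one)

theorem gdB_apply {c : ℝ} (f : ContDiffBump c) (x : ℝ) : gdB f x = ((f x : ℝ) : ℂ) := rfl

theorem gdB_contDiff {c : ℝ} (f : ContDiffBump c) : ContDiff ℝ (⊤ : ℕ∞) (gdB f) := by
  have h1 : ContDiff ℝ (⊤ : ℕ∞) f := f.contDiff
  exact Complex.ofRealCLM.contDiff.comp h1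

theorem gdB_support {c : ℝ} (f : ContDiffBump c) : Function.support (gdB f) = Function.support f := by
  ext x; simp [gdB_apply]

theorem gdB_compact {c : ℝ} (f : ContDiffBump c) : HasCompactSupport (gdB f) := by
  have h1 := f.hasCompactSupport
  unfold HasCompactSupport tsupport at *
  rw [gdB_support]; exact h1

/-- smooth cutoff: equal to `1` on a compact set, values in `[0,1]` -/
theorem gd_cutoff (K : Set ℝ) (hK : IsCompact K) :
    ∃ χ : ℝ →ᵇ ℂ, ContDiff ℝ (⊤ : ℕ∞) χ ∧ HasCompactSupport χ ∧ ‖χ‖ ≤ 1 ∧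
      (∀ x ∈ K, χ x = 1) ∧ (∀ x, conj (χ x) = χ x) := by
  obtain ⟨R, hR⟩ := hK.isBounded.subset_closedBall (0 : ℝ)
  let f : ContDiffBump (0 : ℝ) :=
    { rIn := max R 1, rOut := max R 1 + 1, rIn_pos := by positivity, rIn_lt_rOut := by linarith }
  refine ⟨gdB f, gdB_contDiff f, gdB_compact f, ?_, ?_, ?_⟩
  · exact BoundedContinuousFunction.norm_ofNormedAddCommGroup_le _ (by norm_num) _
  · intro x hx
    have h1 : x ∈ Metric.closedBall (0 : ℝ) f.rIn :=
      Metric.closedBall_subset_closedBall (le_max_left _ _) (hR hx)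
    rw [gdB_apply, f.one_of_mem_closedBall h1]; simp
  · intro x
    rw [gdB_apply, Complex.conj_ofReal]

/-- step (1) -/
theorem gS_kms {ζ θ : H} (h : (ζ, θ) ∈ gS M ξ) (F G : ℝ →ᵇ ℂ)
    (hFG : ∀ x : ℝ, F x = Real.exp (x / 2) * G x) : D.Th G (D.J θ) = D.Th F ζ := by
  have hcl : IsClosed {p : H × H | D.Th G (D.J p.2) = D.Th F p.1} := by
    apply isClosed_eq
    · have := D.J.continuous
      continuity
    · fun_prop
  have h1 : (ζ, θ) ∈ {p : H × H | D.Th G (D.J p.2) = D.Th F p.1} := by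
    refine closure_minimal ?_ hcl h
    rintro _ ⟨a, ha, rfl⟩
    exact D.kms a ha F G hFG
  exact h1

/-- a function of `h` times `exp (h/2)` -/
noncomputable abbrev gdE (F : ℝ →ᵇ ℂ) (hF : HasCompactSupport F) : ℝ →ᵇ ℂ :=
  gdM (fun h => Real.exp (h / 2)) (by fun_prop) F hF

/-- step (2a) -/
theorem gd_J_star {x y : H →L[ℂ] H} (hy : y ∈ M) (F : ℝ →ᵇ ℂ)
    (hF : HasCompactSupport F) (h : y ξ = D.Th F (x ξ)) :
    D.J (star y ξ) = D.Th (gdE F hF) (x ξ) := by
  rw [← sub_eq_zero]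
  apply D.gd_zero
  intro G hG
  rw [map_sub, D.kms y hy (gdE G hG) G (fun x => rfl), h, ← gd_Th_mul, ← gd_Th_mul, sub_eq_zero]
  congr 1
  apply gd_Th_congr
  intro x
  simp only [BoundedContinuousFunction.mul_apply, gdM_apply]
  ring

theorem gd_inner_Th (F : ℝ →ᵇ ℂ) (v w : H) : ⟪D.Th F v, w⟫_ℂ = ⟪v, D.Th (star F) w⟫_ℂ := by
  rw [map_star, ContinuousLinearMap.star_eq_adjoint, ContinuousLinearMap.adjoint_inner_right]

/-- step (2) -/
theorem gd_adj (hs : Smth D) {θ ω : H} (h : ∀ a ∈ M, ⟪star a ξ, θ⟫_ℂ = ⟪ω, a ξ⟫_ℂ) (F : ℝ →ᵇ ℂ)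
    (hFs : ContDiff ℝ (⊤ : ℕ∞) F) (hF : HasCompactSupport F) (hFr : ∀ x, conj (F x) = F x) :
    D.Th (gdE F hF) (D.J θ) = D.Th F ω := by
  have key : ∀ v ∈ {ζ : H | ∃ a ∈ M, a ξ = ζ}, ⟪D.Th (gdE F hF) (D.J θ) - D.Th F ω, v⟫_ℂ = 0 := by
    rintro _ ⟨x, hx, rfl⟩
    obtain ⟨y, hy, hyx⟩ := hs x hx F hFs hF
    have h1 := h y hy
    rw [← D.inner_J_J, D.gd_J_star hy F hF hyx, hyx] at h1
    have e1 : star (gdE F hF) = gdE F hF := by
      ext x
      simp only [BoundedContinuousFunction.star_apply, RCLike.star_def, gdM_apply, map_mul,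
        Complex.conj_ofReal, hFr]
    have e2 : star F = F := by
      ext x
      simp only [BoundedContinuousFunction.star_apply, RCLike.star_def, hFr]
    rw [inner_sub_left, D.gd_inner_Th, D.gd_inner_Th F, e1, e2, sub_eq_zero]
    exact h1
  have hcl : IsClosed {v : H | ⟪D.Th (gdE F hF) (D.J θ) - D.Th F ω, v⟫_ℂ = 0} :=
    isClosed_eq (by fun_prop) continuous_const
  have h2 : ∀ v : H, ⟪D.Th (gdE F hF) (D.J θ) - D.Th F ω, v⟫_ℂ = 0 := by
    intro v
    exact closure_minimal key hcl (D.cyc v)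
  exact sub_eq_zero.1 (inner_self_eq_zero.1 (h2 _))

/-- step (3) -/
theorem gd_graph (hs : Smth D) {ζ ω : H} (h : (ζ, ω) ∈ gD M ξ) (F : ℝ →ᵇ ℂ)
    (hFs : ContDiff ℝ (⊤ : ℕ∞) F) (hF : HasCompactSupport F) (hFr : ∀ x, conj (F x) = F x) :
    D.Th (gdM Real.exp (by fun_prop) F hF) ζ = D.Th F ω := by
  obtain ⟨θ, h1, h2⟩ := h
  rw [← D.gd_adj hs h2 F hFs hF hFr]
  refine (D.gS_kms h1 _ _ ?_).symm
  intro x
  simp only [gdM_apply]
  rw [← mul_assoc, ← Complex.ofReal_mul, ← Real.exp_add, add_halves]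

section gap

variable {l : ℝ} (ψ : ContDiffBump l)

/-- `(1 - ψ) / (exp h - exp l)` -/
noncomputable def gk (h : ℝ) : ℝ := (1 - ψ h) / (Real.exp h - Real.exp l)

theorem gk_mul (h : ℝ) : (Real.exp h - Real.exp l) * gk ψ h = 1 - ψ h := by
  unfold gk
  by_cases hl : h = l
  · subst hl
    have : ψ h = 1 := ψ.one_of_mem_closedBall (Metric.mem_closedBall_self ψ.rIn_pos.le)
    simp [this]
  · have : Real.exp h - Real.exp l ≠ 0 := fun h0 => hl (Real.exp_injective (sub_eq_zero.1 h0))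
    field_simp

theorem gk_contDiff : ContDiff ℝ (⊤ : ℕ∞) (gk ψ) := by
  rw [contDiff_iff_contDiffAt]
  intro h
  by_cases hl : h = l
  · subst hl
    have h1 : gk ψ =ᶠ[𝓝 h] fun _ => 0 := by
      filter_upwards [Metric.ball_mem_nhds h ψ.rIn_pos] with x hx
      unfold gk
      rw [ψ.one_of_mem_closedBall (Metric.ball_subset_closedBall hx)]
      simp
    exact contDiffAt_const.congr_of_eventuallyEq h1
  · have h0 : Real.exp h - Real.exp l ≠ 0 := fun h0 => hl (Real.exp_injective (sub_eq_zero.1 h0))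
    have h1 : ContDiffAt ℝ (⊤ : ℕ∞) ψ h := ψ.contDiffAt
    exact (contDiffAt_const.sub h1).div (Real.contDiff_exp.contDiffAt.sub contDiffAt_const) h0

theorem gk_bound (h : ℝ) : (1 - Real.exp (-ψ.rIn)) * max (Real.exp h) (Real.exp l) * |gk ψ h| ≤ 1 := by
  have hc : 0 < 1 - Real.exp (-ψ.rIn) := by
    have : Real.exp (-ψ.rIn) < 1 := by
      rw [Real.exp_lt_one_iff]; have := ψ.rIn_pos; linarith
    linarith
  have h01 : |1 - ψ h| ≤ 1 := by
    rw [abs_le]; have h1 := ψ.nonneg (x := h); have h2 := ψ.le_one (x := h)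
    constructor <;> linarith
  by_cases hb : |h - l| ≤ ψ.rIn
  · have h1 : ψ h = 1 := ψ.one_of_mem_closedBall (by
      rw [Metric.mem_closedBall, Real.dist_eq]; exact hb)
    unfold gk
    rw [h1]; simp
  · push Not at hb
    have key : (1 - Real.exp (-ψ.rIn)) * max (Real.exp h) (Real.exp l) ≤
        |Real.exp h - Real.exp l| := by
      rcases lt_abs.1 hb with h1 | h1
      · have h2 : Real.exp l ≤ Real.exp h := Real.exp_le_exp.2 (by have := ψ.rIn_pos; linarith)
        rw [max_eq_left h2, abs_of_nonneg (by linarith)]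
        have h3 : Real.exp l ≤ Real.exp (-ψ.rIn) * Real.exp h := by
          rw [← Real.exp_add]; exact Real.exp_le_exp.2 (by linarith)
        linarith only [h3]
      · have h2 : Real.exp h ≤ Real.exp l := Real.exp_le_exp.2 (by have := ψ.rIn_pos; linarith)
        rw [max_eq_right h2, abs_of_nonpos (by linarith)]
        have h3 : Real.exp h ≤ Real.exp (-ψ.rIn) * Real.exp l := by
          rw [← Real.exp_add]; exact Real.exp_le_exp.2 (by linarith)
        linarith only [h3]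
    have hpos : 0 < |Real.exp h - Real.exp l| := by
      refine lt_of_lt_of_le ?_ key
      have := Real.exp_pos h
      have : 0 < max (Real.exp h) (Real.exp l) := lt_max_of_lt_left this
      positivity
    calc (1 - Real.exp (-ψ.rIn)) * max (Real.exp h) (Real.exp l) * |gk ψ h|
        ≤ |Real.exp h - Real.exp l| * |gk ψ h| := mul_le_mul_of_nonneg_right key (abs_nonneg _)
      _ = |1 - ψ h| := by rw [← abs_mul, gk_mul]
      _ ≤ 1 := h01

theorem gk_bound_mul (g : ℝ → ℝ) (C : ℝ) (hg : ∀ h, |g h| ≤ C * max (Real.exp h) (Real.exp l))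
    (h : ℝ) : ‖((g h * gk ψ h : ℝ) : ℂ)‖ ≤ C / (1 - Real.exp (-ψ.rIn)) := by
  have hc : 0 < 1 - Real.exp (-ψ.rIn) := by
    have : Real.exp (-ψ.rIn) < 1 := by
      rw [Real.exp_lt_one_iff]; have := ψ.rIn_pos; linarith
    linarith
  rw [Complex.norm_real, Real.norm_eq_abs, abs_mul, le_div_iff₀ hc]
  have h1 := gk_bound ψ h
  have hC : 0 ≤ C := by
    have h2 := (abs_nonneg _).trans (hg h)
    have h3 : 0 < max (Real.exp h) (Real.exp l) := lt_max_of_lt_left (Real.exp_pos h)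
    exact nonneg_of_mul_nonneg_left h2 h3
  calc |g h| * |gk ψ h| * (1 - Real.exp (-ψ.rIn))
      ≤ (C * max (Real.exp h) (Real.exp l)) * |gk ψ h| * (1 - Real.exp (-ψ.rIn)) := by
        gcongr
        exact hg h
    _ = C * ((1 - Real.exp (-ψ.rIn)) * max (Real.exp h) (Real.exp l) * |gk ψ h|) := by ring
    _ ≤ C * 1 := mul_le_mul_of_nonneg_left h1 hC
    _ = C := mul_one C

/-- bounded function `g * gk` -/
noncomputable def gkB (g : ℝ → ℝ) (hgc : Continuous g) (C : ℝ)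
    (hg : ∀ h, |g h| ≤ C * max (Real.exp h) (Real.exp l)) : ℝ →ᵇ ℂ :=
  BoundedContinuousFunction.ofNormedAddCommGroup (fun h => ((g h * gk ψ h : ℝ) : ℂ))
    (by have := (gk_contDiff ψ).continuous; fun_prop) (C / (1 - Real.exp (-ψ.rIn)))
    (gk_bound_mul ψ g C hg)

theorem gd_unique (hs : Smth D) (hψ : ∀ χ : ℝ →ᵇ ℂ, D.Th (χ * gdB ψ) = 0) {ζ' ζ₁ ζ₂ : H}
    (h₁ : (ζ₁, (Real.exp l : ℂ) • ζ₁ + ζ') ∈ gD M ξ)
    (h₂ : (ζ₂, (Real.exp l : ℂ) • ζ₂ + ζ') ∈ gD M ξ) : ζ₁ = ζ₂ := by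
  rw [← sub_eq_zero]
  apply D.gd_zero
  intro F' hF'
  obtain ⟨χ, hχs, hχc, -, hχ1, hχr⟩ := gd_cutoff (tsupport F') hF'
  have hgc := (gk_contDiff ψ).continuous
  let F : ℝ →ᵇ ℂ := gdM (gk ψ) hgc χ hχc
  have hFs : ContDiff ℝ (⊤ : ℕ∞) F := by
    have h1 := Complex.ofRealCLM.contDiff.comp (gk_contDiff ψ)
    exact h1.mul hχs
  have hFc : HasCompactSupport F := hχc.mul_left
  have hFr : ∀ x, conj (F x) = F x := by
    intro x
    change conj ((gk ψ x : ℂ) * χ x) = (gk ψ x : ℂ) * χ x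
    rw [map_mul, Complex.conj_ofReal, hχr]
  have e₁ := D.gd_graph hs h₁ F hFs hFc hFr
  have e₂ := D.gd_graph hs h₂ F hFs hFc hFr
  have e₃ : D.Th (gdM Real.exp (by fun_prop) F hFc) (ζ₁ - ζ₂) =
      (Real.exp l : ℂ) • D.Th F (ζ₁ - ζ₂) := by
    rw [map_sub, e₁, e₂, map_add, map_add, map_smul, map_smul, add_sub_add_right_eq_sub,
      ← smul_sub, map_sub]
  have e₄ : gdM Real.exp (by fun_prop) F hFc = (Real.exp l : ℂ) • F + (χ - χ * gdB ψ) := by
    ext x
    simp only [gdM_apply, BoundedContinuousFunction.add_apply, BoundedContinuousFunction.sub_apply,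
      BoundedContinuousFunction.smul_apply, BoundedContinuousFunction.mul_apply, gdB_apply,
      smul_eq_mul, F]
    have h1 := gk_mul ψ x
    have h2 : ((Real.exp x : ℂ) - (Real.exp l : ℂ)) * (gk ψ x : ℂ) = 1 - ((ψ x : ℝ) : ℂ) := by
      exact_mod_cast h1
    linear_combination (χ x) * h2
  have e₅ : D.Th χ (ζ₁ - ζ₂) = 0 := by
    rw [e₄, _root_.map_add D.Th, map_smul D.Th, _root_.map_sub D.Th, hψ, sub_zero,
      add_apply, smul_apply] at e₃
    simpa using e₃
  have e₆ : F' * χ = F' := by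
    ext x
    simp only [BoundedContinuousFunction.mul_apply]
    by_cases hx : x ∈ tsupport F'
    · rw [hχ1 x hx, mul_one]
    · rw [image_eq_zero_of_notMem_tsupport hx, zero_mul]
  rw [← e₆, D.gd_Th_mul, e₅, map_zero]

theorem gd_one (ζ : H) (ε : ℝ) (F χ : ℝ →ᵇ ℂ) (hF : ‖D.Th F ζ - ζ‖ < ε / 2) (hχ : ‖χ‖ ≤ 1)
    (h : ∀ x ∈ tsupport F, χ x = 1) : ‖D.Th χ ζ - ζ‖ < ε := by
  have e : χ * F = F := by
    ext x
    simp only [BoundedContinuousFunction.mul_apply]
    by_cases hx : x ∈ tsupport F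
    · rw [h x hx, one_mul]
    · rw [image_eq_zero_of_notMem_tsupport hx, mul_zero]
  have e1 : D.Th χ ζ - ζ = D.Th χ (ζ - D.Th F ζ) + (D.Th F ζ - ζ) := by
    rw [map_sub, ← D.gd_Th_mul, e]; abel
  have e2 : ‖D.Th χ (ζ - D.Th F ζ)‖ ≤ ‖ζ - D.Th F ζ‖ := by
    calc ‖D.Th χ (ζ - D.Th F ζ)‖ ≤ ‖D.Th χ‖ * ‖ζ - D.Th F ζ‖ := (D.Th χ).le_opNorm _
      _ ≤ 1 * ‖ζ - D.Th F ζ‖ := by
          gcongr
          exact (D.norm_Th_le χ).trans hχ
      _ = _ := one_mul _
  rw [norm_sub_rev] at e2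
  calc ‖D.Th χ ζ - ζ‖ ≤ ‖D.Th χ (ζ - D.Th F ζ)‖ + ‖D.Th F ζ - ζ‖ := by
        rw [e1]; exact norm_add_le _ _
    _ < ε / 2 + ε / 2 := by
        have e3 : ‖D.Th χ (ζ - D.Th F ζ)‖ < ε / 2 := by
          refine lt_of_le_of_lt ?_ hF
          have := norm_sub_rev ζ (D.Th F ζ)
          simpa [norm_sub_rev] using e2
        linarith
    _ = ε := by ring

theorem gd_two (ζ₁ ζ₂ : H) (ε : ℝ) (hε : 0 < ε) :
    ∃ χ : ℝ →ᵇ ℂ, ContDiff ℝ (⊤ : ℕ∞) χ ∧ HasCompactSupport χ ∧ (∀ x, conj (χ x) = χ x) ∧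
      ‖D.Th χ ζ₁ - ζ₁‖ < ε ∧ ‖D.Th χ ζ₂ - ζ₂‖ < ε := by
  obtain ⟨F₁, hc₁, -, h₁⟩ := D.Th_nondeg ζ₁ (ε / 2) (by positivity)
  obtain ⟨F₂, hc₂, -, h₂⟩ := D.Th_nondeg ζ₂ (ε / 2) (by positivity)
  obtain ⟨χ, hχs, hχc, hχn, hχ1, hχr⟩ := gd_cutoff (tsupport F₁ ∪ tsupport F₂)
    (hc₁.isCompact.union hc₂.isCompact)
  exact ⟨χ, hχs, hχc, hχr, D.gd_one ζ₁ ε F₁ χ h₁ hχn (fun x hx => hχ1 x (Or.inl hx)),
    D.gd_one ζ₂ ε F₂ χ h₂ hχn (fun x hx => hχ1 x (Or.inr hx))⟩

theorem gd_exists (hs : Smth D) (hψ : D.Th (gdB ψ) = 0) (ζ' : H) :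
    ∃ ζ : H, (ζ, (Real.exp l : ℂ) • ζ + ζ') ∈ gD M ξ := by
  let m : ℝ →ᵇ ℂ := gkB ψ (fun _ => 1) (by fun_prop) (Real.exp (-l)) (fun h => by
    rw [abs_one]
    calc (1 : ℝ) = Real.exp (-l) * Real.exp l := by rw [← Real.exp_add]; simp
      _ ≤ _ := mul_le_mul_of_nonneg_left (le_max_right _ _) (Real.exp_pos _).le)
  let e : ℝ →ᵇ ℂ := gkB ψ (fun h => Real.exp (h / 2)) (by fun_prop) (Real.exp (-(l / 2)))
    (fun h => by
    rw [abs_of_nonneg (Real.exp_pos _).le]
    have h1 : Real.exp (h / 2) * Real.exp (l / 2) ≤ max (Real.exp h) (Real.exp l) := by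
      rw [← Real.exp_add]
      rcases le_total h l with h2 | h2
      · exact le_max_of_le_right (Real.exp_le_exp.2 (by linarith))
      · exact le_max_of_le_left (Real.exp_le_exp.2 (by linarith))
    calc Real.exp (h / 2) = Real.exp (-(l / 2)) * (Real.exp (h / 2) * Real.exp (l / 2)) := by
          rw [← Real.exp_add, ← Real.exp_add]; ring_nf
      _ ≤ _ := mul_le_mul_of_nonneg_left h1 (Real.exp_pos _).le)
  let n : ℝ →ᵇ ℂ := gkB ψ Real.exp (by fun_prop) 1 (fun h => by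
    rw [abs_of_nonneg (Real.exp_pos _).le, one_mul]; exact le_max_left _ _)
  have hm : ∀ x, m x = ((1 * gk ψ x : ℝ) : ℂ) := fun x => rfl
  have he : ∀ x, e x = ((Real.exp (x / 2) * gk ψ x : ℝ) : ℂ) := fun x => rfl
  have hn : ∀ x, n x = ((Real.exp x * gk ψ x : ℝ) : ℂ) := fun x => rfl
  have hne : ∀ x, n x = Real.exp (x / 2) * e x := by
    intro x
    rw [hn, he, ← Complex.ofReal_mul, ← mul_assoc, ← Real.exp_add, add_halves]
  have hω : D.Th n ζ' = (Real.exp l : ℂ) • D.Th m ζ' + ζ' := by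
    have h1 : n = (Real.exp l : ℂ) • m + (1 - gdB ψ) := by
      ext x
      simp only [BoundedContinuousFunction.add_apply, BoundedContinuousFunction.sub_apply,
        BoundedContinuousFunction.smul_apply, BoundedContinuousFunction.coe_one, Pi.one_apply, gdB_apply,
        smul_eq_mul, hm, hn]
      have h2 : ((Real.exp x : ℂ) - (Real.exp l : ℂ)) * (gk ψ x : ℂ) = 1 - ((ψ x : ℝ) : ℂ) := by
        exact_mod_cast gk_mul ψ x
      push_cast at h2 ⊢
      linear_combination h2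
    rw [h1, _root_.map_add D.Th, map_smul D.Th, _root_.map_sub D.Th, hψ, sub_zero, map_one,
      add_apply, smul_apply]
    simp
  have hstar : ∀ F : ℝ →ᵇ ℂ, (∀ x, conj (F x) = F x) → star F = F := by
    intro F hF
    ext x
    simp only [BoundedContinuousFunction.star_apply, RCLike.star_def, hF]
  have hse : star e = e := hstar e (fun x => by rw [he, Complex.conj_ofReal])
  have hsn : star n = n := hstar n (fun x => by rw [hn, Complex.conj_ofReal])
  refine ⟨D.Th m ζ', D.J (D.Th e ζ'), ?_, ?_⟩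
  · -- membership in the closed graph
    rw [gS, Metric.mem_closure_iff]
    intro ε hε
    obtain ⟨χ, hχs, hχc, hχr, h₁, h₂⟩ := D.gd_two (D.Th m ζ') (D.Th e ζ') (ε / 2) (by positivity)
    set B : ℝ := ‖D.Th χ‖ + ‖D.Th (gdE χ hχc)‖ + 1 with hB
    have hBpos : 0 < B := by positivity
    obtain ⟨_, ⟨x, hx, rfl⟩, hxd⟩ := D.cyc.exists_dist_lt (D.Th m ζ') (ε := ε / (2 * B))
      (by positivity)
    obtain ⟨y, hy, hyx⟩ := hs x hx χ hχs hχc
    have hyJ := D.gd_J_star hy χ hχc hyx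
    refine ⟨(y ξ, star y ξ), ⟨y, hy, rfl⟩, ?_⟩
    rw [dist_eq_norm] at hxd
    have hop : ∀ A : H →L[ℂ] H, ‖A‖ ≤ B → ‖A (D.Th m ζ') - A (x ξ)‖ < ε / 2 := by
      intro A hA
      calc ‖A (D.Th m ζ') - A (x ξ)‖ = ‖A (D.Th m ζ' - x ξ)‖ := by rw [map_sub]
        _ ≤ ‖A‖ * ‖D.Th m ζ' - x ξ‖ := A.le_opNorm _
        _ ≤ B * ‖D.Th m ζ' - x ξ‖ := by gcongr
        _ < B * (ε / (2 * B)) := by gcongr
        _ = ε / 2 := by field_simp
    have e1 : D.Th (gdE χ hχc) (D.Th m ζ') = D.Th χ (D.Th e ζ') := by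
      rw [← D.gd_Th_mul, ← D.gd_Th_mul]
      congr 1
      apply gd_Th_congr
      intro x
      simp only [BoundedContinuousFunction.mul_apply, gdM_apply, hm, he]
      push_cast
      ring
    rw [Prod.dist_eq, max_lt_iff]
    constructor
    · change dist (D.Th m ζ') (y ξ) < ε
      rw [dist_eq_norm, hyx]
      calc ‖D.Th m ζ' - D.Th χ (x ξ)‖ ≤ ‖D.Th m ζ' - D.Th χ (D.Th m ζ')‖ +
            ‖D.Th χ (D.Th m ζ') - D.Th χ (x ξ)‖ := norm_sub_le_norm_sub_add_norm_sub _ _ _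
        _ < ε / 2 + ε / 2 := by
            have h3 := hop (D.Th χ) (by rw [hB]; linarith only [norm_nonneg (D.Th (gdE χ hχc))])
            rw [norm_sub_rev] at h₁
            linarith only [h3, h₁]
        _ = ε := by ring
    · change dist (D.J (D.Th e ζ')) (star y ξ) < ε
      rw [← D.J_J (star y ξ), D.J.dist_map, dist_eq_norm, hyJ]
      calc ‖D.Th e ζ' - D.Th (gdE χ hχc) (x ξ)‖ ≤ ‖D.Th e ζ' - D.Th χ (D.Th e ζ')‖ +
            ‖D.Th χ (D.Th e ζ') - D.Th (gdE χ hχc) (x ξ)‖ :=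
              norm_sub_le_norm_sub_add_norm_sub _ _ _
        _ < ε / 2 + ε / 2 := by
            have h3 := hop (D.Th (gdE χ hχc)) (by rw [hB]; linarith [norm_nonneg (D.Th χ)])
            rw [norm_sub_rev] at h₂
            rw [e1] at h3
            linarith only [h3, h₂]
        _ = ε := by ring
  · intro a ha
    change ⟪star a ξ, D.J (D.Th e ζ')⟫_ℂ = ⟪(Real.exp l : ℂ) • D.Th m ζ' + ζ', a ξ⟫_ℂ
    rw [← hω, D.inner_J_right, D.gd_inner_Th, hse, D.kms a ha n e hne, D.gd_inner_Th, hsn]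

/-- a spectral gap around `l` makes `Δ - exp l` bijective -/
theorem gap_bij (hs : Smth D) {a b : ℝ} (h0 : ∀ F : ℝ →ᵇ ℂ, tsupport F ⊆ Set.Ioo a b → D.Th F = 0)
    {l : ℝ} (hl : l ∈ Set.Ioo a b) (ζ' : H) :
    ∃! ζ : H, (ζ, (Real.exp l : ℂ) • ζ + ζ') ∈ gD M ξ := by
  obtain ⟨δ, hδ, hsub⟩ := Metric.isOpen_iff.1 isOpen_Ioo l hl
  let ψ : ContDiffBump l :=
    { rIn := δ / 4, rOut := δ / 2, rIn_pos := by positivity, rIn_lt_rOut := by linarith }
  have hsupp : tsupport ψ ⊆ Set.Ioo a b := by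
    rw [ψ.tsupport_eq]
    exact (Metric.closedBall_subset_ball (by change δ / 2 < δ; linarith)).trans hsub
  have hts : tsupport (gdB ψ) = tsupport ψ := by
    unfold tsupport; rw [gdB_support]
  have h1 : D.Th (gdB ψ) = 0 := h0 _ (by rw [hts]; exact hsupp)
  have h2 : ∀ χ : ℝ →ᵇ ℂ, D.Th (χ * gdB ψ) = 0 := by
    intro χ; rw [map_mul, h1, mul_zero]
  obtain ⟨ζ, hζ⟩ := D.gd_exists ψ hs h1 ζ'
  exact ⟨ζ, hζ, fun ζ₂ h₂ => D.gd_unique ψ hs h2 h₂ hζ⟩

theorem smth : Smth D := fun _ hx f hf hc => D.smooth_mem hx f hf hc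

/-- if `exp l` is in the spectrum of `Δ`, some function supported near `l` does not vanish -/
theorem exists_Th_ne_zero {a b : ℝ} {l : ℝ} (hl : l ∈ Set.Ioo a b)
    (h : ¬ ∀ ζ' : H, ∃! ζ : H, (ζ, (Real.exp l : ℂ) • ζ + ζ') ∈ gD M ξ) :
    ∃ F : ℝ →ᵇ ℂ, tsupport F ⊆ Set.Ioo a b ∧ D.Th F ≠ 0 := by
  by_contra h1
  push Not at h1
  exact h (D.gap_bij D.smth h1 hl)

end gap

end ModData

end Vale.Agent.P132
end

section

open Filter Topology
open scoped ComplexConjugate InnerProductSpace BoundedContinuousFunction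

namespace Vale.Agent.P132

universe u

variable {H : Type u} [NormedAddCommGroup H] [InnerProductSpace ℂ H] [CompleteSpace H]

/-- `h ↦ exp (s h)` truncated outside `[-1, 1]` -/
noncomputable def eB (s : ℝ) : ℝ →ᵇ ℂ :=
  BoundedContinuousFunction.ofNormedAddCommGroup
    (fun h : ℝ => ((Real.exp (s * max (-1) (min 1 h)) : ℝ) : ℂ)) (by fun_prop) (Real.exp |s|)
    (fun h => by
      rw [Complex.norm_real, Real.norm_of_nonneg (Real.exp_pos _).le, Real.exp_le_exp]
      have h1 : |max (-1) (min 1 h)| ≤ 1 :=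
        abs_le.2 ⟨le_max_left _ _, max_le (by norm_num) (min_le_left _ _)⟩
      calc s * max (-1) (min 1 h) ≤ |s * max (-1) (min 1 h)| := le_abs_self _
        _ = |s| * |max (-1) (min 1 h)| := abs_mul _ _
        _ ≤ |s| * 1 := mul_le_mul_of_nonneg_left h1 (abs_nonneg _)
        _ = |s| := mul_one _)

@[simp] theorem eB_apply (s h : ℝ) :
    eB s h = ((Real.exp (s * max (-1) (min 1 h)) : ℝ) : ℂ) := rfl

theorem eB_add (s t : ℝ) : eB (s + t) = eB s * eB t := by
  ext h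
  simp only [eB_apply, BoundedContinuousFunction.coe_mul, Pi.mul_apply, add_mul, Real.exp_add,
    Complex.ofReal_mul]

theorem star_eB (s : ℝ) : star (eB s) = eB s := by
  ext h
  simp only [BoundedContinuousFunction.coe_star, Pi.star_apply, eB_apply, RCLike.star_def,
    Complex.conj_ofReal]

@[simp] theorem eB_zero : eB 0 = 1 := by
  ext h; simp

theorem eB_of_mem (s : ℝ) {h : ℝ} (hh : |h| ≤ 1) : eB s h = ((Real.exp (s * h) : ℝ) : ℂ) := by
  rw [abs_le] at hh
  rw [eB_apply, min_eq_right hh.2, max_eq_right hh.1]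

namespace ModData

variable {M : VonNeumannAlgebra H} {ξ : H} (D : ModData M ξ)

/-- `a` belongs to the centralizer `M_φ`. -/
def InC (a : H →L[ℂ] H) : Prop := a ∈ M ∧ ∀ t : ℝ, D.U t (a ξ) = a ξ

/-- the fixed vectors of the group `U t` -/
def fixS : Submodule ℂ H where
  carrier := {ζ | ∀ t : ℝ, D.U t ζ = ζ}
  add_mem' := fun {x y} hx hy t => by rw [map_add, hx t, hy t]
  zero_mem' := fun t => map_zero _
  smul_mem' := fun c x hx t => by rw [map_smul, hx t]

theorem mem_fixS {ζ : H} : ζ ∈ D.fixS ↔ ∀ t : ℝ, D.U t ζ = ζ := Iff.rfl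

theorem isClosed_fixS : IsClosed (D.fixS : Set H) := by
  have : (D.fixS : Set H) = ⋂ t : ℝ, {ζ | D.U t ζ = ζ} := by
    ext ζ; simp [mem_fixS]
  rw [this]
  exact isClosed_iInter fun t => isClosed_eq (D.U t).continuous continuous_id

instance completeSpace_fixS : CompleteSpace D.fixS := D.isClosed_fixS.completeSpace_coe

/-- the projection onto the fixed vectors -/
noncomputable def P0 : H →L[ℂ] H := D.fixS.starProjection

/-- `ζ` has spectral support (for `log Δ`) in the closed interval `[a, b]`. -/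
def CW (a b : ℝ) (ζ : H) : Prop :=
  ∀ F : ℝ →ᵇ ℂ, (∀ h ∈ Set.Icc a b, F h = 0) → D.Th F ζ = 0

end ModData

end Vale.Agent.P132
end

section

open Filter Topology
open scoped ComplexConjugate InnerProductSpace BoundedContinuousFunction

namespace Vale.Agent.P132

universe u

variable {H : Type u} [NormedAddCommGroup H] [InnerProductSpace ℂ H] [CompleteSpace H]

namespace ModData

variable {M : VonNeumannAlgebra H} {ξ : H} (D : ModData M ξ)

/-- the conditional expectation `E` onto the centralizer (junk `0` outside `M`) -/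
noncomputable def EE (x : H →L[ℂ] H) : H →L[ℂ] H :=
  open Classical in
  if h : ∃ y : H →L[ℂ] H, D.InC y ∧ y ξ = D.P0 (x ξ) ∧ ‖y‖ ≤ ‖x‖ then h.choose else 0

end ModData

end Vale.Agent.P132
end

section

/-!
# P132: tools for the functional calculus `Th`: strong continuity and windows
-/

open Filter Topology
open scoped ComplexConjugate InnerProductSpace BoundedContinuousFunction

set_option linter.unusedSectionVars false
set_option linter.deprecated false

namespace Vale.Agent.P132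

universe u

variable {H : Type u} [NormedAddCommGroup H] [InnerProductSpace ℂ H] [CompleteSpace H]

namespace ModData

variable {M : VonNeumannAlgebra H} {ξ : H} (D : ModData M ξ)

theorem Th_mul_apply (F G : ℝ →ᵇ ℂ) (ζ : H) : D.Th (F * G) ζ = D.Th F (D.Th G ζ) := by
  rw [map_mul]; rfl

theorem norm_Th_apply_le (F : ℝ →ᵇ ℂ) (ζ : H) : ‖D.Th F ζ‖ ≤ ‖F‖ * ‖ζ‖ :=
  ((D.Th F).le_opNorm ζ).trans (mul_le_mul_of_nonneg_right (D.norm_Th_le F) (norm_nonneg _))

theorem norm_Th_apply_le_of_bound {F : ℝ →ᵇ ℂ} {C : ℝ} (hC : 0 ≤ C) (h : ∀ x, ‖F x‖ ≤ C) (ζ : H) :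
    ‖D.Th F ζ‖ ≤ C * ‖ζ‖ :=
  (D.norm_Th_apply_le F ζ).trans
    (mul_le_mul_of_nonneg_right ((BoundedContinuousFunction.norm_le hC).2 h) (norm_nonneg _))

/-- locally uniform bounded convergence implies strong convergence -/
theorem tendsto_Th_apply {ι : Type*} {l : Filter ι} {F : ι → ℝ →ᵇ ℂ} {G : ℝ →ᵇ ℂ} {C : ℝ}
    (hC : ∀ i, ‖F i - G‖ ≤ C)
    (h : ∀ R : ℝ, ∀ ε > 0, ∀ᶠ i in l, ∀ x : ℝ, |x| ≤ R → ‖F i x - G x‖ ≤ ε) (ζ : H) :
    Tendsto (fun i => D.Th (F i) ζ) l (𝓝 (D.Th G ζ)) := by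
  rcases isEmpty_or_nonempty ι with hι | ⟨⟨i₀⟩⟩
  · rw [show l = ⊥ from Subsingleton.elim _ _]; exact tendsto_bot
  have hC0 : 0 ≤ C := (norm_nonneg _).trans (hC i₀)
  rw [Metric.tendsto_nhds]
  intro ε hε
  obtain ⟨K, hK, hK1, hKε⟩ := D.Th_nondeg ζ (ε / (2 * (C + 1))) (by positivity)
  obtain ⟨R, hR⟩ : ∃ R : ℝ, ∀ x ∈ tsupport K, |x| ≤ R := by
    obtain ⟨R, hR⟩ := hK.isCompact.isBounded.exists_norm_le
    exact ⟨R, fun x hx => by simpa using hR x hx⟩
  filter_upwards [h R (ε / (4 * (‖ζ‖ + 1))) (by positivity)] with i hi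
  rw [dist_eq_norm]
  have e1 : D.Th (F i) ζ - D.Th G ζ = D.Th ((F i - G) * K) ζ + D.Th (F i - G) (ζ - D.Th K ζ) := by
    rw [Th_mul_apply, map_sub (D.Th (F i - G)), map_sub]
    simp only [ContinuousLinearMap.sub_apply]; abel
  rw [e1]
  have b1 : ‖D.Th ((F i - G) * K) ζ‖ ≤ ε / (4 * (‖ζ‖ + 1)) * ‖ζ‖ := by
    refine D.norm_Th_apply_le_of_bound (by positivity) (fun x => ?_) ζ
    by_cases hx : x ∈ tsupport K
    · have h1 : ‖(F i - G) x‖ ≤ ε / (4 * (‖ζ‖ + 1)) := hi x (hR x hx)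
      have h2 : ‖K x‖ ≤ 1 := (K.norm_coe_le_norm x).trans hK1
      rw [BoundedContinuousFunction.coe_mul, Pi.mul_apply, norm_mul]
      calc ‖(F i - G) x‖ * ‖K x‖ ≤ ε / (4 * (‖ζ‖ + 1)) * 1 :=
            mul_le_mul h1 h2 (norm_nonneg _) (by positivity)
        _ = _ := mul_one _
    · have h0 : K x = 0 := image_eq_zero_of_notMem_tsupport hx
      rw [BoundedContinuousFunction.coe_mul, Pi.mul_apply, h0, mul_zero, norm_zero]
      positivity
  have b2 : ‖D.Th (F i - G) (ζ - D.Th K ζ)‖ ≤ C * (ε / (2 * (C + 1))) := by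
    refine (D.norm_Th_apply_le _ _).trans ?_
    rw [norm_sub_rev ζ]
    exact mul_le_mul (hC i) hKε.le (norm_nonneg _) hC0
  have c1 : ε / (4 * (‖ζ‖ + 1)) * ‖ζ‖ ≤ ε / 4 := by
    rw [div_mul_eq_mul_div, div_le_div_iff₀ (by positivity) (by positivity)]
    linarith only [hε]
  have c2 : C * (ε / (2 * (C + 1))) ≤ ε / 2 := by
    rw [mul_div_assoc', div_le_div_iff₀ (by positivity) (by positivity)]
    linarith only [hε]
  calc _ ≤ _ := norm_add_le _ _
    _ ≤ ε / 4 + ε / 2 := add_le_add (b1.trans c1) (b2.trans c2)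
    _ < ε := by linarith only [hε]

theorem norm_expB_le (t : ℝ) : ‖expB t‖ ≤ 1 :=
  (BoundedContinuousFunction.norm_le zero_le_one).2 fun h => by
    rw [expB_apply, mul_comm, Complex.norm_exp_ofReal_mul_I]

theorem norm_expB_sub_le (t t' h : ℝ) : ‖expB t h - expB t' h‖ ≤ |t - t'| * |h| := by
  have e : expB t h - expB t' h =
      Complex.exp (Complex.I * ((t' * h : ℝ) : ℂ)) *
        (Complex.exp (Complex.I * (((t - t') * h : ℝ) : ℂ)) - 1) := by
    rw [expB_apply, expB_apply, mul_sub, ← Complex.exp_add, mul_one]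
    congr 2; push_cast; ring
  rw [e, norm_mul, mul_comm Complex.I, Complex.norm_exp_ofReal_mul_I, one_mul, ← abs_mul]
  exact Real.norm_exp_I_mul_ofReal_sub_one_le

/-- strong continuity of the modular group -/
theorem continuous_U_apply (ζ : H) : Continuous fun t => D.U t ζ := by
  rw [continuous_iff_continuousAt]
  intro t₀
  refine D.tendsto_Th_apply (C := 2) (fun t => ?_) (fun R ε hε => ?_) ζ
  · calc ‖expB t - expB t₀‖ ≤ ‖expB t‖ + ‖expB t₀‖ := norm_sub_le _ _
      _ ≤ 2 := by linarith [norm_expB_le t, norm_expB_le t₀]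
  · have : ∀ᶠ t in 𝓝 t₀, |t - t₀| < ε / (|R| + 1) := by
      have := Metric.ball_mem_nhds t₀ (show 0 < ε / (|R| + 1) by positivity)
      filter_upwards [this] with t ht
      simpa [Real.dist_eq] using ht
    filter_upwards [this] with t ht x hx
    refine (norm_expB_sub_le t t₀ x).trans ?_
    have hx' : |x| ≤ |R| := hx.trans (le_abs_self R)
    calc |t - t₀| * |x| ≤ ε / (|R| + 1) * |R| :=
          mul_le_mul ht.le hx' (abs_nonneg _) (by positivity)
      _ ≤ ε := by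
          rw [div_mul_eq_mul_div, div_le_iff₀ (by positivity)]
          linarith only [hε]

end ModData

end Vale.Agent.P132
end

section

/-!
# P132: averages over the times `j τ / n`, `j < n^3`
-/

open Filter Topology
open scoped ComplexConjugate InnerProductSpace BoundedContinuousFunction

set_option linter.unusedSectionVars false
set_option linter.deprecated false

namespace Vale.Agent.P132

universe u

section avg

variable {V : Type*} [NormedAddCommGroup V] [NormedSpace ℝ V]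
variable {W : Type*} [NormedAddCommGroup W] [NormedSpace ℝ W]

open ModData

variable (τ : ℝ) (n : ℕ)

theorem avg_congr {F G : ℝ → V} (h : ∀ t, F t = G t) : avg τ n F = avg τ n G := by
  simp [avg, h]

theorem avg_add (F G : ℝ → V) : avg τ n (fun t => F t + G t) = avg τ n F + avg τ n G := by
  simp [avg, Finset.sum_add_distrib]

theorem avg_sub (F G : ℝ → V) : avg τ n (fun t => F t - G t) = avg τ n F - avg τ n G := by
  simp [avg, Finset.sum_sub_distrib, smul_sub]

theorem map_avg (L : V →ₗ[ℝ] W) (F : ℝ → V) : L (avg τ n F) = avg τ n (fun t => L (F t)) := by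
  simp [avg, map_sum]

theorem avg_const (hn : n ≠ 0) (v : V) : avg τ n (fun _ => v) = v := by
  have : ((n : ℝ) ^ 3) ≠ 0 := by positivity
  simp only [avg, Finset.sum_const, Finset.card_range]
  rw [← Nat.cast_smul_eq_nsmul ℝ, smul_smul]
  push_cast
  rw [inv_mul_cancel₀ this, one_smul]

theorem norm_avg_le {F : ℝ → V} {C : ℝ} (hC : 0 ≤ C) (h : ∀ t, ‖F t‖ ≤ C) : ‖avg τ n F‖ ≤ C := by
  rcases Nat.eq_zero_or_pos n with rfl | hn
  · simp [avg, hC]
  have h3 : (0 : ℝ) < (n : ℝ) ^ 3 := by positivity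
  rw [avg, norm_smul, norm_inv, Real.norm_of_nonneg h3.le, inv_mul_le_iff₀ h3]
  refine (norm_sum_le _ _).trans ((Finset.sum_le_sum fun j _ => h _).trans ?_)
  simp

theorem norm_avg_le_avg (F : ℝ → V) : ‖avg τ n F‖ ≤ avg τ n (fun t => ‖F t‖) := by
  rcases Nat.eq_zero_or_pos n with rfl | hn
  · simp [avg]
  have h3 : (0 : ℝ) < (n : ℝ) ^ 3 := by positivity
  rw [avg, avg, norm_smul, norm_inv, Real.norm_of_nonneg h3.le, smul_eq_mul]
  exact mul_le_mul_of_nonneg_left (norm_sum_le _ _) (by positivity)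

theorem avg_mono {f g : ℝ → ℝ} (h : ∀ t, f t ≤ g t) : avg τ n f ≤ avg τ n g := by
  rcases Nat.eq_zero_or_pos n with rfl | hn
  · simp [avg]
  exact mul_le_mul_of_nonneg_left (Finset.sum_le_sum fun j _ => h _) (by positivity)

theorem avg_nonneg {f : ℝ → ℝ} (h : ∀ t, 0 ≤ f t) : 0 ≤ avg τ n f := by
  rw [avg, smul_eq_mul]
  exact mul_nonneg (by positivity) (Finset.sum_nonneg fun j _ => h _)

theorem avg_const_mul (c : ℝ) (f : ℝ → ℝ) : avg τ n (fun t => c * f t) = c * avg τ n f := by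
  simp only [avg, smul_eq_mul, ← Finset.mul_sum]; ring

/-- Cauchy-Schwarz for averages -/
theorem avg_mul_sq_le (f g : ℝ → ℝ) :
    (avg τ n (fun t => f t * g t)) ^ 2 ≤ avg τ n (fun t => f t ^ 2) * avg τ n (fun t => g t ^ 2) := by
  simp only [avg, smul_eq_mul]
  have := Finset.sum_mul_sq_le_sq_mul_sq (Finset.range (n ^ 3)) (fun j => f (j * τ / n))
    (fun j => g (j * τ / n))
  have h3 : (0 : ℝ) ≤ (((n : ℝ) ^ 3)⁻¹) ^ 2 := by positivity
  calc _ = (((n : ℝ) ^ 3)⁻¹) ^ 2 * (∑ i ∈ Finset.range (n ^ 3), f (i * τ / n) * g (i * τ / n)) ^ 2 := by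
        ring
    _ ≤ (((n : ℝ) ^ 3)⁻¹) ^ 2 * ((∑ i ∈ Finset.range (n ^ 3), f (i * τ / n) ^ 2) *
          ∑ i ∈ Finset.range (n ^ 3), g (i * τ / n) ^ 2) := mul_le_mul_of_nonneg_left this h3
    _ = _ := by ring

/-- shift by `m` steps -/
theorem norm_avg_shift_le {F : ℝ → V} {C : ℝ} (h : ∀ t, ‖F t‖ ≤ C) (m : ℕ) :
    ‖avg τ n (fun t => F (t + m * τ / n)) - avg τ n F‖ ≤ 2 * m * C / n ^ 3 := by
  rcases Nat.eq_zero_or_pos n with rfl | hn
  · simp [avg]
  have h3 : (0 : ℝ) < (n : ℝ) ^ 3 := by positivity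
  set a : ℕ → V := fun j => F (j * τ / n) with ha
  have e1 : ∑ j ∈ Finset.range (n ^ 3), F (j * τ / n + m * τ / n)
      = ∑ j ∈ Finset.range (n ^ 3), a (j + m) := by
    refine Finset.sum_congr rfl fun j _ => ?_
    simp only [ha]; congr 1; push_cast; ring
  have e2 : ∑ j ∈ Finset.range (n ^ 3), a (j + m) + ∑ j ∈ Finset.range m, a j
      = ∑ j ∈ Finset.range (n ^ 3), a j + ∑ j ∈ Finset.range m, a (n ^ 3 + j) := by
    rw [← Finset.sum_range_add, add_comm (n ^ 3) m, Finset.sum_range_add, add_comm]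
    congr 1
    exact Finset.sum_congr rfl fun j _ => by rw [add_comm]
  have e3 : avg τ n (fun t => F (t + m * τ / n)) - avg τ n F
      = ((n : ℝ) ^ 3)⁻¹ • (∑ j ∈ Finset.range m, (a (n ^ 3 + j) - a j)) := by
    rw [avg, avg, ← smul_sub, e1, Finset.sum_sub_distrib]
    congr 1
    rw [sub_eq_sub_iff_add_eq_add, e2, add_comm]
  rw [e3, norm_smul, norm_inv, Real.norm_of_nonneg h3.le, inv_mul_eq_div]
  refine div_le_div_of_nonneg_right ?_ h3.le
  refine (norm_sum_le _ _).trans ((Finset.sum_le_sum fun j _ => (norm_sub_le _ _).trans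
    (add_le_add (h _) (h _))).trans ?_)
  simp; ring_nf; rfl

end avg

/-! ### a mean ergodic theorem -/

section erg

open ModData

variable {H : Type u} [NormedAddCommGroup H] [InnerProductSpace ℂ H] [CompleteSpace H]

theorem avg_smul (τ : ℝ) (n : ℕ) (c : ℂ) (F : ℝ → H) :
    avg τ n (fun t => c • F t) = c • avg τ n F := by
  simp only [avg, ← Finset.smul_sum]
  rw [smul_comm]

theorem avg_neg (τ : ℝ) (n : ℕ) (F : ℝ → H) :
    avg τ n (fun t => - F t) = - avg τ n F := by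
  simp [avg]

theorem avg_apply (τ : ℝ) (n : ℕ) (F : ℝ → H →L[ℂ] H) (ζ : H) :
    avg τ n F ζ = avg τ n (fun t => F t ζ) := by
  simp [avg]

theorem map_avg_clm (τ : ℝ) (n : ℕ) (T : H →L[ℂ] H) (F : ℝ → H) :
    T (avg τ n F) = avg τ n (fun t => T (F t)) :=
  map_avg τ n ((T : H →ₗ[ℂ] H).restrictScalars ℝ) F

theorem inner_avg_right (τ : ℝ) (n : ℕ) (v : H) (F : ℝ → H) :
    ⟪v, avg τ n F⟫_ℂ = avg τ n (fun t => ⟪v, F t⟫_ℂ) :=
  map_avg τ n (((innerSL ℂ v) : H →ₗ[ℂ] ℂ).restrictScalars ℝ) F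

theorem re_avg (τ : ℝ) (n : ℕ) (F : ℝ → ℂ) :
    (avg τ n F).re = avg τ n (fun t => (F t).re) :=
  map_avg τ n Complex.reLm F

theorem inner_avg_left (τ : ℝ) (n : ℕ) (v : H) (F : ℝ → H) :
    ⟪avg τ n F, v⟫_ℂ = avg τ n (fun t => ⟪F t, v⟫_ℂ) := by
  rw [← inner_conj_symm, inner_avg_right]
  have := map_avg τ n (Complex.conjLIE.toLinearEquiv : ℂ →ₗ[ℝ] ℂ) (fun t => ⟪v, F t⟫_ℂ)
  refine this.trans (avg_congr τ n fun t => ?_)
  exact inner_conj_symm _ _

theorem tendsto_avg_group {τ : ℝ} (hτ : 0 < τ) (u : ℝ → H →L[ℂ] H)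
    (hadd : ∀ s t, u (s + t) = u s * u t) (hnorm : ∀ t ζ, ‖u t ζ‖ = ‖ζ‖)
    (hadj : ∀ t, star (u t) = u (-t)) (hzero : u 0 = 1)
    (hcont : ∀ ζ, Continuous fun t => u t ζ) (ζ : H) :
    ∃ ζ₀ : H, (∀ t, u t ζ₀ = ζ₀) ∧
      Tendsto (fun n : ℕ => avg τ n (fun t => u t ζ)) atTop (𝓝 ζ₀) := by
  have hadd' : ∀ s t v, u (s + t) v = u s (u t v) := fun s t v => by rw [hadd]; rfl
  set W : Submodule ℂ H := Submodule.span ℂ {v | ∃ s η, v = u s η - η} with hW
  -- convergence on the generators, nonnegative times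
  have step0 : ∀ (s : ℝ) (_ : 0 ≤ s) (η : H),
      Tendsto (fun n : ℕ => avg τ n (fun t => u t (u s η - η))) atTop (𝓝 0) := by
    intro s hs η
    have hm : ∀ n : ℕ, n ≠ 0 → ‖avg τ n (fun t => u t (u s η - η))‖ ≤
        ‖u (s - (⌊s * n / τ⌋₊ : ℝ) * τ / n) η - η‖ + 2 * s * ‖η‖ / τ * (1 / (n : ℝ) ^ 2) := by
      intro n hn
      have hn0 : (0 : ℝ) < n := by exact_mod_cast Nat.pos_of_ne_zero hn
      set m : ℕ := ⌊s * n / τ⌋₊ with hmdef
      have e : avg τ n (fun t => u t (u s η - η)) =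
          avg τ n (fun t => u (t + m * τ / n) (u (s - m * τ / n) η - η)) +
          (avg τ n (fun t => u (t + m * τ / n) η) - avg τ n (fun t => u t η)) := by
        rw [← avg_sub, ← avg_add]
        refine avg_congr τ n fun t => ?_
        rw [map_sub, map_sub, ← hadd', ← hadd']
        rw [show t + ↑m * τ / ↑n + (s - ↑m * τ / ↑n) = t + s by ring]
        abel
      rw [e]
      refine (norm_add_le _ _).trans (add_le_add ?_ ?_)
      · exact norm_avg_le τ n (norm_nonneg _) fun t => (hnorm _ _).le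
      · refine (norm_avg_shift_le τ n (F := fun t => u t η) (C := ‖η‖)
          (fun t => (hnorm t η).le) m).trans ?_
        have hmle : (m : ℝ) ≤ s * n / τ := Nat.floor_le (by positivity)
        calc 2 * (m : ℝ) * ‖η‖ / n ^ 3 ≤ 2 * (s * n / τ) * ‖η‖ / n ^ 3 := by gcongr
          _ = 2 * s * ‖η‖ / τ * (1 / (n : ℝ) ^ 2) := by field_simp
    have h1 : Tendsto (fun n : ℕ => s - (⌊s * n / τ⌋₊ : ℝ) * τ / n) atTop (𝓝 0) := by
      have hb : ∀ n : ℕ, n ≠ 0 → ‖s - (⌊s * n / τ⌋₊ : ℝ) * τ / n‖ ≤ τ * (1 / (n : ℝ)) := by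
        intro n hn
        have hn0 : (0 : ℝ) < n := by exact_mod_cast Nat.pos_of_ne_zero hn
        have hmle : (⌊s * n / τ⌋₊ : ℝ) ≤ s * n / τ := Nat.floor_le (by positivity)
        have hlt : s * n / τ < ⌊s * n / τ⌋₊ + 1 := Nat.lt_floor_add_one _
        have e : s - (⌊s * n / τ⌋₊ : ℝ) * τ / n = (s * n / τ - ⌊s * n / τ⌋₊) * (τ / n) := by
          field_simp
        rw [e, Real.norm_of_nonneg (mul_nonneg (by linarith) (by positivity))]
        calc (s * n / τ - ⌊s * n / τ⌋₊) * (τ / n) ≤ 1 * (τ / n) :=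
              mul_le_mul_of_nonneg_right (by linarith only [hlt]) (by positivity)
          _ = _ := by ring
      have : Tendsto (fun n : ℕ => τ * (1 / (n : ℝ))) atTop (𝓝 0) := by
        simpa using (tendsto_one_div_atTop_nhds_zero_nat (𝕜 := ℝ)).const_mul τ
      refine squeeze_zero_norm' ?_ this
      filter_upwards [eventually_ne_atTop 0] with n hn using hb n hn
    have h2 : Tendsto (fun n : ℕ => ‖u (s - (⌊s * n / τ⌋₊ : ℝ) * τ / n) η - η‖) atTop (𝓝 0) := by
      have hc : Continuous fun t => ‖u t η - η‖ := ((hcont η).sub continuous_const).norm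
      have := (hc.tendsto 0).comp h1
      simpa [hzero, Function.comp_def] using this
    have h3 : Tendsto (fun n : ℕ => 2 * s * ‖η‖ / τ * (1 / (n : ℝ) ^ 2)) atTop (𝓝 0) := by
      have : Tendsto (fun n : ℕ => (1 / (n : ℝ) ^ 2)) atTop (𝓝 0) := by
        have := (tendsto_one_div_atTop_nhds_zero_nat (𝕜 := ℝ)).pow 2
        simpa [div_pow] using this
      simpa using this.const_mul (2 * s * ‖η‖ / τ)
    have h4 := h2.add h3
    rw [add_zero] at h4
    refine squeeze_zero_norm' ?_ h4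
    filter_upwards [eventually_ne_atTop 0] with n hn using hm n hn
  have step1 : ∀ (s : ℝ) (η : H),
      Tendsto (fun n : ℕ => avg τ n (fun t => u t (u s η - η))) atTop (𝓝 0) := by
    intro s η
    rcases le_total 0 s with hs | hs
    · exact step0 s hs η
    · have h := step0 (-s) (by linarith) (u s η)
      have e : ∀ n : ℕ, avg τ n (fun t => u t (u s η - η)) =
          - avg τ n (fun t => u t (u (-s) (u s η) - u s η)) := by
        intro n
        rw [← avg_neg]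
        refine avg_congr τ n fun t => ?_
        rw [← hadd', neg_add_cancel, hzero]
        simp
      simp only [e]
      simpa using h.neg
  have step2 : ∀ v ∈ W, Tendsto (fun n : ℕ => avg τ n (fun t => u t v)) atTop (𝓝 0) := by
    intro v hv
    refine Submodule.span_induction (p := fun v _ =>
      Tendsto (fun n : ℕ => avg τ n (fun t => u t v)) atTop (𝓝 0)) ?_ ?_ ?_ ?_ hv
    · rintro _ ⟨s, η, rfl⟩
      exact step1 s η
    · simpa using (tendsto_const_nhds (x := (0 : H)) (f := (atTop : Filter ℕ))).congr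
        (fun n => by simp [avg])
    · intro x y _ _ hx hy
      have := hx.add hy
      simp only [map_add, avg_add]
      simpa using this
    · intro c x _ hx
      have := hx.const_smul c
      simp only [map_smul, avg_smul]
      simpa using this
  obtain ⟨k, hk, p, hp, rfl⟩ := Submodule.exists_add_mem_mem_orthogonal (K := W.topologicalClosure) ζ
  have hpfix : ∀ t, u t p = p := by
    intro t
    rw [← sub_eq_zero, ← inner_self_eq_zero (𝕜 := ℂ)]
    have h1 : ∀ η : H, ⟪η, u t p - p⟫_ℂ = 0 := by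
      intro η
      have h2 : u (-t) η - η ∈ W.topologicalClosure :=
        W.le_topologicalClosure (Submodule.subset_span ⟨-t, η, rfl⟩)
      have h3 := (Submodule.mem_orthogonal _ _).1 hp _ h2
      rw [inner_sub_left, sub_eq_zero] at h3
      rw [inner_sub_right, sub_eq_zero, ← h3, ← ContinuousLinearMap.adjoint_inner_right,
        ← ContinuousLinearMap.star_eq_adjoint, hadj, neg_neg]
    exact h1 _
  refine ⟨p, hpfix, ?_⟩
  have hk0 : Tendsto (fun n : ℕ => avg τ n (fun t => u t k)) atTop (𝓝 0) := by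
    rw [Metric.tendsto_nhds]
    intro ε hε
    have hk' : k ∈ closure (W : Set H) := hk
    obtain ⟨w, hw, hkw⟩ := Metric.mem_closure_iff.1 hk' (ε / 2) (by positivity)
    have h4 := (Metric.tendsto_nhds.1 (step2 w hw)) (ε / 2) (by positivity)
    filter_upwards [h4] with n hn
    rw [dist_zero_right] at hn ⊢
    have e : avg τ n (fun t => u t k) = avg τ n (fun t => u t (k - w)) + avg τ n (fun t => u t w) := by
      rw [← avg_add]; exact avg_congr τ n fun t => by rw [map_sub]; abel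
    rw [e]
    have h5 : ‖avg τ n (fun t => u t (k - w))‖ ≤ ‖k - w‖ :=
      norm_avg_le τ n (norm_nonneg _) fun t => (hnorm t _).le
    rw [dist_eq_norm] at hkw
    calc _ ≤ _ := norm_add_le _ _
      _ < ε / 2 + ε / 2 := add_lt_add (h5.trans_lt hkw) hn
      _ = ε := by ring
  have hp0 : Tendsto (fun n : ℕ => avg τ n (fun t => u t p)) atTop (𝓝 p) := by
    refine tendsto_const_nhds.congr' ?_
    filter_upwards [eventually_ne_atTop 0] with n hn
    rw [avg_congr τ n hpfix, avg_const τ n hn]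
  have := hk0.add hp0
  rw [zero_add] at this
  refine this.congr fun n => ?_
  rw [← avg_add]
  exact avg_congr τ n fun t => (map_add _ _ _).symm

end erg

end Vale.Agent.P132
end

section

open Filter Topology MeasureTheory
open scoped ComplexConjugate InnerProductSpace BoundedContinuousFunction FourierTransform SchwartzMap

namespace Vale.Agent.P132

universe u

variable {H : Type u} [NormedAddCommGroup H] [InnerProductSpace ℂ H] [CompleteSpace H]

namespace ModData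

variable {M : VonNeumannAlgebra H} {ξ : H} (D : ModData M ξ)

/-! ### elementary window calculus -/

theorem CW.mono {a b a' b' : ℝ} {ζ : H} (h : D.CW a b ζ) (ha : a' ≤ a) (hb : b ≤ b') :
    D.CW a' b' ζ :=
  fun F hF => h F (fun x hx => hF x ⟨ha.trans hx.1, hx.2.trans hb⟩)

theorem CW.Th_eq {a b : ℝ} {ζ : H} (h : D.CW a b ζ) {F G : ℝ →ᵇ ℂ}
    (hFG : ∀ h ∈ Set.Icc a b, F h = G h) : D.Th F ζ = D.Th G ζ := by
  have h1 := h (F - G) (fun x hx => by
    rw [BoundedContinuousFunction.coe_sub, Pi.sub_apply, hFG x hx, sub_self])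
  rw [map_sub] at h1
  exact sub_eq_zero.1 h1

theorem CW.apply_U {a b : ℝ} {ζ : H} (h : D.CW a b ζ) (t : ℝ) : D.CW a b (D.U t ζ) := by
  intro F hF
  have h1 : D.Th F (D.U t ζ) = D.Th (F * expB t) ζ := by rw [map_mul]; rfl
  rw [h1, mul_comm, map_mul]
  change D.Th (expB t) (D.Th F ζ) = 0
  rw [h F hF, map_zero]

/-- if `F` vanishes outside `[a, b]` then `Th F ζ` has window `[a, b]` -/
theorem CW_of_support {a b : ℝ} (F : ℝ →ᵇ ℂ) (hF : ∀ h, h ∉ Set.Icc a b → F h = 0) (ζ : H) :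
    D.CW a b (D.Th F ζ) := by
  intro G hG
  have h1 : D.Th G (D.Th F ζ) = D.Th (G * F) ζ := by rw [map_mul]; rfl
  have h2 : G * F = 0 := by
    ext x
    rw [BoundedContinuousFunction.coe_mul, Pi.mul_apply]
    by_cases hx : x ∈ Set.Icc a b
    · rw [hG x hx, zero_mul]; rfl
    · rw [hF x hx, mul_zero]; rfl
  rw [h1, h2, map_zero]
  rfl

/-- a vector with an empty window is zero -/
theorem CW.eq_zero_of_lt {a b : ℝ} {ζ : H} (h : D.CW a b ζ) (hab : b < a) : ζ = 0 := by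
  have h1 := h 1 (fun x hx => absurd (hx.1.trans hx.2) (not_le.2 hab))
  rw [map_one] at h1
  exact h1

/-! ### clamping -/

/-- the composite of `F` with the projection on `[a, b]` -/
noncomputable def clampB (a b : ℝ) (F : ℝ →ᵇ ℂ) : ℝ →ᵇ ℂ :=
  F.compContinuous ⟨fun h => max a (min b h), by fun_prop⟩

theorem clampB_apply (a b : ℝ) (F : ℝ →ᵇ ℂ) (h : ℝ) : clampB a b F h = F (max a (min b h)) := rfl

theorem CW.norm_le {a b : ℝ} (hab : a ≤ b) {ζ : H} (h : D.CW a b ζ) {F : ℝ →ᵇ ℂ} {C : ℝ}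
    (hC : 0 ≤ C) (hF : ∀ h ∈ Set.Icc a b, ‖F h‖ ≤ C) : ‖D.Th F ζ‖ ≤ C * ‖ζ‖ := by
  have h1 : D.Th F ζ = D.Th (clampB a b F) ζ := by
    apply CW.Th_eq D h
    intro x hx
    rw [clampB_apply, min_eq_right hx.2, max_eq_right hx.1]
  rw [h1]
  refine ((D.Th _).le_opNorm ζ).trans (mul_le_mul_of_nonneg_right ?_ (norm_nonneg _))
  refine (D.norm_Th_le _).trans ?_
  rw [BoundedContinuousFunction.norm_le hC]
  intro x
  rw [clampB_apply]
  exact hF _ ⟨le_max_left _ _, max_le hab (min_le_left _ _)⟩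

/-- `‖Δ^{1/2} ζ - ζ‖ ≤ (e^{δ/2} - 1) ‖ζ‖` for `ζ` with window `[-δ, δ]` -/
theorem CW.norm_sub_le {δ : ℝ} (h0 : 0 ≤ δ) (hδ : δ ≤ 1) {ζ : H} (h : D.CW (-δ) δ ζ) :
    ‖D.Th (eB (1 / 2)) ζ - ζ‖ ≤ (Real.exp (δ / 2) - 1) * ‖ζ‖ := by
  have h1 : D.Th (eB (1 / 2)) ζ - ζ = D.Th (eB (1 / 2) - 1) ζ := by
    rw [map_sub, map_one]; rfl
  rw [h1]
  refine CW.norm_le D (by linarith) h (by linarith [Real.add_one_le_exp (δ / 2)]) ?_
  intro x hx
  have h2 : |x| ≤ 1 := (abs_le.2 hx).trans hδ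
  have h3 : (eB (1 / 2) - 1) x = ((Real.exp (1 / 2 * x) - 1 : ℝ) : ℂ) := by
    rw [BoundedContinuousFunction.coe_sub, Pi.sub_apply, eB_of_mem _ h2]
    push_cast
    rfl
  rw [h3, Complex.norm_real, Real.norm_eq_abs, abs_le]
  constructor
  · have h4 : Real.exp (-(δ / 2)) ≤ Real.exp (1 / 2 * x) :=
      Real.exp_le_exp.2 (by linarith [hx.1])
    have h5 : 2 ≤ Real.exp (δ / 2) + Real.exp (-(δ / 2)) := by
      have := Real.one_le_cosh (δ / 2)
      rw [Real.cosh_eq] at this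
      linarith
    linarith only [h5, h4]
  · have h4 : Real.exp (1 / 2 * x) ≤ Real.exp (δ / 2) := Real.exp_le_exp.2 (by linarith [hx.2])
    linarith

/-- the unitary group is almost scalar on a narrow window -/
theorem CW.norm_U_sub {k δ : ℝ} (hδ : 0 ≤ δ) {ζ : H} (h : D.CW (k - δ) (k + δ) ζ) (t : ℝ) :
    ‖D.U t ζ - Complex.exp (Complex.I * ((t * k : ℝ) : ℂ)) • ζ‖ ≤ |t| * δ * ‖ζ‖ := by
  set c : ℂ := Complex.exp (Complex.I * ((t * k : ℝ) : ℂ)) with hc
  have h1 : D.U t ζ - c • ζ = D.Th (expB t - c • 1) ζ := by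
    rw [map_sub, map_smul, map_one]; rfl
  rw [h1]
  refine CW.norm_le D (by linarith) h (by positivity) ?_
  intro x hx
  have h3 : (expB t - c • (1 : ℝ →ᵇ ℂ)) x = Complex.exp (Complex.I * ((t * k : ℝ) : ℂ)) *
      (Complex.exp (Complex.I * ((t * (x - k) : ℝ) : ℂ)) - 1) := by
    rw [BoundedContinuousFunction.coe_sub, Pi.sub_apply, expB_apply, mul_sub, ← Complex.exp_add]
    congr 1
    · congr 1
      push_cast
      ring
  rw [h3, norm_mul, mul_comm Complex.I, Complex.norm_exp_ofReal_mul_I, one_mul]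
  refine (Real.norm_exp_I_mul_ofReal_sub_one_le (x := t * (x - k))).trans ?_
  rw [Real.norm_eq_abs, abs_mul]
  refine mul_le_mul_of_nonneg_left ?_ (abs_nonneg _)
  rw [abs_le]
  constructor <;> linarith [hx.1, hx.2]

/-! ### smooth test functions are enough -/

theorem CW_of_smooth {a b : ℝ} {ζ : H}
    (h : ∀ f : ℝ →ᵇ ℂ, ContDiff ℝ (⊤ : ℕ∞) f → HasCompactSupport f →
      (∀ x ∈ Set.Icc a b, f x = 0) → D.Th f ζ = 0) : D.CW a b ζ := by
  obtain ⟨g, hg1, hg2, hg3⟩ := (isClosed_Icc (a := a) (b := b)).isOpen_compl.exists_contDiff_support_eq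
    (n := (⊤ : ℕ∞))
  obtain ⟨μ, hμf, hμ⟩ := D.spec ζ
  let ρ : ℕ → ContDiffBump (0 : ℝ) := fun n =>
    ⟨n + 1, n + 2, by positivity, by linarith⟩
  have hρs : ∀ n, ContDiff ℝ (⊤ : ℕ∞) (ρ n : ℝ → ℝ) := fun n => (ρ n).contDiff
  have hfs : ∀ n, ContDiff ℝ (⊤ : ℕ∞) (fun x : ℝ => ((g x * ρ n x : ℝ) : ℂ)) := fun n =>
    Complex.ofRealCLM.contDiff.comp (hg2.mul (hρs n))
  have hg01 : ∀ x, 0 ≤ g x ∧ g x ≤ 1 := fun x => hg3 ⟨x, rfl⟩
  let f : ℕ → ℝ →ᵇ ℂ := fun n => BoundedContinuousFunction.ofNormedAddCommGroup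
    (fun x : ℝ => ((g x * ρ n x : ℝ) : ℂ)) (hfs n).continuous 1 (fun x => by
      rw [Complex.norm_real, Real.norm_eq_abs, abs_mul, abs_of_nonneg (hg01 x).1,
        abs_of_nonneg (ρ n).nonneg]
      exact mul_le_one₀ (hg01 x).2 (ρ n).nonneg (ρ n).le_one)
  have hf0 : ∀ n, D.Th (f n) ζ = 0 := by
    intro n
    apply h (f n) (hfs n)
    · have h1 : HasCompactSupport (fun x : ℝ => g x * ρ n x) := (ρ n).hasCompactSupport.mul_left
      exact h1.comp_left (g := fun x : ℝ => (x : ℂ)) (by simp)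
    · intro x hx
      have hgx : g x = 0 := by
        by_contra hne
        have : x ∈ Function.support g := hne
        rw [hg1] at this
        exact this hx
      change ((g x * ρ n x : ℝ) : ℂ) = 0
      rw [hgx, zero_mul, Complex.ofReal_zero]
  have hae : ∀ᵐ x ∂μ, ∀ n, f n x = 0 := by
    rw [ae_all_iff]
    intro n
    have h1 := norm_sq_of_spec D.Th hμ (f n)
    rw [hf0 n, norm_zero, zero_pow two_ne_zero] at h1
    have h2 := (integral_eq_zero_iff_of_nonneg (μ := μ) (f := fun x => ‖f n x‖ ^ 2)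
      (fun x => by positivity) (Integrable.mono' (integrable_const (‖f n‖ ^ 2)) (by
        exact (by fun_prop : Continuous fun x => ‖f n x‖ ^ 2).aestronglyMeasurable)
        (Eventually.of_forall fun x => by
          rw [Real.norm_eq_abs, abs_of_nonneg (by positivity)]
          exact pow_le_pow_left₀ (norm_nonneg _) ((f n).norm_coe_le_norm x) 2))).1 h1.symm
    filter_upwards [h2] with x hx
    have h3 : ‖f n x‖ ^ 2 = 0 := hx
    exact norm_eq_zero.1 (pow_eq_zero_iff two_ne_zero |>.1 h3)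
  have hmem : ∀ᵐ x ∂μ, x ∈ Set.Icc a b := by
    filter_upwards [hae] with x hx
    by_contra hne
    have h1 : g x ≠ 0 := by
      have : x ∈ Function.support g := by rw [hg1]; exact hne
      exact this
    obtain ⟨n, hn⟩ := exists_nat_ge |x|
    have h2 := hx n
    change ((g x * ρ n x : ℝ) : ℂ) = 0 at h2
    have h3 : ρ n x = 1 := by
      apply (ρ n).one_of_mem_closedBall
      rw [Metric.mem_closedBall, dist_zero_right, Real.norm_eq_abs]
      change |x| ≤ (n : ℝ) + 1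
      linarith
    rw [h3, mul_one] at h2
    exact h1 (by exact_mod_cast h2)
  intro F hF
  have h1 := norm_sq_of_spec D.Th hμ F
  have h2 : ∫ x, ‖F x‖ ^ 2 ∂μ = 0 := by
    rw [integral_eq_zero_of_ae]
    filter_upwards [hmem] with x hx
    rw [hF x hx]
    simp
  rw [h2] at h1
  exact norm_eq_zero.1 (pow_eq_zero_iff two_ne_zero |>.1 h1)

/-! ### Fourier representation -/

theorem Th_integral (f : ℝ →ᵇ ℂ) (G : ℝ → ℂ) (hGc : Continuous G) (hGi : Integrable G)
    (hinv : ∀ h, f h = ∫ w, G w * Complex.exp (Complex.I * ((2 * Real.pi * w * h : ℝ) : ℂ)))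
    (v : H) : D.Th f v = ∫ w, G w • D.U (2 * Real.pi * w) v := by
  have hUc : ∀ η, Continuous fun w => D.U (2 * Real.pi * w) η := fun η =>
    D.continuous_U_comp continuous_const (by fun_prop)
  obtain ⟨A, hA1, hA2⟩ := e3_intOp G hGi hGc (fun w => D.U (2 * Real.pi * w)) hUc 1
    (fun w => ContinuousLinearMap.opNorm_le_bound _ zero_le_one fun ζ => by
      rw [norm_U, one_mul])
  have hquad : ∀ v, ⟪v, A v⟫_ℂ = ⟪v, D.Th f v⟫_ℂ := by
    intro v
    obtain ⟨μ, hμf, hμ⟩ := D.spec v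
    rw [hA2, hμ f, ← integral_inner (hA1 v)]
    have h1 : ∀ w : ℝ, ⟪v, G w • D.U (2 * Real.pi * w) v⟫_ℂ =
        ∫ h, G w * Complex.exp (Complex.I * ((2 * Real.pi * w * h : ℝ) : ℂ)) ∂μ := by
      intro w
      rw [inner_smul_right, U, hμ, ← integral_const_mul]
      rfl
    simp only [h1]
    rw [integral_integral_swap]
    · congr 1
      ext h
      exact (hinv h).symm
    · refine Integrable.mono' (hGi.norm.comp_fst μ) ?_ (Eventually.of_forall fun p => ?_)
      · have : Continuous (Function.uncurry fun (w h : ℝ) =>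
            G w * Complex.exp (Complex.I * ((2 * Real.pi * w * h : ℝ) : ℂ))) := by
          simp only [Function.uncurry_def]
          exact (hGc.comp continuous_fst).mul (by fun_prop)
        exact this.aestronglyMeasurable
      · rw [Function.uncurry_def, norm_mul, mul_comm Complex.I, Complex.norm_exp_ofReal_mul_I,
          mul_one]
  have hAT : A = D.Th f := by
    have h1 : (A : H →ₗ[ℂ] H) = (D.Th f : H →ₗ[ℂ] H) := by
      rw [← ext_inner_map]
      intro x
      have := hquad x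
      change ⟪A x, x⟫_ℂ = ⟪D.Th f x, x⟫_ℂ
      rw [← inner_conj_symm, this, inner_conj_symm]
    exact ContinuousLinearMap.coe_injective h1
  rw [← hAT, hA2]

/-- The smeared element vanishes when the test function vanishes on the window. -/
theorem w_kill {x : H →L[ℂ] H} (hx : x ∈ M) {a b : ℝ} (h : D.CW a b (x ξ)) (f : ℝ →ᵇ ℂ)
    (hf : ∀ h ∈ Set.Icc a b, f h = 0) (G : ℝ → ℂ) (hGc : Continuous G) (hGi : Integrable G)
    (hinv : ∀ h, f h = ∫ w, G w * Complex.exp (Complex.I * ((2 * Real.pi * w * h : ℝ) : ℂ)))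
    (η : H) : ∫ w, G w • D.sg (2 * Real.pi * w) x η = 0 := by
  obtain ⟨b, hb1, hb2⟩ := e3_intOp G hGi hGc (fun w => D.sg (2 * Real.pi * w) x)
    (fun η => D.continuous_sg x η (by fun_prop)) ‖x‖ (fun w => D.norm_sg_le _ _)
  have hbξ : b ξ = 0 := by
    rw [hb2]
    simp only [sg_xi]
    rw [← D.Th_integral f G hGc hGi hinv]
    exact h f hf
  have hbM : b ∈ M := by
    rw [← M.commutant_commutant, VonNeumannAlgebra.mem_commutant_iff]
    intro c hc
    ext η
    change c (b η) = b (c η)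
    rw [hb2, hb2, ← ContinuousLinearMap.integral_comp_comm c (hb1 η)]
    congr 1
    ext w
    rw [map_smul, comm_apply (D.sg_mem hx _) hc]
  have hb0 : b = 0 := D.ext_xi hbM (zero_mem M.toStarSubalgebra) (by rw [hbξ]; rfl)
  rw [← hb2, hb0]
  rfl

/-- Fourier data of a test function, with a first moment. -/
theorem exists_fourier_moment (f : ℝ →ᵇ ℂ) (hf : ContDiff ℝ (⊤ : ℕ∞) f)
    (hf' : HasCompactSupport f) :
    ∃ G : ℝ → ℂ, Continuous G ∧ Integrable G ∧ Integrable (fun w => ‖G w‖ * |w|) ∧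
      ∀ h, f h = ∫ w, G w * Complex.exp (Complex.I * ((2 * Real.pi * w * h : ℝ) : ℂ)) := by
  set g : 𝓢(ℝ, ℂ) := hf'.toSchwartzMap hf with hg
  have hgf : ∀ h, g h = f h := fun h => rfl
  set G : 𝓢(ℝ, ℂ) := 𝓕 g with hG
  refine ⟨fun w => G w, G.continuous, G.integrable, ?_, ?_⟩
  · have h1 := G.integrable_pow_mul volume 1
    refine h1.congr (Eventually.of_forall fun w => ?_)
    simp only [pow_one, Real.norm_eq_abs]
    ring
  · intro h
    have h1 : (𝓕⁻ G : 𝓢(ℝ, ℂ)) = g := FourierTransform.fourierInv_fourier_eq g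
    have h2 : (𝓕⁻ G : 𝓢(ℝ, ℂ)) h = 𝓕⁻ (G : ℝ → ℂ) h := congrFun (SchwartzMap.fourierInv_coe G) h
    rw [h1, hgf, Real.fourierInv_eq'] at h2
    rw [h2]
    congr 1
    ext w
    rw [smul_eq_mul, mul_comm]
    congr 2
    simp only [RCLike.inner_apply, conj_trivial]
    push_cast
    ring

/-- The main estimate on a narrow window. -/
theorem w_estimate {x : H →L[ℂ] H} (hx : x ∈ M) {a b : ℝ} (h : D.CW a b (x ξ)) (f : ℝ →ᵇ ℂ)
    (G : ℝ → ℂ) (hGc : Continuous G) (hGi : Integrable G)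
    (hGm : Integrable (fun w => ‖G w‖ * |w|))
    (hinv : ∀ h, f h = ∫ w, G w * Complex.exp (Complex.I * ((2 * Real.pi * w * h : ℝ) : ℂ)))
    {k δ : ℝ} (hδ : 0 ≤ δ) (hf : ∀ h ∈ Set.Icc (a + k) (b + k), f h = 0) {v : H}
    (hv : D.CW (k - δ) (k + δ) v) :
    ‖D.Th f (x v)‖ ≤ ‖x‖ * ((2 * Real.pi) * ∫ w, ‖G w‖ * |w|) * (δ * ‖v‖) := by
  set e : ℝ → ℂ := fun w => Complex.exp (Complex.I * ((2 * Real.pi * w * k : ℝ) : ℂ)) with he
  have hec : Continuous e := by rw [he]; fun_prop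
  have hen : ∀ w, ‖e w‖ = 1 := fun w => by
    rw [he]
    simp only
    rw [mul_comm, Complex.norm_exp_ofReal_mul_I]
  have hGei : Integrable fun w => G w * e w := by
    refine Integrable.mono' hGi.norm (hGc.mul hec).aestronglyMeasurable
      (Eventually.of_forall fun w => ?_)
    rw [norm_mul, hen, mul_one]
  have hkill : ∫ w, (G w * e w) • D.sg (2 * Real.pi * w) x v = 0 := by
    refine D.w_kill hx h (f.compContinuous ⟨fun h => h + k, by fun_prop⟩) ?_ _ (hGc.mul hec)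
      hGei ?_ v
    · intro y hy
      exact hf (y + k) ⟨by linarith [hy.1], by linarith [hy.2]⟩
    · intro y
      change f (y + k) = _
      rw [hinv]
      refine integral_congr_ae (Eventually.of_forall fun w => ?_)
      change G w * Complex.exp (Complex.I * ((2 * Real.pi * w * (y + k) : ℝ) : ℂ)) =
        (G w * Complex.exp (Complex.I * ((2 * Real.pi * w * k : ℝ) : ℂ))) *
          Complex.exp (Complex.I * ((2 * Real.pi * w * y : ℝ) : ℂ))
      rw [mul_assoc (G w), ← Complex.exp_add]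
      congr 2
      push_cast
      ring
  have hmain : D.Th f (x v) = ∫ w, G w • D.sg (2 * Real.pi * w) x (D.U (2 * Real.pi * w) v) := by
    rw [D.Th_integral f G hGc hGi hinv]
    simp only [sg_U_apply]
  have hi1 : Integrable fun w => G w • D.sg (2 * Real.pi * w) x (D.U (2 * Real.pi * w) v) := by
    simp only [sg_U_apply]
    refine Integrable.mono' (hGi.norm.mul_const ‖x v‖) ?_ (Eventually.of_forall fun w => ?_)
    · exact (hGc.smul (D.continuous_U_comp continuous_const (by fun_prop))).aestronglyMeasurable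
    · rw [norm_smul, norm_U]
  have hi2 : Integrable fun w => (G w * e w) • D.sg (2 * Real.pi * w) x v := by
    refine Integrable.mono' (hGi.norm.mul_const (‖x‖ * ‖v‖)) ?_ (Eventually.of_forall fun w => ?_)
    · exact ((hGc.mul hec).smul (D.continuous_sg x v (by fun_prop))).aestronglyMeasurable
    · rw [norm_smul, norm_mul, hen, mul_one]
      exact mul_le_mul_of_nonneg_left (((D.sg _ x).le_opNorm v).trans
        (mul_le_mul_of_nonneg_right (D.norm_sg_le _ _) (norm_nonneg _))) (norm_nonneg _)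
  have hdiff : D.Th f (x v) = ∫ w, G w • D.sg (2 * Real.pi * w) x
      (D.U (2 * Real.pi * w) v - e w • v) := by
    rw [hmain, ← sub_zero (∫ w, G w • D.sg (2 * Real.pi * w) x (D.U (2 * Real.pi * w) v)),
      ← hkill, ← integral_sub hi1 hi2]
    congr 1
    ext w
    rw [map_sub, map_smul, smul_sub, smul_smul]
  rw [hdiff]
  calc ‖∫ w, G w • D.sg (2 * Real.pi * w) x (D.U (2 * Real.pi * w) v - e w • v)‖
      ≤ ∫ w, ‖G w • D.sg (2 * Real.pi * w) x (D.U (2 * Real.pi * w) v - e w • v)‖ :=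
        norm_integral_le_integral_norm _
    _ ≤ ∫ w, (‖x‖ * (2 * Real.pi) * (δ * ‖v‖)) * (‖G w‖ * |w|) := by
        refine integral_mono_of_nonneg (Eventually.of_forall fun w => norm_nonneg _)
          (hGm.const_mul _) (Eventually.of_forall fun w => ?_)
        change ‖G w • D.sg (2 * Real.pi * w) x (D.U (2 * Real.pi * w) v - e w • v)‖ ≤ _
        rw [norm_smul]
        have h1 := CW.norm_U_sub D hδ hv (2 * Real.pi * w)
        have h2 : ‖D.sg (2 * Real.pi * w) x (D.U (2 * Real.pi * w) v - e w • v)‖ ≤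
            ‖x‖ * (|2 * Real.pi * w| * δ * ‖v‖) :=
          ((D.sg _ x).le_opNorm _).trans (mul_le_mul (D.norm_sg_le _ _) h1 (norm_nonneg _)
            (norm_nonneg _))
        calc ‖G w‖ * ‖D.sg (2 * Real.pi * w) x (D.U (2 * Real.pi * w) v - e w • v)‖
            ≤ ‖G w‖ * (‖x‖ * (|2 * Real.pi * w| * δ * ‖v‖)) :=
              mul_le_mul_of_nonneg_left h2 (norm_nonneg _)
          _ = (‖x‖ * (2 * Real.pi) * (δ * ‖v‖)) * (‖G w‖ * |w|) := by
              rw [abs_mul, abs_of_pos Real.two_pi_pos]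
              ring
    _ = ‖x‖ * ((2 * Real.pi) * ∫ w, ‖G w‖ * |w|) * (δ * ‖v‖) := by
        rw [integral_const_mul]
        ring

/-! ### narrow pieces -/

/-- ramp function -/
noncomputable def wramp (u : ℝ) : ℝ := max 0 (min 1 u)

/-- tent function -/
noncomputable def wtent (u : ℝ) : ℝ := wramp (u + 1) - wramp u

theorem continuous_wramp : Continuous wramp := by
  unfold wramp
  fun_prop

theorem continuous_wtent : Continuous wtent :=
  (continuous_wramp.comp (by fun_prop : Continuous fun u : ℝ => u + 1)).sub continuous_wramp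

theorem wramp_mono : Monotone wramp := fun _ _ h =>
  max_le_max_left 0 (min_le_min_left 1 h)

theorem wramp_nonneg (u : ℝ) : 0 ≤ wramp u := le_max_left _ _

theorem wramp_le_one (u : ℝ) : wramp u ≤ 1 := max_le zero_le_one (min_le_left _ _)

theorem wramp_of_nonpos {u : ℝ} (h : u ≤ 0) : wramp u = 0 := by
  rw [wramp, min_eq_right (by linarith), max_eq_left h]

theorem wramp_of_one_le {u : ℝ} (h : 1 ≤ u) : wramp u = 1 := by
  rw [wramp, min_eq_left h, max_eq_right zero_le_one]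

theorem wtent_nonneg (u : ℝ) : 0 ≤ wtent u := sub_nonneg.2 (wramp_mono (by linarith))

theorem wtent_le_one (u : ℝ) : wtent u ≤ 1 := by
  have h1 := wramp_le_one (u + 1)
  have h2 := wramp_nonneg u
  unfold wtent
  linarith

theorem wtent_eq_zero {u : ℝ} (h : 1 ≤ |u|) : wtent u = 0 := by
  rcases le_total 0 u with h0 | h0
  · rw [abs_of_nonneg h0] at h
    rw [wtent, wramp_of_one_le (by linarith), wramp_of_one_le h, sub_self]
  · rw [abs_of_nonpos h0] at h
    rw [wtent, wramp_of_nonpos (by linarith), wramp_of_nonpos h0, sub_self]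

theorem sum_wtent (n : ℕ) (u : ℝ) :
    ∑ j ∈ Finset.range (n + 1), wtent (u - j) = wramp (u + 1) - wramp (u - n) := by
  induction n with
  | zero => simp [wtent]
  | succ n ih =>
    rw [Finset.sum_range_succ, ih, wtent]
    have : u - ((n + 1 : ℕ) : ℝ) + 1 = u - n := by push_cast; ring
    rw [this]
    ring

theorem sum_wtent_eq_one {n : ℕ} {u : ℝ} (h0 : 0 ≤ u) (h1 : u ≤ n) :
    ∑ j ∈ Finset.range (n + 1), wtent (u - j) = 1 := by
  rw [sum_wtent, wramp_of_one_le (by linarith), wramp_of_nonpos (by linarith), sub_zero]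

theorem sum_wtent_le_one (n : ℕ) (u : ℝ) :
    ∑ j ∈ Finset.range (n + 1), wtent (u - j) ≤ 1 := by
  rw [sum_wtent]
  have h1 := wramp_le_one (u + 1)
  have h2 := wramp_nonneg (u - n)
  linarith

/-- the tent of width `δ` centered at `k` -/
noncomputable def tentB (k δ : ℝ) : ℝ →ᵇ ℂ :=
  BoundedContinuousFunction.ofNormedAddCommGroup (fun h : ℝ => ((wtent ((h - k) / δ) : ℝ) : ℂ))
    (Complex.continuous_ofReal.comp (continuous_wtent.comp (by fun_prop))) 1
    (fun h => by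
      rw [Complex.norm_real, Real.norm_of_nonneg (wtent_nonneg _)]
      exact wtent_le_one _)

theorem tentB_apply (k δ h : ℝ) : tentB k δ h = ((wtent ((h - k) / δ) : ℝ) : ℂ) := rfl

/-- windows add under products: the operator form -/
theorem CW.apply_mem {a b c d : ℝ} {x : H →L[ℂ] H} (hx : x ∈ M)
    (h1 : D.CW a b (x ξ)) {v : H} (h2 : D.CW c d v) : D.CW (a + c) (b + d) (x v) := by
  apply CW_of_smooth
  intro f hfs hfc hf
  obtain ⟨G, hGc, hGi, hGm, hinv⟩ := exists_fourier_moment f hfs hfc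
  set K : ℝ := ‖x‖ * ((2 * Real.pi) * ∫ w, ‖G w‖ * |w|) with hK
  have hK0 : 0 ≤ K := by
    have : 0 ≤ ∫ w, ‖G w‖ * |w| := integral_nonneg fun w => by positivity
    (clear * -; positivity)
  rcases lt_trichotomy c d with hcd | hcd | hcd
  · -- the main case
    have key : ∀ n : ℕ, 0 < n → ‖D.Th f (x v)‖ ^ 2 * n ≤ 2 * (K * ((d - c) * ‖v‖)) ^ 2 := by
      intro n hn
      have hn' : (0 : ℝ) < n := by exact_mod_cast hn
      set δ : ℝ := (d - c) / n with hδ
      have hδ0 : 0 < δ := div_pos (by linarith) hn'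
      have hnδ : n * δ = d - c := by rw [hδ]; field_simp
      set vj : ℕ → H := fun j => D.Th (tentB (c + j * δ) δ) v with hvj
      have htent : ∀ (j : ℕ) (h : ℝ), (h - (c + j * δ)) / δ = (h - c) / δ - j := by
        intro j h
        field_simp
        ring
      -- the sum of the pieces
      have hsum : ∑ j ∈ Finset.range (n + 1), vj j = v := by
        have e1 : ∑ j ∈ Finset.range (n + 1), vj j =
            D.Th (∑ j ∈ Finset.range (n + 1), tentB (c + j * δ) δ) v := by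
          rw [map_sum, _root_.sum_apply]
        have e2 : D.Th (∑ j ∈ Finset.range (n + 1), tentB (c + j * δ) δ) v = D.Th 1 v := by
          apply CW.Th_eq D h2
          intro h hh
          have : (∑ j ∈ Finset.range (n + 1), tentB (c + j * δ) δ) h =
              ((∑ j ∈ Finset.range (n + 1), wtent ((h - c) / δ - j) : ℝ) : ℂ) := by
            rw [BoundedContinuousFunction.coe_sum, Finset.sum_apply, Complex.ofReal_sum]
            refine Finset.sum_congr rfl fun j _ => ?_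
            rw [tentB_apply, htent]
          rw [this, sum_wtent_eq_one]
          · simp
          · exact div_nonneg (by linarith [hh.1]) hδ0.le
          · rw [div_le_iff₀ hδ0, hnδ]
            linarith [hh.2]
        rw [e1, e2, map_one]
        rfl
      -- the sum of squares
      have hsq : ∑ j ∈ Finset.range (n + 1), ‖vj j‖ ^ 2 ≤ ‖v‖ ^ 2 := by
        obtain ⟨μ, hμf, hμ⟩ := D.spec v
        have e1 : ∀ F : ℝ →ᵇ ℂ, ‖D.Th F v‖ ^ 2 = ∫ h, ‖F h‖ ^ 2 ∂μ :=
          fun F => norm_sq_of_spec D.Th hμ F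
        have e2 : ‖v‖ ^ 2 = ∫ h, (1 : ℝ) ∂μ := by
          have := e1 1
          rw [map_one] at this
          simpa using this
        have hint : ∀ F : ℝ →ᵇ ℂ, Integrable (fun h => ‖F h‖ ^ 2) μ := fun F =>
          Integrable.mono' (integrable_const (‖F‖ ^ 2)) (by
            exact (by fun_prop : Continuous fun x => ‖F x‖ ^ 2).aestronglyMeasurable)
            (Eventually.of_forall fun x => by
              rw [Real.norm_eq_abs, abs_of_nonneg (by positivity)]
              exact pow_le_pow_left₀ (norm_nonneg _) (F.norm_coe_le_norm x) 2)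
        rw [e2]
        have e3 : ∑ j ∈ Finset.range (n + 1), ‖vj j‖ ^ 2 =
            ∫ h, ∑ j ∈ Finset.range (n + 1), ‖tentB (c + j * δ) δ h‖ ^ 2 ∂μ := by
          rw [integral_finsetSum _ fun j _ => hint _]
          refine Finset.sum_congr rfl fun j _ => ?_
          rw [← e1]
        rw [e3]
        refine integral_mono (integrable_finsetSum _ fun j _ => hint _) (integrable_const _)
          fun h => ?_
        change ∑ j ∈ Finset.range (n + 1), ‖tentB (c + j * δ) δ h‖ ^ 2 ≤ 1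
        refine le_trans ?_ (sum_wtent_le_one n ((h - c) / δ))
        refine Finset.sum_le_sum fun j _ => ?_
        rw [tentB_apply, htent, Complex.norm_real, Real.norm_of_nonneg (wtent_nonneg _)]
        have := wtent_nonneg ((h - c) / δ - j)
        have := wtent_le_one ((h - c) / δ - j)
        nlinarith
      -- the estimate on each piece
      have hpiece : ∀ j ∈ Finset.range (n + 1), ‖D.Th f (x (vj j))‖ ≤ K * (δ * ‖vj j‖) := by
        intro j hj
        rw [Finset.mem_range] at hj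
        have hjn : (j : ℝ) ≤ n := by exact_mod_cast Nat.lt_succ_iff.1 hj
        refine D.w_estimate hx h1 f G hGc hGi hGm hinv (k := c + j * δ) hδ0.le ?_ ?_
        · intro h hh
          apply hf
          have : (j : ℝ) * δ ≤ d - c := by
            rw [← hnδ]
            exact mul_le_mul_of_nonneg_right hjn hδ0.le
          have : 0 ≤ (j : ℝ) * δ := by (clear * - hcd hn; positivity)
          constructor
          · linarith [hh.1]
          · linarith [hh.2]
        · apply CW_of_support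
          intro h hh
          rw [tentB_apply, wtent_eq_zero, Complex.ofReal_zero]
          rw [abs_div, abs_of_pos hδ0, le_div_iff₀ hδ0, one_mul]
          by_contra hlt
          rw [not_le, abs_lt] at hlt
          exact hh ⟨by linarith [hlt.1], by linarith [hlt.2]⟩
      have hle : ‖D.Th f (x v)‖ ≤ K * (δ * ∑ j ∈ Finset.range (n + 1), ‖vj j‖) := by
        calc ‖D.Th f (x v)‖ = ‖∑ j ∈ Finset.range (n + 1), D.Th f (x (vj j))‖ := by
              rw [← map_sum, ← map_sum, hsum]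
          _ ≤ ∑ j ∈ Finset.range (n + 1), ‖D.Th f (x (vj j))‖ := norm_sum_le _ _
          _ ≤ ∑ j ∈ Finset.range (n + 1), K * (δ * ‖vj j‖) := Finset.sum_le_sum hpiece
          _ = K * (δ * ∑ j ∈ Finset.range (n + 1), ‖vj j‖) := by
              rw [Finset.mul_sum, Finset.mul_sum]
      have hcs : (∑ j ∈ Finset.range (n + 1), ‖vj j‖) ^ 2 ≤ (n + 1) * ‖v‖ ^ 2 := by
        have := sq_sum_le_card_mul_sum_sq (s := Finset.range (n + 1)) (f := fun j => ‖vj j‖)
        rw [Finset.card_range] at this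
        push_cast at this
        exact this.trans (mul_le_mul_of_nonneg_left hsq (by positivity))
      have h3 : ‖D.Th f (x v)‖ ^ 2 ≤ (K * δ) ^ 2 * ((n + 1) * ‖v‖ ^ 2) := by
        calc ‖D.Th f (x v)‖ ^ 2 ≤ (K * (δ * ∑ j ∈ Finset.range (n + 1), ‖vj j‖)) ^ 2 :=
              pow_le_pow_left₀ (norm_nonneg _) hle 2
          _ = (K * δ) ^ 2 * (∑ j ∈ Finset.range (n + 1), ‖vj j‖) ^ 2 := by ring
          _ ≤ (K * δ) ^ 2 * ((n + 1) * ‖v‖ ^ 2) :=
              mul_le_mul_of_nonneg_left hcs (by positivity)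
      have hn1 : (1 : ℝ) ≤ n := by exact_mod_cast hn
      calc ‖D.Th f (x v)‖ ^ 2 * n ≤ ((K * δ) ^ 2 * ((n + 1) * ‖v‖ ^ 2)) * n :=
            mul_le_mul_of_nonneg_right h3 hn'.le
        _ ≤ ((K * δ) ^ 2 * ((n + n) * ‖v‖ ^ 2)) * n := by
            gcongr
        _ = 2 * (K * ((n * δ) * ‖v‖)) ^ 2 := by ring
        _ = 2 * (K * ((d - c) * ‖v‖)) ^ 2 := by rw [hnδ]
    by_contra hne
    have hpos : 0 < ‖D.Th f (x v)‖ ^ 2 := pow_pos (norm_pos_iff.2 hne) 2
    obtain ⟨n, hn⟩ := exists_nat_gt (2 * (K * ((d - c) * ‖v‖)) ^ 2 / ‖D.Th f (x v)‖ ^ 2)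
    have hn0 : 0 < n := by
      have : (0 : ℝ) ≤ 2 * (K * ((d - c) * ‖v‖)) ^ 2 / ‖D.Th f (x v)‖ ^ 2 := by positivity
      exact_mod_cast this.trans_lt hn
    rw [div_lt_iff₀ hpos] at hn
    have := key n hn0
    linarith [mul_comm (n : ℝ) (‖D.Th f (x v)‖ ^ 2)]
  · -- a point
    subst hcd
    have h3 : D.CW (c - 0) (c + 0) v := by simpa using h2
    have h4 := D.w_estimate hx h1 f G hGc hGi hGm hinv le_rfl hf h3
    rw [zero_mul, mul_zero] at h4
    exact norm_le_zero_iff.1 h4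
  · rw [CW.eq_zero_of_lt D h2 hcd, map_zero, map_zero]

/-- windows add under products -/
theorem CW.mul {a b c d : ℝ} {x y : H →L[ℂ] H} (hx : x ∈ M) (_ : y ∈ M)
    (h1 : D.CW a b (x ξ)) (h2 : D.CW c d (y ξ)) : D.CW (a + c) (b + d) ((x * y) ξ) :=
  CW.apply_mem D hx h1 h2

/-! ### powers of the modular operator -/

/-- smoothing in `M` -/
theorem exists_smooth {x : H →L[ℂ] H} (hx : x ∈ M) (f : ℝ →ᵇ ℂ) (hf : ContDiff ℝ (⊤ : ℕ∞) f)
    (hf' : HasCompactSupport f) : ∃ y ∈ M, y ξ = D.Th f (x ξ) := D.smooth_mem hx f hf hf'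

/-- a smooth cutoff times a smooth function -/
theorem exists_cut_smooth (φ : ℝ → ℂ) (hφ : ContDiff ℝ (⊤ : ℕ∞) φ) (k r : ℝ) (hr : 0 < r) :
    ∃ f : ℝ →ᵇ ℂ, ContDiff ℝ (⊤ : ℕ∞) f ∧ HasCompactSupport f ∧
      (∀ h ∈ Set.Icc (k - r) (k + r), f h = φ h) := by
  let ρ : ContDiffBump k := ⟨r, r + 1, hr, by linarith⟩
  have h1 : ContDiff ℝ (⊤ : ℕ∞) (fun x : ℝ => ((ρ x : ℝ) : ℂ) * φ x) :=
    (Complex.ofRealCLM.contDiff.comp ρ.contDiff).mul hφ
  have h2 : HasCompactSupport (fun x : ℝ => ((ρ x : ℝ) : ℂ) * φ x) := by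
    have h3 : HasCompactSupport (fun x : ℝ => ((ρ x : ℝ) : ℂ)) :=
      ρ.hasCompactSupport.comp_left (g := fun x : ℝ => (x : ℂ)) (by simp)
    exact h3.mul_right
  obtain ⟨C, hC⟩ := h2.exists_bound_of_continuous h1.continuous
  refine ⟨BoundedContinuousFunction.ofNormedAddCommGroup _ h1.continuous C hC, h1, h2, ?_⟩
  intro h hh
  change ((ρ h : ℝ) : ℂ) * φ h = φ h
  rw [ρ.one_of_mem_closedBall, Complex.ofReal_one, one_mul]
  rw [Metric.mem_closedBall, Real.dist_eq, abs_le]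
  constructor
  · linarith [hh.1]
  · linarith [hh.2]

/-- `Δ^s` on elements with window inside `[-1, 1]` -/
theorem exists_power {b : H →L[ℂ] H} (hb : b ∈ M) {δ : ℝ} (hδ : δ ≤ 1)
    (h : D.CW (-δ) δ (b ξ)) (s : ℝ) : ∃ f ∈ M, f ξ = D.Th (eB s) (b ξ) := by
  obtain ⟨f, hf1, hf2, hf3⟩ := exists_cut_smooth (fun h : ℝ => ((Real.exp (s * h) : ℝ) : ℂ))
    (Complex.ofRealCLM.contDiff.comp (Real.contDiff_exp.comp (contDiff_const.mul contDiff_id)))
    0 1 one_pos
  obtain ⟨y, hy, hyξ⟩ := D.smooth_mem hb f hf1 hf2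
  refine ⟨y, hy, hyξ.trans ?_⟩
  apply CW.Th_eq D h
  intro x hx
  have h1 : |x| ≤ 1 := (abs_le.2 hx).trans hδ
  rw [hf3 x (by rw [zero_sub, zero_add]; exact abs_le.1 h1), eB_of_mem s h1]

/-- `J b* ξ = Δ^{1/2} b ξ` -/
theorem J_star_xi {b : H →L[ℂ] H} (hb : b ∈ M) {δ : ℝ} (hδ : δ ≤ 1)
    (h : D.CW (-δ) δ (b ξ)) : D.J (star b ξ) = D.Th (eB (1 / 2)) (b ξ) := by
  have key : ∀ n : ℕ, D.Th (ccB (cutoff (n + 1))) (D.J (star b ξ)) =
      D.Th (eB (1 / 2)) (b ξ) := by
    intro n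
    -- the product of the cutoff and the exponential
    let F : ℝ →ᵇ ℂ := BoundedContinuousFunction.ofNormedAddCommGroup
      (fun x : ℝ => ((Real.exp (x / 2) * cutoff (n + 1) x : ℝ) : ℂ))
      (Complex.continuous_ofReal.comp ((Real.continuous_exp.comp (by fun_prop)).mul
        (cutoff (n + 1)).continuous)) (Real.exp (n + 2))
      (fun x => by
        rw [Complex.norm_real, Real.norm_eq_abs, abs_mul, abs_of_pos (Real.exp_pos _),
          abs_of_nonneg (cutoff_nonneg _ _)]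
        by_cases hx : |x| ≤ n + 2
        · calc Real.exp (x / 2) * cutoff (n + 1) x ≤ Real.exp (n + 2) * 1 := by
                refine mul_le_mul (Real.exp_le_exp.2 ?_) (cutoff_le_one _ _)
                  (cutoff_nonneg _ _) (Real.exp_pos _).le
                have := (abs_le.1 hx).2
                have h0 : (0 : ℝ) ≤ n := Nat.cast_nonneg n
                linarith
            _ = Real.exp (n + 2) := mul_one _
        · have h0 : cutoff (n + 1) x = 0 := by
            rw [cutoff_apply]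
            apply max_eq_left
            apply (min_le_right _ _).trans
            push_cast
            linarith
          rw [h0, mul_zero]
          exact (Real.exp_pos _).le)
    have hk := D.kms b hb F (ccB (cutoff (n + 1))) (fun x => by
      change ((Real.exp (x / 2) * cutoff (n + 1) x : ℝ) : ℂ) =
        Real.exp (x / 2) * ((cutoff (n + 1) x : ℝ) : ℂ)
      push_cast
      rfl)
    rw [hk]
    apply CW.Th_eq D h
    intro x hx
    have h1 : |x| ≤ 1 := (abs_le.2 hx).trans hδ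
    rw [eB_of_mem _ h1]
    change ((Real.exp (x / 2) * cutoff (n + 1) x : ℝ) : ℂ) = _
    rw [cutoff_eq_one, mul_one]
    · congr 2
      ring
    · have h0 : (0 : ℝ) ≤ n := Nat.cast_nonneg n
      push_cast
      linarith
  have h1 := (tendsto_Th_cutoff D.Th D.Th_nondeg (D.J (star b ξ))).comp (tendsto_add_atTop_nat 1)
  have h2 : Tendsto (fun n : ℕ => D.Th (ccB (cutoff (n + 1))) (D.J (star b ξ))) atTop
      (𝓝 (D.J (star b ξ))) := h1
  simp only [key] at h2
  exact tendsto_nhds_unique h2 tendsto_const_nhds |>.symm ▸ rfl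

/-- nonzero vectors have nonzero narrow pieces -/
theorem exists_bump {u : H} (hu : u ≠ 0) {δ : ℝ} (hδ : 0 < δ) :
    ∃ (κ : ℝ) (f : ℝ →ᵇ ℂ), ContDiff ℝ (⊤ : ℕ∞) f ∧ HasCompactSupport f ∧
      (∀ h, h ∉ Set.Icc (κ - δ) (κ + δ) → f h = 0) ∧ D.Th f u ≠ 0 := by
  by_contra hcon
  push Not at hcon
  apply hu
  obtain ⟨μ, hμf, hμ⟩ := D.spec u
  let ρ : ∀ κ : ℝ, ContDiffBump κ := fun κ => ⟨δ / 2, δ, by positivity, by linarith⟩
  have hs : ∀ κ, ContDiff ℝ (⊤ : ℕ∞) (fun x : ℝ => ((ρ κ x : ℝ) : ℂ)) := fun κ =>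
    Complex.ofRealCLM.contDiff.comp (ρ κ).contDiff
  let f : ℝ → ℝ →ᵇ ℂ := fun κ => BoundedContinuousFunction.ofNormedAddCommGroup
    (fun x : ℝ => ((ρ κ x : ℝ) : ℂ)) (hs κ).continuous 1 (fun x => by
      rw [Complex.norm_real, Real.norm_of_nonneg (ρ κ).nonneg]
      exact (ρ κ).le_one)
  have h0 : ∀ κ, D.Th (f κ) u = 0 := by
    intro κ
    apply hcon κ (f κ) (hs κ)
    · exact (ρ κ).hasCompactSupport.comp_left (g := fun x : ℝ => (x : ℂ)) (by simp)
    · intro h hh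
      change ((ρ κ h : ℝ) : ℂ) = 0
      have : ρ κ h = 0 := by
        apply (ρ κ).zero_of_le_dist
        change δ ≤ dist h κ
        rw [Real.dist_eq]
        by_contra hlt
        rw [not_le, abs_lt] at hlt
        exact hh ⟨by linarith [hlt.1], by linarith [hlt.2]⟩
      rw [this, Complex.ofReal_zero]
  have hnull : ∀ κ, μ (Metric.closedBall κ (δ / 2)) = 0 := by
    intro κ
    have h1 := norm_sq_of_spec D.Th hμ (f κ)
    rw [h0 κ, norm_zero, zero_pow two_ne_zero] at h1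
    have h2 := (integral_eq_zero_iff_of_nonneg (μ := μ) (f := fun x => ‖f κ x‖ ^ 2)
      (fun x => by positivity) (Integrable.mono' (integrable_const (‖f κ‖ ^ 2)) (by
        exact (by fun_prop : Continuous fun x => ‖f κ x‖ ^ 2).aestronglyMeasurable)
        (Eventually.of_forall fun x => by
          rw [Real.norm_eq_abs, abs_of_nonneg (by positivity)]
          exact pow_le_pow_left₀ (norm_nonneg _) ((f κ).norm_coe_le_norm x) 2))).1 h1.symm
    rw [Filter.EventuallyEq, ae_iff] at h2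
    refine measure_mono_null ?_ h2
    intro x hx
    have h3 : ρ κ x = 1 := (ρ κ).one_of_mem_closedBall hx
    change ¬ ‖((ρ κ x : ℝ) : ℂ)‖ ^ 2 = 0
    rw [h3]
    simp
  have huniv : μ Set.univ = 0 := by
    have hcov : (Set.univ : Set ℝ) ⊆ ⋃ n : ℤ, Metric.closedBall (n * (δ / 2)) (δ / 2) := by
      intro x _
      rw [Set.mem_iUnion]
      refine ⟨⌊x / (δ / 2)⌋, ?_⟩
      rw [Metric.mem_closedBall, Real.dist_eq]
      have hδ2 : 0 < δ / 2 := by positivity
      have e1 := Int.floor_le (x / (δ / 2))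
      have e2 := Int.lt_floor_add_one (x / (δ / 2))
      rw [le_div_iff₀ hδ2] at e1
      rw [div_lt_iff₀ hδ2] at e2
      rw [abs_le]
      constructor <;> linarith
    refine measure_mono_null hcov ?_
    rw [measure_iUnion_null_iff]
    exact fun n => hnull _
  have h1 := norm_sq_of_spec D.Th hμ 1
  rw [map_one] at h1
  have h2 : μ = 0 := Measure.measure_univ_eq_zero.1 huniv
  rw [h2, integral_zero_measure] at h1
  exact norm_eq_zero.1 (pow_eq_zero_iff two_ne_zero |>.1 h1)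

end ModData

end Vale.Agent.P132
end

section

/-!
# P132, Part IV: a spectral gap from block estimates
-/

open Filter Topology MeasureTheory
open scoped ComplexConjugate InnerProductSpace BoundedContinuousFunction

namespace Vale.Agent.P132

universe u

variable {H : Type u} [NormedAddCommGroup H] [InnerProductSpace ℂ H] [CompleteSpace H]

namespace ModData

variable {M : VonNeumannAlgebra H} {ξ : H} (D : ModData M ξ)

/-- operators commuting with `U t` commute with `Th f`, `f` smooth with compact support -/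
theorem gw_comm (T : H →L[ℂ] H) (hT : ∀ t ζ, T (D.U t ζ) = D.U t (T ζ)) (f : ℝ →ᵇ ℂ)
    (hf : ContDiff ℝ (⊤ : ℕ∞) f) (hf' : HasCompactSupport f) (ζ : H) :
    T (D.Th f ζ) = D.Th f (T ζ) := by
  obtain ⟨G, hGc, hGi, -, hGv⟩ := D.exists_fourier f hf hf'
  rw [hGv, hGv, ← ContinuousLinearMap.integral_comp_comm]
  · congr 1
    funext w
    rw [map_smul, hT]
  · have hc : Continuous fun w => G w • D.U (2 * Real.pi * w) ζ :=
      hGc.smul ((D.continuous_U ζ).comp (by fun_prop))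
    refine Integrable.mono' (hGi.norm.mul_const ‖ζ‖) hc.aestronglyMeasurable
      (Eventually.of_forall fun w => ?_)
    rw [norm_smul, norm_U]

/-- vectors fixed by `U t` -/
theorem gw_fix {v : H} (hv : ∀ t, D.U t v = v) (f : ℝ →ᵇ ℂ)
    (hf : ContDiff ℝ (⊤ : ℕ∞) f) (hf' : HasCompactSupport f) : D.Th f v = f 0 • v := by
  obtain ⟨G, hGc, hGi, hG0, hGv⟩ := D.exists_fourier f hf hf'
  rw [hGv]
  have h1 : ∀ w, G w • D.U (2 * Real.pi * w) v = G w • v := fun w => by rw [hv]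
  simp_rw [h1]
  rw [integral_smul_const, hG0 0]
  congr 1
  congr 1
  funext w
  simp

/-- a smooth bump -/
noncomputable def gwB (c : ℝ) (r : ℝ) (hr : 0 < r) : ContDiffBump c :=
  { rIn := r, rOut := 2 * r, rIn_pos := hr, rIn_lt_rOut := by linarith }

theorem gw_J {q : H →L[ℂ] H} (hq : D.InC q) : D.J (star q ξ) = q ξ := by
  set f : ℝ →ᵇ ℂ := gdB (gwB 0 1 one_pos) with hf
  have hfs : ContDiff ℝ (⊤ : ℕ∞) f := gdB_contDiff _
  have hfc : HasCompactSupport f := gdB_compact _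
  have hf0 : f 0 = 1 := by
    rw [hf, gdB_apply, (gwB 0 1 one_pos).one_of_mem_closedBall (by simp [gwB]), Complex.ofReal_one]
  -- `F = e^{h/2} f`
  set F : ℝ →ᵇ ℂ := gdM (fun h => Real.exp (h / 2)) (by fun_prop) f hfc with hF
  have hFa : ∀ h, F h = Real.exp (h / 2) * f h := fun h => rfl
  have hFs : ContDiff ℝ (⊤ : ℕ∞) F := by
    have h1 : (F : ℝ → ℂ) = fun h => ((Real.exp (h / 2) : ℝ) : ℂ) * f h := funext hFa
    rw [h1]
    apply ContDiff.mul _ hfs
    exact Complex.ofRealCLM.contDiff.comp (Real.contDiff_exp.comp (contDiff_id.div_const 2))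
  have hFc : HasCompactSupport F := by
    have h1 : (F : ℝ → ℂ) = fun h => ((Real.exp (h / 2) : ℝ) : ℂ) * f h := funext hFa
    rw [h1]
    exact hfc.mul_left
  have h1 := D.kms q hq.1 F f hFa
  have h2 : ∀ t, D.U t (q ξ) = q ξ := hq.2
  have h3 : ∀ t, D.U t (star q ξ) = star q ξ := by
    intro t
    have e1 : D.sg t q = q := D.ext_xi (D.sg_mem hq.1 t) hq.1 (by rw [sg_xi, h2])
    rw [← sg_xi, ← star_sg, e1]
  have h4 : ∀ t, D.U t (D.J (star q ξ)) = D.J (star q ξ) := fun t => by rw [← J_U, h3]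
  rw [D.gw_fix h4 f hfs hfc, D.gw_fix h2 F hFs hFc, hFa, hf0] at h1
  simpa using h1

theorem gw_comm_U {q : H →L[ℂ] H} (hq : D.InC q) (t : ℝ) (ζ : H) :
    q (D.U t ζ) = D.U t (q ζ) := by
  have e1 : D.sg t q = q := D.ext_xi (D.sg_mem hq.1 t) hq.1 (by rw [sg_xi, hq.2])
  have h1 := D.sg_U_apply t q ζ
  rwa [e1] at h1

theorem gw_Rm {q : H →L[ℂ] H} (hq : D.InC q) : D.Rm q ξ = q ξ := by
  rw [Rm_xi, D.gw_J hq]

theorem gw_star {q : H →L[ℂ] H} (hq : D.InC q) : D.InC (star q) := by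
  refine ⟨star_mem hq.1, fun t => ?_⟩
  have e1 : D.sg t q = q := D.ext_xi (D.sg_mem hq.1 t) hq.1 (by rw [sg_xi, hq.2])
  rw [← sg_xi, ← star_sg, e1]

theorem gw_Rm_comm_U {q : H →L[ℂ] H} (hq : D.InC q) (t : ℝ) (ζ : H) :
    D.Rm q (D.U t ζ) = D.U t (D.Rm q ζ) := by
  rw [Rm_apply, Rm_apply, J_U, D.gw_comm_U (D.gw_star hq), J_U]

/-- the smooth case -/
theorem gap_smooth {ι : Type*} (q : ι → H →L[ℂ] H) (hq : ∀ i, D.InC (q i))
    (hqs : ∀ i, star (q i) = q i) (hqq : ∀ i, q i * q i = q i)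
    (hfull : ∀ ζ, (∀ i, q i ζ = 0) → ζ = 0) {C L : ℝ} (hC : 1 ≤ C) (hL : 1 ≤ L)
    (k : ι → ι → ℤ)
    (h1 : ∀ i j, ∀ x ∈ M, q i * x * q j = x → ‖star x ξ‖ ^ 2 ≤ C * L ^ (k i j) * ‖x ξ‖ ^ 2)
    (h2 : ∀ i j, ∀ x ∈ M, q i * x * q j = x → L ^ (k i j) * ‖x ξ‖ ^ 2 ≤ C * ‖star x ξ‖ ^ 2)
    (f : ℝ →ᵇ ℂ) (hf : ContDiff ℝ (⊤ : ℕ∞) f) (hf' : HasCompactSupport f) {a b : ℝ}
    (ha : Real.log C < a) (hb : b < Real.log (L / C)) (hab : ∀ h, h ∉ Set.Icc a b → f h = 0) :
    D.Th f = 0 := by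
  have hC0 : 0 < C := by linarith
  have hL0 : 0 < L := by linarith
  have key : ∀ i j, ∀ x ∈ M, q i * x * q j = x → D.Th f (x ξ) = 0 := by
    intro i j x hx hxq
    obtain ⟨y, hy, hyf⟩ := D.smooth_mem hx f hf hf'
    have hyq : q i * y * q j = y := by
      apply D.ext_xi (mul_mem (mul_mem (hq i).1 hy) (hq j).1) hy
      have e1 : (q i * y * q j) ξ = D.Rm (q j) (q i (y ξ)) := by
        rw [mul_apply_eq_comp, mul_apply_eq_comp, ← D.gw_Rm (hq j), D.comm_Rm hy (hq j).1,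
          D.comm_Rm (hq i).1 (hq j).1]
      have e2 : D.Rm (q j) (q i (x ξ)) = x ξ := by
        have e3 : (q i * x * q j) ξ = D.Rm (q j) (q i (x ξ)) := by
          rw [mul_apply_eq_comp, mul_apply_eq_comp, ← D.gw_Rm (hq j), D.comm_Rm hx (hq j).1,
            D.comm_Rm (hq i).1 (hq j).1]
        rw [← e3, hxq]
      rw [e1, hyf, D.gw_comm (q i) (fun t ζ => D.gw_comm_U (hq i) t ζ) f hf hf',
        D.gw_comm (D.Rm (q j)) (fun t ζ => D.gw_Rm_comm_U (hq j) t ζ) f hf hf', e2]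
    have hJ := D.gd_J_star hy f hf' hyf
    have hn : ‖star y ξ‖ = ‖D.Th (gdE f hf') (x ξ)‖ := by rw [← hJ, D.norm_J]
    have hup : ‖star y ξ‖ ≤ Real.exp (b / 2) * ‖y ξ‖ := by
      rw [hn, hyf]
      apply D.norm_Th_le_of_le _ _ _ _ (Real.exp_pos _).le
      intro h
      by_cases hh : h ∈ Set.Icc a b
      · rw [gdM_apply, norm_mul, Complex.norm_real, Real.norm_of_nonneg (Real.exp_pos _).le]
        have : Real.exp (h / 2) ≤ Real.exp (b / 2) := Real.exp_le_exp.2 (by linarith [hh.2])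
        gcongr
      · rw [gdM_apply, hab h hh]
        simp
    have hlo : ‖y ξ‖ ≤ Real.exp (-(a / 2)) * ‖star y ξ‖ := by
      rw [hn, hyf]
      apply D.norm_Th_le_of_le _ _ _ _ (Real.exp_pos _).le
      intro h
      by_cases hh : h ∈ Set.Icc a b
      · rw [gdM_apply, norm_mul, Complex.norm_real, Real.norm_of_nonneg (Real.exp_pos _).le,
          ← mul_assoc, ← Real.exp_add]
        have : 1 ≤ Real.exp (-(a / 2) + h / 2) := Real.one_le_exp (by linarith [hh.1])
        have hn := norm_nonneg (f h)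
        nlinarith
      · rw [gdM_apply, hab h hh]
        simp
    have hup2 : ‖star y ξ‖ ^ 2 ≤ Real.exp b * ‖y ξ‖ ^ 2 := by
      have e1 : Real.exp b = Real.exp (b / 2) ^ 2 := by
        rw [← Real.exp_nat_mul]
        congr 1
        push_cast
        ring
      rw [e1, ← mul_pow]
      exact pow_le_pow_left₀ (norm_nonneg _) hup 2
    have hlo2 : Real.exp a * ‖y ξ‖ ^ 2 ≤ ‖star y ξ‖ ^ 2 := by
      have e1 : Real.exp a = Real.exp (a / 2) ^ 2 := by
        rw [← Real.exp_nat_mul]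
        congr 1
        push_cast
        ring
      rw [e1, ← mul_pow]
      apply pow_le_pow_left₀ (by positivity)
      calc Real.exp (a / 2) * ‖y ξ‖ ≤ Real.exp (a / 2) * (Real.exp (-(a / 2)) * ‖star y ξ‖) := by
            gcongr
        _ = ‖star y ξ‖ := by rw [← mul_assoc, ← Real.exp_add]; simp
    have e1 := h1 i j y hy hyq
    have e2 := h2 i j y hy hyq
    have hCa : C < Real.exp a := (Real.log_lt_iff_lt_exp hC0).1 ha
    have hCb : Real.exp b < L / C := (Real.lt_log_iff_exp_lt (by positivity)).1 hb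
    have hy0 : ‖y ξ‖ ^ 2 = 0 := by
      by_contra hne
      have hpos : 0 < ‖y ξ‖ ^ 2 := lt_of_le_of_ne (sq_nonneg _) (Ne.symm hne)
      rcases le_or_gt (k i j) 0 with hk | hk
      · have e3 : L ^ (k i j) ≤ 1 := zpow_le_one_of_nonpos₀ hL hk
        have e4 : C * L ^ (k i j) * ‖y ξ‖ ^ 2 ≤ C * ‖y ξ‖ ^ 2 := by
          apply mul_le_mul_of_nonneg_right _ hpos.le
          exact mul_le_of_le_one_right hC0.le e3
        nlinarith
      · have e3 : L ≤ L ^ (k i j) := by
          calc L = L ^ (1 : ℤ) := (zpow_one L).symm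
            _ ≤ L ^ (k i j) := zpow_le_zpow_right₀ hL (by omega)
        have e4 : L * ‖y ξ‖ ^ 2 ≤ L ^ (k i j) * ‖y ξ‖ ^ 2 := mul_le_mul_of_nonneg_right e3 hpos.le
        rw [lt_div_iff₀ hC0] at hCb
        have e5 : C * ‖star y ξ‖ ^ 2 ≤ C * (Real.exp b * ‖y ξ‖ ^ 2) :=
          mul_le_mul_of_nonneg_left hup2 hC0.le
        have e6 : C * (Real.exp b * ‖y ξ‖ ^ 2) < L * ‖y ξ‖ ^ 2 := by
          rw [← mul_assoc, mul_comm C]
          exact mul_lt_mul_of_pos_right hCb hpos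
        linarith
    rw [← hyf, ← norm_eq_zero]
    exact pow_eq_zero_iff two_ne_zero |>.1 hy0
  have key2 : ∀ x ∈ M, D.Th f (x ξ) = 0 := by
    intro x hx
    have e1 : ∀ i j, q i (D.Rm (q j) (D.Th f (x ξ))) = 0 := by
      intro i j
      rw [D.gw_comm (D.Rm (q j)) (fun t ζ => D.gw_Rm_comm_U (hq j) t ζ) f hf hf',
        D.gw_comm (q i) (fun t ζ => D.gw_comm_U (hq i) t ζ) f hf hf', ← D.comm_Rm hx (hq j).1,
        D.gw_Rm (hq j)]
      have e2 := key i j (q i * x * q j) (mul_mem (mul_mem (hq i).1 hx) (hq j).1) (by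
        calc q i * (q i * x * q j) * q j = (q i * q i) * x * (q j * q j) := by
              simp only [mul_assoc]
          _ = q i * x * q j := by rw [hqq, hqq])
      exact e2
    have e2 : ∀ j, D.Rm (q j) (D.Th f (x ξ)) = 0 := fun j => hfull _ fun i => e1 i j
    have e3 : ∀ j, q j (D.J (D.Th f (x ξ))) = 0 := by
      intro j
      have e4 := e2 j
      rw [Rm_apply, hqs] at e4
      have e5 := congrArg D.J e4
      rwa [D.J_J, map_zero] at e5
    have e4 := congrArg D.J (hfull _ e3)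
    rwa [D.J_J, map_zero] at e4
  have h3 : Set.EqOn (D.Th f) (0 : H →L[ℂ] H) {ζ : H | ∃ a ∈ M, a ξ = ζ} := by
    rintro _ ⟨x, hx, rfl⟩
    exact key2 x hx
  exact DFunLike.coe_injective
    (Continuous.ext_on D.cyc (D.Th f).continuous (0 : H →L[ℂ] H).continuous h3)

/-- a spectral gap from block estimates -/
theorem gap_of_blocks {ι : Type*} (q : ι → H →L[ℂ] H) (hq : ∀ i, D.InC (q i))
    (hqs : ∀ i, star (q i) = q i) (hqq : ∀ i, q i * q i = q i)
    (hfull : ∀ ζ, (∀ i, q i ζ = 0) → ζ = 0) {C L : ℝ} (hC : 1 ≤ C) (hL : 1 ≤ L)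
    (k : ι → ι → ℤ)
    (h1 : ∀ i j, ∀ x ∈ M, q i * x * q j = x → ‖star x ξ‖ ^ 2 ≤ C * L ^ (k i j) * ‖x ξ‖ ^ 2)
    (h2 : ∀ i j, ∀ x ∈ M, q i * x * q j = x → L ^ (k i j) * ‖x ξ‖ ^ 2 ≤ C * ‖star x ξ‖ ^ 2)
    (F : ℝ →ᵇ ℂ) (hF : tsupport F ⊆ Set.Ioo (Real.log C) (Real.log (L / C))) :
    D.Th F = 0 := by
  by_cases hne : (tsupport F).Nonempty
  · have hcomp : IsCompact (tsupport F) :=
      isCompact_Icc.of_isClosed_subset (isClosed_tsupport _) (hF.trans Set.Ioo_subset_Icc_self)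
    obtain ⟨a, haF, ha⟩ := hcomp.exists_isLeast hne
    obtain ⟨b, hbF, hb⟩ := hcomp.exists_isGreatest hne
    have ha' := (hF haF).1
    have hb' := (hF hbF).2
    have hab : a ≤ b := ha hbF
    set δ : ℝ := min (a - Real.log C) (Real.log (L / C) - b) / 4 with hδ
    have hδ0 : 0 < δ := by
      rw [hδ]
      have : 0 < min (a - Real.log C) (Real.log (L / C) - b) := lt_min (by linarith) (by linarith)
      linarith
    have hδ1 : 4 * δ ≤ a - Real.log C := by
      rw [hδ]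
      have := min_le_left (a - Real.log C) (Real.log (L / C) - b)
      linarith
    have hδ2 : 4 * δ ≤ Real.log (L / C) - b := by
      rw [hδ]
      have := min_le_right (a - Real.log C) (Real.log (L / C) - b)
      linarith
    let ψ : ContDiffBump ((a + b) / 2) :=
      { rIn := (b - a) / 2 + δ, rOut := (b - a) / 2 + 2 * δ
        rIn_pos := by linarith, rIn_lt_rOut := by linarith }
    have hψ : D.Th (gdB ψ) = 0 := by
      apply D.gap_smooth q hq hqs hqq hfull hC hL k h1 h2 (gdB ψ) (gdB_contDiff _) (gdB_compact _)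
        (a := a - 2 * δ) (b := b + 2 * δ) (by linarith) (by linarith)
      intro h hh
      rw [gdB_apply]
      have e1 : ψ h = 0 := by
        apply ψ.zero_of_le_dist
        show (b - a) / 2 + 2 * δ ≤ dist h ((a + b) / 2)
        rw [Real.dist_eq]
        by_contra hcon
        push Not at hcon
        rw [abs_lt] at hcon
        exact hh ⟨by linarith [hcon.1], by linarith [hcon.2]⟩
      rw [e1, Complex.ofReal_zero]
    have hFψ : F = F * gdB ψ := by
      ext h
      rw [BoundedContinuousFunction.mul_apply, gdB_apply]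
      by_cases hh : h ∈ tsupport F
      · have e1 : ψ h = 1 := by
          apply ψ.one_of_mem_closedBall
          rw [Metric.mem_closedBall, Real.dist_eq]
          show |h - (a + b) / 2| ≤ (b - a) / 2 + δ
          rw [abs_le]
          have e2 := ha hh
          have e3 := hb hh
          constructor <;> linarith
        rw [e1, Complex.ofReal_one, mul_one]
      · rw [image_eq_zero_of_notMem_tsupport hh, zero_mul]
    rw [hFψ, map_mul, hψ, mul_zero]
  · have hF0 : F = 0 := by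
      ext h
      have : h ∉ tsupport F := fun hh => hne ⟨h, hh⟩
      exact image_eq_zero_of_notMem_tsupport this
    rw [hF0, map_zero]

end ModData

end Vale.Agent.P132
end
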