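import Vale.Agent.P132.MathlibUsed
import Vale.Agent.P132.Bd8.B2
import Vale.Agent.P132.FinalDefs
import Vale.Agent.P132.Bd8.B1

set_option linter.all false

section

open Filter Topology
open scoped ComplexConjugate InnerProductSpace BoundedContinuousFunction

namespace Vale.Agent.P132

universe u

variable {H : Type u} [NormedAddCommGroup H] [InnerProductSpace ℂ H] [CompleteSpace H]

/-- the set `{a ξ : a ∈ M, a = a*}` -/
def saVec (M : VonNeumannAlgebra H) (ξ : H) : Set H := {ζ : H | ∃ a ∈ M, star a = a ∧ a ξ = ζ}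

/-- Data attached to a closed real subspace `K` (Rieffel-van Daele). -/
structure StdData (K : Set H) where
  R : H →L[ℂ] H
  T : H →L[ℂ] H
  J : H ≃ₗᵢ⋆[ℂ] H
  R_sa : star R = R
  R_nonneg : ∀ ζ, 0 ≤ (⟪ζ, R ζ⟫_ℂ).re
  R_le : ∀ ζ, (⟪ζ, R ζ⟫_ℂ).re ≤ 2 * ‖ζ‖ ^ 2
  R_inj : ∀ ζ, R ζ = 0 → ζ = 0
  R_inj' : ∀ ζ, R ζ = (2 : ℂ) • ζ → ζ = 0
  T_nonneg : 0 ≤ T
  T_sq : T * T = R * (2 - R)
  J_J : ∀ ζ, J (J ζ) = ζ
  J_R : ∀ ζ, J (R ζ) = (2 : ℂ) • J ζ - R (J ζ)
  J_T : ∀ ζ, J (T ζ) = T (J ζ)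
  /-- for `k ∈ K`: `(P - Q) k = (2 - R) k` -/
  JT_K : ∀ k ∈ K, J (T k) = (2 : ℂ) • k - R k
  /-- on the real orthogonal complement of `iK` one has `(P-Q) ζ = R ζ = P ζ` -/
  JT_K' : ∀ ζ : H, (∀ k ∈ K, (⟪k, ζ⟫_ℂ).im = 0) → J (T ζ) = R ζ ∧ R ζ ∈ K ∧
    ∀ k ∈ K, (⟪k, ζ - R ζ⟫_ℂ).re = 0

/-- Rieffel-van Daele data of `(M, ξ)`. -/
structure RvD (M : VonNeumannAlgebra H) (ξ : H) where
  R : H →L[ℂ] H
  T : H →L[ℂ] H
  J : H ≃ₗᵢ⋆[ℂ] H
  R_sa : star R = R
  R_nonneg : ∀ ζ, 0 ≤ (⟪ζ, R ζ⟫_ℂ).re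
  R_le : ∀ ζ, (⟪ζ, R ζ⟫_ℂ).re ≤ 2 * ‖ζ‖ ^ 2
  R_inj : ∀ ζ, R ζ = 0 → ζ = 0
  R_inj' : ∀ ζ, R ζ = (2 : ℂ) • ζ → ζ = 0
  T_nonneg : 0 ≤ T
  T_sq : T * T = R * (2 - R)
  J_J : ∀ ζ, J (J ζ) = ζ
  J_R : ∀ ζ, J (R ζ) = (2 : ℂ) • J ζ - R (J ζ)
  J_T : ∀ ζ, J (T ζ) = T (J ζ)
  R_xi : R ξ = ξ
  J_xi : J ξ = ξ
  JT_M : ∀ a ∈ M, star a = a → J (T (a ξ)) = (2 : ℂ) • a ξ - R (a ξ)
  JT_M' : ∀ y ∈ M.commutant, star y = y → J (T (y ξ)) = R (y ξ)
  R_M' : ∀ y ∈ M.commutant, star y = y → ∀ x ∈ M, star x = x →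
    (∀ b ∈ M, star b = b → (⟪b ξ, y ξ - (2 : ℂ) • x ξ⟫_ℂ).re = 0) → R (y ξ) = (2 : ℂ) • x ξ

/-- `h ↦ 2 / (1 + e^h)` -/
noncomputable def rB : ℝ →ᵇ ℂ :=
  BoundedContinuousFunction.ofNormedAddCommGroup
    (fun h : ℝ => ((2 / (1 + Real.exp h) : ℝ) : ℂ))
    (by
      have : Continuous fun h : ℝ => 2 / (1 + Real.exp h) :=
        continuous_const.div (by fun_prop) (fun h => by positivity)
      fun_prop) 2
    (fun h => by
      have h1 : 0 < Real.exp h := Real.exp_pos h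
      rw [Complex.norm_real, Real.norm_of_nonneg (by positivity), div_le_iff₀ (by positivity)]
      linarith only [h1])

@[simp] theorem rB_apply (h : ℝ) : rB h = ((2 / (1 + Real.exp h) : ℝ) : ℂ) := rfl

/-- `h ↦ 2 e^{h/2} / (1 + e^h) = 1 / cosh (h/2)` -/
noncomputable def tB : ℝ →ᵇ ℂ :=
  BoundedContinuousFunction.ofNormedAddCommGroup
    (fun h : ℝ => ((2 * Real.exp (h / 2) / (1 + Real.exp h) : ℝ) : ℂ))
    (by
      have : Continuous fun h : ℝ => 2 * Real.exp (h / 2) / (1 + Real.exp h) :=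
        (by fun_prop : Continuous fun h : ℝ => 2 * Real.exp (h / 2)).div (by fun_prop)
          (fun h => by positivity)
      fun_prop) 1
    (fun h => by
      have h1 : 0 < Real.exp h := Real.exp_pos h
      have h2 : Real.exp h = Real.exp (h / 2) ^ 2 := by
        rw [← Real.exp_nat_mul]; ring_nf
      rw [Complex.norm_real, Real.norm_of_nonneg (by positivity), div_le_iff₀ (by positivity)]
      linarith only [sq_nonneg (Real.exp (h / 2) - 1), h2])

@[simp] theorem tB_apply (h : ℝ) :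
    tB h = ((2 * Real.exp (h / 2) / (1 + Real.exp h) : ℝ) : ℂ) := rfl

/-- Properties of a functional calculus attached to `(R, T, J)`. -/
structure ThData (R T : H →L[ℂ] H) (J : H ≃ₗᵢ⋆[ℂ] H) where
  Th : (ℝ →ᵇ ℂ) →⋆ₐ[ℂ] (H →L[ℂ] H)
  Th_r : Th rB = R
  Th_t : Th tB = T
  Th_nondeg : ∀ ζ : H, ∀ ε > 0, ∃ F : ℝ →ᵇ ℂ, HasCompactSupport F ∧ ‖F‖ ≤ 1 ∧
    ‖Th F ζ - ζ‖ < ε
  Th_fix : ∀ ζ : H, R ζ = ζ → ∀ F, Th F ζ = F 0 • ζ
  J_Th : ∀ F ζ, J (Th F ζ) = Th (reflB F) (J ζ)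

end Vale.Agent.P132
end

section

/-!
P132 (bicentralizer), Part II, lemma (L3): the strip identity
`∫ e^{θt}/cosh(πt) (e^{iθ/2} G(t+i/2) + e^{-iθ/2} G(t-i/2)) dt = 2 cos(θ/2) (∫ e^{θt}/cosh(πt) dt) G(0)`
for entire `G`, bounded on `|Im z| ≤ 1/2`, and real `|θ| < π`.
-/

namespace Vale.Agent.P132

open MeasureTheory Filter Topology Complex
open scoped Real

noncomputable section

/-- The kernel `e^{θt}/cosh(πt)`. -/
def kk (θ t : ℝ) : ℝ := Real.exp (θ * t) / Real.cosh (Real.pi * t)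

theorem kk_pos (θ t : ℝ) : 0 < kk θ t :=
  div_pos (Real.exp_pos _) (Real.cosh_pos _)

theorem kk_continuous (θ : ℝ) : Continuous (kk θ) := by
  unfold kk
  refine Continuous.div (by fun_prop) (by fun_prop) fun t => (Real.cosh_pos _).ne'

theorem exp_abs_le_two_cosh (x : ℝ) : Real.exp |x| ≤ 2 * Real.cosh x := by
  rw [Real.cosh_eq]
  rcases abs_cases x with ⟨h, -⟩ | ⟨h, -⟩ <;> rw [h] <;>
    linarith [Real.exp_pos x, Real.exp_pos (-x)]

theorem kk_le (θ t : ℝ) : kk θ t ≤ 2 * Real.exp (-(π - |θ|) * |t|) := by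
  unfold kk
  rw [div_le_iff₀ (Real.cosh_pos _)]
  have h1 : Real.exp (θ * t) ≤ Real.exp (|θ| * |t|) := by
    apply Real.exp_le_exp.mpr
    rw [← abs_mul]
    exact le_abs_self _
  have h2 : Real.exp (π * |t|) ≤ 2 * Real.cosh (π * t) := by
    have := exp_abs_le_two_cosh (π * t)
    rwa [abs_mul, abs_of_pos Real.pi_pos] at this
  calc Real.exp (θ * t) ≤ Real.exp (|θ| * |t|) := h1
    _ = Real.exp (-(π - |θ|) * |t|) * Real.exp (π * |t|) := by
        rw [← Real.exp_add]; congr 1; ring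
    _ ≤ Real.exp (-(π - |θ|) * |t|) * (2 * Real.cosh (π * t)) := by
        gcongr
    _ = 2 * Real.exp (-(π - |θ|) * |t|) * Real.cosh (π * t) := by ring

theorem integrable_exp_neg_abs {a : ℝ} (ha : 0 < a) :
    Integrable fun t : ℝ => Real.exp (-a * |t|) := by
  have h1 : IntegrableOn (fun t : ℝ => Real.exp (-a * |t|)) (Set.Ioi 0) := by
    refine (integrableOn_exp_mul_Ioi (a := -a) (by linarith) 0).congr_fun ?_ measurableSet_Ioi
    intro t ht
    simp only
    rw [abs_of_pos ht]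
  have h2 : IntegrableOn (fun t : ℝ => Real.exp (-a * |t|)) (Set.Iic 0) := by
    refine (integrableOn_exp_mul_Iic (a := a) ha 0).congr_fun ?_ measurableSet_Iic
    intro t ht
    simp only
    rw [abs_of_nonpos ht]
    congr 1; ring
  have := h2.union h1
  rwa [Set.Iic_union_Ioi, integrableOn_univ] at this

theorem kk_integrable {θ : ℝ} (hθ : |θ| < π) : Integrable (kk θ) := by
  refine Integrable.mono' (g := fun t : ℝ => 2 * Real.exp (-(π - |θ|) * |t|)) ?_ ?_ ?_
  · exact (integrable_exp_neg_abs (sub_pos.mpr hθ)).const_mul 2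
  · exact (kk_continuous θ).aestronglyMeasurable
  · refine Eventually.of_forall fun t => ?_
    rw [Real.norm_of_nonneg (kk_pos θ t).le]
    exact kk_le θ t

/-- The constant `c(θ)`. -/
def cK (θ : ℝ) : ℝ := 2 * Real.cos (θ / 2) * ∫ t, kk θ t

/-! ### `sinh` on the strip -/

theorem normSq_sinh (x y : ℝ) :
    Complex.normSq (Complex.sinh (x + y * I)) = Real.sinh x ^ 2 + Real.sin y ^ 2 := by
  have h : Complex.sinh (x + y * I) =
      ((Real.sinh x * Real.cos y : ℝ) : ℂ) + ((Real.cosh x * Real.sin y : ℝ) : ℂ) * I := by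
    rw [Complex.sinh_add, Complex.sinh_mul_I, Complex.cosh_mul_I]
    push_cast
    ring
  rw [h, Complex.normSq_add_mul_I]
  have h1 := Real.cosh_sq x
  have h2 := Real.sin_sq_add_cos_sq y
  have : Real.cosh x ^ 2 = Real.sinh x ^ 2 + 1 := h1
  have h3 : Real.cos y ^ 2 = 1 - Real.sin y ^ 2 := by linarith
  calc (Real.sinh x * Real.cos y) ^ 2 + (Real.cosh x * Real.sin y) ^ 2
      = Real.sinh x ^ 2 * Real.cos y ^ 2 + Real.cosh x ^ 2 * Real.sin y ^ 2 := by ring
    _ = Real.sinh x ^ 2 * (1 - Real.sin y ^ 2) + (Real.sinh x ^ 2 + 1) * Real.sin y ^ 2 := by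
        rw [this, h3]
    _ = _ := by ring

theorem sinh_pi_ne_zero {z : ℂ} (hz : z ≠ 0) (him : |z.im| ≤ 1 / 2) :
    Complex.sinh (π * z) ≠ 0 := by
  intro h
  have h1 : (π : ℂ) * z = ((π * z.re : ℝ) : ℂ) + ((π * z.im : ℝ) : ℂ) * I := by
    conv_lhs => rw [← Complex.re_add_im z]
    push_cast; ring
  have h2 := normSq_sinh (π * z.re) (π * z.im)
  rw [← h1, h, map_zero] at h2
  have h3 : Real.sinh (π * z.re) = 0 := by nlinarith [sq_nonneg (Real.sinh (π * z.re)), sq_nonneg (Real.sin (π * z.im))]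
  have h4 : Real.sin (π * z.im) = 0 := by nlinarith [sq_nonneg (Real.sinh (π * z.re)), sq_nonneg (Real.sin (π * z.im))]
  rw [Real.sinh_eq_zero] at h3
  have h5 : z.re = 0 := by
    rcases mul_eq_zero.mp h3 with h | h
    · exact absurd h Real.pi_ne_zero
    · exact h
  rw [abs_le] at him
  have h6 : π * z.im = 0 := by
    rw [Real.sin_eq_zero_iff_of_lt_of_lt] at h4
    · exact h4
    · nlinarith [Real.pi_pos]
    · nlinarith [Real.pi_pos]
  have h7 : z.im = 0 := by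
    rcases mul_eq_zero.mp h6 with h | h
    · exact absurd h Real.pi_ne_zero
    · exact h
  exact hz (Complex.ext h5 h7)

theorem norm_sinh_ge (z : ℂ) : |Real.sinh (π * z.re)| ≤ ‖Complex.sinh (π * z)‖ := by
  have h1 : (π : ℂ) * z = ((π * z.re : ℝ) : ℂ) + ((π * z.im : ℝ) : ℂ) * I := by
    conv_lhs => rw [← Complex.re_add_im z]
    push_cast; ring
  have h2 := normSq_sinh (π * z.re) (π * z.im)
  rw [← h1, Complex.normSq_eq_norm_sq] at h2
  apply abs_le_of_sq_le_sq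
  · linarith only [sq_nonneg (Real.sin (π * z.im)), h2]
  · positivity

/-! ### the auxiliary holomorphic function -/

/-- `(G z - G 0) e^{θ z} / sinh (π z)` with the singularity at `0` removed. -/
def FK (G : ℂ → ℂ) (θ : ℝ) (z : ℂ) : ℂ :=
  dslope G 0 z * Complex.exp (θ * z) / dslope (fun z : ℂ => Complex.sinh (π * z)) 0 z

theorem FK_eq (G : ℂ → ℂ) (θ : ℝ) {z : ℂ} (hz : z ≠ 0) :
    FK G θ z = (G z - G 0) * Complex.exp (θ * z) / Complex.sinh (π * z) := by
  unfold FK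
  rw [dslope_of_ne _ hz, dslope_of_ne _ hz, slope_def_field, slope_def_field]
  simp only [mul_zero, Complex.sinh_zero, sub_zero]
  field_simp

theorem dslope_sinh_ne_zero {z : ℂ} (him : |z.im| ≤ 1 / 2) :
    dslope (fun z : ℂ => Complex.sinh (π * z)) 0 z ≠ 0 := by
  by_cases hz : z = 0
  · rw [hz, dslope_same]
    have : HasDerivAt (fun z : ℂ => Complex.sinh (π * z)) (Complex.cosh (π * 0) * (π * 1)) 0 := by
      exact (Complex.hasDerivAt_sinh _).comp 0 ((hasDerivAt_id (0:ℂ)).const_mul (π : ℂ))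
    rw [this.deriv]
    simp [Real.pi_ne_zero]
  · rw [dslope_of_ne _ hz, slope_def_field]
    simp only [mul_zero, Complex.sinh_zero, sub_zero]
    exact div_ne_zero (sinh_pi_ne_zero hz him) hz

theorem differentiable_dslope {f : ℂ → ℂ} (hf : Differentiable ℂ f) (c : ℂ) :
    Differentiable ℂ (dslope f c) := by
  rw [← differentiableOn_univ]
  exact (Complex.differentiableOn_dslope univ_mem).mpr hf.differentiableOn

theorem FK_differentiableAt {G : ℂ → ℂ} (hG : Differentiable ℂ G) (θ : ℝ) {z : ℂ}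
    (him : |z.im| ≤ 1 / 2) : DifferentiableAt ℂ (FK G θ) z := by
  unfold FK
  refine DifferentiableAt.div ?_ ?_ (dslope_sinh_ne_zero him)
  · refine DifferentiableAt.mul (differentiable_dslope hG 0 z) ?_
    fun_prop
  · refine differentiable_dslope ?_ 0 z
    fun_prop

theorem sinh_lower (t : ℝ) : Complex.sinh (π * ((t : ℂ) + (-(1/2) : ℝ) * I)) =
    -(I * (Real.cosh (π * t) : ℂ)) := by
  have : (π : ℂ) * ((t : ℂ) + (-(1/2) : ℝ) * I) = ((π * t : ℝ) : ℂ) + ((-(π / 2) : ℝ) : ℂ) * I := by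
    push_cast; ring
  rw [this, Complex.sinh_add, Complex.sinh_mul_I, Complex.cosh_mul_I]
  rw [← Complex.ofReal_cos, ← Complex.ofReal_sin, Real.cos_neg, Real.sin_neg, Real.cos_pi_div_two,
    Real.sin_pi_div_two]
  push_cast; ring

theorem sinh_upper (t : ℝ) : Complex.sinh (π * ((t : ℂ) + (1/2 : ℝ) * I)) =
    I * (Real.cosh (π * t) : ℂ) := by
  have : (π : ℂ) * ((t : ℂ) + (1/2 : ℝ) * I) = ((π * t : ℝ) : ℂ) + ((π / 2 : ℝ) : ℂ) * I := by
    push_cast; ring
  rw [this, Complex.sinh_add, Complex.sinh_mul_I, Complex.cosh_mul_I]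
  rw [← Complex.ofReal_cos, ← Complex.ofReal_sin, Real.cos_pi_div_two,
    Real.sin_pi_div_two]
  push_cast; ring

theorem FK_lower (G : ℂ → ℂ) (θ t : ℝ) :
    FK G θ ((t : ℂ) + (-(1/2) : ℝ) * I) =
      I * ((kk θ t : ℂ) * (Complex.exp (-(I * θ / 2)) * (G (t - I / 2) - G 0))) := by
  have hne : ((t : ℂ) + (-(1/2) : ℝ) * I) ≠ 0 := by
    intro h
    have := congrArg Complex.im h
    simp at this
  have hc : (Real.cosh (π * t) : ℂ) ≠ 0 := by
    exact_mod_cast (Real.cosh_pos _).ne'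
  have e1 : (t : ℂ) + (-(1/2) : ℝ) * I = t - I / 2 := by push_cast; ring
  have e2 : Complex.exp (θ * ((t : ℂ) + (-(1/2) : ℝ) * I)) =
      (Real.exp (θ * t) : ℂ) * Complex.exp (-(I * θ / 2)) := by
    rw [Complex.ofReal_exp, ← Complex.exp_add]
    congr 1
    push_cast; ring
  rw [FK_eq G θ hne, sinh_lower, e2, e1]
  unfold kk
  push_cast [Complex.ofReal_div] at *
  field_simp
  ring_nf
  simp [Complex.I_sq]

theorem FK_upper (G : ℂ → ℂ) (θ t : ℝ) :
    FK G θ ((t : ℂ) + (1/2 : ℝ) * I) =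
      -(I * ((kk θ t : ℂ) * (Complex.exp (I * θ / 2) * (G (t + I / 2) - G 0)))) := by
  have hne : ((t : ℂ) + (1/2 : ℝ) * I) ≠ 0 := by
    intro h
    have := congrArg Complex.im h
    simp at this
  have hc : (Real.cosh (π * t) : ℂ) ≠ 0 := by
    exact_mod_cast (Real.cosh_pos _).ne'
  have e1 : (t : ℂ) + (1/2 : ℝ) * I = t + I / 2 := by push_cast; ring
  have e2 : Complex.exp (θ * ((t : ℂ) + (1/2 : ℝ) * I)) =
      (Real.exp (θ * t) : ℂ) * Complex.exp (I * θ / 2) := by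
    rw [Complex.ofReal_exp, ← Complex.exp_add]
    congr 1
    push_cast; ring
  rw [FK_eq G θ hne, sinh_upper, e2, e1]
  unfold kk
  push_cast [Complex.ofReal_div] at *
  field_simp
  ring_nf
  simp [Complex.I_sq]
  ring

/-- bound for `FK` on vertical sides -/
theorem FK_norm_le {G : ℂ → ℂ} {B : ℝ} (hB : ∀ z : ℂ, |z.im| ≤ 1 / 2 → ‖G z‖ ≤ B) (θ : ℝ)
    {z : ℂ} (hre : z.re ≠ 0) (him : |z.im| ≤ 1 / 2) :
    ‖FK G θ z‖ ≤ 2 * B * Real.exp (|θ| * |z.re|) / |Real.sinh (π * z.re)| := by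
  have hz : z ≠ 0 := by
    rintro rfl; simp at hre
  have hs : 0 < |Real.sinh (π * z.re)| := by
    rw [abs_pos, Ne, Real.sinh_eq_zero]
    exact mul_ne_zero Real.pi_ne_zero hre
  have hB0 : 0 ≤ B := (norm_nonneg _).trans (hB 0 (by simp))
  rw [FK_eq G θ hz, norm_div, norm_mul]
  have h1 : ‖G z - G 0‖ ≤ 2 * B := by
    calc ‖G z - G 0‖ ≤ ‖G z‖ + ‖G 0‖ := norm_sub_le _ _
      _ ≤ B + B := add_le_add (hB z him) (hB 0 (by simp))
      _ = 2 * B := by ring
  have h2 : ‖Complex.exp (θ * z)‖ ≤ Real.exp (|θ| * |z.re|) := by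
    rw [Complex.norm_exp]
    apply Real.exp_le_exp.mpr
    have : ((θ : ℂ) * z).re = θ * z.re := by simp
    rw [this, ← abs_mul]
    exact le_abs_self _
  have h3 := norm_sinh_ge z
  apply div_le_div₀ (by (clear * - hB0; positivity)) _ hs h3
  exact mul_le_mul h1 h2 (norm_nonneg _) (by positivity)

theorem tendsto_vert {θ : ℝ} (hθ : |θ| < π) (B : ℝ) :
    Tendsto (fun R : ℝ => 2 * B * Real.exp (|θ| * R) / Real.sinh (π * R)) atTop (𝓝 0) := by
  have h1 : Tendsto (fun R : ℝ => 8 * |B| * Real.exp (-((π - |θ|) * R))) atTop (𝓝 0) := by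
    have : Tendsto (fun R : ℝ => Real.exp (-((π - |θ|) * R))) atTop (𝓝 0) :=
      Real.tendsto_exp_neg_atTop_nhds_zero.comp
        (tendsto_id.const_mul_atTop (sub_pos.mpr hθ))
    simpa using this.const_mul (8 * |B|)
  rw [tendsto_zero_iff_norm_tendsto_zero]
  refine squeeze_zero' (Eventually.of_forall fun _ => norm_nonneg _) ?_ h1
  filter_upwards [eventually_ge_atTop 1] with R hR
  have hpi := Real.pi_gt_three
  have h2 : Real.exp (π * R) / 4 ≤ Real.sinh (π * R) := by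
    rw [Real.sinh_eq]
    have h3 : Real.exp (-(π * R)) ≤ 1 := by
      rw [Real.exp_le_one_iff]; linarith only [mul_nonneg (sub_nonneg.2 hR) (le_of_lt (sub_pos.2 hpi)), hpi, hR]
    have h4 : 4 ≤ Real.exp (π * R) := by
      have := Real.add_one_le_exp (π * R)
      linarith only [mul_nonneg (sub_nonneg.2 hR) (le_of_lt (sub_pos.2 hpi)), this, hpi, hR]
    linarith
  have h5 : 0 < Real.sinh (π * R) := lt_of_lt_of_le (by positivity) h2
  rw [norm_div, norm_mul, norm_mul, Real.norm_of_nonneg (Real.exp_pos _).le,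
    Real.norm_of_nonneg h5.le, div_le_iff₀ h5]
  simp only [Real.norm_eq_abs, Nat.abs_ofNat]
  calc 2 * |B| * Real.exp (|θ| * R)
      = 8 * |B| * Real.exp (-((π - |θ|) * R)) * (Real.exp (π * R) / 4) := by
        have : Real.exp (|θ| * R) = Real.exp (-((π - |θ|) * R)) * Real.exp (π * R) := by
          rw [← Real.exp_add]; congr 1; ring
        rw [this]; ring
    _ ≤ 8 * |B| * Real.exp (-((π - |θ|) * R)) * Real.sinh (π * R) := by
        gcongr

/-- **(L3)** the strip identity. -/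
theorem cauchy_line {G : ℂ → ℂ} (hG : Differentiable ℂ G) {B : ℝ}
    (hB : ∀ z : ℂ, |z.im| ≤ 1 / 2 → ‖G z‖ ≤ B) {θ : ℝ} (hθ : |θ| < π) :
    ∫ t : ℝ, (kk θ t : ℂ) * (Complex.exp (I * θ / 2) * G (t + I / 2) +
      Complex.exp (-(I * θ / 2)) * G (t - I / 2)) = (cK θ : ℂ) * G 0 := by
  have hB0 : 0 ≤ B := (norm_nonneg _).trans (hB 0 (by simp))
  have hK := kk_integrable hθ
  have hKc : Integrable (fun t : ℝ => (kk θ t : ℂ)) := hK.ofReal
  have hexp : ∀ x : ℝ, ‖Complex.exp (I * x / 2)‖ = 1 := by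
    intro x
    have : I * (x : ℂ) / 2 = ((x / 2 : ℝ) : ℂ) * I := by push_cast; ring
    rw [this, Complex.norm_exp_ofReal_mul_I]
  have hexp' : ∀ x : ℝ, ‖Complex.exp (-(I * x / 2))‖ = 1 := by
    intro x
    have : -(I * (x : ℂ) / 2) = ((-(x / 2) : ℝ) : ℂ) * I := by push_cast; ring
    rw [this, Complex.norm_exp_ofReal_mul_I]
  -- integrability of the pieces
  have hint : ∀ (ε : ℝ) (hε : |ε| ≤ 1/2), Integrable (fun t : ℝ => (kk θ t : ℂ) *
      G ((t : ℂ) + (ε : ℂ) * I)) := by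
    intro ε hε
    refine Integrable.mul_bdd (c := B) hKc ?_ ?_
    · apply Continuous.aestronglyMeasurable
      exact hG.continuous.comp (by fun_prop)
    · refine Eventually.of_forall fun t => hB _ ?_
      simpa using hε
  have hup : Integrable (fun t : ℝ => (kk θ t : ℂ) * G ((t : ℂ) + I / 2)) := by
    have := hint (1/2) (by norm_num)
    refine this.congr (Eventually.of_forall fun t => ?_)
    simp only
    congr 2
    push_cast; ring
  have hlo : Integrable (fun t : ℝ => (kk θ t : ℂ) * G ((t : ℂ) - I / 2)) := by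
    have := hint (-(1/2)) (by norm_num)
    refine this.congr (Eventually.of_forall fun t => ?_)
    simp only
    congr 2
    push_cast; ring
  have hFlo : Integrable (fun t : ℝ => FK G θ ((t : ℂ) + (-(1/2) : ℝ) * I)) := by
    have : (fun t : ℝ => FK G θ ((t : ℂ) + (-(1/2) : ℝ) * I)) = fun t : ℝ =>
        (I * Complex.exp (-(I * θ / 2))) * ((kk θ t : ℂ) * G ((t : ℂ) - I / 2)) -
        (I * Complex.exp (-(I * θ / 2)) * G 0) * (kk θ t : ℂ) := by
      funext t
      rw [FK_lower]; ring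
    rw [this]
    exact (hlo.const_mul _).sub (hKc.const_mul _)
  have hFup : Integrable (fun t : ℝ => FK G θ ((t : ℂ) + (1/2 : ℝ) * I)) := by
    have : (fun t : ℝ => FK G θ ((t : ℂ) + (1/2 : ℝ) * I)) = fun t : ℝ =>
        (-I * Complex.exp (I * θ / 2)) * ((kk θ t : ℂ) * G ((t : ℂ) + I / 2)) -
        (-I * Complex.exp (I * θ / 2) * G 0) * (kk θ t : ℂ) := by
      funext t
      rw [FK_upper]; ring
    rw [this]
    exact (hup.const_mul _).sub (hKc.const_mul _)
  -- the contour integral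
  have hrect : ∀ R : ℝ, (∫ x : ℝ in (-R)..R, FK G θ ((x : ℂ) + (-(1/2) : ℝ) * I)) -
      (∫ x : ℝ in (-R)..R, FK G θ ((x : ℂ) + (1/2 : ℝ) * I)) +
      I • (∫ y : ℝ in (-(1/2))..(1/2), FK G θ ((R : ℂ) + y * I)) -
      I • (∫ y : ℝ in (-(1/2))..(1/2), FK G θ (((-R : ℝ) : ℂ) + y * I)) = 0 := by
    intro R
    have := Complex.integral_boundary_rect_eq_zero_of_differentiableOn (FK G θ)
      ((-R : ℝ) + (-(1/2) : ℝ) * I) ((R : ℝ) + (1/2 : ℝ) * I) ?_
    · simpa using this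
    · intro z hz
      apply DifferentiableAt.differentiableWithinAt
      apply FK_differentiableAt hG
      have h2 := hz.2
      simp only [Set.mem_preimage] at h2
      have e1 : (((-R : ℝ) : ℂ) + ((-(1/2) : ℝ) : ℂ) * I).im = -(1/2) := by simp
      have e2 : (((R : ℝ) : ℂ) + ((1/2 : ℝ) : ℂ) * I).im = 1/2 := by simp
      rw [e1, e2, Set.uIcc_of_le (by norm_num)] at h2
      rw [abs_le]
      exact ⟨h2.1, h2.2⟩
  have hv : ∀ s : ℝ, (s = 1 ∨ s = -1) →
      Tendsto (fun R : ℝ => ∫ y : ℝ in (-(1/2))..(1/2), FK G θ (((s * R : ℝ) : ℂ) + y * I))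
        atTop (𝓝 0) := by
    intro s hs
    rw [tendsto_zero_iff_norm_tendsto_zero]
    refine squeeze_zero' (Eventually.of_forall fun _ => norm_nonneg _) ?_ (tendsto_vert hθ B)
    filter_upwards [eventually_gt_atTop 0] with R hR
    have hs1 : |s| = 1 := by rcases hs with rfl | rfl <;> simp
    have hsR : |s * R| = R := by rw [abs_mul, hs1, one_mul, abs_of_pos hR]
    have hsinh : |Real.sinh (π * (s * R))| = Real.sinh (π * R) := by
      rw [Real.abs_sinh, abs_mul, hsR, abs_of_pos Real.pi_pos]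
    have := intervalIntegral.norm_integral_le_of_norm_le_const (a := -(1/2 : ℝ)) (b := 1/2)
      (f := fun y : ℝ => FK G θ (((s * R : ℝ) : ℂ) + y * I))
      (C := 2 * B * Real.exp (|θ| * R) / Real.sinh (π * R)) ?_
    · refine this.trans (le_of_eq ?_)
      norm_num
    · intro y hy
      rw [Set.uIoc_of_le (by norm_num)] at hy
      have him : |(((s * R : ℝ) : ℂ) + y * I).im| ≤ 1 / 2 := by
        have : (((s * R : ℝ) : ℂ) + y * I).im = y := by simp
        rw [this, abs_le]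
        exact ⟨hy.1.le, hy.2⟩
      have hre : (((s * R : ℝ) : ℂ) + y * I).re = s * R := by simp
      have hre0 : (((s * R : ℝ) : ℂ) + y * I).re ≠ 0 := by
        rw [hre]
        intro h0
        rw [h0, abs_zero] at hsR
        exact hR.ne hsR
      have := FK_norm_le hB θ hre0 him
      rw [hre, hsR, hsinh] at this
      exact this
  have hlim : Tendsto (fun R : ℝ => (∫ x : ℝ in (-R)..R, FK G θ ((x : ℂ) + (-(1/2) : ℝ) * I)) -
      (∫ x : ℝ in (-R)..R, FK G θ ((x : ℂ) + (1/2 : ℝ) * I)) +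
      I • (∫ y : ℝ in (-(1/2))..(1/2), FK G θ ((R : ℂ) + y * I)) -
      I • (∫ y : ℝ in (-(1/2))..(1/2), FK G θ (((-R : ℝ) : ℂ) + y * I))) atTop
      (𝓝 ((∫ x : ℝ, FK G θ ((x : ℂ) + (-(1/2) : ℝ) * I)) -
        (∫ x : ℝ, FK G θ ((x : ℂ) + (1/2 : ℝ) * I)) + I • (0 : ℂ) - I • (0 : ℂ))) := by
    refine Tendsto.sub (Tendsto.add (Tendsto.sub ?_ ?_) ?_) ?_
    · exact intervalIntegral_tendsto_integral hFlo tendsto_neg_atTop_atBot tendsto_id
    · exact intervalIntegral_tendsto_integral hFup tendsto_neg_atTop_atBot tendsto_id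
    · have := hv 1 (Or.inl rfl)
      simp only [one_mul] at this
      exact this.const_smul I
    · have := hv (-1) (Or.inr rfl)
      simp only [neg_mul, one_mul] at this
      exact this.const_smul I
  have hzero := tendsto_nhds_unique hlim
    ((tendsto_const_nhds (x := (0 : ℂ))).congr fun R => (hrect R).symm)
  simp only [smul_zero, add_zero, sub_zero] at hzero
  rw [← integral_sub hFlo hFup] at hzero
  have hcomb : ∀ t : ℝ, FK G θ ((t : ℂ) + (-(1/2) : ℝ) * I) - FK G θ ((t : ℂ) + (1/2 : ℝ) * I) =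
      I * ((kk θ t : ℂ) * (Complex.exp (I * θ / 2) * G (t + I / 2) +
        Complex.exp (-(I * θ / 2)) * G (t - I / 2)) -
        (kk θ t : ℂ) * ((Complex.exp (I * θ / 2) + Complex.exp (-(I * θ / 2))) * G 0)) := by
    intro t
    rw [FK_lower, FK_upper]; ring
  simp_rw [hcomb] at hzero
  rw [integral_const_mul, integral_sub, integral_mul_const] at hzero
  · have h1 := (mul_eq_zero.mp hzero).resolve_left Complex.I_ne_zero
    rw [sub_eq_zero] at h1
    have h3 : (∫ a : ℝ, (kk θ a : ℂ)) = ((∫ a : ℝ, kk θ a : ℝ) : ℂ) := integral_complex_ofReal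
    rw [h1, h3]
    have h2 : Complex.exp (I * θ / 2) + Complex.exp (-(I * θ / 2)) =
        ((2 * Real.cos (θ / 2) : ℝ) : ℂ) := by
      push_cast
      rw [Complex.two_cos]
      congr 2 <;> ring
    rw [h2]
    unfold cK
    push_cast
    ring
  · have : (fun t : ℝ => (kk θ t : ℂ) * (Complex.exp (I * θ / 2) * G (t + I / 2) +
        Complex.exp (-(I * θ / 2)) * G (t - I / 2))) = fun t : ℝ =>
        Complex.exp (I * θ / 2) * ((kk θ t : ℂ) * G (t + I / 2)) +
        Complex.exp (-(I * θ / 2)) * ((kk θ t : ℂ) * G (t - I / 2)) := by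
      funext t; ring
    rw [this]
    exact (hup.const_mul _).add (hlo.const_mul _)
  · exact hKc.mul_const _

/-- G8a -/
theorem integrable_kk (θ : ℝ) (hθ : |θ| < Real.pi) : Integrable (fun t : ℝ => kk θ t) :=
  kk_integrable hθ

/-- G8c -/
theorem ca_lemma (G : ℂ → ℂ) (hG : Differentiable ℂ G) (C : ℝ)
    (hC : ∀ z : ℂ, |z.im| ≤ 1 / 2 → ‖G z‖ ≤ C) (θ : ℝ) (hθ : |θ| < Real.pi) :
    ∫ t : ℝ, (kk θ t : ℂ) *
      (Complex.exp (Complex.I * θ / 2) * G (t + Complex.I / 2) +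
        Complex.exp (-(Complex.I * θ / 2)) * G (t - Complex.I / 2)) =
    ((2 * Real.cos (θ / 2) * ∫ t : ℝ, kk θ t : ℝ) : ℂ) * G 0 :=
  cauchy_line hG hC hθ

end

end Vale.Agent.P132
end

section

/-!
P132 (bicentralizer), Part II, lemma (L4): if `f : ℝ → ℂ` is continuous (or measurable) and bounded
and `∫ e^{θt}/cosh(πt) f(t) dt = 0` for all real `|θ| < π`, then `f = 0` (a.e.).
-/

namespace Vale.Agent.P132

open MeasureTheory Filter Topology ProbabilityTheory
open scoped Real ENNReal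

noncomputable section

/-- the finite measure `w(t)/cosh(πt) dt` -/
def muK (w : ℝ → ℝ) : Measure ℝ :=
  (volume : Measure ℝ).withDensity fun t => ENNReal.ofReal (w t * kk 0 t)

theorem mul_kk_integrable {w : ℝ → ℝ} (hw : AEStronglyMeasurable w volume) {C : ℝ}
    (hC : ∀ t, |w t| ≤ C) {θ : ℝ} (hθ : |θ| < π) : Integrable fun t => w t * kk θ t := by
  have := Integrable.bdd_mul (c := C) (kk_integrable hθ) hw
    (Eventually.of_forall fun t => by simpa using hC t)
  exact this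

theorem exp_mul_kk (θ t : ℝ) : Real.exp (θ * t) * kk 0 t = kk θ t := by
  unfold kk; simp [div_eq_mul_inv]

theorem integrable_exp_muK {w : ℝ → ℝ} (hw : Measurable w) {C : ℝ}
    (h0 : ∀ t, 0 ≤ w t) (hC : ∀ t, |w t| ≤ C) {θ : ℝ} (hθ : |θ| < π) :
    Integrable (fun t => Real.exp (θ * t)) (muK w) := by
  unfold muK
  rw [integrable_withDensity_iff_integrable_smul₀']
  · refine (mul_kk_integrable hw.aestronglyMeasurable hC hθ).congr
      (Eventually.of_forall fun t => ?_)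
    simp only [smul_eq_mul]
    rw [ENNReal.toReal_ofReal (mul_nonneg (h0 t) (kk_pos 0 t).le), ← exp_mul_kk θ t]
    ring
  · exact (hw.mul (kk_continuous 0).measurable).ennreal_ofReal.aemeasurable
  · exact Eventually.of_forall fun t => ENNReal.ofReal_lt_top

theorem integral_exp_muK {w : ℝ → ℝ} (hw : Measurable w)
    (h0 : ∀ t, 0 ≤ w t) (θ : ℝ) :
    ∫ t, Real.exp (θ * t) ∂(muK w) = ∫ t, w t * kk θ t := by
  unfold muK
  rw [integral_withDensity_eq_integral_toReal_smul₀]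
  · refine integral_congr_ae (Eventually.of_forall fun t => ?_)
    simp only [smul_eq_mul]
    rw [ENNReal.toReal_ofReal (mul_nonneg (h0 t) (kk_pos 0 t).le), ← exp_mul_kk θ t]
    ring
  · exact (hw.mul (kk_continuous 0).measurable).ennreal_ofReal.aemeasurable
  · exact Eventually.of_forall fun t => ENNReal.ofReal_lt_top

theorem isFiniteMeasure_muK {w : ℝ → ℝ} (hw : Measurable w) {C : ℝ}
    (hC : ∀ t, |w t| ≤ C) : IsFiniteMeasure (muK w) := by
  unfold muK
  apply isFiniteMeasure_withDensity_ofReal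
  exact (mul_kk_integrable hw.aestronglyMeasurable hC (by simpa using Real.pi_pos)).2

theorem muK_eq_of_integral_eq {w₁ w₂ : ℝ → ℝ} (h₁ : Measurable w₁) (h₂ : Measurable w₂)
    {C : ℝ} (hp₁ : ∀ t, 0 ≤ w₁ t) (hp₂ : ∀ t, 0 ≤ w₂ t) (hC₁ : ∀ t, |w₁ t| ≤ C)
    (hC₂ : ∀ t, |w₂ t| ≤ C)
    (h : ∀ θ : ℝ, |θ| < π → ∫ t, w₁ t * kk θ t = ∫ t, w₂ t * kk θ t) :
    muK w₁ = muK w₂ := by
  have hf1 := isFiniteMeasure_muK h₁ hC₁
  have hf2 := isFiniteMeasure_muK h₂ hC₂
  -- strip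
  have hset : ∀ w : ℝ → ℝ, Measurable w → (∀ t, 0 ≤ w t) → (∀ t, |w t| ≤ C) →
      Set.Ioo (-π) π ⊆ interior (integrableExpSet id (muK w)) := by
    intro w hw hp hC
    apply interior_maximal _ isOpen_Ioo
    intro θ hθ
    have := integrable_exp_muK hw hp hC (θ := θ) (abs_lt.mpr hθ)
    simpa [integrableExpSet] using this
  have hs1 := hset w₁ h₁ hp₁ hC₁
  have hs2 := hset w₂ h₂ hp₂ hC₂
  have hmgf : ∀ θ : ℝ, |θ| < π → mgf id (muK w₁) θ = mgf id (muK w₂) θ := by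
    intro θ hθ
    have e1 := integral_exp_muK h₁ hp₁ θ
    have e2 := integral_exp_muK h₂ hp₂ θ
    unfold mgf
    simp only [id]
    rw [e1, e2, h θ hθ]
  set U : Set ℂ := {z | z.re ∈ Set.Ioo (-π) π} with hU
  have hA1 : AnalyticOnNhd ℂ (complexMGF id (muK w₁)) U := by
    refine analyticOnNhd_complexMGF.mono ?_
    intro z hz
    exact hs1 hz
  have hA2 : AnalyticOnNhd ℂ (complexMGF id (muK w₂)) U := by
    refine analyticOnNhd_complexMGF.mono ?_
    intro z hz
    exact hs2 hz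
  have hUc : IsPreconnected U := by
    have : U = Complex.reLm ⁻¹' (Set.Ioo (-π) π) := rfl
    rw [this]
    exact ((convex_Ioo (-π) π).linear_preimage Complex.reLm).isPreconnected
  have h0U : (0 : ℂ) ∈ U := by
    simp [hU, Real.pi_pos]
  have heq : Set.EqOn (complexMGF id (muK w₁)) (complexMGF id (muK w₂)) U := by
    refine AnalyticOnNhd.eqOn_of_preconnected_of_frequently_eq hA1 hA2 hUc h0U ?_
    -- sequence 1/(n+1)
    rw [frequently_iff_seq_forall]
    refine ⟨fun n : ℕ => ((1 / ((n : ℝ) + 1) : ℝ) : ℂ), ?_, ?_⟩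
    · rw [tendsto_nhdsWithin_iff]
      constructor
      · have := tendsto_one_div_add_atTop_nhds_zero_nat (𝕜 := ℝ)
        have h2 := (Complex.continuous_ofReal.tendsto 0).comp this
        simpa [Function.comp_def] using h2
      · refine Eventually.of_forall fun n => ?_
        simp only [Set.mem_compl_iff, Set.mem_singleton_iff, Complex.ofReal_eq_zero]
        (clear * -; positivity)
    · intro n
      rw [complexMGF_ofReal, complexMGF_ofReal, hmgf]
      rw [abs_of_nonneg (by positivity)]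
      have hpi := Real.pi_gt_three
      have : 1 / ((n : ℝ) + 1) ≤ 1 := by
        rw [div_le_one (by positivity)]
        have : (0 : ℝ) ≤ n := Nat.cast_nonneg n
        linarith only [this]
      linarith only [this, hpi]
  apply Measure.ext_of_charFun
  funext t
  rw [← complexMGF_id_mul_I, ← complexMGF_id_mul_I]
  apply heq
  simp [hU, Real.pi_pos]

theorem ae_eq_of_muK_eq {w₁ w₂ : ℝ → ℝ} (h₁ : Measurable w₁) (h₂ : Measurable w₂)
    {C : ℝ} (hp₁ : ∀ t, 0 ≤ w₁ t) (hp₂ : ∀ t, 0 ≤ w₂ t) (hC₁ : ∀ t, |w₁ t| ≤ C)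
    (h : muK w₁ = muK w₂) : w₁ =ᵐ[volume] w₂ := by
  have := isFiniteMeasure_muK h₁ hC₁
  unfold muK at h
  have hm1 : AEMeasurable (fun t => ENNReal.ofReal (w₁ t * kk 0 t)) volume :=
    (h₁.mul (kk_continuous 0).measurable).ennreal_ofReal.aemeasurable
  have hm2 : AEMeasurable (fun t => ENNReal.ofReal (w₂ t * kk 0 t)) volume :=
    (h₂.mul (kk_continuous 0).measurable).ennreal_ofReal.aemeasurable
  have hfin : ∫⁻ t, ENNReal.ofReal (w₁ t * kk 0 t) ≠ ∞ := by
    have := (mul_kk_integrable h₁.aestronglyMeasurable hC₁ (θ := 0)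
      (by simpa using Real.pi_pos)).lintegral_lt_top
    exact this.ne
  have := (withDensity_eq_iff hm1 hm2 hfin).mp h
  filter_upwards [this] with t ht
  have hk := kk_pos 0 t
  rw [ENNReal.ofReal_eq_ofReal_iff (mul_nonneg (hp₁ t) hk.le) (mul_nonneg (hp₂ t) hk.le)] at ht
  exact mul_right_cancel₀ hk.ne' ht

/-- real measurable version -/
theorem laplace_uniq_real_ae {u : ℝ → ℝ} (hu : Measurable u) {B : ℝ} (hB : ∀ t, |u t| ≤ B)
    (h : ∀ θ : ℝ, |θ| < π → ∫ t, kk θ t * u t = 0) : u =ᵐ[volume] 0 := by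
  have hB0 : 0 ≤ B := (abs_nonneg _).trans (hB 0)
  have hp₁ : ∀ t, 0 ≤ u t + B := fun t => by have := (abs_le.mp (hB t)).1; linarith
  have hC₁ : ∀ t, |u t + B| ≤ 2 * B := fun t => by
    rw [abs_of_nonneg (hp₁ t)]; have := (abs_le.mp (hB t)).2; linarith
  have hC₂ : ∀ t : ℝ, |(fun _ : ℝ => B) t| ≤ 2 * B := fun t => by
    simp only [abs_of_nonneg hB0]; linarith
  have key : muK (fun t => u t + B) = muK (fun _ => B) := by
    refine muK_eq_of_integral_eq (C := 2 * B) (hu.add_const B) measurable_const hp₁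
      (fun _ => hB0) hC₁ hC₂ ?_
    intro θ hθ
    have i1 : Integrable (fun t => u t * kk θ t) :=
      mul_kk_integrable hu.aestronglyMeasurable hB hθ
    have i2 : Integrable (fun t => B * kk θ t) := (kk_integrable hθ).const_mul B
    simp only [add_mul]
    rw [integral_add i1 i2]
    have := h θ hθ
    simp only [mul_comm (kk θ _)] at this
    rw [this, zero_add]
  have := ae_eq_of_muK_eq (C := 2 * B) (hu.add_const B) measurable_const hp₁ (fun _ => hB0) hC₁ key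
  filter_upwards [this] with t ht
  simpa using ht

/-- complex measurable version -/
theorem laplace_uniq_ae {f : ℝ → ℂ} (hf : Measurable f) {B : ℝ} (hB : ∀ t, ‖f t‖ ≤ B)
    (h : ∀ θ : ℝ, |θ| < π → ∫ t, (kk θ t : ℂ) * f t = 0) : f =ᵐ[volume] 0 := by
  have hint : ∀ θ : ℝ, |θ| < π → Integrable (fun t => (kk θ t : ℂ) * f t) := fun θ hθ =>
    Integrable.mul_bdd (c := B) (kk_integrable hθ).ofReal hf.aestronglyMeasurable
      (Eventually.of_forall hB)
  have hre : (fun t => (f t).re) =ᵐ[volume] 0 := by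
    refine laplace_uniq_real_ae (Complex.measurable_re.comp hf) (B := B)
      (fun t => (Complex.abs_re_le_norm _).trans (hB t)) ?_
    intro θ hθ
    have := congrArg Complex.re (h θ hθ)
    have h2 : ∫ t, ((kk θ t : ℂ) * f t).re = (∫ t, (kk θ t : ℂ) * f t).re := integral_re (hint θ hθ)
    rw [← h2] at this
    simpa using this
  have him : (fun t => (f t).im) =ᵐ[volume] 0 := by
    refine laplace_uniq_real_ae (Complex.measurable_im.comp hf) (B := B)
      (fun t => (Complex.abs_im_le_norm _).trans (hB t)) ?_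
    intro θ hθ
    have := congrArg Complex.im (h θ hθ)
    have h2 : ∫ t, ((kk θ t : ℂ) * f t).im = (∫ t, (kk θ t : ℂ) * f t).im := integral_im (hint θ hθ)
    rw [← h2] at this
    simpa using this
  filter_upwards [hre, him] with t h1 h2
  exact Complex.ext h1 h2

/-- **(L4)** continuous bounded version -/
theorem laplace_uniq {f : ℝ → ℂ} (hf : Continuous f) {B : ℝ} (hB : ∀ t, ‖f t‖ ≤ B)
    (h : ∀ θ : ℝ, |θ| < π → ∫ t, (kk θ t : ℂ) * f t = 0) (t : ℝ) : f t = 0 := by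
  have := laplace_uniq_ae hf.measurable hB h
  have h2 : f = 0 := (Continuous.ae_eq_iff_eq volume hf continuous_zero).mp this
  rw [h2]; rfl

/-- G10a -/
theorem fourier_unique (f : ℝ → ℂ) (hf : Continuous f) (C : ℝ) (hC : ∀ t, ‖f t‖ ≤ C)
    (h : ∀ θ : ℝ, |θ| < Real.pi → ∫ t : ℝ, (kk θ t : ℂ) * f t = 0) : ∀ t, f t = 0 :=
  laplace_uniq hf hC h

end

end Vale.Agent.P132
end

section

/-!
# P132 Part III, section A: the centralizer, the projection onto the fixed vectors,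
the conditional expectation
-/

open Filter Topology MeasureTheory
open scoped ComplexConjugate InnerProductSpace BoundedContinuousFunction

set_option linter.unusedSectionVars false

namespace Vale.Agent.P132

universe u

variable {H : Type u} [NormedAddCommGroup H] [InnerProductSpace ℂ H] [CompleteSpace H]

/-- smooth compactly supported bounded pointwise approximation -/
theorem fix_exists_smooth_approx (F : ℝ →ᵇ ℂ) : ∃ f : ℕ → ℝ →ᵇ ℂ,
    (∀ n, ContDiff ℝ (⊤ : ℕ∞) (f n)) ∧ (∀ n, HasCompactSupport (f n)) ∧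
    (∀ n x, ‖f n x‖ ≤ 3 * ‖F‖) ∧ ∀ x, Tendsto (fun n => f n x) atTop (𝓝 (F x)) := by
  have hex : ∀ n : ℕ, ∃ g : ℝ → ℂ, ContDiff ℝ (⊤ : ℕ∞) g ∧ ∀ a, ∀ δ,
      (∀ x ∈ Metric.ball a (1 / ((n : ℝ) + 1)),
        dist ((cutoff n x : ℂ) * F x) ((cutoff n a : ℂ) * F a) ≤ δ) →
      dist (g a) ((cutoff n a : ℂ) * F a) ≤ δ := by
    intro n
    have hc : Continuous fun x : ℝ => ((cutoff n x : ℝ) : ℂ) * F x := by
      have := (cutoff n).continuous
      continuity
    exact hc.exists_contDiff_dist_le_of_forall_mem_ball_dist_le (by positivity)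
  choose g hg hga using hex
  have hnorm : ∀ n x, ‖((cutoff n x : ℝ) : ℂ) * F x‖ ≤ ‖F‖ := by
    intro n x
    rw [norm_mul, Complex.norm_real, Real.norm_of_nonneg (cutoff_nonneg n x)]
    calc cutoff n x * ‖F x‖ ≤ 1 * ‖F‖ :=
          mul_le_mul (cutoff_le_one n x) (F.norm_coe_le_norm x) (norm_nonneg _) zero_le_one
      _ = ‖F‖ := one_mul _
  have hbd : ∀ n x, ‖g n x‖ ≤ 3 * ‖F‖ := by
    intro n x
    have h1 : dist (g n x) ((cutoff n x : ℂ) * F x) ≤ 2 * ‖F‖ := by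
      refine hga n x _ fun y _ => ?_
      rw [dist_eq_norm]
      refine (norm_sub_le _ _).trans ?_
      have := hnorm n x
      have := hnorm n y
      linarith
    rw [dist_eq_norm] at h1
    calc ‖g n x‖ = ‖(g n x - (cutoff n x : ℂ) * F x) + (cutoff n x : ℂ) * F x‖ := by
          rw [sub_add_cancel]
      _ ≤ 2 * ‖F‖ + ‖F‖ := (norm_add_le _ _).trans (add_le_add h1 (hnorm n x))
      _ = 3 * ‖F‖ := by ring
  have hsupp : ∀ (n : ℕ) (x : ℝ), x ∉ Set.Icc (-((n : ℝ) + 2)) ((n : ℝ) + 2) → g n x = 0 := by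
    intro n x hx
    have h0 : ∀ y : ℝ, (n : ℝ) + 1 < |y| → ((cutoff n y : ℝ) : ℂ) * F y = 0 := by
      intro y hy
      have : cutoff n y = 0 := by
        rw [cutoff_apply]
        apply max_eq_left
        exact (min_le_right _ _).trans (by linarith)
      rw [this]; simp
    have hxa : (n : ℝ) + 2 < |x| := by
      by_contra hcon
      push Not at hcon
      exact hx (abs_le.mp hcon)
    have h1 : dist (g n x) ((cutoff n x : ℂ) * F x) ≤ 0 := by
      refine hga n x _ fun y hy => ?_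
      rw [Metric.mem_ball, Real.dist_eq] at hy
      have h2 : 1 / ((n : ℝ) + 1) ≤ 1 := by
        rw [div_le_one (by positivity)]
        have : (0 : ℝ) ≤ n := Nat.cast_nonneg n
        linarith
      have h3 : |x| - |y| ≤ |y - x| := by
        have := abs_sub_abs_le_abs_sub x y
        rwa [abs_sub_comm] at this
      rw [h0 y (by linarith), h0 x (by linarith), dist_self]
    have h2 := dist_le_zero.1 h1
    rw [h2, h0 x (by linarith)]
  refine ⟨fun n => BoundedContinuousFunction.ofNormedAddCommGroup (g n) (hg n).continuous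
    (3 * ‖F‖) (hbd n), fun n => hg n, fun n => ?_, fun n x => hbd n x, fun x => ?_⟩
  · exact HasCompactSupport.intro (K := Set.Icc (-((n : ℝ) + 2)) ((n : ℝ) + 2)) isCompact_Icc
      (hsupp n)
  · change Tendsto (fun n => g n x) atTop (𝓝 (F x))
    rw [Metric.tendsto_atTop]
    intro ε hε
    obtain ⟨δ, hδ, hFδ⟩ := Metric.continuous_iff.1 F.continuous x (ε / 2) (by positivity)
    obtain ⟨N, hN⟩ := exists_nat_gt (max (|x| + 1) (1 / δ))
    refine ⟨N, fun n hn => ?_⟩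
    have hnN : (N : ℝ) ≤ n := by exact_mod_cast hn
    have hN1 : |x| + 1 < n := (le_max_left _ _).trans_lt (hN.trans_le hnN)
    have hN2 : 1 / δ < n := (le_max_right _ _).trans_lt (hN.trans_le hnN)
    have hn1 : 1 / ((n : ℝ) + 1) < δ := by
      rw [div_lt_iff₀ (by positivity)]
      rw [div_lt_iff₀ hδ] at hN2
      linarith only [hN2, hδ]
    have hcut : ∀ y : ℝ, |y| ≤ n → ((cutoff n y : ℝ) : ℂ) * F y = F y := by
      intro y hy
      rw [cutoff_eq_one n y hy]; simp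
    have h1 : dist (g n x) ((cutoff n x : ℂ) * F x) ≤ ε / 2 := by
      refine hga n x _ fun y hy => ?_
      rw [Metric.mem_ball] at hy
      have hyx : dist y x < δ := hy.trans hn1
      rw [Real.dist_eq] at hy
      have h2 : 1 / ((n : ℝ) + 1) ≤ 1 := by
        rw [div_le_one (by (clear * -; positivity))]
        have : (0 : ℝ) ≤ n := Nat.cast_nonneg n
        linarith only [this]
      have h3 : |y| - |x| ≤ |y - x| := abs_sub_abs_le_abs_sub y x
      rw [hcut y (by linarith only [h3, h2, hy, hN1]), hcut x (by linarith)]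
      exact (hFδ y hyx).le
    rw [hcut x (by linarith only [hN1])] at h1
    exact h1.trans_lt (by linarith)

namespace ModData

variable {M : VonNeumannAlgebra H} {ξ : H} (D : ModData M ξ)

/-- an operator commuting with all `U t` commutes with `Th F` -/
theorem comm_Th (T : H →L[ℂ] H) (hT : ∀ t ζ, T (D.U t ζ) = D.U t (T ζ)) (F : ℝ →ᵇ ℂ) (ζ : H) :
    T (D.Th F ζ) = D.Th F (T ζ) := by
  have hsm : ∀ f : ℝ →ᵇ ℂ, ContDiff ℝ (⊤ : ℕ∞) f → HasCompactSupport f →
      T (D.Th f ζ) = D.Th f (T ζ) := by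
    intro f hf hf'
    obtain ⟨G, hGc, hGi, -, hGv⟩ := D.exists_fourier f hf hf'
    rw [hGv, hGv]
    have hint : Integrable fun w => G w • D.U (2 * Real.pi * w) ζ := by
      refine Integrable.mono' (hGi.norm.mul_const ‖ζ‖) ?_ (Eventually.of_forall fun w => ?_)
      · exact (hGc.smul (D.continuous_U_comp continuous_const (by fun_prop))).aestronglyMeasurable
      · rw [norm_smul, norm_U]
    rw [← T.integral_comp_comm hint]
    congr 1
    ext w
    rw [map_smul, hT]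
  obtain ⟨f, hf1, hf2, hf3, hf4⟩ := fix_exists_smooth_approx F
  have h1 := D.tendsto_Th ζ f F (3 * ‖F‖) (Eventually.of_forall fun n x => hf3 n x) hf4
  have h2 := D.tendsto_Th (T ζ) f F (3 * ‖F‖) (Eventually.of_forall fun n x => hf3 n x) hf4
  have h3 := (T.continuous.tendsto _).comp h1
  refine tendsto_nhds_unique h3 (h2.congr fun n => ?_)
  exact (hsm (f n) (hf1 n) (hf2 n)).symm

/-- a fixed vector is an eigenvector of `Th F` -/
theorem Th_fixS {ζ : H} (hζ : ζ ∈ D.fixS) (F : ℝ →ᵇ ℂ) : D.Th F ζ = F 0 • ζ := by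
  have hsm : ∀ f : ℝ →ᵇ ℂ, ContDiff ℝ (⊤ : ℕ∞) f → HasCompactSupport f →
      D.Th f ζ = f 0 • ζ := by
    intro f hf hf'
    obtain ⟨G, hGc, hGi, hG0, hGv⟩ := D.exists_fourier f hf hf'
    rw [hGv, hG0 0, ← integral_smul_const]
    congr 1
    ext w
    rw [hζ]
    simp
  obtain ⟨f, hf1, hf2, hf3, hf4⟩ := fix_exists_smooth_approx F
  have h1 := D.tendsto_Th ζ f F (3 * ‖F‖) (Eventually.of_forall fun n x => hf3 n x) hf4
  have h2 : Tendsto (fun n => f n 0 • ζ) atTop (𝓝 (F 0 • ζ)) := (hf4 0).smul_const ζ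
  refine tendsto_nhds_unique h1 (h2.congr fun n => ?_)
  exact (hsm (f n) (hf1 n) (hf2 n)).symm

theorem InC.sg_eq {a : H →L[ℂ] H} (ha : D.InC a) (t : ℝ) : D.sg t a = a :=
  D.ext_xi (D.sg_mem ha.1 t) ha.1 (by rw [D.sg_xi, ha.2 t])

theorem InC.U_comm {a : H →L[ℂ] H} (ha : D.InC a) (t : ℝ) (ζ : H) :
    D.U t (a ζ) = a (D.U t ζ) := by
  rw [← D.sg_U_apply, InC.sg_eq D ha]

theorem InC.of_comm {a : H →L[ℂ] H} (ha : a ∈ M) (h : ∀ t ζ, D.U t (a ζ) = a (D.U t ζ)) :
    D.InC a := ⟨ha, fun t => by rw [h, D.U_xi]⟩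

theorem InC.one : D.InC 1 := ⟨one_mem M, fun t => by simp⟩

theorem InC.zero : D.InC 0 := ⟨zero_mem M, fun t => by simp⟩

theorem InC.add {a b : H →L[ℂ] H} (ha : D.InC a) (hb : D.InC b) : D.InC (a + b) :=
  ⟨add_mem ha.1 hb.1, fun t => by
    rw [_root_.add_apply, map_add, ha.2 t, hb.2 t]⟩

theorem InC.sub {a b : H →L[ℂ] H} (ha : D.InC a) (hb : D.InC b) : D.InC (a - b) :=
  ⟨sub_mem ha.1 hb.1, fun t => by
    rw [_root_.sub_apply, map_sub, ha.2 t, hb.2 t]⟩

theorem InC.smul {a : H →L[ℂ] H} (ha : D.InC a) (c : ℂ) : D.InC (c • a) :=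
  ⟨M.toStarSubalgebra.smul_mem ha.1 c, fun t => by
    rw [_root_.smul_apply, map_smul, ha.2 t]⟩

theorem InC.mul {a b : H →L[ℂ] H} (ha : D.InC a) (hb : D.InC b) : D.InC (a * b) :=
  ⟨mul_mem ha.1 hb.1, fun t => by
    rw [mul_apply_eq_comp, InC.U_comm D ha, hb.2 t]⟩

theorem InC.adj {a : H →L[ℂ] H} (ha : D.InC a) : D.InC (star a) :=
  ⟨star_mem ha.1, fun t => by rw [← D.sg_xi, ← D.star_sg, InC.sg_eq D ha]⟩

theorem InC.Th_comm {a : H →L[ℂ] H} (ha : D.InC a) (F : ℝ →ᵇ ℂ) (ζ : H) :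
    D.Th F (a ζ) = a (D.Th F ζ) :=
  (D.comm_Th a (fun t ζ => (InC.U_comm D ha t ζ).symm) F ζ).symm

theorem InC.Rm_U {a : H →L[ℂ] H} (ha : D.InC a) (t : ℝ) (ζ : H) :
    D.Rm a (D.U t ζ) = D.U t (D.Rm a ζ) := by
  have := D.Rm_sg_U t a ζ
  rwa [InC.sg_eq D ha] at this

theorem InC.Th_Rm {a : H →L[ℂ] H} (ha : D.InC a) (F : ℝ →ᵇ ℂ) (ζ : H) :
    D.Th F (D.Rm a ζ) = D.Rm a (D.Th F ζ) :=
  (D.comm_Th (D.Rm a) (InC.Rm_U D ha) F ζ).symm

theorem J_mem_fixS {ζ : H} (h : ζ ∈ D.fixS) : D.J ζ ∈ D.fixS := fun t => by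
  rw [← D.J_U, h t]

theorem InC.Rm_xi {a : H →L[ℂ] H} (ha : D.InC a) : D.Rm a ξ = a ξ := by
  rw [D.Rm_xi]
  have h1 : D.J (star a ξ) ∈ D.fixS := D.J_mem_fixS (InC.adj D ha).2
  have h2 : a ξ ∈ D.fixS := ha.2
  have hG : ∃ G : ℝ →ᵇ ℂ, HasCompactSupport G ∧ G 0 = 1 := by
    refine ⟨ccB (cutoff 0), ?_, ?_⟩
    · refine HasCompactSupport.intro (K := Set.Icc (-1 : ℝ) 1) isCompact_Icc fun x hx => ?_
      have : (1 : ℝ) < |x| := by
        by_contra hcon
        push Not at hcon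
        exact hx (abs_le.mp hcon)
      rw [ccB_apply, cutoff_apply]
      have h3 : max (0 : ℝ) (min 1 ((0 : ℕ) + 1 - |x|)) = 0 := by
        apply max_eq_left
        refine (min_le_right _ _).trans ?_
        push_cast
        linarith
      rw [h3]; simp
    · rw [ccB_apply, cutoff_eq_one 0 0 (by simp)]; simp
  obtain ⟨G, hGc, hG0⟩ := hG
  obtain ⟨C, hC⟩ : ∃ C, ∀ h : ℝ, ‖((Real.exp (h / 2) : ℝ) : ℂ) * G h‖ ≤ C := by
    have hcs : HasCompactSupport fun h : ℝ => ((Real.exp (h / 2) : ℝ) : ℂ) * G h :=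
      hGc.mul_left
    exact hcs.exists_bound_of_continuous (by continuity)
  have hk := D.kms a ha.1 (BoundedContinuousFunction.ofNormedAddCommGroup
    (fun h : ℝ => ((Real.exp (h / 2) : ℝ) : ℂ) * G h) (by fun_prop) C hC) G (fun h => by
      push_cast
      rfl)
  rw [D.Th_fixS h1, D.Th_fixS h2, hG0, one_smul] at hk
  rw [hk]
  change (((Real.exp (0 / 2) : ℝ) : ℂ) * G 0) • a ξ = a ξ
  rw [hG0]
  simp

/-- `0 ≤ a` in `M_φ` has a square root in `M_φ`. -/
theorem InC.exists_sqrt {a : H →L[ℂ] H} (ha : D.InC a) (h0 : 0 ≤ a) :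
    ∃ b, D.InC b ∧ 0 ≤ b ∧ star b = b ∧ b * b = a := by
  have hb0 : 0 ≤ CFC.sqrt a := CFC.sqrt_nonneg a
  have hsa : IsSelfAdjoint (CFC.sqrt a) := hb0.isSelfAdjoint
  have hsq : CFC.sqrt a * CFC.sqrt a = a := CFC.sqrt_mul_sqrt_self a h0
  have hcomm : ∀ y : H →L[ℂ] H, Commute y a → Commute y (CFC.sqrt a) := by
    intro y hy
    rw [CFC.sqrt_eq_real_sqrt a h0, cfcₙ_eq_cfc (hf0 := by simp)]
    exact (Commute.cfc_real hy.symm Real.sqrt).symm
  refine ⟨CFC.sqrt a, InC.of_comm D ?_ ?_, hb0, hsa, hsq⟩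
  · rw [← M.commutant_commutant, VonNeumannAlgebra.mem_commutant_iff]
    intro y hy
    exact (hcomm y ((VonNeumannAlgebra.mem_commutant_iff.1 hy a ha.1).symm)).eq
  · intro t ζ
    have h1 : Commute (D.U t) a := by
      ext ζ
      exact InC.U_comm D ha t ζ
    exact congrArg (fun T : H →L[ℂ] H => T ζ) (hcomm _ h1).eq

theorem InC.J_xi {a : H →L[ℂ] H} (ha : D.InC a) : D.J (a ξ) = star a ξ := by
  have := InC.Rm_xi D (InC.adj D ha)
  rwa [D.Rm_xi, star_star] at this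

theorem InC.trace {a b : H →L[ℂ] H} (ha : D.InC a) (hb : D.InC b) :
    ⟪ξ, (a * b) ξ⟫_ℂ = ⟪ξ, (b * a) ξ⟫_ℂ := by
  have h1 : ⟪ξ, (a * b) ξ⟫_ℂ = ⟪star a ξ, b ξ⟫_ℂ := by
    rw [ContinuousLinearMap.star_eq_adjoint, ContinuousLinearMap.adjoint_inner_left]; rfl
  have h2 : ⟪ξ, (b * a) ξ⟫_ℂ = ⟪star b ξ, a ξ⟫_ℂ := by
    rw [ContinuousLinearMap.star_eq_adjoint, ContinuousLinearMap.adjoint_inner_left]; rfl
  rw [h1, h2, ← InC.J_xi D ha, ← InC.J_xi D hb, D.inner_J_left]

/-! ### the projection `P0` -/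

theorem P0_mem (ζ : H) : D.P0 ζ ∈ D.fixS := Submodule.starProjection_apply_mem _ _

theorem P0_of_fix {ζ : H} (h : ζ ∈ D.fixS) : D.P0 ζ = ζ :=
  Submodule.starProjection_eq_self_iff.2 h

theorem inner_P0 (ζ η : H) : ⟪D.P0 ζ, η⟫_ℂ = ⟪ζ, D.P0 η⟫_ℂ :=
  Submodule.inner_starProjection_left_eq_right _ _ _

theorem norm_P0_le (ζ : H) : ‖D.P0 ζ‖ ≤ ‖ζ‖ := by
  have h1 : ‖D.P0 ζ‖ ^ 2 ≤ ‖ζ‖ * ‖D.P0 ζ‖ := by
    have h2 : ⟪D.P0 ζ, D.P0 ζ⟫_ℂ = ⟪ζ, D.P0 ζ⟫_ℂ := by
      rw [D.inner_P0, D.P0_of_fix (D.P0_mem ζ)]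
    have h3 := norm_inner_le_norm (𝕜 := ℂ) ζ (D.P0 ζ)
    rw [← h2, inner_self_eq_norm_sq_to_K] at h3
    simpa using h3
  by_cases h : ‖D.P0 ζ‖ = 0
  · rw [h]; positivity
  · have : 0 < ‖D.P0 ζ‖ := lt_of_le_of_ne (norm_nonneg _) (Ne.symm h)
    (by_contra nlg; linarith only [nlg, mul_pos (sub_pos.2 (not_le.1 nlg)) (sub_pos.2 this), h1])

/-- characterisation of the projection -/
theorem P0_eq {ζ w : H} (hw : w ∈ D.fixS) (h : ∀ v ∈ D.fixS, ⟪v, w⟫_ℂ = ⟪v, ζ⟫_ℂ) :
    D.P0 ζ = w := by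
  have h1 : ∀ v ∈ D.fixS, ⟪v, D.P0 ζ - w⟫_ℂ = 0 := by
    intro v hv
    rw [inner_sub_right, h v hv, ← D.inner_P0, D.P0_of_fix hv, sub_self]
  have h2 := h1 _ (D.fixS.sub_mem (D.P0_mem ζ) hw)
  exact sub_eq_zero.1 (inner_self_eq_zero.1 h2)

theorem P0_comm {T : H →L[ℂ] H} (hT : ∀ t ζ, T (D.U t ζ) = D.U t (T ζ)) (ζ : H) :
    D.P0 (T ζ) = T (D.P0 ζ) := by
  have hT' : ∀ t ζ, star T (D.U t ζ) = D.U t (star T ζ) := by
    intro t ζ
    have h1 : T * D.U (-t) = D.U (-t) * T := by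
      ext v; exact hT (-t) v
    have h2 := congrArg star h1
    rw [star_mul, star_mul, D.star_U, neg_neg] at h2
    exact (congrArg (fun S : H →L[ℂ] H => S ζ) h2).symm
  refine D.P0_eq (fun t => by rw [← hT, D.P0_mem ζ t]) fun v hv => ?_
  have hv' : star T v ∈ D.fixS := fun t => by rw [← hT', hv t]
  rw [← ContinuousLinearMap.adjoint_inner_left T, ← ContinuousLinearMap.adjoint_inner_left T,
    ← ContinuousLinearMap.star_eq_adjoint, ← D.inner_P0, D.P0_of_fix hv']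

theorem P0_InC {a : H →L[ℂ] H} (ha : D.InC a) (ζ : H) : D.P0 (a ζ) = a (D.P0 ζ) :=
  D.P0_comm (fun t ζ => (InC.U_comm D ha t ζ).symm) ζ

theorem P0_Rm {a : H →L[ℂ] H} (ha : D.InC a) (ζ : H) : D.P0 (D.Rm a ζ) = D.Rm a (D.P0 ζ) :=
  D.P0_comm (InC.Rm_U D ha) ζ

/-- grid averages converge to `P0` -/
theorem tendsto_avg_P0 {τ : ℝ} (hτ : 0 < τ) (ζ : H) :
    Tendsto (fun n : ℕ => avg τ n (fun t => D.U t ζ)) atTop (𝓝 (D.P0 ζ)) := by
  obtain ⟨ζ₀, h1, h2⟩ := tendsto_avg_group hτ D.U D.U_add D.norm_U D.star_U D.U_zero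
    D.continuous_U ζ
  have : D.P0 ζ = ζ₀ := by
    refine D.P0_eq h1 fun v hv => ?_
    have h3 : Tendsto (fun n : ℕ => ⟪v, avg τ n (fun t => D.U t ζ)⟫_ℂ) atTop (𝓝 ⟪v, ζ₀⟫_ℂ) :=
      (tendsto_const_nhds).inner h2
    refine tendsto_nhds_unique h3 (tendsto_const_nhds.congr' ?_)
    filter_upwards [eventually_ne_atTop 0] with n hn
    rw [inner_avg_right]
    have : ∀ t, ⟪v, D.U t ζ⟫_ℂ = ⟪v, ζ⟫_ℂ := fun t => by
      conv_lhs => rw [← hv t]
      rw [D.inner_U_U]
    simp only [this]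
    exact (avg_const τ n hn _).symm
  rw [this]
  exact h2

/-! ### the conditional expectation -/

theorem avg_sg_mem {x : H →L[ℂ] H} (hx : x ∈ M) (τ : ℝ) (n : ℕ) :
    avg τ n (fun t => D.sg t x) ∈ M := by
  rw [avg]
  have h1 : ∑ j ∈ Finset.range (n ^ 3), D.sg ((j : ℝ) * τ / n) x ∈ M :=
    sum_mem fun j _ => D.sg_mem hx _
  have h2 : (((n : ℝ) ^ 3)⁻¹ : ℝ) • ∑ j ∈ Finset.range (n ^ 3), D.sg ((j : ℝ) * τ / n) x =
      ((((n : ℝ) ^ 3)⁻¹ : ℝ) : ℂ) • ∑ j ∈ Finset.range (n ^ 3), D.sg ((j : ℝ) * τ / n) x := by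
    rw [Complex.coe_smul]
  rw [h2]
  exact M.toStarSubalgebra.smul_mem h1 _

/-- the strong limit of the averages of `sg t x` -/
theorem exists_E_lim {x : H →L[ℂ] H} (hx : x ∈ M) :
    ∃ y : H →L[ℂ] H, D.InC y ∧ y ξ = D.P0 (x ξ) ∧ ‖y‖ ≤ ‖x‖ ∧
      ∀ ζ, Tendsto (fun n : ℕ => avg 1 n (fun t => D.sg t x ζ)) atTop (𝓝 (y ζ)) := by
  have hxi : ∀ n : ℕ, avg 1 n (fun t => D.sg t x) ξ = avg 1 n (fun t => D.U t (x ξ)) := by
    intro n
    rw [avg_apply]
    exact avg_congr 1 n fun t => D.sg_xi t x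
  obtain ⟨b, hb, hbξ, hbn, hbl⟩ := D.exists_limit (fun n => avg 1 n (fun t => D.sg t x))
    (fun n => D.avg_sg_mem hx 1 n) ‖x‖
    (fun n => norm_avg_le 1 n (norm_nonneg _) fun t => D.norm_sg_le t x) (D.P0 (x ξ))
    (by simpa only [hxi] using D.tendsto_avg_P0 one_pos (x ξ))
  refine ⟨b, ⟨hb, fun t => ?_⟩, hbξ, hbn, fun ζ => ?_⟩
  · rw [hbξ]; exact D.P0_mem _ t
  · have := hbl ζ
    simpa only [avg_apply] using this

theorem exists_E {x : H →L[ℂ] H} (hx : x ∈ M) :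
    ∃ y : H →L[ℂ] H, D.InC y ∧ y ξ = D.P0 (x ξ) ∧ ‖y‖ ≤ ‖x‖ := by
  obtain ⟨y, h1, h2, h3, -⟩ := D.exists_E_lim hx
  exact ⟨y, h1, h2, h3⟩

theorem EE_spec {x : H →L[ℂ] H} (hx : x ∈ M) :
    D.InC (D.EE x) ∧ D.EE x ξ = D.P0 (x ξ) ∧ ‖D.EE x‖ ≤ ‖x‖ := by
  have h := D.exists_E hx
  rw [EE, dif_pos h]
  exact h.choose_spec

theorem inC_EE {x : H →L[ℂ] H} (hx : x ∈ M) : D.InC (D.EE x) := (D.EE_spec hx).1

theorem EE_mem {x : H →L[ℂ] H} (hx : x ∈ M) : D.EE x ∈ M := (D.EE_spec hx).1.1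

theorem EE_xi {x : H →L[ℂ] H} (hx : x ∈ M) : D.EE x ξ = D.P0 (x ξ) := (D.EE_spec hx).2.1

theorem EE_eq {x y : H →L[ℂ] H} (hx : x ∈ M) (hy : y ∈ M) (h : y ξ = D.P0 (x ξ)) :
    D.EE x = y := D.ext_xi (D.EE_mem hx) hy (by rw [D.EE_xi hx, h])

theorem tendsto_avg_EE {x : H →L[ℂ] H} (hx : x ∈ M) (ζ : H) :
    Tendsto (fun n : ℕ => avg 1 n (fun t => D.sg t x ζ)) atTop (𝓝 (D.EE x ζ)) := by
  obtain ⟨y, h1, h2, -, h4⟩ := D.exists_E_lim hx
  rw [D.EE_eq hx h1.1 h2]
  exact h4 ζ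

theorem nonneg_of_tendsto {a : ℕ → H →L[ℂ] H} {b : H →L[ℂ] H} (ha : ∀ n, 0 ≤ a n)
    (h : ∀ ζ, Tendsto (fun n => a n ζ) atTop (𝓝 (b ζ))) : 0 ≤ b := by
  rw [ContinuousLinearMap.nonneg_iff_isPositive, ContinuousLinearMap.isPositive_iff_complex]
  intro ζ
  have h1 : ∀ n, (((⟪a n ζ, ζ⟫_ℂ).re : ℝ) : ℂ) = ⟪a n ζ, ζ⟫_ℂ ∧ 0 ≤ (⟪a n ζ, ζ⟫_ℂ).re := by
    intro n
    have := (ContinuousLinearMap.isPositive_iff_complex _).1
      ((ContinuousLinearMap.nonneg_iff_isPositive _).1 (ha n)) ζ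
    exact this
  have h2 : Tendsto (fun n => ⟪a n ζ, ζ⟫_ℂ) atTop (𝓝 ⟪b ζ, ζ⟫_ℂ) :=
    (h ζ).inner tendsto_const_nhds
  have h3 : Tendsto (fun n => (⟪a n ζ, ζ⟫_ℂ).re) atTop (𝓝 (⟪b ζ, ζ⟫_ℂ).re) :=
    (Complex.continuous_re.tendsto _).comp h2
  constructor
  · have h4 : Tendsto (fun n => (((⟪a n ζ, ζ⟫_ℂ).re : ℝ) : ℂ)) atTop
        (𝓝 (((⟪b ζ, ζ⟫_ℂ).re : ℝ) : ℂ)) := (Complex.continuous_ofReal.tendsto _).comp h3
    exact tendsto_nhds_unique h4 (h2.congr fun n => (h1 n).1.symm)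
  · exact ge_of_tendsto' h3 fun n => (h1 n).2

theorem sg_nonneg {x : H →L[ℂ] H} (h : 0 ≤ x) (t : ℝ) : 0 ≤ D.sg t x := by
  have := star_left_conjugate_nonneg h (D.U (-t))
  rwa [D.star_U, neg_neg] at this

theorem EE_nonneg {x : H →L[ℂ] H} (hx : x ∈ M) (h : 0 ≤ x) : 0 ≤ D.EE x := by
  refine nonneg_of_tendsto (a := fun n => avg 1 n (fun t => D.sg t x)) (fun n => ?_) fun ζ => ?_
  · rw [avg]
    exact smul_nonneg (by (clear * -; positivity)) (Finset.sum_nonneg fun j _ => D.sg_nonneg h _)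
  · have := D.tendsto_avg_EE hx ζ
    simpa only [avg_apply] using this

/-- fixed vectors are limits of vectors `m ξ`, `m` in the centralizer -/
theorem dense_fix {v : H} (hv : v ∈ D.fixS) {κ : ℝ} (hκ : 0 < κ) :
    ∃ m, D.InC m ∧ ‖m ξ - v‖ ≤ κ := by
  obtain ⟨_, ⟨x, hx, rfl⟩, hxv⟩ := Metric.mem_closure_iff.1 (D.cyc v) κ hκ
  refine ⟨D.EE x, D.inC_EE hx, ?_⟩
  have e : D.EE x ξ - v = D.P0 (x ξ - v) := by
    rw [D.EE_xi hx, map_sub, D.P0_of_fix hv]
  rw [e]
  refine (D.norm_P0_le _).trans ?_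
  rw [← dist_eq_norm, dist_comm]
  exact hxv.le

/-- vectors `a ξ`, `a ∈ M_φ`, are dense in the fixed vectors -/
theorem P0_eq_of_inner {v w : H} (h : ∀ a, D.InC a → ⟪a ξ, v⟫_ℂ = ⟪a ξ, w⟫_ℂ) :
    D.P0 v = D.P0 w := by
  have h1 : ∀ a, D.InC a → ⟪a ξ, D.P0 v - D.P0 w⟫_ℂ = 0 := by
    intro a ha
    rw [inner_sub_right, ← D.inner_P0, ← D.inner_P0, D.P0_of_fix (show a ξ ∈ D.fixS from ha.2),
      h a ha, sub_self]
  have h2 : ‖D.P0 v - D.P0 w‖ = 0 := by
    by_contra hne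
    have hpos : 0 < ‖D.P0 v - D.P0 w‖ := lt_of_le_of_ne (norm_nonneg _) (Ne.symm hne)
    obtain ⟨m, hm, hmv⟩ := D.dense_fix (D.fixS.sub_mem (D.P0_mem v) (D.P0_mem w))
      (half_pos hpos)
    have h3 : ⟪D.P0 v - D.P0 w, D.P0 v - D.P0 w⟫_ℂ =
        -⟪m ξ - (D.P0 v - D.P0 w), D.P0 v - D.P0 w⟫_ℂ := by
      rw [inner_sub_left (m ξ), h1 m hm]; ring
    have h4 := norm_inner_le_norm (𝕜 := ℂ) (m ξ - (D.P0 v - D.P0 w)) (D.P0 v - D.P0 w)
    have h5 : ‖⟪D.P0 v - D.P0 w, D.P0 v - D.P0 w⟫_ℂ‖ = ‖D.P0 v - D.P0 w‖ ^ 2 := by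
      rw [inner_self_eq_norm_sq_to_K]; simp
    rw [h3, norm_neg] at h5
    rw [h5] at h4
    linarith only [mul_nonneg (le_of_lt (sub_pos.2 hpos)) (sub_nonneg.2 hmv), mul_pos (sub_pos.2 hpos) (sub_pos.2 hpos), h4]
  exact sub_eq_zero.1 (norm_eq_zero.1 h2)

/-- conditional expectation of a positive element -/
theorem exists_E_nonneg {a : H →L[ℂ] H} (ha : a ∈ M) (h0 : 0 ≤ a) :
    ∃ e, D.InC e ∧ 0 ≤ e ∧ e ξ = D.P0 (a ξ) :=
  ⟨D.EE a, D.inC_EE ha, D.EE_nonneg ha h0, D.EE_xi ha⟩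

/-- order intervals of `M_φ` are closed -/
theorem closed_interval {c : H →L[ℂ] H} (_hc : D.InC c) (a : ℕ → H →L[ℂ] H)
    (ha : ∀ n, D.InC (a n)) (h0 : ∀ n, 0 ≤ a n) (h1 : ∀ n, a n ≤ c) (ζ : H)
    (h : Tendsto (fun n => a n ξ) atTop (𝓝 ζ)) :
    ∃ b, D.InC b ∧ 0 ≤ b ∧ b ≤ c ∧ b ξ = ζ := by
  obtain ⟨b, hb, hbξ, -, hbl⟩ := D.exists_limit a (fun n => (ha n).1) ‖c‖
    (fun n => CStarAlgebra.norm_le_norm_of_nonneg_of_le (h0 n) (h1 n)) ζ h
  refine ⟨b, ⟨hb, fun t => ?_⟩, nonneg_of_tendsto h0 hbl, ?_, hbξ⟩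
  · rw [hbξ]
    have h2 : Tendsto (fun n => D.U t (a n ξ)) atTop (𝓝 (D.U t ζ)) :=
      ((D.U t).continuous.tendsto _).comp h
    exact tendsto_nhds_unique (h2.congr fun n => (ha n).2 t) h
  · rw [← sub_nonneg]
    refine nonneg_of_tendsto (a := fun n => c - a n) (fun n => sub_nonneg.2 (h1 n)) fun ζ => ?_
    simp only [_root_.sub_apply]
    exact tendsto_const_nhds.sub (hbl ζ)

end ModData

end Vale.Agent.P132
end

section

open Filter Topology
open scoped ComplexConjugate InnerProductSpace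

namespace Vale.Agent.P132

universe u

variable {E : Type u} [NormedAddCommGroup E] [InnerProductSpace ℂ E] [CompleteSpace E]

/-- nearest point in a closed convex set of a complex Hilbert space -/
theorem exists_nearest {K : Set E} (ne : K.Nonempty) (hcl : IsClosed K)
    (hconv : ∀ x ∈ K, ∀ y ∈ K, ∀ s t : ℝ, 0 ≤ s → 0 ≤ t → s + t = 1 →
      (s : ℂ) • x + (t : ℂ) • y ∈ K) (u : E) :
    ∃ v ∈ K, ∀ w ∈ K, (⟪u - v, w - v⟫_ℂ).re ≤ 0 := by
  letI : InnerProductSpace ℝ E := InnerProductSpace.complexToReal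
  have hK : Convex ℝ K := by
    intro x hx y hy s t hs ht hst
    have := hconv x hx y hy s t hs ht hst
    simpa using this
  obtain ⟨v, hv, h⟩ := exists_norm_eq_iInf_of_complete_convex ne hcl.isComplete hK u
  refine ⟨v, hv, fun w hw => ?_⟩
  exact (norm_eq_iInf_iff_real_inner_le_zero hK hv).1 h w hw

theorem nearest_unique {K : Set E} {u v v' : E} (hv : v ∈ K) (hv' : v' ∈ K)
    (h : ∀ w ∈ K, (⟪u - v, w - v⟫_ℂ).re ≤ 0) (h' : ∀ w ∈ K, (⟪u - v', w - v'⟫_ℂ).re ≤ 0) :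
    v' = v := by
  have h1 := h v' hv'
  have h2 := h' v hv
  have h3 : (⟪v' - v, v' - v⟫_ℂ).re ≤ 0 := by
    have e : ⟪v' - v, v' - v⟫_ℂ = ⟪u - v, v' - v⟫_ℂ + ⟪u - v', v - v'⟫_ℂ := by
      rw [← neg_sub v' v, inner_neg_right, ← sub_eq_add_neg, ← inner_sub_left]
      congr 1
      abel
    rw [e, Complex.add_re]
    linarith
  have h4 : ‖v' - v‖ ^ 2 ≤ 0 := by
    have := @inner_self_eq_norm_sq ℂ E _ _ _ (v' - v)
    rw [← this]
    exact h3
  have h5 : ‖v' - v‖ = 0 := by nlinarith [norm_nonneg (v' - v)]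
  exact sub_eq_zero.1 (norm_eq_zero.1 h5)

end Vale.Agent.P132
end

section

/-!
# P132 block F: ergodic averages on `N`, the maps `TT`, commutators of the test family
-/

open Filter Topology
open scoped ComplexConjugate InnerProductSpace BoundedContinuousFunction

set_option linter.unusedSectionVars false
set_option linter.deprecated false

namespace Vale.Agent.P132

universe u

variable {H : Type u} [NormedAddCommGroup H] [InnerProductSpace ℂ H] [CompleteSpace H]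

namespace ModData

variable {M : VonNeumannAlgebra H} {ξ : H} (D : ModData M ξ)

theorem avg_mem {F : ℝ → H →L[ℂ] H} (h : ∀ t, F t ∈ M) (τ : ℝ) (n : ℕ) : avg τ n F ∈ M := by
  have h1 : ∑ j ∈ Finset.range (n ^ 3), F (j * τ / n) ∈ M := sum_mem fun j _ => h _
  have h2 : avg τ n F = (((((n : ℝ) ^ 3)⁻¹ : ℝ)) : ℂ) • ∑ j ∈ Finset.range (n ^ 3), F (j * τ / n) := by
    rw [avg]; rfl
  rw [h2]
  exact M.toStarSubalgebra.toSubalgebra.smul_mem h1 _

theorem InN_avg {F : ℝ → H →L[ℂ] H} (h : ∀ t, D.InN (F t)) (τ : ℝ) (n : ℕ) :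
    D.InN (avg τ n F) := by
  have h1 : D.InN (∑ j ∈ Finset.range (n ^ 3), F (j * τ / n)) := InN.sum _ fun j _ => h _
  have h2 : avg τ n F = (((((n : ℝ) ^ 3)⁻¹ : ℝ)) : ℂ) • ∑ j ∈ Finset.range (n ^ 3), F (j * τ / n) := by
    rw [avg]; rfl
  rw [h2]
  exact InN.smul h1 _

include D in
/-- bounded sequences in `M` converging on `ξ` converge strongly to an element of `M` -/
theorem exists_strong_limit (a : ℕ → H →L[ℂ] H) (ha : ∀ n, a n ∈ M) (C : ℝ) (hC : ∀ n, ‖a n‖ ≤ C)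
    (ζ : H) (h : Tendsto (fun n => a n ξ) atTop (𝓝 ζ)) :
    ∃ b ∈ M, b ξ = ζ ∧ ‖b‖ ≤ C ∧ ∀ η, Tendsto (fun n => a n η) atTop (𝓝 (b η)) := by
  have hC0 : 0 ≤ C := (norm_nonneg _).trans (hC 0)
  have hcauchy : ∀ η, CauchySeq fun n => a n η := by
    intro η
    rw [Metric.cauchySeq_iff']
    intro ε hε
    obtain ⟨_, ⟨y, hy, rfl⟩, hyη⟩ := Metric.mem_closure_iff.1 (D.cyc'.closure_eq ▸ Set.mem_univ η)
      (ε / (4 * (C + 1))) (by positivity)
    have h1 : CauchySeq fun n => a n (y ξ) := by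
      have : (fun n => a n (y ξ)) = fun n => y (a n ξ) := by
        ext n; exact comm_apply (ha n) hy ξ
      rw [this]
      exact ((y.continuous.tendsto _).comp h).cauchySeq
    obtain ⟨N, hN⟩ := Metric.cauchySeq_iff'.1 h1 (ε / 2) (by positivity)
    refine ⟨N, fun n hn => ?_⟩
    have e1 : ∀ k, dist (a k η) (a k (y ξ)) ≤ ε / 4 := by
      intro k
      rw [dist_eq_norm, ← map_sub]
      refine ((a k).le_opNorm _).trans ?_
      rw [dist_eq_norm] at hyη
      calc ‖a k‖ * ‖η - y ξ‖ ≤ C * (ε / (4 * (C + 1))) := mul_le_mul (hC k) hyη.le (norm_nonneg _) hC0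
        _ ≤ ε / 4 := by
          rw [mul_div_assoc', div_le_div_iff₀ (by positivity) (by positivity)]
          linarith only [hε]
    calc dist (a n η) (a N η) ≤ dist (a n η) (a n (y ξ)) + dist (a n (y ξ)) (a N (y ξ)) +
          dist (a N (y ξ)) (a N η) := dist_triangle4 _ _ _ _
      _ < ε / 4 + ε / 2 + ε / 4 := by
          have := e1 n
          have := e1 N
          have := hN n hn
          rw [dist_comm (a N (y ξ))]
          linarith
      _ = ε := by ring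
  choose f hf using fun η => cauchySeq_tendsto_of_complete (hcauchy η)
  have hf' : Tendsto (fun n x => a n x) atTop (𝓝 f) := tendsto_pi_nhds.2 hf
  set b : H →L[ℂ] H := continuousLinearMapOfTendsto a hf' with hb
  have hbf : ∀ η, b η = f η := fun η => rfl
  refine ⟨b, ?_, ?_, ?_, fun η => hf η⟩
  · rw [← M.commutant_commutant, VonNeumannAlgebra.mem_commutant_iff]
    intro y hy
    refine ContinuousLinearMap.ext fun η => ?_
    have h1 : Tendsto (fun n => a n (y η)) atTop (𝓝 (b (y η))) := hf _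
    have h2 : Tendsto (fun n => y (a n η)) atTop (𝓝 (y (b η))) := (y.continuous.tendsto _).comp (hf η)
    have h3 : (fun n => a n (y η)) = fun n => y (a n η) := by
      ext n; exact comm_apply (ha n) hy η
    rw [h3] at h1
    exact tendsto_nhds_unique h2 h1
  · exact tendsto_nhds_unique (hf ξ) h
  · refine ContinuousLinearMap.opNorm_le_bound _ hC0 fun η => ?_
    refine le_of_tendsto (hf η).norm (Eventually.of_forall fun n => ?_)
    exact ((a n).le_opNorm η).trans (mul_le_mul_of_nonneg_right (hC n) (norm_nonneg _))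

/-! ## F1 : ergodic averages -/

theorem avg_neg_tau {E : Type*} [NormedAddCommGroup E] [NormedSpace ℝ E] (τ : ℝ) (n : ℕ)
    (f : ℝ → E) : avg τ n (fun t => f (-t)) = avg (-τ) n f := by
  simp only [avg]
  congr 1
  refine Finset.sum_congr rfl fun j _ => ?_
  congr 1; ring

theorem tendsto_avg_U {τ : ℝ} (hτ : τ ≠ 0) (ζ : H) :
    ∃ ζ₀ : H, (∀ t, D.U t ζ₀ = ζ₀) ∧
      Tendsto (fun n : ℕ => avg τ n (fun t => D.U t ζ)) atTop (𝓝 ζ₀) := by
  rcases lt_or_gt_of_ne hτ with h | h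
  · obtain ⟨ζ₀, h1, h2⟩ := tendsto_avg_group (τ := -τ) (by linarith) (fun t => D.U (-t))
      (fun s t => by rw [neg_add, U_add]) (fun t ζ => D.norm_U _ ζ) (fun t => D.star_U _)
      (by simp) (fun ζ => (D.continuous_U_apply ζ).comp continuous_neg) ζ
    refine ⟨ζ₀, fun t => by simpa using h1 (-t), ?_⟩
    refine h2.congr fun n => ?_
    rw [avg_neg_tau (-τ) n (fun t => D.U t ζ), neg_neg]
  · exact tendsto_avg_group h D.U D.U_add (fun t ζ => D.norm_U t ζ) D.star_U D.U_zero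
      D.continuous_U_apply ζ

theorem inner_xi_U (t : ℝ) (ζ : H) : ⟪ξ, D.U t ζ⟫_ℂ = ⟪ξ, ζ⟫_ℂ := by
  have := D.inner_U_U t ξ ζ
  rwa [D.U_xi] at this

theorem tendsto_avg_sg (hE : D.Erg) {τ : ℝ} (hτ : τ ≠ 0) {x : H →L[ℂ] H} (hx : D.InN x) (ζ : H) :
    Tendsto (fun n : ℕ => avg τ n (fun t => D.sg t x ζ)) atTop (𝓝 (⟪ξ, x ξ⟫_ℂ • ζ)) := by
  set a : ℕ → H →L[ℂ] H := fun n => avg τ n (fun t => D.sg t x) with ha
  have haN : ∀ n, D.InN (a n) := fun n => D.InN_avg (fun t => InN.sg hx t) τ n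
  have haC : ∀ n, ‖a n‖ ≤ ‖x‖ := fun n =>
    norm_avg_le τ n (norm_nonneg _) fun t => D.norm_sg_le t x
  have haξ : ∀ n, a n ξ = avg τ n (fun t => D.U t (x ξ)) := fun n => by
    rw [ha]; simp only; rw [avg_apply]; exact avg_congr τ n fun t => D.sg_xi t x
  obtain ⟨ζ₀, hζ₀, hlim⟩ := D.tendsto_avg_U hτ (x ξ)
  have hlim' : Tendsto (fun n => a n ξ) atTop (𝓝 ζ₀) := by simpa only [haξ] using hlim
  obtain ⟨b, hbM, hbξ, -, hb⟩ := D.exists_strong_limit a (fun n => (haN n).1) ‖x‖ haC ζ₀ hlim'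
  have hbN : D.InN b := by
    refine InN.of_closure hbM fun ε hε => ?_
    obtain ⟨N, hN⟩ := (Metric.tendsto_atTop.1 hlim') ε hε
    refine ⟨a N, haN N, ?_⟩
    have := hN N le_rfl
    rw [dist_comm, dist_eq_norm, ← hbξ] at this
    exact this.le
  obtain ⟨c, hc⟩ := hE b hbN fun t => by rw [hbξ]; exact hζ₀ t
  have hc' : c = ⟪ξ, x ξ⟫_ℂ := by
    have h1 : Tendsto (fun n => ⟪ξ, a n ξ⟫_ℂ) atTop (𝓝 ⟪ξ, b ξ⟫_ℂ) :=
      (tendsto_const_nhds).inner (hb ξ)
    have h2 : Tendsto (fun n => ⟪ξ, a n ξ⟫_ℂ) atTop (𝓝 ⟪ξ, x ξ⟫_ℂ) := by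
      refine tendsto_const_nhds.congr' ?_
      filter_upwards [eventually_ne_atTop 0] with n hn
      rw [haξ, inner_avg_right, avg_congr τ n (fun t => D.inner_xi_U t (x ξ)), avg_const τ n hn]
    have h3 := tendsto_nhds_unique h1 h2
    rw [hc] at h3
    simpa [inner_smul_right, D.norm_xi] using h3
  have := hb ζ
  rw [hc, hc'] at this
  simp only [ContinuousLinearMap.smul_apply, ContinuousLinearMap.one_apply] at this
  refine this.congr fun n => ?_
  rw [ha]; simp only; rw [avg_apply]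

theorem tendsto_avg_sg_neg (hE : D.Erg) {τ : ℝ} (hτ : τ ≠ 0) {x : H →L[ℂ] H} (hx : D.InN x)
    (ζ : H) :
    Tendsto (fun n : ℕ => avg τ n (fun t => D.sg (-t) x ζ)) atTop (𝓝 (⟪ξ, x ξ⟫_ℂ • ζ)) := by
  have := D.tendsto_avg_sg hE (neg_ne_zero.2 hτ) hx ζ
  refine this.congr fun n => ?_
  exact (avg_neg_tau τ n (fun t => D.sg t x ζ)).symm

theorem J_avg (τ : ℝ) (n : ℕ) (F : ℝ → H) : D.J (avg τ n F) = avg τ n (fun t => D.J (F t)) := by
  simp only [avg]
  rw [show ((n : ℝ) ^ 3)⁻¹ • ∑ j ∈ Finset.range (n ^ 3), F (j * τ / n) =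
    ((((n : ℝ) ^ 3)⁻¹ : ℝ) : ℂ) • ∑ j ∈ Finset.range (n ^ 3), F (j * τ / n) from rfl]
  rw [map_smulₛₗ, map_sum, starRingEnd_apply, ← starRingEnd_apply, Complex.conj_ofReal]
  rfl

theorem tendsto_avg_Rm_sg (hE : D.Erg) {τ : ℝ} (hτ : τ ≠ 0) {x : H →L[ℂ] H} (hx : D.InN x)
    (ζ : H) :
    Tendsto (fun n : ℕ => avg τ n (fun t => D.Rm (D.sg t x) ζ)) atTop (𝓝 (⟪ξ, x ξ⟫_ℂ • ζ)) := by
  have h1 := D.tendsto_avg_sg hE hτ (InN.star hx) (D.J ζ)
  have h2 := (D.J.continuous.tendsto _).comp h1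
  have e1 : D.J (⟪ξ, star x ξ⟫_ℂ • D.J ζ) = ⟪ξ, x ξ⟫_ℂ • ζ := by
    rw [map_smulₛₗ, D.J_J]
    congr 1
    rw [inner_conj_symm, ContinuousLinearMap.star_eq_adjoint, ContinuousLinearMap.adjoint_inner_left]
  rw [e1] at h2
  refine h2.congr fun n => ?_
  rw [Function.comp_apply, J_avg]
  refine avg_congr τ n fun t => ?_
  rw [Rm_apply, star_sg]

/-! ## F2 : the bound for `TT` -/

theorem norm_sq_eq_re_inner (v : H) : ‖v‖ ^ 2 = (⟪v, v⟫_ℂ).re :=
  (inner_self_eq_norm_sq (𝕜 := ℂ) v).symm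

theorem inner_star_right (a : H →L[ℂ] H) (v w : H) : ⟪v, star a w⟫_ℂ = ⟪a v, w⟫_ℂ := by
  rw [ContinuousLinearMap.star_eq_adjoint, ContinuousLinearMap.adjoint_inner_right]

theorem inner_star_left (a : H →L[ℂ] H) (v w : H) : ⟪star a v, w⟫_ℂ = ⟪v, a w⟫_ℂ := by
  rw [ContinuousLinearMap.star_eq_adjoint, ContinuousLinearMap.adjoint_inner_left]

/-- uniform strong convergence on `{b_t η}` -/
theorem eventually_uniform {b : H →L[ℂ] H} (hb : b ∈ M) (B : ℕ → H →L[ℂ] H) (hB : ∀ n, B n ∈ M)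
    (C : ℝ) (hC : ∀ n, ‖B n‖ ≤ C) (hlim : Tendsto (fun n => B n ξ) atTop (𝓝 0)) (η : H)
    {ε : ℝ} (hε : 0 < ε) : ∀ᶠ n : ℕ in atTop, ∀ t : ℝ, ‖B n (D.sg t b η)‖ ≤ ε := by
  have hC0 : 0 ≤ C := (norm_nonneg _).trans (hC 0)
  obtain ⟨_, ⟨y, hy, rfl⟩, hyη⟩ := Metric.mem_closure_iff.1 (D.cyc'.closure_eq ▸ Set.mem_univ η)
    (ε / (3 * (C * ‖b‖ + 1))) (by (clear * - hε hC0; positivity))
  obtain ⟨_, ⟨w, hw, rfl⟩, hwb⟩ := Metric.mem_closure_iff.1
    (D.cyc'.closure_eq ▸ Set.mem_univ (b ξ)) (ε / (3 * (‖y‖ * C + 1))) (by positivity)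
  have h1 : ∀ᶠ n : ℕ in atTop, ‖B n ξ‖ < ε / (3 * (‖y‖ * ‖w‖ + 1)) := by
    have := (Metric.tendsto_nhds.1 hlim) (ε / (3 * (‖y‖ * ‖w‖ + 1))) (by positivity)
    simpa [dist_zero_right] using this
  filter_upwards [h1] with n hn t
  rw [dist_eq_norm] at hyη hwb
  have e1 : B n (D.sg t b η) = B n (D.sg t b (η - y ξ)) + y (B n (D.U t (b ξ - w ξ))) +
      y (D.sg t w (B n ξ)) := by
    have h2 : D.sg t b (y ξ) = y (D.U t (b ξ)) := by
      rw [comm_apply (D.sg_mem hb t) hy, D.sg_xi]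
    have h3 : D.sg t w (B n ξ) = B n (D.U t (w ξ)) := by
      rw [← comm_apply (hB n) (D.sg_mem_commutant hw t), D.sg_xi]
    rw [h3, map_sub, map_sub, h2, map_sub, map_sub, map_sub, comm_apply (hB n) hy]
    abel
  have b1 : ‖B n (D.sg t b (η - y ξ))‖ ≤ ε / 3 := by
    have h2 : ‖D.sg t b (η - y ξ)‖ ≤ ‖b‖ * ‖η - y ξ‖ :=
      ((D.sg t b).le_opNorm _).trans (mul_le_mul_of_nonneg_right (D.norm_sg_le t b) (norm_nonneg _))
    calc ‖B n (D.sg t b (η - y ξ))‖ ≤ ‖B n‖ * ‖D.sg t b (η - y ξ)‖ := (B n).le_opNorm _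
      _ ≤ C * (‖b‖ * (ε / (3 * (C * ‖b‖ + 1)))) := by
          refine mul_le_mul (hC n) (h2.trans ?_) (norm_nonneg _) hC0
          exact mul_le_mul_of_nonneg_left hyη.le (norm_nonneg _)
      _ ≤ ε / 3 := by
          rw [← mul_assoc, mul_div_assoc', div_le_div_iff₀ (by (clear * - hC0; positivity)) (by positivity)]
          linarith only [hε]
  have b2 : ‖y (B n (D.U t (b ξ - w ξ)))‖ ≤ ε / 3 := by
    calc ‖y (B n (D.U t (b ξ - w ξ)))‖ ≤ ‖y‖ * (‖B n‖ * ‖D.U t (b ξ - w ξ)‖) :=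
          (y.le_opNorm _).trans (mul_le_mul_of_nonneg_left ((B n).le_opNorm _) (norm_nonneg _))
      _ ≤ ‖y‖ * (C * (ε / (3 * (‖y‖ * C + 1)))) := by
          rw [D.norm_U]
          refine mul_le_mul_of_nonneg_left ?_ (norm_nonneg _)
          exact mul_le_mul (hC n) hwb.le (norm_nonneg _) hC0
      _ ≤ ε / 3 := by
          rw [← mul_assoc, mul_div_assoc', div_le_div_iff₀ (by (clear * - hC0; positivity)) (by positivity)]
          linarith only [hε]
  have b3 : ‖y (D.sg t w (B n ξ))‖ ≤ ε / 3 := by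
    have h2 : ‖D.sg t w (B n ξ)‖ ≤ ‖w‖ * ‖B n ξ‖ :=
      ((D.sg t w).le_opNorm _).trans (mul_le_mul_of_nonneg_right (D.norm_sg_le t w) (norm_nonneg _))
    calc ‖y (D.sg t w (B n ξ))‖ ≤ ‖y‖ * (‖w‖ * ‖B n ξ‖) :=
          (y.le_opNorm _).trans (mul_le_mul_of_nonneg_left h2 (norm_nonneg _))
      _ ≤ ‖y‖ * (‖w‖ * (ε / (3 * (‖y‖ * ‖w‖ + 1)))) := by gcongr
      _ ≤ ε / 3 := by
          rw [← mul_assoc, mul_div_assoc', div_le_div_iff₀ (by (clear * -; positivity)) (by positivity)]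
          linarith only [hε]
  rw [e1]
  calc _ ≤ _ := norm_add₃_le
    _ ≤ ε / 3 + ε / 3 + ε / 3 := add_le_add (add_le_add b1 b2) b3
    _ = ε := by ring

/-- `Q_n η = E_t E_{t'} ‖b_{t'}* b_t η‖²` -/
noncomputable def QQ (τ : ℝ) (n : ℕ) (b : H →L[ℂ] H) (η : H) : ℝ :=
  avg τ n (fun t => avg τ n (fun t' => ‖star (D.sg t' b) (D.sg t b η)‖ ^ 2))

theorem avg_norm_sq_sg (τ : ℝ) (n : ℕ) (b : H →L[ℂ] H) (v : H) :
    avg τ n (fun t => ‖D.sg t b v‖ ^ 2) = (⟪v, avg τ n (fun t => D.sg t (star b * b) v)⟫_ℂ).re := by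
  rw [inner_avg_right, re_avg]
  refine avg_congr τ n fun t => ?_
  rw [norm_sq_eq_re_inner, sg_mul, ← star_sg]
  rw [show (star (D.sg t b) * D.sg t b) v = star (D.sg t b) (D.sg t b v) from rfl, inner_star_right]

theorem tendsto_avg_norm_sq_sg (hE : D.Erg) {τ : ℝ} (hτ : τ ≠ 0) {b : H →L[ℂ] H} (hb : D.InN b)
    (v : H) : Tendsto (fun n : ℕ => avg τ n (fun t => ‖D.sg t b v‖ ^ 2)) atTop
      (𝓝 (‖b ξ‖ ^ 2 * ‖v‖ ^ 2)) := by
  have h1 := D.tendsto_avg_sg hE hτ (InN.mul (InN.star hb) hb) v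
  have h2 : Tendsto (fun n : ℕ => (⟪v, avg τ n (fun t => D.sg t (star b * b) v)⟫_ℂ).re) atTop
      (𝓝 (⟪v, ⟪ξ, (star b * b) ξ⟫_ℂ • v⟫_ℂ).re) :=
    (Complex.continuous_re.tendsto _).comp ((tendsto_const_nhds).inner h1)
  have e : (⟪v, ⟪ξ, (star b * b) ξ⟫_ℂ • v⟫_ℂ).re = ‖b ξ‖ ^ 2 * ‖v‖ ^ 2 := by
    rw [inner_smul_right, show (star b * b) ξ = star b (b ξ) from rfl, inner_star_right,
      inner_self_eq_norm_sq_to_K, inner_self_eq_norm_sq_to_K]
    norm_cast
  rw [e] at h2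
  refine h2.congr fun n => ?_
  rw [avg_norm_sq_sg]

theorem tendsto_QQ (hE : D.Erg) {τ : ℝ} (hτ : τ ≠ 0) {b : H →L[ℂ] H} (hb : D.InN b) (η : H) :
    Tendsto (fun n : ℕ => D.QQ τ n b η) atTop (𝓝 (‖b ξ‖ ^ 2 * ‖star b ξ‖ ^ 2 * ‖η‖ ^ 2)) := by
  set c : ℝ := ‖star b ξ‖ ^ 2 with hc
  have hbs : D.InN (b * star b) := InN.mul hb (InN.star hb)
  have hcc : ⟪ξ, (b * star b) ξ⟫_ℂ = (c : ℂ) := by
    rw [show (b * star b) ξ = b (star b ξ) from rfl, ← inner_star_left, inner_self_eq_norm_sq_to_K]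
    norm_cast
  set B : ℕ → H →L[ℂ] H := fun n => avg τ n (fun t => D.sg t (b * star b)) - (c : ℂ) • 1 with hBdef
  have hBM : ∀ n, B n ∈ M := by
    intro n
    refine sub_mem (avg_mem (fun t => D.sg_mem hbs.1 t) τ n) ?_
    exact M.toStarSubalgebra.toSubalgebra.smul_mem (one_mem M) _
  have hBC : ∀ n, ‖B n‖ ≤ ‖b * star b‖ + ‖(c : ℂ) • (1 : H →L[ℂ] H)‖ := by
    intro n
    refine (norm_sub_le _ _).trans (add_le_add_left ?_ _)
    exact norm_avg_le τ n (norm_nonneg _) fun t => D.norm_sg_le t _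
  have hBapply : ∀ n v, B n v = avg τ n (fun t => D.sg t (b * star b) v) - (c : ℂ) • v := by
    intro n v
    rw [hBdef]
    simp only [ContinuousLinearMap.sub_apply, ContinuousLinearMap.smul_apply,
      ContinuousLinearMap.one_apply, avg_apply]
  have hBξ : Tendsto (fun n => B n ξ) atTop (𝓝 0) := by
    have h1 := (D.tendsto_avg_sg hE hτ hbs ξ).sub_const ((c : ℂ) • ξ)
    rw [hcc, sub_self] at h1
    exact h1.congr fun n => (hBapply n ξ).symm
  -- the inner average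
  have hinner : ∀ (n : ℕ) (t : ℝ), avg τ n (fun t' => ‖star (D.sg t' b) (D.sg t b η)‖ ^ 2) =
      c * ‖D.sg t b η‖ ^ 2 * (if n = 0 then 0 else 1) +
        (if n = 0 then 0 else (⟪D.sg t b η, B n (D.sg t b η)⟫_ℂ).re) := by
    intro n t
    rcases Nat.eq_zero_or_pos n with rfl | hn
    · simp [avg]
    have h1 : avg τ n (fun t' => ‖star (D.sg t' b) (D.sg t b η)‖ ^ 2) =
        avg τ n (fun t' => ‖D.sg t' (star b) (D.sg t b η)‖ ^ 2) :=
      avg_congr τ n fun t' => by rw [star_sg]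
    rw [h1, avg_norm_sq_sg, star_star, hBapply, inner_sub_right, inner_smul_right,
      if_neg hn.ne', if_neg hn.ne', inner_self_eq_norm_sq_to_K, Complex.sub_re]
    have h2 : ((c : ℂ) * ((‖D.sg t b η‖ : ℝ) : ℂ) ^ 2).re = c * ‖D.sg t b η‖ ^ 2 := by
      norm_cast
    have h3 : ((c : ℂ) * ((RCLike.ofReal ‖D.sg t b η‖ : ℂ)) ^ 2).re = c * ‖D.sg t b η‖ ^ 2 := h2
    rw [h3]; ring
  have hmain := (D.tendsto_avg_norm_sq_sg hE hτ hb η).const_mul c
  rw [Metric.tendsto_nhds] at hmain ⊢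
  intro ε hε
  have hu := D.eventually_uniform hb.1 B hBM _ hBC hBξ η
    (ε := ε / (4 * (‖b‖ * ‖η‖ + 1))) (by (clear * - hε; positivity))
  filter_upwards [hmain (ε / 2) (by positivity), hu, eventually_ne_atTop 0] with n h1 h2 hn
  have e1 : D.QQ τ n b η = c * avg τ n (fun t => ‖D.sg t b η‖ ^ 2) +
      avg τ n (fun t => (⟪D.sg t b η, B n (D.sg t b η)⟫_ℂ).re) := by
    rw [QQ, ← avg_const_mul, ← avg_add]
    refine avg_congr τ n fun t => ?_
    rw [hinner]; simp [hn]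
  have e2 : |avg τ n (fun t => (⟪D.sg t b η, B n (D.sg t b η)⟫_ℂ).re)| ≤ ε / 4 := by
    rw [← Real.norm_eq_abs]
    refine norm_avg_le τ n (by positivity) fun t => ?_
    rw [Real.norm_eq_abs]
    calc |(⟪D.sg t b η, B n (D.sg t b η)⟫_ℂ).re| ≤ ‖⟪D.sg t b η, B n (D.sg t b η)⟫_ℂ‖ :=
          Complex.abs_re_le_norm _
      _ ≤ ‖D.sg t b η‖ * ‖B n (D.sg t b η)‖ := norm_inner_le_norm _ _
      _ ≤ (‖b‖ * ‖η‖) * (ε / (4 * (‖b‖ * ‖η‖ + 1))) := by
          refine mul_le_mul ?_ (h2 t) (norm_nonneg _) (by (clear * -; positivity))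
          exact ((D.sg t b).le_opNorm _).trans
            (mul_le_mul_of_nonneg_right (D.norm_sg_le t b) (norm_nonneg _))
      _ ≤ ε / 4 := by
          rw [mul_div_assoc', div_le_div_iff₀ (by (clear * -; positivity)) (by positivity)]
          linarith only [hε]
  rw [e1, Real.dist_eq]
  rw [Real.dist_eq] at h1
  calc _ = |(c * avg τ n (fun t => ‖D.sg t b η‖ ^ 2) - c * (‖b ξ‖ ^ 2 * ‖η‖ ^ 2)) +
        avg τ n (fun t => (⟪D.sg t b η, B n (D.sg t b η)⟫_ℂ).re)| := by congr 1; ring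
    _ ≤ |c * avg τ n (fun t => ‖D.sg t b η‖ ^ 2) - c * (‖b ξ‖ ^ 2 * ‖η‖ ^ 2)| +
        |avg τ n (fun t => (⟪D.sg t b η, B n (D.sg t b η)⟫_ℂ).re)| := abs_add_le _ _
    _ < ε / 2 + ε / 4 + ε / 4 := by linarith only [e2, h1, hε]
    _ = ε := by ring

end ModData

end Vale.Agent.P132
end

section

/-!
# P132 block F2, F3: the maps `TT`, commutators of the test family
-/

open Filter Topology
open scoped ComplexConjugate InnerProductSpace BoundedContinuousFunction

set_option linter.unusedSectionVars false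
set_option linter.deprecated false

namespace Vale.Agent.P132

universe u

variable {H : Type u} [NormedAddCommGroup H] [InnerProductSpace ℂ H] [CompleteSpace H]

namespace ModData

variable {M : VonNeumannAlgebra H} {ξ : H} (D : ModData M ξ)

theorem inner_Rm_left (a : H →L[ℂ] H) (v w : H) : ⟪D.Rm a v, w⟫_ℂ = ⟪v, D.Rm (star a) w⟫_ℂ := by
  rw [← star_Rm, inner_star_right]

theorem norm_Rm_apply (a : H →L[ℂ] H) (v : H) : ‖D.Rm a v‖ = ‖star a (D.J v)‖ := by
  rw [Rm_apply, D.norm_J]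

theorem TT_apply (τ : ℝ) (n : ℕ) (b : H →L[ℂ] H) (η : H) :
    D.TT τ n b η = avg τ n (fun t => D.sg t b (D.Rm (star (D.sg t b)) η)) := by
  rw [TT, avg_apply]; rfl

theorem avg_comm {E : Type*} [NormedAddCommGroup E] [NormedSpace ℝ E] (τ : ℝ) (n : ℕ)
    (f : ℝ → ℝ → E) : avg τ n (fun t => avg τ n (fun t' => f t t')) =
      avg τ n (fun t' => avg τ n (fun t => f t t')) := by
  simp only [avg, ← Finset.smul_sum]
  rw [Finset.sum_comm]

/-- Cauchy-Schwarz for double averages -/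
theorem avg_avg_mul_sq_le (τ : ℝ) (n : ℕ) (f g : ℝ → ℝ → ℝ) :
    (avg τ n (fun t => avg τ n (fun t' => f t t' * g t t'))) ^ 2 ≤
      avg τ n (fun t => avg τ n (fun t' => f t t' ^ 2)) *
        avg τ n (fun t => avg τ n (fun t' => g t t' ^ 2)) := by
  set F : ℝ → ℝ := fun t => avg τ n (fun t' => f t t' ^ 2) with hF
  set G : ℝ → ℝ := fun t => avg τ n (fun t' => g t t' ^ 2) with hG
  have hF0 : ∀ t, 0 ≤ F t := fun t => avg_nonneg τ n fun t' => sq_nonneg _
  have hG0 : ∀ t, 0 ≤ G t := fun t => avg_nonneg τ n fun t' => sq_nonneg _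
  have h1 : ∀ t, |avg τ n (fun t' => f t t' * g t t')| ≤ Real.sqrt (F t) * Real.sqrt (G t) := by
    intro t
    rw [← Real.sqrt_mul (hF0 t), ← Real.sqrt_sq_eq_abs]
    exact Real.sqrt_le_sqrt (avg_mul_sq_le τ n _ _)
  have h2 : |avg τ n (fun t => avg τ n (fun t' => f t t' * g t t'))| ≤
      avg τ n (fun t => Real.sqrt (F t) * Real.sqrt (G t)) := by
    have h20 := norm_avg_le_avg τ n (fun t => avg τ n (fun t' => f t t' * g t t'))
    rw [Real.norm_eq_abs] at h20
    exact h20.trans (avg_mono τ n fun t => by rw [Real.norm_eq_abs]; exact h1 t)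
  have h3 := avg_mul_sq_le τ n (fun t => Real.sqrt (F t)) (fun t => Real.sqrt (G t))
  simp only [Real.sq_sqrt (hF0 _), Real.sq_sqrt (hG0 _)] at h3
  rw [← sq_abs]
  exact (pow_le_pow_left₀ (abs_nonneg _) h2 2).trans h3

theorem norm_TT_sq_le {b : H →L[ℂ] H} (hb : b ∈ M) (τ : ℝ) (n : ℕ) (η : H) :
    (‖D.TT τ n b η‖ ^ 2) ^ 2 ≤ D.QQ τ n b η * D.QQ τ n b (D.J η) := by
  have e1 : ⟪D.TT τ n b η, D.TT τ n b η⟫_ℂ = avg τ n (fun t => avg τ n (fun t' =>
      ⟪star (D.sg t' b) (D.sg t b η), D.Rm (star (D.sg t' b) * D.sg t b) η⟫_ℂ)) := by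
    rw [TT_apply, inner_avg_left]
    refine avg_congr τ n fun t => ?_
    rw [inner_avg_right]
    refine avg_congr τ n fun t' => ?_
    have hbt := D.sg_mem hb t
    have hbt' := D.sg_mem hb t'
    rw [Rm_mul, show (D.Rm (D.sg t b) * D.Rm (star (D.sg t' b))) η =
      D.Rm (D.sg t b) (D.Rm (star (D.sg t' b)) η) from rfl, ← inner_star_left,
      D.comm_Rm hbt (star_mem hbt), D.comm_Rm (star_mem hbt') (star_mem hbt),
      inner_Rm_left, star_star]
  have e2 : ‖D.TT τ n b η‖ ^ 2 = avg τ n (fun t => avg τ n (fun t' =>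
      (⟪star (D.sg t' b) (D.sg t b η), D.Rm (star (D.sg t' b) * D.sg t b) η⟫_ℂ).re)) := by
    rw [norm_sq_eq_re_inner, e1, re_avg]
    exact avg_congr τ n fun t => re_avg τ n _
  have e3 : ‖D.TT τ n b η‖ ^ 2 ≤ avg τ n (fun t => avg τ n (fun t' =>
      ‖star (D.sg t' b) (D.sg t b η)‖ * ‖star (D.sg t b) (D.sg t' b (D.J η))‖)) := by
    rw [e2]
    refine avg_mono τ n fun t => avg_mono τ n fun t' => ?_
    refine (Complex.re_le_norm _).trans ((norm_inner_le_norm _ _).trans_eq ?_)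
    rw [norm_Rm_apply, star_mul, star_star]; rfl
  have e4 := avg_avg_mul_sq_le τ n (fun t t' => ‖star (D.sg t' b) (D.sg t b η)‖)
    (fun t t' => ‖star (D.sg t b) (D.sg t' b (D.J η))‖)
  have e5 : avg τ n (fun t => avg τ n (fun t' => ‖star (D.sg t b) (D.sg t' b (D.J η))‖ ^ 2)) =
      D.QQ τ n b (D.J η) := by
    rw [avg_comm]; rfl
  rw [e5] at e4
  exact (pow_le_pow_left₀ (by positivity) e3 2).trans e4

theorem TT_bound (hE : D.Erg) {τ : ℝ} (hτ : τ ≠ 0) {b : H →L[ℂ] H} (hb : D.InN b) (η : H)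
    {κ : ℝ} (hκ : 0 < κ) :
    ∀ᶠ n : ℕ in atTop, ‖D.TT τ n b η‖ ^ 2 ≤ ‖b ξ‖ ^ 2 * ‖star b ξ‖ ^ 2 * ‖η‖ ^ 2 + κ := by
  set L : ℝ := ‖b ξ‖ ^ 2 * ‖star b ξ‖ ^ 2 * ‖η‖ ^ 2 with hL
  have hL0 : 0 ≤ L := by (clear * -; positivity)
  have h1 := (D.tendsto_QQ hE hτ hb η).mul (D.tendsto_QQ hE hτ hb (D.J η))
  rw [D.norm_J, ← hL] at h1
  have h2 : L * L < (L + κ) ^ 2 := by linarith only [mul_nonneg (le_of_lt (sub_pos.2 hκ)) (sub_nonneg.2 hL0), mul_pos (sub_pos.2 hκ) (sub_pos.2 hκ)]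
  filter_upwards [h1.eventually_lt_const h2] with n hn
  have h3 := D.norm_TT_sq_le hb.1 τ n η
  exact (pow_le_pow_iff_left₀ (by (clear * -; positivity)) (by (clear * - hκ; positivity)) two_ne_zero).1 (h3.trans hn.le)

theorem TT_comm (τ : ℝ) (b : H →L[ℂ] H) (m : ℕ) :
    Tendsto (fun n : ℕ => ‖D.TT τ n b * D.U (m * τ) - D.U (m * τ) * D.TT τ n b‖) atTop (𝓝 0) := by
  set F : ℝ → H →L[ℂ] H := fun t => D.sg t b * D.Rm (star (D.sg t b)) with hF
  have hFC : ∀ t, ‖F t‖ ≤ ‖b‖ * ‖b‖ := fun t => by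
    refine (norm_mul_le _ _).trans (mul_le_mul (D.norm_sg_le t b) ?_ (norm_nonneg _) (norm_nonneg _))
    exact (D.norm_Rm_le _).trans (by rw [norm_star]; exact D.norm_sg_le t b)
  have hshift : ∀ t s, D.U s * F t = F (t + s) * D.U s := by
    intro t s
    refine ContinuousLinearMap.ext fun ζ => ?_
    simp only [hF, ContinuousLinearMap.mul_apply, star_sg]
    rw [add_comm t s, sg_add_left, sg_add_left, Rm_sg_U, sg_U_apply]
  have hb : ∀ n : ℕ, n ≠ 0 → ‖D.TT τ n b * D.U (m * τ) - D.U (m * τ) * D.TT τ n b‖ ≤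
      2 * m * (‖b‖ * ‖b‖) * (1 / (n : ℝ) ^ 2) := by
    intro n hn
    have hn0 : (n : ℝ) ≠ 0 := by exact_mod_cast hn
    have e1 : D.U (m * τ) * D.TT τ n b = avg τ n (fun t => F (t + (m * n : ℕ) * τ / n)) * D.U (m * τ) := by
      refine ContinuousLinearMap.ext fun ζ => ?_
      simp only [ContinuousLinearMap.mul_apply]
      rw [TT, avg_apply, avg_apply, map_avg_clm]
      refine avg_congr τ n fun t => ?_
      have h1 := congrArg (fun T : H →L[ℂ] H => T ζ) (hshift t (m * τ))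
      have h2 : (t + ((m * n : ℕ) : ℝ) * τ / n) = t + m * τ := by
        push_cast; field_simp
      rw [h2]
      exact h1
    have e2 : D.TT τ n b * D.U (m * τ) - D.U (m * τ) * D.TT τ n b =
        -((avg τ n (fun t => F (t + (m * n : ℕ) * τ / n)) - avg τ n F) * D.U (m * τ)) := by
      rw [e1, sub_mul, neg_sub]; rfl
    rw [e2, norm_neg]
    refine (norm_mul_le _ _).trans ?_
    have h3 := norm_avg_shift_le τ n hFC (m * n)
    have h4 : ‖D.U (m * τ)‖ ≤ 1 :=
      ContinuousLinearMap.opNorm_le_bound _ zero_le_one fun ζ => by rw [D.norm_U, one_mul]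
    calc _ ≤ (2 * (m * n : ℕ) * (‖b‖ * ‖b‖) / n ^ 3) * 1 :=
          mul_le_mul h3 h4 (norm_nonneg _) (by positivity)
      _ = 2 * m * (‖b‖ * ‖b‖) * (1 / (n : ℝ) ^ 2) := by push_cast; field_simp
  have h3 : Tendsto (fun n : ℕ => 2 * m * (‖b‖ * ‖b‖) * (1 / (n : ℝ) ^ 2)) atTop (𝓝 0) := by
    have : Tendsto (fun n : ℕ => (1 / (n : ℝ) ^ 2)) atTop (𝓝 0) := by
      have := (tendsto_one_div_atTop_nhds_zero_nat (𝕜 := ℝ)).pow 2
      simpa [div_pow] using this
    simpa using this.const_mul (2 * m * (‖b‖ * ‖b‖))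
  refine squeeze_zero' (Eventually.of_forall fun n => norm_nonneg _) ?_ h3
  filter_upwards [eventually_ne_atTop 0] with n hn using hb n hn

/-! ## F3 : commutators of the test family -/

theorem cm_family_bound (hE : D.Erg) {τ : ℝ} (hτ : τ ≠ 0) {x : H →L[ℂ] H} (hx : D.InN x)
    (hx0 : x ≠ 0) (r : ℝ) {κ : ℝ} (hκ : 0 < κ) :
    ∀ᶠ n : ℕ in atTop,
      avg τ n (fun t => ‖D.cm (star x * star (D.sg t ((‖star x ξ‖⁻¹ : ℂ) • star x))) ξ‖ ^ 2) ≤
        4 * ‖x ξ - (r : ℂ) • D.Rm x ξ‖ ^ 2 + κ := by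
  set c0 : ℝ := ‖star x ξ‖ with hc0
  have hc0nn : 0 ≤ c0 := norm_nonneg _
  have hc0' : c0 ≠ 0 := by
    intro h
    rw [hc0, norm_eq_zero] at h
    have h1 : star x = 0 := D.ext_xi (star_mem hx.1) (zero_mem M) (by rw [h]; rfl)
    exact hx0 (star_eq_zero.1 h1)
  set b : H →L[ℂ] H := ((c0 : ℂ)⁻¹) • star x with hb
  have hbN : D.InN b := InN.smul (InN.star hx) _
  have hbs : star b = ((c0 : ℂ)⁻¹) • x := by
    rw [hb, star_smul, star_star]; simp
  have hbξ : ‖b ξ‖ = 1 := by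
    rw [hb, ContinuousLinearMap.smul_apply, norm_smul, norm_inv, Complex.norm_real,
      Real.norm_of_nonneg hc0nn, ← hc0, inv_mul_cancel₀ hc0']
  set w : H := x ξ - (r : ℂ) • D.Rm x ξ with hw
  set u : H := star b ξ - (r : ℂ) • D.Rm (star b) ξ with hu
  set v : H := (r : ℂ) • star x ξ - D.Rm (star x) ξ with hv
  have huw : u = ((c0 : ℂ)⁻¹) • w := by
    rw [hu, hw, hbs, Rm_smul, ContinuousLinearMap.smul_apply, ContinuousLinearMap.smul_apply,
      smul_sub, smul_comm (r : ℂ)]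
  have hvw : ‖v‖ = ‖w‖ := by
    have : D.J v = -w := by
      rw [hv, hw, map_sub, map_smulₛₗ, D.J_Rm, D.J_xi, star_star, Rm_xi, Complex.conj_ofReal]; abel
    rw [← D.norm_J, this, norm_neg]
  have hnu : c0 ^ 2 * ‖u‖ ^ 2 = ‖w‖ ^ 2 := by
    rw [huw, norm_smul, norm_inv, Complex.norm_real, Real.norm_of_nonneg hc0nn]
    field_simp
  -- the decomposition
  have hdec : ∀ t, D.cm (star x * star (D.sg t b)) ξ =
      star x (D.U t u) + D.Rm (star (D.sg t b)) v := by
    intro t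
    have hxs : star x ∈ M := star_mem hx.1
    have hbt : star (D.sg t b) ∈ M := star_mem (D.sg_mem hbN.1 t)
    have h1 : D.U t u = star (D.sg t b) ξ - (r : ℂ) • D.Rm (star (D.sg t b)) ξ := by
      rw [hu, map_sub, map_smul, star_sg, D.sg_xi, Rm_sg, D.sg_xi]
    rw [h1, cm, Rm_mul, hv]
    simp only [ContinuousLinearMap.mul_apply, map_sub, map_smul]
    rw [D.comm_Rm hxs hbt]
    abel
  have hA : ∀ t, ‖D.cm (star x * star (D.sg t b)) ξ‖ ^ 2 ≤
      2 * (⟪u, D.sg (-t) (x * star x) u⟫_ℂ).re + 2 * (⟪v, D.Rm (D.sg t (star b * b)) v⟫_ℂ).re := by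
    intro t
    rw [hdec]
    have h1 : ‖star x (D.U t u)‖ ^ 2 = (⟪u, D.sg (-t) (x * star x) u⟫_ℂ).re := by
      rw [norm_sq_eq_re_inner, inner_star_left, sg_apply, neg_neg, ContinuousLinearMap.mul_apply,
        ← D.star_U, inner_star_right]
    have h2 : ‖D.Rm (star (D.sg t b)) v‖ ^ 2 = (⟪v, D.Rm (D.sg t (star b * b)) v⟫_ℂ).re := by
      rw [norm_sq_eq_re_inner, sg_mul, ← star_sg, Rm_mul, ContinuousLinearMap.mul_apply,
        inner_Rm_left, star_star]
    have h3 := norm_add_le (star x (D.U t u)) (D.Rm (star (D.sg t b)) v)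
    rw [← h1, ← h2]
    linarith only [mul_nonneg (sub_nonneg.2 h3) (sub_nonneg.2 (norm_nonneg (D.Rm (star (D.sg t b)) v))), mul_nonneg (sub_nonneg.2 h3) (sub_nonneg.2 (norm_nonneg (star x (D.U t u)))), mul_nonneg (sub_nonneg.2 h3) (sub_nonneg.2 (norm_nonneg (star x (D.U t u) + D.Rm (star (D.sg t b)) v))), sq_nonneg (‖star x (D.U t u)‖ - ‖D.Rm (star (D.sg t b)) v‖)]
  have hlim1 : Tendsto (fun n : ℕ => avg τ n (fun t => (⟪u, D.sg (-t) (x * star x) u⟫_ℂ).re)) atTop
      (𝓝 (c0 ^ 2 * ‖u‖ ^ 2)) := by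
    have h1 := D.tendsto_avg_sg_neg hE hτ (InN.mul hx (InN.star hx)) u
    have h2 := (Complex.continuous_re.tendsto _).comp ((tendsto_const_nhds (x := u)).inner (𝕜 := ℂ) h1)
    have e : (⟪u, ⟪ξ, (x * star x) ξ⟫_ℂ • u⟫_ℂ).re = c0 ^ 2 * ‖u‖ ^ 2 := by
      rw [inner_smul_right, show (x * star x) ξ = x (star x ξ) from rfl, ← inner_star_left,
        inner_self_eq_norm_sq_to_K, inner_self_eq_norm_sq_to_K]
      norm_cast
    rw [e] at h2
    refine h2.congr fun n => ?_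
    rw [Function.comp_apply, inner_avg_right, re_avg]
  have hlim2 : Tendsto (fun n : ℕ => avg τ n (fun t => (⟪v, D.Rm (D.sg t (star b * b)) v⟫_ℂ).re))
      atTop (𝓝 (‖v‖ ^ 2)) := by
    have h1 := D.tendsto_avg_Rm_sg hE hτ (InN.mul (InN.star hbN) hbN) v
    have h2 := (Complex.continuous_re.tendsto _).comp ((tendsto_const_nhds (x := v)).inner (𝕜 := ℂ) h1)
    have e : (⟪v, ⟪ξ, (star b * b) ξ⟫_ℂ • v⟫_ℂ).re = ‖v‖ ^ 2 := by
      rw [inner_smul_right, show (star b * b) ξ = star b (b ξ) from rfl, inner_star_right,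
        inner_self_eq_norm_sq_to_K, inner_self_eq_norm_sq_to_K, hbξ]
      simp only [RCLike.ofReal_one, one_pow, one_mul]
      norm_cast
    rw [e] at h2
    refine h2.congr fun n => ?_
    rw [Function.comp_apply, inner_avg_right, re_avg]
  have hlim := (hlim1.const_mul 2).add (hlim2.const_mul 2)
  have hlt : 2 * (c0 ^ 2 * ‖u‖ ^ 2) + 2 * ‖v‖ ^ 2 < 4 * ‖w‖ ^ 2 + κ := by
    rw [hnu, hvw]; linarith only [hκ]
  filter_upwards [hlim.eventually_lt_const hlt] with n hn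
  refine (avg_mono τ n hA).trans ?_
  rw [avg_add, avg_const_mul, avg_const_mul]
  exact hn.le

end ModData

end Vale.Agent.P132
end

section

open Filter Topology MeasureTheory
open scoped ComplexConjugate InnerProductSpace BoundedContinuousFunction

namespace Vale.Agent.P132

universe u

variable {H : Type u} [NormedAddCommGroup H] [InnerProductSpace ℂ H] [CompleteSpace H]

/-! ### scalar functions -/

/-- the root of unity `exp (-2πi/K)` -/
noncomputable def wG (K : ℕ) : ℂ := Complex.exp (-(2 * Real.pi * Complex.I / K))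

theorem wG_prim {K : ℕ} (hK : 0 < K) : IsPrimitiveRoot (wG K) K := by
  have h := (Complex.isPrimitiveRoot_exp K hK.ne').inv
  rwa [← Complex.exp_neg] at h

theorem wG_pow (K r k : ℕ) :
    Complex.exp (-(2 * Real.pi * Complex.I * (r * k : ℕ) / K)) = wG K ^ (r * k) := by
  rw [wG, ← Complex.exp_nat_mul]
  congr 1
  push_cast
  ring

theorem norm_wG (K : ℕ) : ‖wG K‖ = 1 := by
  have : -(2 * Real.pi * Complex.I / K) = ((-(2 * Real.pi / K) : ℝ) : ℂ) * Complex.I := by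
    push_cast; ring
  rw [wG, this, Complex.norm_exp_ofReal_mul_I]

/-- `g_k` as a bounded function -/
noncomputable def gB (τ : ℝ) (K k : ℕ) : ℝ →ᵇ ℂ :=
  ((K : ℂ))⁻¹ • ∑ r ∈ Finset.range K,
    Complex.exp (-(2 * Real.pi * Complex.I * (r * k : ℕ) / K)) • expB (r * τ)

/-- the phase `exp (i (τ h - 2 π k / K))` -/
noncomputable def zG (τ : ℝ) (K k : ℕ) (h : ℝ) : ℂ :=
  wG K ^ k * Complex.exp (Complex.I * ((τ * h : ℝ) : ℂ))

theorem norm_zG (τ : ℝ) (K k : ℕ) (h : ℝ) : ‖zG τ K k h‖ = 1 := by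
  rw [zG, norm_mul, norm_pow, norm_wG, one_pow, one_mul, mul_comm Complex.I,
    Complex.norm_exp_ofReal_mul_I]

theorem gB_apply (τ : ℝ) (K k : ℕ) (h : ℝ) :
    gB τ K k h = (K : ℂ)⁻¹ * ∑ r ∈ Finset.range K, zG τ K k h ^ r := by
  rw [gB, BoundedContinuousFunction.coe_smul, BoundedContinuousFunction.coe_sum]
  simp only [Finset.sum_apply, smul_eq_mul, BoundedContinuousFunction.coe_smul]
  congr 1
  refine Finset.sum_congr rfl fun r _ => ?_
  rw [wG_pow, expB_apply, zG, mul_pow, ← pow_mul, ← Complex.exp_nat_mul, mul_comm k r]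
  congr 2
  push_cast
  ring

theorem gB_key (τ : ℝ) {K : ℕ} (hK : 0 < K) (k : ℕ) (h : ℝ) :
    ‖(zG τ K k h - 1) * gB τ K k h‖ ≤ 2 / K := by
  have h1 : (zG τ K k h - 1) * gB τ K k h = (K : ℂ)⁻¹ * (zG τ K k h ^ K - 1) := by
    rw [gB_apply, ← mul_geom_sum]
    ring
  rw [h1, norm_mul, norm_inv, Complex.norm_natCast]
  have h2 : ‖zG τ K k h ^ K - 1‖ ≤ 2 := by
    calc _ ≤ ‖zG τ K k h ^ K‖ + ‖(1 : ℂ)‖ := norm_sub_le _ _
      _ = 2 := by rw [norm_pow, norm_zG]; norm_num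
  have h3 : (0 : ℝ) < K := by exact_mod_cast hK
  rw [div_eq_inv_mul]
  gcongr

theorem orth_aux {K : ℕ} (hK : 0 < K) {r s : ℕ} (hr : r < K) (hs : s < K) :
    ∑ k ∈ Finset.range K, (wG K ^ r * conj (wG K) ^ s) ^ k = if r = s then (K : ℂ) else 0 := by
  have hw : wG K * conj (wG K) = 1 := by
    rw [Complex.mul_conj, Complex.normSq_eq_norm_sq, norm_wG]; simp
  have hp := wG_prim hK
  split_ifs with h
  · subst h
    rw [← mul_pow, hw]
    simp
  · set q := wG K ^ r * conj (wG K) ^ s with hq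
    have hq1 : q ≠ 1 := by
      intro hq1
      apply h
      apply hp.pow_inj hr hs
      calc wG K ^ r = wG K ^ r * (wG K * conj (wG K)) ^ s := by rw [hw]; simp
        _ = q * wG K ^ s := by rw [hq, mul_pow]; ring
        _ = wG K ^ s := by rw [hq1, one_mul]
    have hqK : q ^ K = 1 := by
      rw [hq, mul_pow, ← pow_mul, ← pow_mul, mul_comm r K, mul_comm s K, pow_mul, pow_mul,
        hp.pow_eq_one, ← map_pow, hp.pow_eq_one]
      simp
    have := mul_geom_sum q K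
    rw [hqK, sub_self] at this
    rcases mul_eq_zero.1 this with h1 | h1
    · exact absurd (sub_eq_zero.1 h1) hq1
    · exact h1

theorem gB_sum (τ : ℝ) {K : ℕ} (hK : 0 < K) :
    ∑ k ∈ Finset.range K, star (gB τ K k) * gB τ K k = 1 := by
  have hK' : (K : ℂ) ≠ 0 := by exact_mod_cast hK.ne'
  ext h
  rw [BoundedContinuousFunction.coe_sum, Finset.sum_apply]
  simp only [BoundedContinuousFunction.coe_mul, Pi.mul_apply, BoundedContinuousFunction.coe_star,
    Pi.star_apply, BoundedContinuousFunction.coe_one, Pi.one_apply, gB_apply]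
  set u : ℂ := Complex.exp (Complex.I * ((τ * h : ℝ) : ℂ)) with hu
  have hun : u * conj u = 1 := by
    rw [Complex.mul_conj, Complex.normSq_eq_norm_sq, hu, mul_comm, Complex.norm_exp_ofReal_mul_I]
    simp
  have hz : ∀ k, zG τ K k h = wG K ^ k * u := fun k => rfl
  have h1 : ∀ k, star ((K : ℂ)⁻¹ * ∑ r ∈ Finset.range K, zG τ K k h ^ r) *
      ((K : ℂ)⁻¹ * ∑ r ∈ Finset.range K, zG τ K k h ^ r) =
      (K : ℂ)⁻¹ * (K : ℂ)⁻¹ * ∑ r ∈ Finset.range K, ∑ s ∈ Finset.range K,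
        (u ^ r * conj u ^ s) * (wG K ^ r * conj (wG K) ^ s) ^ k := by
    intro k
    rw [star_mul', star_inv₀, star_sum, Complex.star_def]
    simp only [map_natCast]
    have : ∀ x y a b : ℂ, x * a * (y * b) = x * y * (b * a) := fun x y a b => by ring
    rw [this, Finset.sum_mul_sum]
    congr 1
    refine Finset.sum_congr rfl fun r _ => Finset.sum_congr rfl fun s _ => ?_
    rw [hz, map_pow, map_mul, map_pow]
    ring
  simp_rw [h1]
  rw [← Finset.mul_sum, Finset.sum_comm]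
  have h2 : ∑ r ∈ Finset.range K, ∑ k ∈ Finset.range K, ∑ s ∈ Finset.range K,
      (u ^ r * conj u ^ s) * (wG K ^ r * conj (wG K) ^ s) ^ k = (K : ℂ) * K := by
    have : ∀ r ∈ Finset.range K, ∑ k ∈ Finset.range K, ∑ s ∈ Finset.range K,
      (u ^ r * conj u ^ s) * (wG K ^ r * conj (wG K) ^ s) ^ k = (K : ℂ) := by
      intro r hr
      rw [Finset.sum_comm]
      have : ∀ s ∈ Finset.range K, ∑ k ∈ Finset.range K,
        (u ^ r * conj u ^ s) * (wG K ^ r * conj (wG K) ^ s) ^ k =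
        if r = s then (K : ℂ) else 0 := by
        intro s hs
        rw [← Finset.mul_sum, orth_aux hK (Finset.mem_range.1 hr) (Finset.mem_range.1 hs)]
        split_ifs with h
        · subst h
          rw [← mul_pow, hun]; simp
        · simp
      rw [Finset.sum_congr rfl this, Finset.sum_ite_eq, if_pos hr]
    rw [Finset.sum_congr rfl this]
    simp
  rw [h2]
  field_simp

/-- `sin x ≥ (2/π²) x (π - x)` on `[0, π]` -/
theorem sin_lower {x : ℝ} (h0 : 0 ≤ x) (h1 : x ≤ Real.pi) :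
    2 / Real.pi ^ 2 * x * (Real.pi - x) ≤ Real.sin x := by
  have hpi := Real.pi_pos
  rcases le_total x (Real.pi / 2) with h | h
  · have h2 := Real.mul_le_sin h0 h
    refine le_trans ?_ h2
    have : 2 / Real.pi ^ 2 * x * (Real.pi - x) = (2 / Real.pi * x) * ((Real.pi - x) / Real.pi) := by
      field_simp
    rw [this]
    have h3 : (Real.pi - x) / Real.pi ≤ 1 := by
      rw [div_le_one hpi]; linarith only [h0]
    have h4 : 0 ≤ 2 / Real.pi * x := by positivity
    linarith only [mul_nonneg (sub_nonneg.2 h3) (sub_nonneg.2 h4)]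
  · have h2 := Real.mul_le_sin (x := Real.pi - x) (by linarith) (by linarith)
    rw [Real.sin_pi_sub] at h2
    refine le_trans ?_ h2
    have : 2 / Real.pi ^ 2 * x * (Real.pi - x) =
        (2 / Real.pi * (Real.pi - x)) * (x / Real.pi) := by
      field_simp
    rw [this]
    have h3 : x / Real.pi ≤ 1 := by
      rw [div_le_one hpi]; linarith only [h1]
    have h4 : 0 ≤ 2 / Real.pi * (Real.pi - x) := by
      have : 0 ≤ Real.pi - x := by linarith only [h1]
      positivity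
    linarith only [mul_nonneg (sub_nonneg.2 h3) (sub_nonneg.2 h4)]

theorem exp_sub_one_abs (y : ℝ) : |Real.exp y - 1| ≤ |y| * Real.exp |y| := by
  rcases le_total 0 y with h | h
  · rw [abs_of_nonneg h, abs_of_nonneg (by linarith [Real.add_one_le_exp y])]
    have h1 := Real.add_one_le_exp (-y)
    have h2 : Real.exp (-y) * Real.exp y = 1 := by rw [← Real.exp_add]; simp
    have h3 := Real.exp_pos y
    nlinarith
  · rw [abs_of_nonpos h, abs_of_nonpos (by linarith [Real.exp_le_one_iff.2 h])]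
    have h1 := Real.add_one_le_exp y
    have h2 : 1 ≤ Real.exp (-y) := Real.one_le_exp (by linarith)
    nlinarith

/-- the key inequality between the two symbols -/
theorem symbol_bound {h₁ h₂ τ : ℝ} (h0 : 0 < h₁) (hτ : 0 < τ) (hP : h₂ < 2 * Real.pi / τ) :
    ∃ C : ℝ, 0 ≤ C ∧ ∀ K k : ℕ, k < K → ∀ h ∈ Set.Ioo h₁ h₂,
      ‖(1 : ℂ) - ((Real.exp (-(Real.pi * k / (τ * K))) * Real.exp (h / 2) : ℝ) : ℂ)‖ ≤
        C * ‖zG τ K k h - 1‖ := by
  have hpi := Real.pi_pos
  by_cases hlt : h₁ < h₂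
  swap
  · refine ⟨0, le_rfl, fun K k _ h hh => ?_⟩
    exact absurd (hh.1.trans hh.2) hlt
  set P : ℝ := 2 * Real.pi / τ with hPdef
  have hP0 : 0 < P := by positivity
  set v₀ : ℝ := max (P - h₁) h₂ with hv₀
  have hv₀P : v₀ < P := max_lt (by linarith) hP
  have hv₀0 : 0 < v₀ := lt_max_of_lt_right (h0.trans hlt)
  have hx₀ : 0 < Real.pi - τ * v₀ / 2 := by
    have : τ * v₀ < τ * P := by gcongr
    have h2 : τ * P = 2 * Real.pi := by rw [hPdef]; field_simp
    linarith only [h2, this]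
  set c : ℝ := 2 / Real.pi ^ 2 * τ * (Real.pi - τ * v₀ / 2) with hc
  have hc0 : 0 < c := by (clear * - hτ hx₀; positivity)
  refine ⟨Real.exp (P / 2) / 2 / c, by positivity, fun K k hk h hh => ?_⟩
  have hK : (0 : ℝ) < K := by exact_mod_cast (Nat.zero_le k).trans_lt hk
  set s : ℝ := 2 * Real.pi * k / (τ * K) with hs
  set v : ℝ := h - s with hv
  have hs0 : 0 ≤ s := by (clear * - hτ hK; positivity)
  have hsP : s < P := by
    rw [hs, hPdef, div_lt_div_iff₀ (by (clear * - hτ hK; positivity)) hτ]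
    have : (k : ℝ) < K := by exact_mod_cast hk
    have h5 : 0 < 2 * Real.pi * τ := by positivity
    linarith only [mul_pos (sub_pos.2 this) (sub_pos.2 h5)]
  have hvabs : |v| ≤ v₀ := by
    rw [abs_le]
    constructor
    · have : P - h₁ ≤ v₀ := le_max_left _ _
      have := hh.1
      rw [hv]; linarith
    · have : h₂ ≤ v₀ := le_max_right _ _
      have := hh.2
      rw [hv]; linarith
  -- left side
  have hL : (Real.exp (-(Real.pi * k / (τ * K))) * Real.exp (h / 2) : ℝ) = Real.exp (v / 2) := by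
    rw [← Real.exp_add]
    congr 1
    rw [hv, hs]
    field_simp
    ring
  have hL2 : ‖(1 : ℂ) - ((Real.exp (-(Real.pi * k / (τ * K))) * Real.exp (h / 2) : ℝ) : ℂ)‖ ≤
      |v| * (Real.exp (P / 2) / 2) := by
    rw [hL]
    have : (1 : ℂ) - ((Real.exp (v / 2) : ℝ) : ℂ) = ((1 - Real.exp (v / 2) : ℝ) : ℂ) := by
      push_cast; ring
    rw [this, Complex.norm_real, Real.norm_eq_abs, abs_sub_comm]
    refine (exp_sub_one_abs (v / 2)).trans ?_
    have h6 : |v / 2| = |v| / 2 := by rw [abs_div, abs_two]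
    rw [h6]
    have h7 : Real.exp (|v| / 2) ≤ Real.exp (P / 2) := by
      apply Real.exp_le_exp.2; linarith only [hvabs, hv₀P]
    have h8 : 0 ≤ |v| := abs_nonneg v
    linarith only [mul_nonneg (sub_nonneg.2 h7) (sub_nonneg.2 h8)]
  -- right side
  have hR : c * |v| ≤ ‖zG τ K k h - 1‖ := by
    have hz : zG τ K k h = Complex.exp (Complex.I * ((τ * v : ℝ) : ℂ)) := by
      rw [zG, wG, ← Complex.exp_nat_mul, ← Complex.exp_add]
      congr 1
      rw [hv, hs]
      have hK' : (K : ℂ) ≠ 0 := by exact_mod_cast hK.ne'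
      have hτ' : (τ : ℂ) ≠ 0 := by exact_mod_cast hτ.ne'
      push_cast
      field_simp
      ring
    rw [hz, Complex.norm_exp_I_mul_ofReal_sub_one, Real.norm_eq_abs, abs_mul, abs_two]
    have h9 : |Real.sin (τ * v / 2)| = Real.sin (|τ * v / 2|) := by
      rcases le_total 0 (τ * v / 2) with h | h
      · rw [abs_of_nonneg h, abs_of_nonneg]
        apply Real.sin_nonneg_of_nonneg_of_le_pi h
        have : τ * v ≤ τ * v₀ := by gcongr; exact (le_abs_self v).trans hvabs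
        linarith only [this, hx₀]
      · rw [abs_of_nonpos h, Real.sin_neg, abs_of_nonpos]
        apply Real.sin_nonpos_of_nonpos_of_neg_pi_le h
        have : -(τ * v₀) ≤ τ * v := by
          have := (neg_abs_le v)
          linarith only [mul_nonneg (le_of_lt (sub_pos.2 hτ)) (sub_nonneg.2 this), mul_nonneg (le_of_lt (sub_pos.2 hτ)) (sub_nonneg.2 hvabs)]
        linarith only [this, hx₀]
    have h10 : |τ * v / 2| = τ * |v| / 2 := by
      rw [abs_div, abs_mul, abs_of_pos hτ, abs_two]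
    have h11 : τ * |v| ≤ τ * v₀ := by gcongr
    rw [h9, h10]
    have h12 := sin_lower (x := τ * |v| / 2) (by (clear * - hτ; positivity)) (by linarith only [h11, hx₀])
    have h13 : 2 / Real.pi ^ 2 * (τ * |v| / 2) * (Real.pi - τ * v₀ / 2) ≤
        2 / Real.pi ^ 2 * (τ * |v| / 2) * (Real.pi - τ * |v| / 2) := by
      gcongr
    calc c * |v| = 2 * (2 / Real.pi ^ 2 * (τ * |v| / 2) * (Real.pi - τ * v₀ / 2)) := by
          rw [hc]; ring
      _ ≤ 2 * Real.sin (τ * |v| / 2) := by linarith only [h13, h12]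
  calc _ ≤ |v| * (Real.exp (P / 2) / 2) := hL2
    _ = Real.exp (P / 2) / 2 / c * (c * |v|) := by field_simp
    _ ≤ _ := by gcongr

namespace ModData

variable {M : VonNeumannAlgebra H} {ξ : H} (D : ModData M ξ)

theorem gg_eq (τ : ℝ) (K k : ℕ) : D.gg τ K k = D.Th (gB τ K k) := by
  rw [gg, gB, map_smul, map_sum]
  simp only [map_smul]
  rfl

theorem gg_resolution (τ : ℝ) {K : ℕ} (hK : 0 < K) :
    ∑ k ∈ Finset.range K, star (D.gg τ K k) * D.gg τ K k = 1 := by
  simp only [gg_eq, ← map_star, ← map_mul]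
  rw [← map_sum, gB_sum τ hK, map_one]

theorem gg_sum (τ : ℝ) {K : ℕ} (hK : 0 < K) (ζ : H) :
    ∑ k ∈ Finset.range K, ‖D.gg τ K k ζ‖ ^ 2 = ‖ζ‖ ^ 2 := by
  have h1 := congrArg (fun f : H →L[ℂ] H => ⟪ζ, f ζ⟫_ℂ) (D.gg_resolution τ hK)
  simp only [_root_.sum_apply, inner_sum] at h1
  have h2 : ∀ k, ⟪ζ, (star (D.gg τ K k) * D.gg τ K k) ζ⟫_ℂ = ((‖D.gg τ K k ζ‖ ^ 2 : ℝ) : ℂ) := by
    intro k
    rw [mul_apply_eq_comp, ContinuousLinearMap.star_eq_adjoint,
      ContinuousLinearMap.adjoint_inner_right, inner_self_eq_norm_sq_to_K]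
    push_cast
    rfl
  simp only [h2] at h1
  have h3 : ⟪ζ, (1 : H →L[ℂ] H) ζ⟫_ℂ = ((‖ζ‖ ^ 2 : ℝ) : ℂ) := by
    rw [one_apply_eq_self, inner_self_eq_norm_sq_to_K]
    push_cast
    rfl
  rw [h3] at h1
  exact_mod_cast h1

theorem norm_sum_star_gg (τ : ℝ) {K : ℕ} (hK : 0 < K) (η : ℕ → H) :
    ‖∑ k ∈ Finset.range K, star (D.gg τ K k) (η k)‖ ^ 2 ≤ ∑ k ∈ Finset.range K, ‖η k‖ ^ 2 := by
  set y : H := ∑ k ∈ Finset.range K, star (D.gg τ K k) (η k) with hy
  set S : ℝ := ∑ k ∈ Finset.range K, ‖η k‖ ^ 2 with hS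
  have h1 : ‖y‖ ^ 2 ≤ ∑ k ∈ Finset.range K, ‖D.gg τ K k y‖ * ‖η k‖ := by
    have h2 : ((‖y‖ ^ 2 : ℝ) : ℂ) = ∑ k ∈ Finset.range K, ⟪D.gg τ K k y, η k⟫_ℂ := by
      have h3 : ⟪y, y⟫_ℂ = ((‖y‖ ^ 2 : ℝ) : ℂ) := by
        rw [inner_self_eq_norm_sq_to_K]; push_cast; rfl
      rw [← h3]
      conv_lhs => rw [hy, inner_sum]
      refine Finset.sum_congr rfl fun k _ => ?_
      rw [ContinuousLinearMap.star_eq_adjoint, ContinuousLinearMap.adjoint_inner_right]
    have h4 : ‖y‖ ^ 2 = ‖((‖y‖ ^ 2 : ℝ) : ℂ)‖ := by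
      rw [Complex.norm_real, Real.norm_of_nonneg (by positivity)]
    rw [h4, h2]
    refine (norm_sum_le _ _).trans (Finset.sum_le_sum fun k _ => norm_inner_le_norm _ _)
  have h5 : (∑ k ∈ Finset.range K, ‖D.gg τ K k y‖ * ‖η k‖) ^ 2 ≤ ‖y‖ ^ 2 * S := by
    have := Finset.sum_mul_sq_le_sq_mul_sq (Finset.range K) (fun k => ‖D.gg τ K k y‖)
      (fun k => ‖η k‖)
    rwa [D.gg_sum τ hK] at this
  have h6 : (‖y‖ ^ 2) ^ 2 ≤ ‖y‖ ^ 2 * S := le_trans (by gcongr) h5
  rcases eq_or_lt_of_le (sq_nonneg ‖y‖) with h7 | h7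
  · rw [← h7]
    exact Finset.sum_nonneg fun k _ => sq_nonneg _
  · (by_contra nlg; linarith only [nlg, mul_pos (sub_pos.2 (not_le.1 nlg)) (sub_pos.2 h7), h6])

/-- the elements `x_k` of `N` with `x_k ξ = g_k* g_k x ξ`. -/
theorem exists_pieces {x : H →L[ℂ] H} (hx : D.InN x) (τ : ℝ) {K : ℕ} (hK : 0 < K) :
    ∃ X : ℕ → H →L[ℂ] H, (∀ k, D.InN (X k)) ∧ (∑ k ∈ Finset.range K, X k = x) ∧
      ∀ k, X k ξ = star (D.gg τ K k) (D.gg τ K k (x ξ)) := by
  set e : ℕ → ℕ → ℂ := fun r k =>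
    Complex.exp (-(2 * Real.pi * Complex.I * (r * k : ℕ) / K)) with he
  set X : ℕ → H →L[ℂ] H := fun k =>
    (conj ((K : ℂ))⁻¹ * ((K : ℂ))⁻¹) • ∑ s ∈ Finset.range K, ∑ r ∈ Finset.range K,
      (conj (e s k) * e r k) • D.sg (-(s * τ) + r * τ) x with hX
  have hXN : ∀ k, D.InN (X k) := fun k =>
    InN.smul (InN.sum _ fun s _ => InN.sum _ fun r _ => InN.smul (InN.sg hx _) _) _
  have hXξ : ∀ k, X k ξ = star (D.gg τ K k) (D.gg τ K k (x ξ)) := by
    intro k
    have hstar : star (D.gg τ K k) = (conj ((K : ℂ))⁻¹) • ∑ s ∈ Finset.range K,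
        (conj (e s k)) • D.U (-(s * τ)) := by
      rw [gg, star_smul, star_sum]
      simp only [star_smul, star_U]
      rfl
    rw [hstar, gg, hX]
    simp only [_root_.smul_apply, _root_.sum_apply, map_smul, map_sum,
      Finset.smul_sum, sg_xi, smul_smul, U_add_apply]
    rw [Finset.sum_comm]
    refine Finset.sum_congr rfl fun r _ => Finset.sum_congr rfl fun s _ => ?_
    congr 1
    simp only [he]
    ring
  refine ⟨X, hXN, ?_, hXξ⟩
  apply D.ext_xi (InN.sum _ fun k _ => hXN k).1 hx.1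
  rw [_root_.sum_apply]
  simp_rw [hXξ]
  have := congrArg (fun f : H →L[ℂ] H => f (x ξ)) (D.gg_resolution τ hK)
  simpa [_root_.sum_apply] using this

/-- `F(h) e^{h/2}` as a bounded function, for `F` vanishing outside `(h₁, h₂)` -/
noncomputable def mulExpB (F : ℝ →ᵇ ℂ) {h₁ h₂ : ℝ} (hF : ∀ h, h ∉ Set.Ioo h₁ h₂ → F h = 0) :
    ℝ →ᵇ ℂ :=
  BoundedContinuousFunction.ofNormedAddCommGroup
    (fun h : ℝ => ((Real.exp (h / 2) : ℝ) : ℂ) * F h) (by continuity)
    (Real.exp (h₂ / 2) * ‖F‖)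
    (fun h => by
      by_cases hh : h ∈ Set.Ioo h₁ h₂
      · rw [norm_mul, Complex.norm_real, Real.norm_of_nonneg (Real.exp_pos _).le]
        have h1 : Real.exp (h / 2) ≤ Real.exp (h₂ / 2) :=
          Real.exp_le_exp.2 (by linarith [hh.2])
        exact mul_le_mul h1 (F.norm_coe_le_norm h) (norm_nonneg _) (Real.exp_pos _).le
      · rw [hF h hh, mul_zero, norm_zero]
        positivity)

@[simp] theorem mulExpB_apply (F : ℝ →ᵇ ℂ) {h₁ h₂ : ℝ}
    (hF : ∀ h, h ∉ Set.Ioo h₁ h₂ → F h = 0) (h : ℝ) :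
    mulExpB F hF h = ((Real.exp (h / 2) : ℝ) : ℂ) * F h := rfl

include D in
theorem eq_zero_of_Th (z : H) (hz : ∀ G : ℝ →ᵇ ℂ, HasCompactSupport G → D.Th G z = 0) : z = 0 := by
  by_contra hne
  have hpos : 0 < ‖z‖ := norm_pos_iff.2 hne
  obtain ⟨G, hG, _, hG2⟩ := D.Th_nondeg z ‖z‖ hpos
  rw [hz G hG, zero_sub, norm_neg] at hG2
  exact lt_irrefl _ hG2

theorem Rm_xi_eq {x : H →L[ℂ] H} (hx : x ∈ M) (F : ℝ →ᵇ ℂ) {h₁ h₂ : ℝ}
    (hF : ∀ h, h ∉ Set.Ioo h₁ h₂ → F h = 0) (hFx : D.Th F (x ξ) = x ξ) :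
    D.Rm x ξ = D.Th (mulExpB F hF) (x ξ) := by
  rw [← sub_eq_zero]
  apply D.eq_zero_of_Th
  intro G hG
  -- `e^{h/2} G` is bounded
  obtain ⟨R, hR⟩ := hG.isCompact.isBounded.subset_closedBall 0
  have hG0 : ∀ h, h ∉ Set.Ioo (-(|R| + 1)) (|R| + 1) → G h = 0 := by
    intro h hh
    apply image_eq_zero_of_notMem_tsupport
    intro hmem
    have h1 := hR hmem
    rw [mem_closedBall_zero_iff, Real.norm_eq_abs] at h1
    apply hh
    have h2 := le_abs_self R
    have h3 := abs_le.1 h1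
    exact ⟨by linarith [h3.1], by linarith [h3.2]⟩
  have hk := D.kms x hx (mulExpB G hG0) G (fun h => by rw [mulExpB_apply])
  have h4 : mulExpB G hG0 * F = G * mulExpB F hF := by
    ext h
    simp only [BoundedContinuousFunction.coe_mul, Pi.mul_apply, mulExpB_apply]
    ring
  have h5 : D.Th G (D.Th (mulExpB F hF) (x ξ)) = D.Th (G * mulExpB F hF) (x ξ) := by
    rw [map_mul, mul_apply_eq_comp]
  rw [map_sub, D.Rm_xi, hk, h5, ← h4, map_mul, mul_apply_eq_comp, hFx, sub_self]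

theorem Rm_xi_lower {x : H →L[ℂ] H} (hx : x ∈ M) {h₁ h₂ : ℝ} (hW : D.Win h₁ h₂ (x ξ)) :
    Real.exp (h₁ / 2) * ‖x ξ‖ ≤ ‖D.Rm x ξ‖ ∧
      Real.exp (h₁ / 2) * ‖x ξ‖ ^ 2 ≤ (⟪x ξ, D.Rm x ξ⟫_ℂ).re := by
  obtain ⟨F, hF, hFx⟩ := hW
  have hE := D.Rm_xi_eq hx F hF hFx
  have hpos : 0 < Real.exp (h₁ / 2) := Real.exp_pos _
  have hpt : ∀ h, Real.exp (h₁ / 2) * ‖F h‖ ≤ Real.exp (h / 2) * ‖F h‖ := by
    intro h
    by_cases hh : h ∈ Set.Ioo h₁ h₂
    · have : Real.exp (h₁ / 2) ≤ Real.exp (h / 2) := Real.exp_le_exp.2 (by linarith [hh.1])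
      gcongr
    · rw [hF h hh]; simp
  constructor
  · have h1 := D.norm_Th_le_of_le (x ξ) F (mulExpB F hF) ((Real.exp (h₁ / 2))⁻¹) (by positivity)
      (fun h => by
        rw [mulExpB_apply, norm_mul, Complex.norm_real, Real.norm_of_nonneg (Real.exp_pos _).le,
          ← div_eq_inv_mul, le_div_iff₀ hpos, mul_comm]
        exact hpt h)
    rw [hFx] at h1
    rw [hE]
    rwa [← div_eq_inv_mul, le_div_iff₀ hpos, mul_comm] at h1
  · rw [hE]
    have h2 : ⟪x ξ, D.Th (mulExpB F hF) (x ξ)⟫_ℂ =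
        ⟪x ξ, D.Th (star F * mulExpB F hF) (x ξ)⟫_ℂ := by
      rw [map_mul, map_star, mul_apply_eq_comp, ContinuousLinearMap.star_eq_adjoint,
        ContinuousLinearMap.adjoint_inner_right, hFx]
    have h3 : (((Real.exp (h₁ / 2)) * ‖x ξ‖ ^ 2 : ℝ) : ℂ) =
        ⟪x ξ, D.Th (((Real.exp (h₁ / 2) : ℝ) : ℂ) • (star F * F)) (x ξ)⟫_ℂ := by
      rw [map_smul, _root_.smul_apply, inner_smul_right, Th_norm_sq, hFx]
      push_cast
      rfl
    have h4 := (Th_pos D.Th
      (star F * mulExpB F hF - ((Real.exp (h₁ / 2) : ℝ) : ℂ) • (star F * F))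
      (fun h => (Real.exp (h / 2) - Real.exp (h₁ / 2)) * ‖F h‖ ^ 2) (by fun_prop)
      (fun h => by
        simp only [BoundedContinuousFunction.coe_sub, Pi.sub_apply,
          BoundedContinuousFunction.coe_mul, Pi.mul_apply, BoundedContinuousFunction.coe_star,
          Pi.star_apply, BoundedContinuousFunction.coe_smul, mulExpB_apply, smul_eq_mul,
          Complex.star_def]
        have : conj (F h) * F h = ((‖F h‖ ^ 2 : ℝ) : ℂ) := by
          rw [← Complex.normSq_eq_conj_mul_self, Complex.normSq_eq_norm_sq]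
        calc conj (F h) * (((Real.exp (h / 2) : ℝ) : ℂ) * F h) -
              ((Real.exp (h₁ / 2) : ℝ) : ℂ) * (conj (F h) * F h)
            = (((Real.exp (h / 2) : ℝ) : ℂ) - ((Real.exp (h₁ / 2) : ℝ) : ℂ)) *
              (conj (F h) * F h) := by ring
          _ = _ := by rw [this]; push_cast; ring)
      (fun h => by
        have h5 := hpt h
        by_cases h6 : ‖F h‖ = 0
        · simp [h6]
        · have h7 : 0 < ‖F h‖ := lt_of_le_of_ne (norm_nonneg _) (Ne.symm h6)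
          have h8 := le_of_mul_le_mul_right h5 h7
          have : 0 ≤ Real.exp (h / 2) - Real.exp (h₁ / 2) := by linarith only [h8]
          (clear * - h8 h6; positivity))
      (x ξ)).1
    rw [map_sub, _root_.sub_apply, inner_sub_right, Complex.sub_re, ← h3, Complex.ofReal_re,
      ← h2] at h4
    linarith only [h4]

/-- main spectral inequality -/
theorem pieces_bound {h₁ h₂ τ : ℝ} (h0 : 0 < h₁) (hτ : 0 < τ) (hP : h₂ < 2 * Real.pi / τ) :
    ∃ C : ℝ, 0 ≤ C ∧ ∀ x ∈ M, D.Win h₁ h₂ (x ξ) → ∀ K : ℕ, 0 < K →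
      ∀ X : ℕ → H →L[ℂ] H, (∀ k, X k ∈ M) →
      (∀ k, X k ξ = star (D.gg τ K k) (D.gg τ K k (x ξ))) →
      (∀ k, D.Win h₁ h₂ (X k ξ)) ∧
      ∑ k ∈ Finset.range K,
        ‖X k ξ - ((Real.exp (-(Real.pi * k / (τ * K))) : ℝ) : ℂ) • D.Rm (X k) ξ‖ ^ 2 ≤
        C / (K : ℝ) ^ 2 * ‖x ξ‖ ^ 2 := by
  obtain ⟨C₁, hC₁, hC⟩ := symbol_bound h0 hτ hP
  refine ⟨4 * C₁ ^ 2, by positivity, fun x hx hW K hK X hX hXξ => ?_⟩
  obtain ⟨F, hF, hFx⟩ := hW
  have hXg : ∀ k, X k ξ = D.Th (star (gB τ K k) * gB τ K k) (x ξ) := by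
    intro k
    rw [hXξ, gg_eq, ← map_star, ← mul_apply_eq_comp, ← map_mul]
  have hFX : ∀ k, D.Th F (X k ξ) = X k ξ := by
    intro k
    rw [hXg, ← mul_apply_eq_comp, ← map_mul, mul_comm, map_mul, mul_apply_eq_comp, hFx]
  refine ⟨fun k => ⟨F, hF, hFX k⟩, ?_⟩
  have hK' : (0 : ℝ) < K := by exact_mod_cast hK
  have hbound : ∀ k ∈ Finset.range K,
      ‖X k ξ - ((Real.exp (-(Real.pi * k / (τ * K))) : ℝ) : ℂ) • D.Rm (X k) ξ‖ ^ 2 ≤
        (C₁ * (2 / K)) ^ 2 * ‖D.gg τ K k (x ξ)‖ ^ 2 := by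
    intro k hk
    rw [← mul_pow]
    apply pow_le_pow_left₀ (norm_nonneg _)
    set ρ : ℝ := Real.exp (-(Real.pi * k / (τ * K))) with hρ
    have h1 : X k ξ - (ρ : ℂ) • D.Rm (X k) ξ =
        D.Th ((F - (ρ : ℂ) • mulExpB F hF) * (star (gB τ K k) * gB τ K k)) (x ξ) := by
      rw [D.Rm_xi_eq (hX k) F hF (hFX k), map_mul, mul_apply_eq_comp, ← hXg, map_sub, map_smul,
        _root_.sub_apply, _root_.smul_apply, hFX]
    have h2 : D.gg τ K k (x ξ) = D.Th (F * gB τ K k) (x ξ) := by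
      rw [gg_eq, mul_comm, map_mul, mul_apply_eq_comp, hFx]
    rw [h1, h2]
    apply D.norm_Th_le_of_le _ _ _ _ (by (clear * - hC₁ hK; positivity))
    intro h
    simp only [BoundedContinuousFunction.coe_sub, Pi.sub_apply,
      BoundedContinuousFunction.coe_mul, Pi.mul_apply, BoundedContinuousFunction.coe_star,
      Pi.star_apply, BoundedContinuousFunction.coe_smul, mulExpB_apply, smul_eq_mul]
    by_cases hh : h ∈ Set.Ioo h₁ h₂
    · have h3 := hC K k (Finset.mem_range.1 hk) h hh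
      have h4 := gB_key τ hK k h
      rw [norm_mul] at h4
      have h5 : F h - (ρ : ℂ) * (((Real.exp (h / 2) : ℝ) : ℂ) * F h) =
          F h * (1 - ((ρ * Real.exp (h / 2) : ℝ) : ℂ)) := by push_cast; ring
      rw [h5, norm_mul, norm_mul, norm_mul, norm_mul, norm_star]
      calc ‖F h‖ * ‖(1 : ℂ) - ((ρ * Real.exp (h / 2) : ℝ) : ℂ)‖ *
            (‖gB τ K k h‖ * ‖gB τ K k h‖)
          ≤ ‖F h‖ * (C₁ * ‖zG τ K k h - 1‖) * (‖gB τ K k h‖ * ‖gB τ K k h‖) := by
            gcongr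
        _ = C₁ * (‖zG τ K k h - 1‖ * ‖gB τ K k h‖) * (‖F h‖ * ‖gB τ K k h‖) := by ring
        _ ≤ C₁ * (2 / K) * (‖F h‖ * ‖gB τ K k h‖) := by gcongr
    · rw [hF h hh]
      simp
  calc _ ≤ ∑ k ∈ Finset.range K, (C₁ * (2 / K)) ^ 2 * ‖D.gg τ K k (x ξ)‖ ^ 2 :=
        Finset.sum_le_sum hbound
    _ = (C₁ * (2 / K)) ^ 2 * ‖x ξ‖ ^ 2 := by
        rw [← Finset.mul_sum, D.gg_sum τ hK]
    _ = 4 * C₁ ^ 2 / (K : ℝ) ^ 2 * ‖x ξ‖ ^ 2 := by
        field_simp
        ring

end ModData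

end Vale.Agent.P132
end

section

open Filter Topology
open scoped ComplexConjugate InnerProductSpace BoundedContinuousFunction

namespace Vale.Agent.P132

universe u

set_option linter.unusedSectionVars false

/-- a Brezis–Browder type selection principle -/
theorem exists_exhausting {X : Type*} (r : X → X → Prop) (hr : ∀ x, r x x)
    (ht : ∀ x y z, r x y → r y z → r x z) (x0 : X) (f : X → ℝ) (B : ℝ)
    (hB : ∀ x, f x ≤ B) :
    ∃ x : ℕ → X, x 0 = x0 ∧ (∀ n, r (x n) (x (n + 1))) ∧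
      ∀ n, ∀ y, r (x (n + 1)) y → f y ≤ f (x (n + 1)) + (1 / 2 : ℝ) ^ n := by
  have step : ∀ (n : ℕ) (x : X), ∃ y, r x y ∧ ∀ z, r y z → f z ≤ f y + (1 / 2 : ℝ) ^ n := by
    intro n x
    have hne : (f '' {z | r x z}).Nonempty := ⟨f x, x, hr x, rfl⟩
    have hbd : BddAbove (f '' {z | r x z}) := ⟨B, by rintro _ ⟨z, -, rfl⟩; exact hB z⟩
    obtain ⟨_, ⟨y, hy, rfl⟩, hlt⟩ := exists_lt_of_lt_csSup hne
      (show sSup (f '' {z | r x z}) - (1 / 2 : ℝ) ^ n < sSup (f '' {z | r x z}) by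
        have : (0 : ℝ) < (1 / 2) ^ n := by positivity
        linarith)
    refine ⟨y, hy, fun z hz => ?_⟩
    have := le_csSup hbd (Set.mem_image_of_mem f (show z ∈ {z | r x z} from ht _ _ _ hy hz))
    linarith
  choose g hg1 hg2 using step
  let x : ℕ → X := fun n => Nat.rec x0 (fun n y => g n y) n
  exact ⟨x, rfl, fun n => hg1 n (x n), fun n y hy => hg2 n (x n) y hy⟩

variable {H : Type u} [NormedAddCommGroup H] [InnerProductSpace ℂ H] [CompleteSpace H]

end Vale.Agent.P132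
end

section

/-!
# P132: the GNS representation of a faithful normal state
-/

open Filter Topology
open scoped InnerProductSpace ENNReal

namespace Vale.Agent.P132

universe u

variable {H : Type u} [NormedAddCommGroup H] [InnerProductSpace ℂ H] [CompleteSpace H]

/-- A faithful normal representation of `M` on `K` with a cyclic and separating vector `ξ`
inducing `φ`, whose image is the von Neumann algebra `N`. -/
structure StdRep (M : VonNeumannAlgebra H) (φ : (H →L[ℂ] H) → ℂ) (K : Type u)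
    [NormedAddCommGroup K] [InnerProductSpace ℂ K] [CompleteSpace K] where
  N : VonNeumannAlgebra K
  π : (H →L[ℂ] H) → (K →L[ℂ] K)
  ξ : K
  norm_xi : ‖ξ‖ = 1
  cyc : Dense {ζ : K | ∃ a ∈ N, a ξ = ζ}
  sep : ∀ a ∈ N, a ξ = 0 → a = 0
  mem : ∀ x ∈ M, π x ∈ N
  surj : ∀ T ∈ N, ∃ x ∈ M, T = π x
  map_mul : ∀ x ∈ M, ∀ y ∈ M, π (x * y) = π x * π y
  map_add : ∀ x ∈ M, ∀ y ∈ M, π (x + y) = π x + π y
  map_smul : ∀ (c : ℂ), ∀ x ∈ M, π (c • x) = c • π x
  map_one : π 1 = 1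
  map_star : ∀ x ∈ M, π (star x) = star (π x)
  inj : ∀ x ∈ M, π x = 0 → x = 0
  norm_le : ∀ x ∈ M, ‖π x‖ ≤ ‖x‖
  state : ∀ x ∈ M, ⟪ξ, π x ξ⟫_ℂ = φ x
  strong : ∀ w : ℕ → (H →L[ℂ] H), (∀ n, w n ∈ M) → (∃ C : ℝ, ∀ n, ‖w n‖ ≤ C) →
    (∀ ζ : H, Tendsto (fun n => w n ζ) atTop (𝓝 0)) →
    ∀ k : K, Tendsto (fun n => π (w n) k) atTop (𝓝 0)
  normal : ∀ η : K, ‖η‖ = 1 → ∃ f : ℕ → H, HasSum (fun i => ‖f i‖ ^ 2) 1 ∧
    ∀ x ∈ M, HasSum (fun i => ⟪f i, x (f i)⟫_ℂ) ⟪η, π x η⟫_ℂ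

theorem norm_amp_le (x : H →L[ℂ] H) : ‖amp x‖ ≤ ‖x‖ :=
  LinearMap.mkContinuous_norm_le _ (norm_nonneg x) _

theorem norm_sq_L2 (f : EllTwo H) : ‖f‖ ^ 2 = ∑' i, ‖f i‖ ^ 2 := (L2_norm_sq f).tsum_eq.symm

/-- strong convergence of a bounded sequence passes to the amplification -/
theorem amp_strong (w : ℕ → (H →L[ℂ] H)) (C : ℝ) (hC : ∀ n, ‖w n‖ ≤ C)
    (hw : ∀ ζ : H, Tendsto (fun n => w n ζ) atTop (𝓝 0)) (f : EllTwo H) :
    Tendsto (fun n => amp (w n) f) atTop (𝓝 0) := by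
  rw [tendsto_zero_iff_norm_tendsto_zero]
  have h1 : Tendsto (fun n => ‖amp (w n) f‖ ^ 2) atTop (𝓝 0) := by
    have h2 : ∀ n, ‖amp (w n) f‖ ^ 2 = ∑' i, ‖w n (f i)‖ ^ 2 := fun n => norm_sq_L2 _
    simp only [h2]
    have h3 : (0 : ℝ) = ∑' _ : ℕ, (0 : ℝ) := by simp
    rw [h3]
    refine tendsto_tsum_of_dominated_convergence (bound := fun i => C ^ 2 * ‖f i‖ ^ 2)
      ((L2_norm_sq f).summable.mul_left _) ?_ ?_
    · intro i
      have := ((hw (f i)).norm).pow 2
      simpa using this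
    · refine Eventually.of_forall fun n i => ?_
      rw [Real.norm_of_nonneg (by positivity), ← mul_pow]
      refine pow_le_pow_left₀ (norm_nonneg _) ?_ 2
      exact ((w n).le_opNorm _).trans (mul_le_mul_of_nonneg_right (hC n) (norm_nonneg _))
  have h2 := h1.sqrt
  simpa [Real.sqrt_sq (norm_nonneg _)] using h2

section General

variable {K : Type u} [NormedAddCommGroup K] [InnerProductSpace ℂ K] [CompleteSpace K]
variable {M : VonNeumannAlgebra H} {i : K →ₗᵢ[ℂ] EllTwo H} {ξ : K}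

/-- the representation on the GNS space realized inside `ℓ²(ℕ, H)` -/
noncomputable def stdRepOf (φ : (H →L[ℂ] H) → ℂ)
    (hinv : ∀ T ∈ ampVN M, ∀ k : K, ∃ k' : K, T (i k) = i k')
    (h1 : ‖ξ‖ = 1) (hφ : ∀ x ∈ M, ⟪i ξ, amp x (i ξ)⟫_ℂ = φ x)
    (hsep : ∀ x ∈ M, amp x (i ξ) = 0 → x = 0)
    (hcyc : Dense {ζ : K | ∃ x ∈ M, i ζ = amp x (i ξ)}) : StdRep M φ K where
  N := redVN hinv
  π := fun x => compress i (amp x)
  ξ := ξ
  norm_xi := h1
  cyc := by
    refine hcyc.mono ?_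
    rintro ζ ⟨x, hx, hζ⟩
    refine ⟨compress i (amp x), ⟨_, ⟨x, hx, rfl⟩, rfl⟩, i.injective ?_⟩
    rw [hζ]
    exact coe_compress_apply i (hinv _ ⟨x, hx, rfl⟩) ξ
  sep := by
    rintro _ ⟨_, ⟨x, hx, rfl⟩, rfl⟩ h
    have h2 : amp x (i ξ) = 0 := by
      rw [← coe_compress_apply i (hinv _ ⟨x, hx, rfl⟩) ξ, h, map_zero]
    rw [hsep x hx h2, amp_zero]
    ext k
    simp [compress]
  mem := fun x hx => ⟨amp x, ⟨x, hx, rfl⟩, rfl⟩
  surj := by
    rintro _ ⟨_, ⟨x, hx, rfl⟩, rfl⟩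
    exact ⟨x, hx, rfl⟩
  map_mul := fun x _ y hy => by
    rw [amp_mul]
    exact compress_mul_right _ _ (hinv _ ⟨y, hy, rfl⟩)
  map_add := fun x _ y _ => by rw [amp_add, compress_add]
  map_smul := fun c x _ => by rw [amp_smul, compress_smul]
  map_one := compress_one i
  map_star := fun x _ => by
    rw [amp_star, star_compress]
  inj := by
    intro x hx h
    apply hsep x hx
    rw [← coe_compress_apply i (hinv _ ⟨x, hx, rfl⟩) ξ]
    have h' : compress i (amp x) = 0 := h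
    rw [h', zero_apply, map_zero]
  norm_le := by
    intro x hx
    refine ContinuousLinearMap.opNorm_le_bound _ (norm_nonneg _) fun k => ?_
    rw [← i.norm_map, coe_compress_apply i (hinv _ ⟨x, hx, rfl⟩)]
    exact ((amp x).le_opNorm _).trans (by
      rw [i.norm_map]
      exact mul_le_mul_of_nonneg_right (norm_amp_le x) (norm_nonneg _))
  state := by
    intro x hx
    rw [inner_compress]
    exact hφ x hx
  strong := by
    rintro w hwM ⟨C, hC⟩ hw k
    have h1 := amp_strong w C hC hw (i k)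
    rw [tendsto_zero_iff_norm_tendsto_zero] at h1 ⊢
    refine h1.congr fun n => ?_
    rw [← i.norm_map, coe_compress_apply i (hinv _ ⟨w n, hwM n, rfl⟩)]
  normal := by
    intro k hk
    refine ⟨fun n => (i k) n, ?_, ?_⟩
    · have := L2_norm_sq (i k)
      rwa [i.norm_map, hk, one_pow] at this
    · intro x hx
      rw [inner_compress]
      exact lp.hasSum_inner (𝕜 := ℂ) (i k) (amp x (i k))

end General

/-- the algebraic orbit of a vector -/
noncomputable def orbit (M : VonNeumannAlgebra H) (v : EllTwo H) : Submodule ℂ (EllTwo H) :=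
  LinearMap.range
    ({ toFun := fun x : M.toStarSubalgebra => amp (x : H →L[ℂ] H) v
       map_add' := fun x y => rfl
       map_smul' := fun c x => rfl } : M.toStarSubalgebra →ₗ[ℂ] EllTwo H)

theorem mem_orbit {M : VonNeumannAlgebra H} {v ζ : EllTwo H} :
    ζ ∈ orbit M v ↔ ∃ x ∈ M, amp x v = ζ := by
  constructor
  · rintro ⟨x, rfl⟩
    exact ⟨x, x.2, rfl⟩
  · rintro ⟨x, hx, rfl⟩
    exact ⟨⟨x, hx⟩, rfl⟩

theorem orbit_invariant (M : VonNeumannAlgebra H) (v : EllTwo H) {x : H →L[ℂ] H} (hx : x ∈ M)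
    {k : EllTwo H} (hk : k ∈ (orbit M v).topologicalClosure) :
    amp x k ∈ (orbit M v).topologicalClosure := by
  have hcl : IsClosed {k : EllTwo H | amp x k ∈ (orbit M v).topologicalClosure} :=
    (Submodule.isClosed_topologicalClosure (orbit M v)).preimage (amp x).continuous
  refine closure_minimal (s := (orbit M v : Set (EllTwo H))) ?_ hcl hk
  intro ζ hζ
  obtain ⟨y, hy, rfl⟩ := mem_orbit.1 hζ
  exact (orbit M v).le_topologicalClosure (mem_orbit.2 ⟨x * y, mul_mem hx hy, rfl⟩)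

theorem exists_stdRep (M : VonNeumannAlgebra H) (φ : (H →L[ℂ] H) → ℂ)
    (hφ : IsNormalState M φ) (hf : IsFaithful M φ) :
    ∃ (K : Type u) (_ : NormedAddCommGroup K) (_ : InnerProductSpace ℂ K) (_ : CompleteSpace K),
      Nonempty (StdRep M φ K) := by
  obtain ⟨η, hη1, hη⟩ := hφ
  let v : EllTwo H := ⟨η, (memℓp_two_iff η).2 hη1.summable⟩
  have hv1 : ‖v‖ = 1 := by
    have h1 : ‖v‖ ^ 2 = 1 := (L2_norm_sq v).unique hη1
    have h2 := norm_nonneg v
    nlinarith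
  have hvφ : ∀ x ∈ M, ⟪v, amp x v⟫_ℂ = φ x := fun x hx =>
    (lp.hasSum_inner (𝕜 := ℂ) v (amp x v)).unique (hη x hx)
  have hsep0 : ∀ x ∈ M, amp x v = 0 → x = 0 := by
    intro x hx h
    apply hf x hx
    rw [← hvφ _ (mul_mem (star_mem hx) hx), amp_mul, mul_apply_eq_comp, h, map_zero,
      inner_zero_right]
  have hSc : CompleteSpace (orbit M v).topologicalClosure :=
    Submodule.topologicalClosure.completeSpace (orbit M v)
  have hvS : v ∈ (orbit M v).topologicalClosure :=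
    (orbit M v).le_topologicalClosure (mem_orbit.2 ⟨1, one_mem M, rfl⟩)
  refine ⟨(orbit M v).topologicalClosure, inferInstance, inferInstance, hSc,
    ⟨stdRepOf (i := (orbit M v).topologicalClosure.subtypeₗᵢ) (ξ := ⟨v, hvS⟩) φ ?_ hv1 hvφ hsep0
      ?_⟩⟩
  · rintro T ⟨x, hx, rfl⟩ k
    exact ⟨⟨amp x k, orbit_invariant M v hx k.2⟩, rfl⟩
  · intro k
    rw [closure_subtype]
    refine closure_mono ?_ k.2
    intro ζ hζ
    obtain ⟨x, hx, rfl⟩ := mem_orbit.1 hζ
    exact ⟨⟨amp x v, (orbit M v).le_topologicalClosure hζ⟩, ⟨x, hx, rfl⟩, rfl⟩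

end Vale.Agent.P132
end

section

/-!
# P132, Part IV: a corner on which the state is almost tracial on projections
-/

open Filter Topology
open scoped InnerProductSpace

namespace Vale.Agent.P132

universe u

variable {H : Type u} [NormedAddCommGroup H] [InnerProductSpace ℂ H] [CompleteSpace H]

namespace BC

theorem inner_star (a : H →L[ℂ] H) (x y : H) : ⟪star a x, y⟫_ℂ = ⟪x, a y⟫_ℂ := by
  rw [ContinuousLinearMap.star_eq_adjoint, ContinuousLinearMap.adjoint_inner_left]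

theorem inner_star' (a : H →L[ℂ] H) (x y : H) : ⟪x, star a y⟫_ℂ = ⟪a x, y⟫_ℂ := by
  rw [ContinuousLinearMap.star_eq_adjoint, ContinuousLinearMap.adjoint_inner_right]

/-- partial isometries -/
structure PI (v : H →L[ℂ] H) : Prop where
  out : v * star v * v = v

theorem PI.st {v : H →L[ℂ] H} (h : PI v) : PI (star v) := by
  have := congrArg star h.out
  exact ⟨by simpa [star_mul, mul_assoc] using this⟩

theorem PI.idem {v : H →L[ℂ] H} (h : PI v) : (star v * v) * (star v * v) = star v * v := by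
  have h' : v * Star.star v * v = v := h.out
  calc (Star.star v * v) * (Star.star v * v) = Star.star v * (v * Star.star v * v) := by
        noncomm_ring
    _ = Star.star v * v := by rw [h']

theorem PI.norm_sq {v : H →L[ℂ] H} (_h : PI v) (η : H) :
    ‖v η‖ ^ 2 = (⟪η, (Star.star v * v) η⟫_ℂ).re := by
  have e : (Star.star v * v) η = Star.star v (v η) := rfl
  rw [e, inner_star', inner_self_eq_norm_sq_to_K]
  norm_cast

theorem proj_norm_sq {p : H →L[ℂ] H} (hps : star p = p) (hpp : p * p = p) (η : H) :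
    (⟪η, p η⟫_ℂ).re = ‖p η‖ ^ 2 := by
  have e : ⟪η, p η⟫_ℂ = ⟪p η, p η⟫_ℂ := by
    conv_lhs => rw [← hpp]
    have e' : (p * p) η = p (p η) := rfl
    rw [e']
    conv_lhs => rw [← hps]
    rw [inner_star', hps]
  rw [e, inner_self_eq_norm_sq_to_K]
  norm_cast

theorem PI.norm_le {v : H →L[ℂ] H} (h : PI v) (η : H) : ‖v η‖ ≤ ‖η‖ := by
  have h1 := h.norm_sq η
  set p := Star.star v * v with hp
  have hps : Star.star p = p := by rw [hp]; simp [star_mul]
  have h2 : ‖p η‖ ^ 2 = (⟪η, p η⟫_ℂ).re := (proj_norm_sq hps h.idem η).symm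
  have h3 : (⟪η, p η⟫_ℂ).re ≤ ‖η‖ * ‖p η‖ := (Complex.re_le_norm _).trans (norm_inner_le_norm _ _)
  have h4 : ‖p η‖ ≤ ‖η‖ := by
    by_contra hlt
    push Not at hlt
    have h5 : 0 < ‖p η‖ := lt_of_le_of_lt (norm_nonneg _) hlt
    linarith only [mul_pos (sub_pos.2 hlt) (sub_pos.2 h5), h3, h2]
  have h5 : ‖v η‖ ^ 2 ≤ ‖η‖ ^ 2 := by
    rw [h1, ← h2]
    exact pow_le_pow_left₀ (norm_nonneg _) h4 2
  exact le_of_sq_le_sq h5 (norm_nonneg _)

/-- `w` extends `v` -/
def Ext (v w : H →L[ℂ] H) : Prop := w * (star v * v) = v ∧ (v * star v) * w = v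

theorem Ext.st {v w : H →L[ℂ] H} (h : Ext v w) : Ext (star v) (star w) := by
  constructor
  · have := congrArg Star.star h.2
    simpa [star_mul, mul_assoc] using this
  · have := congrArg Star.star h.1
    simpa [star_mul, mul_assoc] using this

theorem Ext.refl {v : H →L[ℂ] H} (h : PI v) : Ext v v := by
  have h' : v * Star.star v * v = v := h.out
  exact ⟨by rw [← mul_assoc]; exact h', h'⟩

/-- `w* v = v* v` if `w` extends `v` -/
theorem Ext.smul' {v w : H →L[ℂ] H} (hv : PI v) (h : Ext v w) :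
    Star.star w * v = Star.star v * v := by
  have h' : v * Star.star v * v = v := hv.out
  have h1 : Star.star w * (v * Star.star v) = Star.star v := by
    have := congrArg Star.star h.2
    simpa [star_mul, mul_assoc] using this
  calc Star.star w * v = Star.star w * (v * Star.star v * v) := by rw [h']
    _ = (Star.star w * (v * Star.star v)) * v := by noncomm_ring
    _ = Star.star v * v := by rw [h1]

theorem Ext.proj {v w : H →L[ℂ] H} (hv : PI v) (h : Ext v w) :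
    (Star.star w * w) * (Star.star v * v) = Star.star v * v := by
  calc (Star.star w * w) * (Star.star v * v) = Star.star w * (w * (Star.star v * v)) := by
        noncomm_ring
    _ = Star.star w * v := by rw [h.1]
    _ = _ := h.smul' hv

theorem Ext.trans {v w x : H →L[ℂ] H} (hv : PI v) (h : Ext v w) (h' : Ext w x) : Ext v x := by
  have key : ∀ {v w x : H →L[ℂ] H}, PI v → Ext v w → Ext w x →
      x * (Star.star v * v) = v := by
    intro v w x hv h h'
    calc x * (Star.star v * v) = x * ((Star.star w * w) * (Star.star v * v)) := by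
          rw [h.proj hv]
      _ = (x * (Star.star w * w)) * (Star.star v * v) := by noncomm_ring
      _ = w * (Star.star v * v) := by rw [h'.1]
      _ = v := h.1
  refine ⟨key hv h h', ?_⟩
  have h2 := key hv.st h.st h'.st
  have := congrArg Star.star h2
  simpa [star_mul, mul_assoc] using this

theorem Ext.nsq {v w : H →L[ℂ] H} (hv : PI v) (h : Ext v w) (η : H) :
    ‖w η - v η‖ ^ 2 = ‖w η‖ ^ 2 - ‖v η‖ ^ 2 := by
  have e1 : ⟪w η, v η⟫_ℂ = ⟪v η, v η⟫_ℂ := by
    have h1 : ⟪w η, v η⟫_ℂ = ⟪η, (Star.star w * v) η⟫_ℂ := by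
      have e : (Star.star w * v) η = Star.star w (v η) := rfl
      rw [e, inner_star']
    have h2 : ⟪v η, v η⟫_ℂ = ⟪η, (Star.star v * v) η⟫_ℂ := by
      have e : (Star.star v * v) η = Star.star v (v η) := rfl
      rw [e, inner_star']
    rw [h1, h2, h.smul' hv]
  have e2 : (⟪w η, v η⟫_ℂ).re = ‖v η‖ ^ 2 := by
    rw [e1, inner_self_eq_norm_sq_to_K]
    norm_cast
  rw [@norm_sub_sq ℂ]
  have e3 : RCLike.re ⟪w η, v η⟫_ℂ = ‖v η‖ ^ 2 := e2
  rw [e3]; ring

omit [CompleteSpace H] in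
theorem tendsto_apply {a : ℕ → H →L[ℂ] H} {b : H →L[ℂ] H} (ha : ∀ n η, ‖a n η‖ ≤ ‖η‖)
    (h : ∀ η, Tendsto (fun n => a n η) atTop (𝓝 (b η))) {x : ℕ → H} {y : H}
    (hx : Tendsto x atTop (𝓝 y)) : Tendsto (fun n => a n (x n)) atTop (𝓝 (b y)) := by
  have h1 : Tendsto (fun n => a n (x n - y)) atTop (𝓝 0) := by
    refine squeeze_zero_norm (fun n => ha n _) ?_
    have := (hx.sub_const y).norm
    simpa using this
  have h2 := h1.add (h y)
  simpa [← map_add] using h2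

/-- increasing sequences of partial isometries converge -/
theorem exists_limit {v : ℕ → H →L[ℂ] H} (hv : ∀ n, PI (v n)) (hext : ∀ n, Ext (v n) (v (n + 1))) :
    ∃ w : H →L[ℂ] H, (∀ η, Tendsto (fun n => v n η) atTop (𝓝 (w η))) ∧
      (∀ η, Tendsto (fun n => star (v n) η) atTop (𝓝 (star w η))) ∧
      (∀ n, Ext (v n) w) ∧ PI w := by
  have main : ∀ {v : ℕ → H →L[ℂ] H}, (∀ n, PI (v n)) → (∀ n, Ext (v n) (v (n + 1))) →
      (∀ m n, n ≤ m → Ext (v n) (v m)) ∧
      ∃ w : H →L[ℂ] H, ∀ η, Tendsto (fun n => v n η) atTop (𝓝 (w η)) := by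
    intro v hv hext
    have hle : ∀ m n, n ≤ m → Ext (v n) (v m) := by
      intro m n hnm
      induction m, hnm using Nat.le_induction with
      | base => exact Ext.refl (hv n)
      | succ m _ ih => exact Ext.trans (hv n) ih (hext m)
    refine ⟨hle, ?_⟩
    have hmono : ∀ η, Monotone fun n => ‖v n η‖ ^ 2 := by
      intro η n m hnm
      have := (hle m n hnm).nsq (hv n) η
      have h0 : 0 ≤ ‖v m η - v n η‖ ^ 2 := by positivity
      linarith
    have hcau : ∀ η, CauchySeq fun n => v n η := by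
      intro η
      have hbdd : BddAbove (Set.range fun n => ‖v n η‖ ^ 2) := by
        refine ⟨‖η‖ ^ 2, ?_⟩
        rintro _ ⟨n, rfl⟩
        exact pow_le_pow_left₀ (norm_nonneg _) ((hv n).norm_le η) 2
      have hlim := (tendsto_atTop_ciSup (hmono η) hbdd).cauchySeq
      rw [Metric.cauchySeq_iff'] at hlim ⊢
      intro ε hε
      obtain ⟨N, hN⟩ := hlim (ε ^ 2) (by positivity)
      refine ⟨N, fun n hn => ?_⟩
      have h1 := hN n hn
      rw [Real.dist_eq] at h1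
      have h2 := (hle n N hn).nsq (hv N) η
      rw [dist_eq_norm]
      have h3 : ‖v n η - v N η‖ ^ 2 < ε ^ 2 := by
        rw [h2]
        exact (le_abs_self _).trans_lt h1
      exact lt_of_pow_lt_pow_left₀ 2 hε.le h3
    choose f hf using fun η => cauchySeq_tendsto_of_complete (hcau η)
    refine ⟨LinearMap.mkContinuous
      { toFun := f
        map_add' := fun x y => tendsto_nhds_unique (hf (x + y)) (by
          simpa using (hf x).add (hf y))
        map_smul' := fun c x => tendsto_nhds_unique (hf (c • x)) (by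
          simpa using (hf x).const_smul c) } 1 (fun x => by
        rw [one_mul]
        exact le_of_tendsto (hf x).norm (Eventually.of_forall fun n => (hv n).norm_le x)),
      fun η => ?_⟩
    exact hf η
  obtain ⟨hle, w, hw⟩ := main hv hext
  obtain ⟨hle', w', hw'⟩ := main (v := fun n => star (v n)) (fun n => (hv n).st)
    (fun n => (hext n).st)
  have hww : star w = w' := by
    rw [ContinuousLinearMap.star_eq_adjoint]
    symm
    rw [ContinuousLinearMap.eq_adjoint_iff]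
    intro x y
    have h1 : Tendsto (fun n => ⟪star (v n) x, y⟫_ℂ) atTop (𝓝 ⟪w' x, y⟫_ℂ) :=
      (hw' x).inner tendsto_const_nhds
    have h2 : Tendsto (fun n => ⟪star (v n) x, y⟫_ℂ) atTop (𝓝 ⟪x, w y⟫_ℂ) := by
      simp only [inner_star]
      exact tendsto_const_nhds.inner (hw y)
    exact tendsto_nhds_unique h1 h2
  have hw'' : ∀ η, Tendsto (fun n => star (v n) η) atTop (𝓝 (star w η)) := by
    rw [hww]; exact hw'
  have hn : ∀ n η, ‖v n η‖ ≤ ‖η‖ := fun n η => (hv n).norm_le η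
  have hn' : ∀ n η, ‖star (v n) η‖ ≤ ‖η‖ := fun n η => (hv n).st.norm_le η
  refine ⟨w, hw, hw'', fun n => ⟨?_, ?_⟩, ?_⟩
  · ext η
    have h1 : Tendsto (fun m => v m ((star (v n) * v n) η)) atTop
        (𝓝 (w ((star (v n) * v n) η))) := hw _
    have h2 : Tendsto (fun m => v m ((star (v n) * v n) η)) atTop (𝓝 (v n η)) := by
      refine tendsto_const_nhds.congr' ?_
      filter_upwards [eventually_ge_atTop n] with m hm
      have := congrArg (fun T : H →L[ℂ] H => T η) (hle m n hm).1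
      exact this.symm
    exact tendsto_nhds_unique h1 h2
  · ext η
    have h1 : Tendsto (fun m => (v n * star (v n)) (v m η)) atTop
        (𝓝 ((v n * star (v n)) (w η))) := ((v n * star (v n)).continuous.tendsto _).comp (hw η)
    have h2 : Tendsto (fun m => (v n * star (v n)) (v m η)) atTop (𝓝 (v n η)) := by
      refine tendsto_const_nhds.congr' ?_
      filter_upwards [eventually_ge_atTop n] with m hm
      have := congrArg (fun T : H →L[ℂ] H => T η) (hle m n hm).2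
      exact this.symm
    exact tendsto_nhds_unique h1 h2
  · refine ⟨?_⟩
    ext η
    have h1 : Tendsto (fun m => v m (star (v m) (v m η))) atTop (𝓝 (w (star w (w η)))) :=
      tendsto_apply hn hw (tendsto_apply hn' hw'' (hw η))
    have h2 : Tendsto (fun m => v m (star (v m) (v m η))) atTop (𝓝 (w η)) := by
      refine (hw η).congr fun m => ?_
      have := congrArg (fun T : H →L[ℂ] H => T η) (hv m).out
      exact this.symm
    exact tendsto_nhds_unique h1 h2

/-- Exhaustion principle for partial isometries. -/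
theorem exhaust {S : (H →L[ℂ] H) → Prop} {f : (H →L[ℂ] H) → ℝ} (hS0 : S 0)
    (hSPI : ∀ v, S v → PI v)
    (hSadd : ∀ v u, S v → S u → u * star v = 0 → star v * u = 0 → S (v + u))
    (hSlim : ∀ (v : ℕ → H →L[ℂ] H) (w : H →L[ℂ] H), (∀ n, S (v n)) → PI w →
      (∀ η, Tendsto (fun n => v n η) atTop (𝓝 (w η))) →
      (∀ η, Tendsto (fun n => star (v n) η) atTop (𝓝 (star w η))) → S w)
    (f0 : f 0 = 0)
    (fadd : ∀ v u, S v → S u → u * star v = 0 → star v * u = 0 → f (v + u) = f v + f u)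
    (flim : ∀ (v : ℕ → H →L[ℂ] H) (w : H →L[ℂ] H),
      (∀ η, Tendsto (fun n => v n η) atTop (𝓝 (w η))) →
      (∀ η, Tendsto (fun n => star (v n) η) atTop (𝓝 (star w η))) →
      Tendsto (fun n => f (v n)) atTop (𝓝 (f w)))
    (B : ℝ) (fB : ∀ v, S v → f v ≤ B) :
    ∃ v, S v ∧ 0 ≤ f v ∧ ∀ u, S u → u * star v = 0 → star v * u = 0 → f u ≤ 0 := by
  obtain ⟨x, hx0, hxr, hxmax⟩ := exists_exhausting (X := {v // S v})
    (fun v w => Ext v.1 w.1 ∧ f v.1 ≤ f w.1)
    (fun v => ⟨Ext.refl (hSPI _ v.2), le_rfl⟩)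
    (fun v w z h h' => ⟨Ext.trans (hSPI _ v.2) h.1 h'.1, h.2.trans h'.2⟩)
    ⟨0, hS0⟩ (fun v => f v.1) B (fun v => fB _ v.2)
  obtain ⟨w, hw, hw', hext, hPI⟩ := exists_limit (v := fun n => (x n).1)
    (fun n => hSPI _ (x n).2) (fun n => (hxr n).1)
  have hmono : Monotone fun n => f (x n).1 := monotone_nat_of_le_succ fun n => (hxr n).2
  have hflim := flim (fun n => (x n).1) w hw hw'
  have hfle : ∀ n, f (x n).1 ≤ f w := fun n => hmono.ge_of_tendsto hflim n
  have hSw : S w := hSlim _ w (fun n => (x n).2) hPI hw hw'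
  refine ⟨w, hSw, ?_, fun u hu h1 h2 => ?_⟩
  · have := hfle 0
    rw [hx0] at this
    simpa [f0] using this
  · by_contra hpos
    push Not at hpos
    have hSy := hSadd w u hSw hu h1 h2
    have hfy := fadd w u hSw hu h1 h2
    have key : ∀ n : ℕ, f w + f u ≤ f w + (1 / 2 : ℝ) ^ n := by
      intro n
      set v := (x (n + 1)).1 with hv
      have hvw : Ext v w := hext (n + 1)
      have e1 : u * star v = 0 := by
        have : star v = star w * (v * star v) := by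
          have := congrArg Star.star hvw.2
          simpa [star_mul, mul_assoc] using this.symm
        rw [this, ← mul_assoc, h1, zero_mul]
      have e2 : star v * u = 0 := by
        have : star v = (star v * v) * star w := by
          have := congrArg Star.star hvw.1
          simpa [star_mul, mul_assoc] using this.symm
        rw [this, mul_assoc, h2, mul_zero]
      have hr : Ext v (w + u) ∧ f v ≤ f (w + u) := by
        refine ⟨⟨?_, ?_⟩, ?_⟩
        · rw [add_mul, hvw.1, ← mul_assoc, e1, zero_mul, add_zero]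
        · rw [mul_add, hvw.2, mul_assoc, e2, mul_zero, add_zero]
        · rw [hfy]
          have := hfle (n + 1)
          linarith
      have h3 := hxmax n ⟨w + u, hSy⟩ hr
      have h4 : f (w + u) ≤ f v + (1 / 2 : ℝ) ^ n := h3
      rw [hfy] at h4
      have := hfle (n + 1)
      linarith
    have hlim : Tendsto (fun n : ℕ => f w + (1 / 2 : ℝ) ^ n) atTop (𝓝 (f w + 0)) :=
      tendsto_const_nhds.add (tendsto_pow_atTop_nhds_zero_of_lt_one (by norm_num) (by norm_num))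
    have := ge_of_tendsto' hlim key
    linarith

theorem mem_of_tendsto {M : VonNeumannAlgebra H} {v : ℕ → H →L[ℂ] H} {w : H →L[ℂ] H}
    (hv : ∀ n, v n ∈ M) (h : ∀ η, Tendsto (fun n => v n η) atTop (𝓝 (w η))) : w ∈ M := by
  refine Cmp.mem_of_commute fun y hy => ?_
  ext η
  have h1 : Tendsto (fun n => y (v n η)) atTop (𝓝 (y (w η))) :=
    (y.continuous.tendsto _).comp (h η)
  have h2 : Tendsto (fun n => y (v n η)) atTop (𝓝 (w (y η))) := by
    refine (h (y η)).congr fun n => ?_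
    exact (Cmp.comm_apply (hv n) hy η).symm
  exact tendsto_nhds_unique h1 h2

omit [CompleteSpace H] in
theorem eq_of_tendsto {v : ℕ → H →L[ℂ] H} {w : H →L[ℂ] H} (a b : H →L[ℂ] H)
    (hv : ∀ n, a * v n * b = v n) (hn : ∀ η, Tendsto (fun n => v n η) atTop (𝓝 (w η))) :
    a * w * b = w := by
  ext η
  have h1 : Tendsto (fun n => a (v n (b η))) atTop (𝓝 (a (w (b η)))) :=
    (a.continuous.tendsto _).comp (hn (b η))
  have h2 : Tendsto (fun n => a (v n (b η))) atTop (𝓝 (w η)) := by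
    refine (hn η).congr fun n => ?_
    have := congrArg (fun T : H →L[ℂ] H => T η) (hv n)
    exact this.symm
  exact tendsto_nhds_unique h1 h2

theorem PI.add {v u : H →L[ℂ] H} (hv : PI v) (hu : PI u) (h1 : u * Star.star v = 0)
    (h2 : Star.star v * u = 0) : PI (v + u) := by
  have h1' : v * Star.star u = 0 := by
    have := congrArg Star.star h1
    simpa [star_mul] using this
  have h2' : Star.star u * v = 0 := by
    have := congrArg Star.star h2
    simpa [star_mul] using this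
  have hv' : v * Star.star v * v = v := hv.out
  have hu' : u * Star.star u * u = u := hu.out
  refine ⟨?_⟩
  rw [star_add]
  have e : (v + u) * (Star.star v + Star.star u) * (v + u) =
      v * Star.star v * v + v * (Star.star v * u) + (v * Star.star u) * v +
        (v * Star.star u) * u + (u * Star.star v) * v + (u * Star.star v) * u +
        u * (Star.star u * v) + u * Star.star u * u := by noncomm_ring
  rw [e, hv', hu', h1, h2, h1', h2']
  simp

theorem norm_add_sq_of_orth {v u : H →L[ℂ] H} (h2 : star v * u = 0) (η : H) :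
    ‖(v + u) η‖ ^ 2 = ‖v η‖ ^ 2 + ‖u η‖ ^ 2 := by
  have e : ⟪v η, u η⟫_ℂ = 0 := by
    have h3 : ⟪v η, u η⟫_ℂ = ⟪η, (star v * u) η⟫_ℂ := by
      have e : (star v * u) η = star v (u η) := rfl
      rw [e, inner_star']
    rw [h3, h2]; simp
  rw [add_apply, @norm_add_sq ℂ, e]
  simp

end BC

open BC

/-- In a factor, below a nonzero finite projection there is a nonzero projection `e1` such that the
state `φ = ⟨· ξ, ξ⟩` is almost tracial on the partial isometries of `e1 M e1`. -/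
theorem exists_bounded_corner {M : VonNeumannAlgebra H} (hM : IsFactor M) {ξ : H}
    (hsep : ∀ x ∈ M, x ξ = 0 → x = 0) {e : H →L[ℂ] H} (heM : e ∈ M) (hes : star e = e)
    (hee : e * e = e) (he0 : e ≠ 0) (hfin : IsFiniteProj M e) :
    ∃ e1 ∈ M, star e1 = e1 ∧ e1 * e1 = e1 ∧ e * e1 = e1 ∧ e1 ≠ 0 ∧ ∃ C : ℝ, 0 < C ∧
      ∀ v ∈ M, v * star v * v = v → e1 * v = v → v * e1 = v →
        ‖v ξ‖ ^ 2 ≤ C * ‖star v ξ‖ ^ 2 := by
  -- first exhaustion
  obtain ⟨v, ⟨hvM, hvPI, hev, hve⟩, hfv, hvmax⟩ := exhaust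
    (S := fun v => v ∈ M ∧ PI v ∧ e * v = v ∧ v * e = v)
    (f := fun v => ‖v ξ‖ ^ 2 - 2 * ‖star v ξ‖ ^ 2)
    ⟨zero_mem _, ⟨by simp⟩, by simp, by simp⟩
    (fun v h => h.2.1)
    (fun v u hv hu h1 h2 => ⟨add_mem hv.1 hu.1, hv.2.1.add hu.2.1 h1 h2,
      by rw [mul_add, hv.2.2.1, hu.2.2.1], by rw [add_mul, hv.2.2.2, hu.2.2.2]⟩)
    (fun v w hv hw h1 h2 => ⟨mem_of_tendsto (fun n => (hv n).1) h1, hw,
      by simpa using eq_of_tendsto e 1 (fun n => by simpa using (hv n).2.2.1) h1,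
      by simpa using eq_of_tendsto 1 e (fun n => by simpa using (hv n).2.2.2) h1⟩)
    (by simp)
    (fun v u hv hu h1 h2 => by
      have h3 : star (star v) * star u = 0 := by
        have := congrArg star h1
        simpa [star_mul] using this
      have e1 := norm_add_sq_of_orth h2 ξ
      have e2 := norm_add_sq_of_orth h3 ξ
      rw [← star_add] at e2
      rw [e1, e2]; ring)
    (fun v w h1 h2 => ((h1 ξ).norm.pow 2).sub (((h2 ξ).norm.pow 2).const_mul 2))
    (‖ξ‖ ^ 2)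
    (fun v hv => by
      have h1 := hv.2.1.norm_le ξ
      have h2 : ‖v ξ‖ ^ 2 ≤ ‖ξ‖ ^ 2 := pow_le_pow_left₀ (norm_nonneg _) h1 2
      have h3 : 0 ≤ ‖star v ξ‖ ^ 2 := by positivity
      linarith)
  have heξ : e ξ ≠ 0 := fun h => he0 (hsep e heM h)
  set p : H →L[ℂ] H := star v * v with hp
  set q : H →L[ℂ] H := v * star v with hq
  have hpM : p ∈ M := mul_mem (star_mem hvM) hvM
  have hqM : q ∈ M := mul_mem hvM (star_mem hvM)
  have hps : star p = p := by rw [hp]; simp [star_mul]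
  have hqs : star q = q := by rw [hq]; simp [star_mul]
  have hpp : p * p = p := hvPI.idem
  have hqq : q * q = q := by
    have := hvPI.st.idem
    simpa [star_star] using this
  have hvp : v * p = v := by rw [hp, ← mul_assoc]; exact hvPI.out
  have hqv : q * v = v := hvPI.out
  have hve' : e * star v = star v := by
    have := congrArg star hve
    simpa [star_mul, hes] using this
  have hev' : star v * e = star v := by
    have := congrArg star hev
    simpa [star_mul, hes] using this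
  have hpe : p * e = p := by rw [hp, mul_assoc, hve]
  have hep : e * p = p := by rw [hp, ← mul_assoc, hve']
  have hqe : q * e = q := by rw [hq, mul_assoc, hev']
  have heq : e * q = q := by rw [hq, ← mul_assoc, hev]
  -- `p` is not `e`
  have hpne : p ≠ e := by
    intro hpe'
    have h1 : q = e := hfin q hqM hqs hqq heq ⟨v, hvM, by rw [← hpe'], rfl⟩
    have h2 : ‖v ξ‖ ^ 2 = ‖e ξ‖ ^ 2 := by
      rw [hvPI.norm_sq ξ, ← hp, hpe', proj_norm_sq hes hee]
    have h3 : ‖star v ξ‖ ^ 2 = ‖e ξ‖ ^ 2 := by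
      rw [hvPI.st.norm_sq ξ, star_star, ← hq, h1, proj_norm_sq hes hee]
    rw [h2, h3] at hfv
    have h4 : 0 < ‖e ξ‖ ^ 2 := by positivity
    linarith
  have hqne : q ≠ e := by
    intro hqe'
    apply hpne
    exact hfin p hpM hps hpp hep ⟨star v, star_mem hvM, by rw [star_star, ← hqe'],
      by rw [star_star]⟩
  set e' : H →L[ℂ] H := e - p with he'
  set f' : H →L[ℂ] H := e - q with hf'
  have he'M : e' ∈ M := sub_mem heM hpM
  have hf'M : f' ∈ M := sub_mem heM hqM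
  have he's : star e' = e' := by rw [he', star_sub, hes, hps]
  have hf's : star f' = f' := by rw [hf', star_sub, hes, hqs]
  have he'e' : e' * e' = e' := by
    rw [he', sub_mul, mul_sub, mul_sub, hee, hep, hpe, hpp]; abel
  have hf'f' : f' * f' = f' := by
    rw [hf', sub_mul, mul_sub, mul_sub, hee, heq, hqe, hqq]; abel
  have he'0 : e' ≠ 0 := fun h => hpne (sub_eq_zero.1 h).symm
  have hf'0 : f' ≠ 0 := fun h => hqne (sub_eq_zero.1 h).symm
  have hfix : ∀ g : H →L[ℂ] H, g ≠ 0 → g * g = g → Cmp.fix g ≠ ⊥ := by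
    intro g hg hgg hbot
    apply hg
    ext x
    have h1 : g x ∈ Cmp.fix g := by
      rw [Cmp.mem_fix]
      exact congrArg (fun T : H →L[ℂ] H => T x) hgg
    rw [hbot, Submodule.mem_bot] at h1
    rw [h1]; simp
  -- a nonzero partial isometry from `e'` to `f'`
  obtain ⟨K₁, hK₁, hK₁c, hK₁A, hK₁0, w, hwM, hwiso, hwf⟩ := Cmp.exists_isom hM (Cmp.Aff.fix he'M)
    (Cmp.isClosed_fix e') (hfix e' he'0 he'e') (Cmp.Aff.fix hf'M) (Cmp.isClosed_fix f')
    (hfix f' hf'0 hf'f')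
  have : CompleteSpace K₁ := hK₁c.completeSpace_coe
  set P := K₁.starProjection with hP
  have hPM : P ∈ M := hK₁A.proj_mem
  have hPs : star P = P := (isSelfAdjoint_starProjection K₁).star_eq
  have hPP : P * P = P := K₁.isIdempotentElem_starProjection
  have hP0 : P ≠ 0 := by
    intro h0
    apply hK₁0
    rw [Submodule.eq_bot_iff]
    intro x hx
    have h1 : P x = x := Submodule.starProjection_eq_self_iff.2 hx
    rw [← h1, h0]; simp
  have hPK : ∀ x, P x ∈ K₁ := fun x => Submodule.starProjection_apply_mem K₁ x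
  have he'P : e' * P = P := by
    ext x
    exact (Cmp.mem_fix.1 (hK₁ (hPK x)))
  have hPe' : P * e' = P := by
    have := congrArg star he'P
    simpa [star_mul, hPs, he's] using this
  set W : H →L[ℂ] H := w * P with hW
  have hWM : W ∈ M := mul_mem hwM hPM
  have hWW : star W * W = P := by
    -- `W` is isometric on the range of `P`
    have h1 : ∀ x, ‖W x‖ = ‖P x‖ := fun x => hwiso _ (hPK x)
    have h2 : ∀ x, ⟪(star W * W - P) x, x⟫_ℂ = 0 := by
      intro x
      have e1 : ⟪(star W * W) x, x⟫_ℂ = ⟪W x, W x⟫_ℂ := by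
        have e : (star W * W) x = star W (W x) := rfl
        rw [e, inner_star]
      have e2 : ⟪P x, x⟫_ℂ = ⟪P x, P x⟫_ℂ := by
        conv_lhs => rw [← hPP]
        have e : (P * P) x = P (P x) := rfl
        rw [e]
        conv_lhs => rw [← hPs]
        rw [inner_star, hPs]
      rw [sub_apply, inner_sub_left, e1, e2, inner_self_eq_norm_sq_to_K,
        inner_self_eq_norm_sq_to_K, h1 x]
      simp
    have h3 : star W * W - P = 0 := by
      have h4 := inner_map_self_eq_zero ((star W * W - P : H →L[ℂ] H) : H →ₗ[ℂ] H)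
      have h5 := h4.1 (fun x => h2 x)
      ext x
      exact congrArg (fun T : H →ₗ[ℂ] H => T x) h5
    exact sub_eq_zero.1 h3
  have hf'W : f' * W = W := by
    ext x
    exact Cmp.mem_fix.1 (hwf (P x))
  -- second exhaustion
  set ζ : H := star W ξ with hζ
  have hPξ : P ξ ≠ 0 := fun h => hP0 (hsep P hPM h)
  set C1 : ℝ := ‖P ζ‖ ^ 2 / ‖P ξ‖ ^ 2 + 1 with hC1
  have hC1pos : 0 < C1 := by (clear * - hPξ; positivity)
  obtain ⟨r, ⟨hrM, hrPI, hrs, hrr, hPr⟩, hfr, hrmax⟩ := exhaust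
    (S := fun v => v ∈ M ∧ PI v ∧ star v = v ∧ v * v = v ∧ P * v = v)
    (f := fun v => ‖v ζ‖ ^ 2 - C1 * ‖v ξ‖ ^ 2)
    ⟨zero_mem _, ⟨by simp⟩, by simp, by simp, by simp⟩
    (fun v h => h.2.1)
    (fun v u hv hu h1 h2 => ⟨add_mem hv.1 hu.1, hv.2.1.add hu.2.1 h1 h2,
      by rw [star_add, hv.2.2.1, hu.2.2.1], by
        rw [hv.2.2.1] at h1 h2
        rw [add_mul, mul_add, mul_add, hv.2.2.2.1, hu.2.2.2.1, h1, h2]; abel,
      by rw [mul_add, hv.2.2.2.2, hu.2.2.2.2]⟩)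
    (fun v w hv hw h1 h2 => by
      have hws : star w = w := by
        ext η
        have h3 : Tendsto (fun n => v n η) atTop (𝓝 (star w η)) := by
          refine (h2 η).congr fun n => ?_
          rw [(hv n).2.2.1]
        exact tendsto_nhds_unique h3 (h1 η)
      refine ⟨mem_of_tendsto (fun n => (hv n).1) h1, hw, hws, ?_,
        by simpa using eq_of_tendsto P 1 (fun n => by simpa using (hv n).2.2.2.2) h1⟩
      ext η
      have h3 : Tendsto (fun n => v n (v n η)) atTop (𝓝 (w (w η))) :=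
        tendsto_apply (fun n η => (hv n).2.1.norm_le η) h1 (h1 η)
      have h4 : Tendsto (fun n => v n (v n η)) atTop (𝓝 (w η)) := by
        refine (h1 η).congr fun n => ?_
        exact (congrArg (fun T : H →L[ℂ] H => T η) (hv n).2.2.2.1).symm
      exact tendsto_nhds_unique h3 h4)
    (by simp)
    (fun v u hv hu h1 h2 => by
      have e1 := norm_add_sq_of_orth h2 ξ
      have e2 := norm_add_sq_of_orth h2 ζ
      rw [e1, e2]; ring)
    (fun v w h1 h2 => ((h1 ζ).norm.pow 2).sub (((h1 ξ).norm.pow 2).const_mul C1))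
    (‖ζ‖ ^ 2)
    (fun v hv => by
      have h1 := hv.2.1.norm_le ζ
      have h2 : ‖v ζ‖ ^ 2 ≤ ‖ζ‖ ^ 2 := pow_le_pow_left₀ (norm_nonneg _) h1 2
      have h3 : 0 ≤ C1 * ‖v ξ‖ ^ 2 := by (clear * - hPξ; positivity)
      linarith)
  have hrP : r * P = r := by
    have := congrArg star hPr
    simpa [star_mul, hPs, hrs] using this
  have hrne : P - r ≠ 0 := by
    intro h0
    have h1 : r = P := (sub_eq_zero.1 h0).symm
    rw [h1] at hfr
    have h2 : C1 * ‖P ξ‖ ^ 2 = ‖P ζ‖ ^ 2 + ‖P ξ‖ ^ 2 := by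
      rw [hC1]
      have : ‖P ξ‖ ^ 2 ≠ 0 := by positivity
      field_simp
    rw [h2] at hfr
    have h3 : 0 < ‖P ξ‖ ^ 2 := by positivity
    linarith
  refine ⟨P - r, sub_mem hPM hrM, by rw [star_sub, hPs, hrs], ?_, ?_, hrne, 2 * C1,
    by (clear * - hPξ; positivity), ?_⟩
  · rw [sub_mul, mul_sub, mul_sub, hPP, hPr, hrP, hrr]; abel
  · have h1 : e * P = P := by
      have h2 : e * e' = e' := by rw [he', mul_sub, hee, hep]
      calc e * P = e * (e' * P) := by rw [he'P]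
        _ = (e * e') * P := by rw [mul_assoc]
        _ = P := by rw [h2, he'P]
    have h2 : e * r = r := by
      calc e * r = e * (P * r) := by rw [hPr]
        _ = (e * P) * r := by rw [mul_assoc]
        _ = r := by rw [h1, hPr]
    rw [mul_sub, h1, h2]
  · intro u huM hu h1 h2
    -- `u` in the corner
    have hu' : PI u := ⟨hu⟩
    have hPu : P * u = u := by
      calc P * u = P * ((P - r) * u) := by rw [h1]
        _ = (P * P - P * r) * u := by noncomm_ring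
        _ = (P - r) * u := by rw [hPP, hPr]
        _ = u := h1
    have huP : u * P = u := by
      calc u * P = (u * (P - r)) * P := by rw [h2]
        _ = u * (P * P - r * P) := by noncomm_ring
        _ = u * (P - r) := by rw [hPP, hrP]
        _ = u := h2
    have hPsu : star u * P = star u := by
      have := congrArg star hPu
      simpa [star_mul, hPs] using this
    -- first estimate: `W u` is orthogonal to `v`
    have a1 : W * u ∈ M := mul_mem hWM huM
    have a2 : PI (W * u) := by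
      refine ⟨?_⟩
      rw [star_mul]
      calc W * u * (star u * star W) * (W * u) = W * (u * star u * ((star W * W) * u)) := by
            noncomm_ring
        _ = W * (u * star u * u) := by rw [hWW, hPu]
        _ = W * u := by rw [hu]
    have hef' : e * f' = f' := by rw [hf', mul_sub, hee, heq]
    have a3 : e * (W * u) = W * u := by
      calc e * (W * u) = e * ((f' * W) * u) := by rw [hf'W]
        _ = (e * f') * W * u := by noncomm_ring
        _ = W * u := by rw [hef', hf'W]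
    have he'e : e' * e = e' := by rw [he', sub_mul, hee, hpe]
    have hPe : P * e = P := by
      calc P * e = (P * e') * e := by rw [hPe']
        _ = P * (e' * e) := by rw [mul_assoc]
        _ = P := by rw [he'e, hPe']
    have a4 : (W * u) * e = W * u := by
      calc (W * u) * e = W * ((u * P) * e) := by rw [huP, mul_assoc]
        _ = W * (u * (P * e)) := by rw [mul_assoc u P e]
        _ = W * u := by rw [hPe, huP]
    have hPstarv : P * star v = 0 := by
      have h3 : e' * star v = 0 := by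
        rw [he', sub_mul, hve']
        have : p * star v = star v := by
          have := congrArg star hvp
          simpa [star_mul, hps] using this
        rw [this, sub_self]
      calc P * star v = (P * e') * star v := by rw [hPe']
        _ = P * (e' * star v) := by rw [mul_assoc]
        _ = 0 := by rw [h3, mul_zero]
    have a5 : (W * u) * star v = 0 := by
      calc (W * u) * star v = W * ((u * P) * star v) := by rw [huP, mul_assoc]
        _ = W * (u * (P * star v)) := by rw [mul_assoc u P (star v)]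
        _ = 0 := by rw [hPstarv, mul_zero, mul_zero]
    have a6 : star v * (W * u) = 0 := by
      have h3 : star v * f' = 0 := by
        rw [hf', mul_sub, hev']
        have : star v * q = star v := by
          have := congrArg star hqv
          simpa [star_mul, hqs] using this
        rw [this, sub_self]
      calc star v * (W * u) = star v * ((f' * W) * u) := by rw [hf'W]
        _ = (star v * f') * (W * u) := by noncomm_ring
        _ = 0 := by rw [h3, zero_mul]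
    have b1 := hvmax (W * u) ⟨a1, a2, a3, a4⟩ a5 a6
    -- second estimate
    set s : H →L[ℂ] H := u * star u with hs
    have hsM : s ∈ M := mul_mem huM (star_mem huM)
    have hss : star s = s := by rw [hs]; simp [star_mul]
    have hsi : s * s = s := by
      have := hu'.st.idem
      simpa [star_star] using this
    have hPs' : P * s = s := by rw [hs, ← mul_assoc, hPu]
    have hrs' : s * star r = 0 := by
      rw [hrs]
      have h3 : (P - r) * r = 0 := by rw [sub_mul, hPr, hrr, sub_self]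
      have h4 : star u * (P - r) = star u := by
        have := congrArg star h1
        simpa [star_mul, star_sub, hPs, hrs] using this
      calc s * r = u * ((star u * (P - r)) * r) := by rw [hs, h4, mul_assoc]
        _ = u * (star u * ((P - r) * r)) := by rw [mul_assoc (star u)]
        _ = 0 := by rw [h3, mul_zero, mul_zero]
    have hrs'' : star r * s = 0 := by
      have := congrArg star hrs'
      simpa [star_mul, hss, hrs] using this
    have hsPI : PI s := by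
      refine ⟨?_⟩
      rw [hss, hsi, hsi]
    have b2 := hrmax s ⟨hsM, hsPI, hss, hsi, hPs'⟩ hrs' hrs''
    -- translation
    have c1 : ‖(W * u) ξ‖ ^ 2 = ‖u ξ‖ ^ 2 := by
      rw [a2.norm_sq ξ, hu'.norm_sq ξ]
      have : star (W * u) * (W * u) = star u * u := by
        rw [star_mul]
        calc star u * star W * (W * u) = star u * ((star W * W) * u) := by noncomm_ring
          _ = star u * u := by rw [hWW, hPu]
      rw [this]
    have c2 : ‖star (W * u) ξ‖ ^ 2 = ‖s ζ‖ ^ 2 := by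
      have e1 : star (W * u) ξ = star u ζ := by
        rw [star_mul]; rfl
      rw [e1]
      have e2 := hu'.st.norm_sq ζ
      rw [star_star, ← hs] at e2
      have e3 := hsPI.norm_sq ζ
      rw [hss, hsi] at e3
      rw [e2, e3]
    have c3 : ‖s ξ‖ ^ 2 = ‖star u ξ‖ ^ 2 := by
      have e2 := hu'.st.norm_sq ξ
      rw [star_star, ← hs] at e2
      have e3 := hsPI.norm_sq ξ
      rw [hss, hsi] at e3
      rw [e2, e3]
    rw [c1, c2] at b1
    rw [c3] at b2
    linarith only [b2, b1]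

end Vale.Agent.P132
end

section

/-!
# P132, Part IV: elements of the centralizer of the state are fixed by the modular group
-/

open Filter Topology MeasureTheory
open scoped ComplexConjugate InnerProductSpace BoundedContinuousFunction

namespace Vale.Agent.P132

universe u

variable {H : Type u} [NormedAddCommGroup H] [InnerProductSpace ℂ H] [CompleteSpace H]

theorem gi_exp_lower (h : ℝ) : |h| * Real.exp (-|h|) ≤ |1 - Real.exp h| := by
  rcases le_or_gt 0 h with hh | hh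
  · rw [abs_of_nonneg hh]
    have h1 : h + 1 ≤ Real.exp h := Real.add_one_le_exp h
    have h2 : Real.exp (-h) ≤ 1 := Real.exp_le_one_iff.2 (by linarith)
    have h3 : |1 - Real.exp h| = Real.exp h - 1 := by
      rw [abs_sub_comm, abs_of_nonneg]
      linarith
    rw [h3]
    calc h * Real.exp (-h) ≤ h * 1 := mul_le_mul_of_nonneg_left h2 hh
      _ ≤ Real.exp h - 1 := by linarith
  · rw [abs_of_neg hh, neg_neg]
    have h1 : -h + 1 ≤ Real.exp (-h) := Real.add_one_le_exp (-h)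
    have h3 : Real.exp h ≤ 1 := Real.exp_le_one_iff.2 hh.le
    rw [abs_of_nonneg (by linarith)]
    have h4 : Real.exp h * Real.exp (-h) = 1 := by
      rw [← Real.exp_add]
      simp
    have h5 := Real.exp_pos h
    nlinarith

theorem gi_expB_sub (t h : ℝ) : ‖expB t h - 1‖ ≤ |t| * |h| := by
  have h1 := ModData.norm_expB_sub_le t 0 h
  rw [sub_zero] at h1
  have h2 : expB 0 h = 1 := by simp
  rwa [h2] at h1

namespace ModData

variable {M : VonNeumannAlgebra H} {ξ : H} (D : ModData M ξ)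

theorem gi_centralizer {q : H →L[ℂ] H} (hq : q ∈ M) (hqs : star q = q)
    (htr : ∀ x ∈ M, ⟪ξ, q (x ξ)⟫_ℂ = ⟪ξ, x (q ξ)⟫_ℂ) : D.InC q := by
  -- step 1
  have h1 : ∀ x ∈ M, ⟪q ξ, x ξ⟫_ℂ = ⟪D.J (q ξ), D.J (star x ξ)⟫_ℂ := by
    intro x hx
    rw [D.inner_J_J]
    have e1 : ⟪q ξ, x ξ⟫_ℂ = ⟪ξ, q (x ξ)⟫_ℂ := by
      calc ⟪q ξ, x ξ⟫_ℂ = ⟪(star q) ξ, x ξ⟫_ℂ := by rw [hqs]
        _ = ⟪ξ, q (x ξ)⟫_ℂ := by
          rw [ContinuousLinearMap.star_eq_adjoint, ContinuousLinearMap.adjoint_inner_left]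
    have e2 : ⟪star x ξ, q ξ⟫_ℂ = ⟪ξ, x (q ξ)⟫_ℂ := by
      rw [ContinuousLinearMap.star_eq_adjoint, ContinuousLinearMap.adjoint_inner_left]
    rw [e1, e2, htr x hx]
  -- step 2
  have h2 : ∀ (G : ℝ →ᵇ ℂ) (hGs : ContDiff ℝ (⊤ : ℕ∞) G) (hG : HasCompactSupport G),
      (∀ x, conj (G x) = G x) →
      D.Th G (q ξ) = D.Th (gdE G hG) (D.J (q ξ)) := by
    intro G hGs hG hGr
    have hsG : star G = G := by
      ext h
      exact hGr h
    have hsE : star (gdE G hG) = gdE G hG := by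
      ext h
      show conj (gdE G hG h) = gdE G hG h
      rw [gdM_apply, map_mul, Complex.conj_ofReal, hGr]
    have e1 : ∀ x ∈ M, ⟪D.Th G (q ξ) - D.Th (gdE G hG) (D.J (q ξ)), x ξ⟫_ℂ = 0 := by
      intro x hx
      obtain ⟨y, hy, hyf⟩ := D.smooth_mem hx G hGs hG
      have hJ := D.gd_J_star hy G hG hyf
      have e2 := h1 y hy
      rw [hJ, hyf] at e2
      rw [inner_sub_left, D.gd_inner_Th, D.gd_inner_Th, hsG, hsE, e2, sub_self]
    have e2 : ∀ v : H, ⟪D.Th G (q ξ) - D.Th (gdE G hG) (D.J (q ξ)), v⟫_ℂ = 0 := by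
      intro v
      have hcl : IsClosed {v : H | ⟪D.Th G (q ξ) - D.Th (gdE G hG) (D.J (q ξ)), v⟫_ℂ = 0} :=
        isClosed_eq (by fun_prop) continuous_const
      have e3 : v ∈ closure {ζ : H | ∃ a ∈ M, a ξ = ζ} := D.cyc v
      refine closure_minimal ?_ hcl e3
      rintro _ ⟨x, hx, rfl⟩
      exact e1 x hx
    have e3 := e2 (D.Th G (q ξ) - D.Th (gdE G hG) (D.J (q ξ)))
    rw [inner_self_eq_zero, sub_eq_zero] at e3
    exact e3
  -- step 3
  have h3 : ∀ (G : ℝ →ᵇ ℂ) (hGs : ContDiff ℝ (⊤ : ℕ∞) G) (hG : HasCompactSupport G),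
      (∀ x, conj (G x) = G x) →
      D.Th (gdM (fun h => 1 - Real.exp h) (by fun_prop) G hG) (q ξ) = 0 := by
    intro G hGs hG hGr
    have e1 := h2 G hGs hG hGr
    have hEc : HasCompactSupport (gdE G hG) := by
      have h4 : (gdE G hG : ℝ → ℂ) = fun h => ((Real.exp (h / 2) : ℝ) : ℂ) * G h := rfl
      rw [h4]
      exact hG.mul_left
    have e2 := D.kms q hq (gdE (gdE G hG) hEc) (gdE G hG) (fun x => rfl)
    rw [hqs] at e2
    have e3 : gdM (fun h => 1 - Real.exp h) (by fun_prop) G hG = G - gdE (gdE G hG) hEc := by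
      ext h
      rw [BoundedContinuousFunction.sub_apply, gdM_apply, gdM_apply, gdM_apply, ← mul_assoc,
        ← Complex.ofReal_mul, ← Real.exp_add, add_halves]
      push_cast
      ring
    rw [e3, map_sub, sub_apply, sub_eq_zero, e1, e2]
  -- step 4
  refine ⟨hq, fun t => ?_⟩
  have h4 : ∀ F : ℝ →ᵇ ℂ, HasCompactSupport F → D.Th ((expB t - 1) * F) (q ξ) = 0 := by
    intro F hF
    obtain ⟨R, hR⟩ := hF.isCompact.isBounded.subset_closedBall 0
    let ψ : ContDiffBump (0 : ℝ) :=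
      { rIn := |R| + 1, rOut := |R| + 2, rIn_pos := by positivity, rIn_lt_rOut := by linarith }
    have e1 := h3 (gdB ψ) (gdB_contDiff ψ) (gdB_compact ψ) (fun x => by
      rw [gdB_apply, Complex.conj_ofReal])
    have e2 := D.norm_Th_le_of_le (q ξ) ((expB t - 1) * F)
      (gdM (fun h => 1 - Real.exp h) (by fun_prop) (gdB ψ) (gdB_compact ψ))
      (|t| * Real.exp |R| * ‖F‖) (by positivity) (by
        intro h
        by_cases hh : h ∈ tsupport F
        · have e3 : |h| ≤ |R| := by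
            have := hR hh
            rw [mem_closedBall_zero_iff, Real.norm_eq_abs] at this
            exact this.trans (le_abs_self R)
          have e4 : gdB ψ h = 1 := by
            rw [gdB_apply, ψ.one_of_mem_closedBall, Complex.ofReal_one]
            rw [mem_closedBall_zero_iff, Real.norm_eq_abs]
            show |h| ≤ |R| + 1
            linarith
          rw [BoundedContinuousFunction.mul_apply, norm_mul, gdM_apply, e4, mul_one,
            Complex.norm_real, Real.norm_eq_abs]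
          have e5 : ‖(expB t - 1) h‖ ≤ |t| * |h| := gi_expB_sub t h
          have e6 := gi_exp_lower h
          have e7 : |h| ≤ Real.exp |R| * |1 - Real.exp h| := by
            have e8 : Real.exp (-|R|) ≤ Real.exp (-|h|) := Real.exp_le_exp.2 (by linarith)
            have e9 : |h| * Real.exp (-|R|) ≤ |1 - Real.exp h| :=
              (mul_le_mul_of_nonneg_left e8 (abs_nonneg h)).trans e6
            have e10 : Real.exp |R| * Real.exp (-|R|) = 1 := by
              rw [← Real.exp_add]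
              simp
            calc |h| = Real.exp |R| * (|h| * Real.exp (-|R|)) := by
                  rw [mul_left_comm, e10, mul_one]
              _ ≤ _ := mul_le_mul_of_nonneg_left e9 (Real.exp_pos _).le
          calc ‖(expB t - 1) h‖ * ‖F h‖ ≤ (|t| * (Real.exp |R| * |1 - Real.exp h|)) * ‖F‖ := by
                apply mul_le_mul _ (F.norm_coe_le_norm h) (norm_nonneg _) (by positivity)
                exact e5.trans (mul_le_mul_of_nonneg_left e7 (abs_nonneg t))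
            _ = _ := by ring
        · rw [BoundedContinuousFunction.mul_apply, image_eq_zero_of_notMem_tsupport hh, mul_zero,
            norm_zero]
          positivity)
    rw [e1, norm_zero, mul_zero] at e2
    rw [← norm_eq_zero]
    exact le_antisymm e2 (norm_nonneg _)
  have h5 : ∀ ε > 0, ‖D.U t (q ξ) - q ξ‖ ≤ 2 * ε := by
    intro ε hε
    obtain ⟨F, hF, -, hFv⟩ := D.Th_nondeg (q ξ) ε hε
    have e1 := h4 F hF
    rw [map_mul, mul_apply_eq_comp, map_sub, map_one] at e1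
    have e2 : D.U t (D.Th F (q ξ)) = D.Th F (q ξ) := by
      have e3 : (D.Th (expB t) - 1) (D.Th F (q ξ)) = D.U t (D.Th F (q ξ)) - D.Th F (q ξ) := rfl
      rw [e3, sub_eq_zero] at e1
      exact e1
    have e3 : D.U t (q ξ) - q ξ =
        (D.Th F (q ξ) - q ξ) - D.U t (D.Th F (q ξ) - q ξ) := by
      rw [map_sub, e2]
      abel
    rw [e3]
    refine (norm_sub_le _ _).trans ?_
    rw [D.norm_U]
    linarith
  have h6 : ‖D.U t (q ξ) - q ξ‖ ≤ 0 := by
    apply le_of_forall_pos_le_add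
    intro ε hε
    have := h5 (ε / 2) (by positivity)
    linarith
  rw [← sub_eq_zero, ← norm_eq_zero]
  exact le_antisymm h6 (norm_nonneg _)

end ModData

end Vale.Agent.P132
end

section

/-!
# P132, Part IV: a family of partial isometries with initial projections below a given projection
-/

open Filter Topology
open scoped InnerProductSpace

namespace Vale.Agent.P132

universe u

variable {H : Type u} [NormedAddCommGroup H] [InnerProductSpace ℂ H] [CompleteSpace H]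

/-- the properties of the family -/
structure GFam (M : VonNeumannAlgebra H) (e : H →L[ℂ] H) (u : ℕ → H →L[ℂ] H) : Prop where
  mem : ∀ n, u n ∈ M
  right : ∀ n, u n * e = u n
  pi : ∀ n, u n * star (u n) * u n = u n
  orth : ∀ m n, m ≠ n → star (u m) * u n = 0
  full : ∀ ζ, (∀ n, star (u n) ζ = 0) → ζ = 0

open Cmp in
theorem exists_gfam {M : VonNeumannAlgebra H} (hM : IsFactor M) {η : ℕ → H}
    (hη : ∀ x ∈ M, (∀ i, x (η i) = 0) → x = 0) {e : H →L[ℂ] H} (he : IsPr M e) (he0 : e ≠ 0) :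
    ∃ u : ℕ → H →L[ℂ] H, GFam M e u := by
  classical
  have hL0 : fix e ≠ ⊥ := by
    intro hbot
    apply he0
    ext x
    have h1 : e x ∈ fix e := mem_fix.2 (congrArg (fun T : H →L[ℂ] H => T x) he.idem)
    rw [hbot, Submodule.mem_bot] at h1
    simpa using h1
  obtain ⟨S, hS, hS2, hS3⟩ := exists_maximal_family hM (Aff.fix he.mem) (isClosed_fix e) hL0
  have hcount := countable_family hη hS hS2
  have : Countable S := hcount.to_subtype
  obtain ⟨n, hn⟩ := exists_injective_nat S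
  have hw : ∀ K : S, ∃ w ∈ M, (∀ x ∈ (K : Submodule ℂ H), ‖w x‖ = ‖x‖) ∧ ∀ x, w x ∈ fix e :=
    fun K => (hS K.2).2.2.2
  choose w hwM hwiso hwL using hw
  have hcs : ∀ K : S, CompleteSpace (K : Submodule ℂ H) := fun K =>
    (hS K.2).1.completeSpace_coe
  set q : S → H →L[ℂ] H := fun K => (K : Submodule ℂ H).starProjection with hq
  have hqM : ∀ K, q K ∈ M := fun K => (hS K.2).2.1.proj_mem
  have hqs : ∀ K, star (q K) = q K := fun K => (isSelfAdjoint_starProjection _).star_eq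
  have hqq : ∀ K, q K * q K = q K := fun K => by
    ext x
    show (K : Submodule ℂ H).starProjection ((K : Submodule ℂ H).starProjection x) = _
    exact Submodule.starProjection_eq_self_iff.2 (Submodule.starProjection_apply_mem _ x)
  set v : S → H →L[ℂ] H := fun K => q K * star (w K) with hv
  have hvs : ∀ K, star (v K) = w K * q K := fun K => by
    rw [hv]
    simp only
    rw [star_mul, star_star, hqs]
  have hvv : ∀ K, v K * star (v K) = q K := fun K => by
    apply eq_of_inner_self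
    intro x
    have h1 : v K * star (v K) = star (w K * q K) * (w K * q K) := by
      rw [← hvs, star_star]
    rw [h1, inner_star_mul_self]
    have h2 : ‖(w K * q K) x‖ = ‖q K x‖ := hwiso K _ (Submodule.starProjection_apply_mem _ x)
    rw [h2, inner_pr (hqs K) (hqq K)]
  have hqK : ∀ K, q K * v K = v K := fun K => by
    rw [hv]
    simp only
    rw [← mul_assoc, hqq]
  have horth : ∀ K K' : S, K ≠ K' → q K * q K' = 0 := by
    intro K K' hne
    have h1 : (K : Submodule ℂ H) ⟂ (K' : Submodule ℂ H) :=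
      hS2 K.2 K'.2 (fun h => hne (Subtype.ext h))
    ext x
    show (K : Submodule ℂ H).starProjection (q K' x) = 0
    rw [Submodule.starProjection_apply_eq_zero_iff]
    have h2 : q K' x ∈ (K' : Submodule ℂ H) := Submodule.starProjection_apply_mem _ x
    exact h1.symm h2
  set u : ℕ → H →L[ℂ] H := fun k => if h : ∃ K : S, n K = k then v h.choose else 0 with hu
  have huv : ∀ K, u (n K) = v K := fun K => by
    have h : ∃ K' : S, n K' = n K := ⟨K, rfl⟩
    rw [hu]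
    simp only
    rw [dif_pos h, hn h.choose_spec]
  have hu0 : ∀ k, (¬ ∃ K : S, n K = k) → u k = 0 := fun k hk => by
    rw [hu]
    simp only
    rw [dif_neg hk]
  have hcase : ∀ k, u k = 0 ∨ ∃ K : S, n K = k ∧ u k = v K := by
    intro k
    by_cases h : ∃ K : S, n K = k
    · obtain ⟨K, hK⟩ := h
      exact Or.inr ⟨K, hK, by rw [← hK, huv]⟩
    · exact Or.inl (hu0 k h)
  refine ⟨u, ⟨fun k => ?_, fun k => ?_, fun k => ?_, fun k l hkl => ?_, fun ζ hζ => ?_⟩⟩
  · rcases hcase k with h | ⟨K, -, h⟩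
    · rw [h]
      exact zero_mem M
    · rw [h]
      exact mul_mem (hqM K) (star_mem (hwM K))
  · rcases hcase k with h | ⟨K, -, h⟩
    · rw [h, zero_mul]
    · rw [h]
      have h1 : e * w K = w K := by
        ext x
        exact mem_fix.1 (hwL K x)
      have h2 := congrArg star h1
      rw [star_mul, he.sa] at h2
      rw [hv]
      simp only
      rw [mul_assoc, h2]
  · rcases hcase k with h | ⟨K, -, h⟩
    · rw [h, mul_zero]
    · rw [h, hvv, hqK]
  · rcases hcase k with h | ⟨K, hK, h⟩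
    · rw [h, star_zero, zero_mul]
    · rcases hcase l with h' | ⟨K', hK', h'⟩
      · rw [h', mul_zero]
      · rw [h, h', hvs]
        have hne : K ≠ K' := by
          rintro rfl
          exact hkl (hK.symm.trans hK')
        rw [← hqK K', mul_assoc, ← mul_assoc (q K), horth K K' hne, zero_mul, mul_zero]
  · have h1 : ∀ K : S, q K ζ = 0 := by
      intro K
      have h2 := hζ (n K)
      rw [huv] at h2
      rw [← hvv K, mul_apply_eq_comp, h2, map_zero]
    have h3 : ζ ∈ (⨆ K : S, (K : Submodule ℂ H))ᗮ := by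
      rw [Submodule.mem_orthogonal]
      intro x hx
      have h4 : (⨆ K : S, (K : Submodule ℂ H)) ≤ (Submodule.span ℂ {ζ})ᗮ := by
        apply iSup_le
        intro K y hy
        rw [Submodule.mem_orthogonal_singleton_iff_inner_left]
        have h5 := h1 K
        have h6 : ζ ∈ (K : Submodule ℂ H)ᗮ := by
          rw [← Submodule.starProjection_apply_eq_zero_iff]
          exact h5
        exact (Submodule.mem_orthogonal _ _).1 h6 y hy
      exact (Submodule.mem_orthogonal_singleton_iff_inner_left).1 (h4 hx)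
    rw [hS3, Submodule.mem_bot] at h3
    exact h3

end Vale.Agent.P132
end
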