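import Vale.Agent.P132.MathlibUsed
import Vale.Agent.P132.Bd8.B3
import Vale.Agent.P132.Bd8.B1
import Vale.Agent.P132.Bd8.B2
import Vale.Agent.P132.WeightDefs

set_option linter.all false

namespace AFast7725ffx8a
@[reducible] def a0.{u1} {x1 : Type u1} [x2 : NormedAddCommGroup x1] [x3 : InnerProductSpace ℂ x1] : Semiring (x1 →L[ℂ] x1) := inferInstance
theorem a1 : ContinuousAdd ℂ := inferInstance
@[reducible] noncomputable def a2 : Semiring (BoundedContinuousFunction ℝ ℂ) := inferInstance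
@[reducible] def a3.{u1} {x1 : Type u1} [x2 : NormedAddCommGroup x1] [x3 : InnerProductSpace ℂ x1] : AddCommMonoid (x1 →L[ℂ] x1) := inferInstance
@[reducible] def a4.{u1} {x1 : Type u1} [x2 : NormedAddCommGroup x1] [x3 : InnerProductSpace ℂ x1] : AddMonoid (x1 →L[ℂ] x1) := inferInstance
@[reducible] def a5.{u1} {x1 : Type u1} [x2 : NormedAddCommGroup x1] [x3 : InnerProductSpace ℂ x1] : NonAssocSemiring (x1 →L[ℂ] x1) := inferInstance
@[reducible] def a6.{u1} {x1 : Type u1} [x2 : NormedAddCommGroup x1] [x3 : InnerProductSpace ℂ x1] : Add (x1 →L[ℂ] x1) := inferInstance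
@[reducible] def a7.{u1} {x1 : Type u1} [x2 : NormedAddCommGroup x1] [x3 : InnerProductSpace ℂ x1] : Ring (x1 →L[ℂ] x1) := inferInstance
@[reducible] def a8.{u1} {x1 : Type u1} [x2 : NormedAddCommGroup x1] [x3 : InnerProductSpace ℂ x1] : Sub (x1 →L[ℂ] x1) := inferInstance
@[reducible] def a9.{u1} {x1 : Type u1} [x2 : NormedAddCommGroup x1] [x3 : InnerProductSpace ℂ x1] : AddZeroClass (x1 →L[ℂ] x1) := inferInstance
@[reducible] noncomputable def a10.{u1} {x1 : Type u1} [x2 : NormedAddCommGroup x1] [x3 : InnerProductSpace ℂ x1] [x4 : CompleteSpace x1] : StarAddMonoid (x1 →L[ℂ] x1) := inferInstance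
theorem a11 : IsTopologicalSemiring ℂ := inferInstance
theorem a12 : ContinuousMul ℂ := inferInstance
theorem a13 : IsSemitopologicalSemiring ℂ := inferInstance
@[reducible] def a14.{u1} {x1 : Type u1} [x2 : NormedAddCommGroup x1] [x3 : InnerProductSpace ℂ x1] : AddZero (x1 →L[ℂ] x1) := inferInstance
@[reducible] def a15.{u1} {x1 : Type u1} [x2 : NormedAddCommGroup x1] [x3 : InnerProductSpace ℂ x1] : NonAssocRing (x1 →L[ℂ] x1) := inferInstance
theorem a16 : IsTopologicalRing ℂ := inferInstance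
theorem a17.{u1} {x1 : Type u1} [x2 : NormedAddCommGroup x1] [x3 : InnerProductSpace ℂ x1] : DistribMulActionSemiHomClass (x1 →L[ℂ] x1) (⇑(RingHom.id ℂ)) x1 x1 := inferInstance
@[reducible] def a18.{u1} {x1 : Type u1} [x2 : NormedAddCommGroup x1] [x3 : InnerProductSpace ℂ x1] : AddCommGroup (x1 →L[ℂ] x1) := inferInstance
@[reducible] def a19.{u1} {x1 : Type u1} [x2 : NormedAddCommGroup x1] [x3 : InnerProductSpace ℂ x1] : MulZeroOneClass (x1 →L[ℂ] x1) := inferInstance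
theorem a20 : IsSemitopologicalRing ℂ := inferInstance
@[reducible] def a21.{u1} {x1 : Type u1} [x2 : NormedAddCommGroup x1] [x3 : InnerProductSpace ℂ x1] : AddCommMonoidWithOne (x1 →L[ℂ] x1) := inferInstance
@[reducible] noncomputable def a22 : Star (BoundedContinuousFunction ℝ ℂ) := inferInstance
@[reducible] noncomputable def a23 : InvolutiveStar (BoundedContinuousFunction ℝ ℂ) := inferInstance
@[reducible] def a24.{u1} {x1 : Type u1} [x2 : NormedAddCommGroup x1] [x3 : InnerProductSpace ℂ x1] : NonUnitalNonAssocSemiring (x1 →L[ℂ] x1) := inferInstance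
@[reducible] def a25.{u1} {x1 : Type u1} [x2 : NormedAddCommGroup x1] [x3 : InnerProductSpace ℂ x1] : AddCommSemigroup (x1 →L[ℂ] x1) := inferInstance
@[reducible] def a26.{u1} {x1 : Type u1} [x2 : NormedAddCommGroup x1] [x3 : InnerProductSpace ℂ x1] : Distrib (x1 →L[ℂ] x1) := inferInstance
@[reducible] def a27.{u1} {x1 : Type u1} [x2 : NormedAddCommGroup x1] [x3 : InnerProductSpace ℂ x1] : NonUnitalNonAssocRing (x1 →L[ℂ] x1) := inferInstance
@[reducible] def a28.{u1} {x1 : Type u1} [x2 : NormedAddCommGroup x1] [x3 : InnerProductSpace ℂ x1] : MulOneClass (x1 →L[ℂ] x1) := inferInstance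
@[reducible] def a29.{u1} {x1 : Type u1} [x2 : NormedAddCommGroup x1] [x3 : InnerProductSpace ℂ x1] : SubNegMonoid (x1 →L[ℂ] x1) := inferInstance
theorem a30 : BoundedAdd ℂ := inferInstance
@[reducible] noncomputable def a31 : StarAddMonoid (BoundedContinuousFunction ℝ ℂ) := inferInstance
theorem a32 : IsTopologicalAddGroup ℂ := inferInstance
@[reducible] def a33.{u1} {x1 : Type u1} [x2 : NormedAddCommGroup x1] [x3 : InnerProductSpace ℂ x1] : AddGroup (x1 →L[ℂ] x1) := inferInstance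
theorem a34.{u1} {x1 : Type u1} [x2 : NormedAddCommGroup x1] [x3 : InnerProductSpace ℂ x1] : SemilinearMapClass (x1 →L[ℂ] x1) (RingHom.id ℂ) x1 x1 := inferInstance
@[reducible] def a35.{u1} {x1 : Type u1} [x2 : NormedAddCommGroup x1] [x3 : InnerProductSpace ℂ x1] : AddGroupWithOne (x1 →L[ℂ] x1) := inferInstance
@[reducible] def a36.{u1} {x1 : Type u1} [x2 : NormedAddCommGroup x1] [x3 : InnerProductSpace ℂ x1] : AddCommMagma (x1 →L[ℂ] x1) := inferInstance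
@[reducible] def a37.{u1} {x1 : Type u1} [x2 : NormedAddCommGroup x1] [x3 : InnerProductSpace ℂ x1] : AddMonoidWithOne (x1 →L[ℂ] x1) := inferInstance
@[reducible] def a38.{u1} {x1 : Type u1} [x2 : NormedAddCommGroup x1] [x3 : InnerProductSpace ℂ x1] : SubtractionMonoid (x1 →L[ℂ] x1) := inferInstance
@[reducible] noncomputable def a39.{u1} {x1 : Type u1} [x2 : NormedAddCommGroup x1] [x3 : InnerProductSpace ℂ x1] : SeminormedAddCommGroup (x1 →L[ℂ] x1) := inferInstance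
@[reducible] def a40.{u1} {x1 : Type u1} [x2 : NormedAddCommGroup x1] [x3 : InnerProductSpace ℂ x1] : MulOne (x1 →L[ℂ] x1) := inferInstance
@[reducible] def a41.{u1} {x1 : Type u1} [x2 : NormedAddCommGroup x1] [x3 : InnerProductSpace ℂ x1] : Module ℂ (WithLp 2 (x1 × x1)) := inferInstance
@[reducible] def a42.{u1} {x1 : Type u1} [x2 : NormedAddCommGroup x1] [x3 : InnerProductSpace ℂ x1] : AddSemigroup (x1 →L[ℂ] x1) := inferInstance
@[reducible] noncomputable def a43 : Module ℂ (BoundedContinuousFunction ℝ ℂ) := inferInstance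
@[reducible] noncomputable def a44 : NonAssocSemiring (BoundedContinuousFunction ℝ ℂ) := inferInstance
@[reducible] def a45.{u1} {x1 : Type u1} [x2 : NormedAddCommGroup x1] [x3 : InnerProductSpace ℂ x1] : NegZeroClass (x1 →L[ℂ] x1) := inferInstance
@[reducible] def a46.{u1} {x1 : Type u1} [x2 : NormedAddCommGroup x1] [x3 : InnerProductSpace ℂ x1] : SMulZeroClass ℂ (WithLp 2 (x1 × x1)) := inferInstance
@[reducible] def a47.{u1} {x1 : Type u1} [x2 : NormedAddCommGroup x1] [x3 : InnerProductSpace ℂ x1] : SubNegZeroMonoid (x1 →L[ℂ] x1) := inferInstance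
@[reducible] noncomputable def a48 : Mul (BoundedContinuousFunction ℝ ℂ) := inferInstance
@[reducible] def a49.{u1} {x1 : Type u1} [x2 : NormedAddCommGroup x1] [x3 : InnerProductSpace ℂ x1] : DistribSMul ℂ (WithLp 2 (x1 × x1)) := inferInstance
@[reducible] noncomputable def a50.{u1} {x1 : Type u1} [x2 : NormedAddCommGroup x1] [x3 : InnerProductSpace ℂ x1] : Norm (x1 →L[ℂ] x1) := inferInstance
@[reducible] def a51.{u1} {x1 : Type u1} [x2 : NormedAddCommGroup x1] [x3 : InnerProductSpace ℂ x1] : NonUnitalSemiring (x1 →L[ℂ] x1) := inferInstance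
theorem a52 : IsTopologicalDivisionRing ℂ := inferInstance
@[reducible] def a53.{u1} {x1 : Type u1} [x2 : NormedAddCommGroup x1] [x3 : InnerProductSpace ℂ x1] : SubtractionCommMonoid (x1 →L[ℂ] x1) := inferInstance
theorem a54 : IsTopologicalRing (BoundedContinuousFunction ℝ ℂ) := inferInstance
theorem a55 : CharZero ℝ := inferInstance
@[reducible] noncomputable def a56.{u1} {x1 : Type u1} [x2 : NormedAddCommGroup x1] [x3 : InnerProductSpace ℂ x1] : TopologicalSpace (x1 →L[ℂ] x1) := inferInstance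
@[reducible] noncomputable def a57 : AddCommMonoid (BoundedContinuousFunction ℝ ℂ) := inferInstance
@[reducible] def a58.{u1} {x1 : Type u1} [x2 : NormedAddCommGroup x1] : AddCommMonoid (WithLp 2 (x1 × x1)) := inferInstance
theorem a59.{u1} {x1 : Type u1} [x2 : NormedAddCommGroup x1] [x3 : InnerProductSpace ℂ x1] : MulActionSemiHomClass (x1 →L[ℂ] x1) (⇑(RingHom.id ℂ)) x1 x1 := inferInstance
@[reducible] def a60.{u1} {x1 : Type u1} [x2 : NormedAddCommGroup x1] [x3 : InnerProductSpace ℂ x1] : Neg (x1 →L[ℂ] x1) := inferInstance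
theorem a61 : IsBoundedSMul ℂ ℂ := inferInstance
@[reducible] noncomputable def a62 : SMul ℂ (BoundedContinuousFunction ℝ ℂ) := inferInstance
theorem a63 : NormedStarGroup ℂ := inferInstance
theorem a64.{u1} {x1 : Type u1} [x2 : NormedAddCommGroup x1] [x3 : InnerProductSpace ℂ x1] : DistribMulActionSemiHomClass (x1 ≃ₗᵢ⋆[ℂ] x1) (⇑(starRingEnd ℂ)) x1 x1 := inferInstance
end AFast7725ffx8a
attribute [local instance] AFast7725ffx8a.a0 AFast7725ffx8a.a1 AFast7725ffx8a.a2 AFast7725ffx8a.a3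
  AFast7725ffx8a.a4 AFast7725ffx8a.a5 AFast7725ffx8a.a6 AFast7725ffx8a.a7 AFast7725ffx8a.a8
  AFast7725ffx8a.a9 AFast7725ffx8a.a10 AFast7725ffx8a.a11 AFast7725ffx8a.a12 AFast7725ffx8a.a13
  AFast7725ffx8a.a14 AFast7725ffx8a.a15 AFast7725ffx8a.a16 AFast7725ffx8a.a17 AFast7725ffx8a.a18
  AFast7725ffx8a.a19 AFast7725ffx8a.a20 AFast7725ffx8a.a21 AFast7725ffx8a.a22 AFast7725ffx8a.a23
  AFast7725ffx8a.a24 AFast7725ffx8a.a25 AFast7725ffx8a.a26 AFast7725ffx8a.a27 AFast7725ffx8a.a28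
  AFast7725ffx8a.a29 AFast7725ffx8a.a30 AFast7725ffx8a.a31 AFast7725ffx8a.a32 AFast7725ffx8a.a33
  AFast7725ffx8a.a34 AFast7725ffx8a.a35 AFast7725ffx8a.a36 AFast7725ffx8a.a37 AFast7725ffx8a.a38
  AFast7725ffx8a.a39 AFast7725ffx8a.a40 AFast7725ffx8a.a41 AFast7725ffx8a.a42 AFast7725ffx8a.a43
  AFast7725ffx8a.a44 AFast7725ffx8a.a45 AFast7725ffx8a.a46 AFast7725ffx8a.a47 AFast7725ffx8a.a48
  AFast7725ffx8a.a49 AFast7725ffx8a.a50 AFast7725ffx8a.a51 AFast7725ffx8a.a52 AFast7725ffx8a.a53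
  AFast7725ffx8a.a54 AFast7725ffx8a.a55 AFast7725ffx8a.a56 AFast7725ffx8a.a57 AFast7725ffx8a.a58
  AFast7725ffx8a.a59 AFast7725ffx8a.a60 AFast7725ffx8a.a61 AFast7725ffx8a.a62 AFast7725ffx8a.a63
  AFast7725ffx8a.a64
namespace AFast7725ffx8b
@[reducible] def a0.{u1} {x1 : Type u1} [x2 : NormedAddCommGroup x1] [x3 : InnerProductSpace ℂ x1] : Algebra ℂ (x1 →L[ℂ] x1) := inferInstance
@[reducible] def a1.{u1} {x1 : Type u1} [x2 : NormedAddCommGroup x1] [x3 : InnerProductSpace ℂ x1] : Module ℂ (x1 →L[ℂ] x1) := inferInstance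
@[reducible] def a2.{u1} {x1 : Type u1} [x2 : NormedAddCommGroup x1] [x3 : InnerProductSpace ℂ x1] : SMul ℂ (x1 →L[ℂ] x1) := inferInstance
@[reducible] def a3.{u1} {x1 : Type u1} [x2 : NormedAddCommGroup x1] [x3 : InnerProductSpace ℂ x1] : SMulZeroClass ℂ (x1 →L[ℂ] x1) := inferInstance
@[reducible] def a4.{u1} {x1 : Type u1} [x2 : NormedAddCommGroup x1] [x3 : InnerProductSpace ℂ x1] : DistribSMul ℂ (x1 →L[ℂ] x1) := inferInstance
theorem a5.{u1} {x1 : Type u1} [x2 : NormedAddCommGroup x1] [x3 : InnerProductSpace ℂ x1] [x4 : CompleteSpace x1] : IsOrderedAddMonoid (x1 →L[ℂ] x1) := inferInstance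
@[reducible] def a6.{u1} {x1 : Type u1} [x2 : NormedAddCommGroup x1] [x3 : InnerProductSpace ℂ x1] : DistribMulAction ℂ (x1 →L[ℂ] x1) := inferInstance
@[reducible] noncomputable def a7.{u1} {x1 : Type u1} [x2 : NormedAddCommGroup x1] [x3 : InnerProductSpace ℂ x1] : NonUnitalNormedRing (x1 →L[ℂ] x1) := inferInstance
@[reducible] noncomputable def a8.{u1} {x1 : Type u1} [x2 : NormedAddCommGroup x1] [x3 : InnerProductSpace ℂ x1] : NonUnitalSeminormedRing (x1 →L[ℂ] x1) := inferInstance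
@[reducible] noncomputable def a9.{u1} {x1 : Type u1} [x2 : NormedAddCommGroup x1] [x3 : InnerProductSpace ℂ x1] : Module ℝ (x1 →L[ℂ] x1) := inferInstance
theorem a10.{u1} {x1 : Type u1} [x2 : NormedAddCommGroup x1] [x3 : InnerProductSpace ℂ x1] : AddMonoidHomClass (x1 →L[ℂ] x1) x1 x1 := inferInstance
@[reducible] noncomputable def a11.{u1} {x1 : Type u1} [x2 : NormedAddCommGroup x1] [x3 : InnerProductSpace ℂ x1] : Algebra ℝ (x1 →L[ℂ] x1) := inferInstance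
theorem a12.{u1} {x1 : Type u1} [x2 : NormedAddCommGroup x1] [x3 : InnerProductSpace ℂ x1] [x4 : CompleteSpace x1] : CovariantClass (x1 →L[ℂ] x1) (x1 →L[ℂ] x1) (Function.swap fun x1_1 x2_1 => x1_1 + x2_1) fun x1_1 x2_1 => x1_1 ≤ x2_1 := inferInstance
@[reducible] def a13.{u1} {x1 : Type u1} [x2 : NormedAddCommGroup x1] [x3 : InnerProductSpace ℂ x1] : MulAction ℂ (x1 →L[ℂ] x1) := inferInstance
theorem a14.{u1} {x1 : Type u1} [x2 : NormedAddCommGroup x1] [x3 : InnerProductSpace ℂ x1] [x4 : CompleteSpace x1] : AddLeftMono (x1 →L[ℂ] x1) := inferInstance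
theorem a15.{u1} {x1 : Type u1} [x2 : NormedAddCommGroup x1] [x3 : InnerProductSpace ℂ x1] [x4 : CompleteSpace x1] : NonUnitalAlgHomClass (BoundedContinuousFunction ℝ ℂ →⋆ₐ[ℂ] x1 →L[ℂ] x1) ℂ (BoundedContinuousFunction ℝ ℂ) (x1 →L[ℂ] x1) := inferInstance
@[reducible] noncomputable def a16.{u1} {x1 : Type u1} [x2 : NormedAddCommGroup x1] [x3 : InnerProductSpace ℂ x1] : SMulZeroClass ℝ (x1 →L[ℂ] x1) := inferInstance
theorem a17.{u1} {x1 : Type u1} [x2 : NormedAddCommGroup x1] [x3 : InnerProductSpace ℂ x1] : IsScalarTower ℝ (x1 →L[ℂ] x1) (x1 →L[ℂ] x1) := inferInstance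
theorem a18.{u1} {x1 : Type u1} [x2 : NormedAddCommGroup x1] [x3 : InnerProductSpace ℂ x1] : SMulCommClass ℝ (x1 →L[ℂ] x1) (x1 →L[ℂ] x1) := inferInstance
@[reducible] noncomputable def a19.{u1} {x1 : Type u1} [x2 : NormedAddCommGroup x1] [x3 : InnerProductSpace ℂ x1] : DistribSMul ℝ (x1 →L[ℂ] x1) := inferInstance
theorem a20.{u1} {x1 : Type u1} [x2 : NormedAddCommGroup x1] [x3 : InnerProductSpace ℂ x1] [x4 : CompleteSpace x1] : IsOrderedCancelAddMonoid (x1 →L[ℂ] x1) := inferInstance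
@[reducible] noncomputable def a21.{u1} {x1 : Type u1} [x2 : NormedAddCommGroup x1] [x3 : InnerProductSpace ℂ x1] : SMul ℝ (x1 →L[ℂ] x1) := inferInstance
@[reducible] noncomputable def a22.{u1} {x1 : Type u1} [x2 : NormedAddCommGroup x1] [x3 : InnerProductSpace ℂ x1] : DistribMulAction ℝ (x1 →L[ℂ] x1) := inferInstance
theorem a23.{u1} {x1 : Type u1} [x2 : NormedAddCommGroup x1] [x3 : InnerProductSpace ℂ x1] : ZeroHomClass (x1 →L[ℂ] x1) x1 x1 := inferInstance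
theorem a24.{u1} {x1 : Type u1} [x2 : NormedAddCommGroup x1] [x3 : InnerProductSpace ℂ x1] : SMulCommClass ℂ (x1 →L[ℂ] x1) (x1 →L[ℂ] x1) := inferInstance
theorem a25.{u1} {x1 : Type u1} [x2 : NormedAddCommGroup x1] [x3 : InnerProductSpace ℂ x1] [x4 : CompleteSpace x1] : MulActionSemiHomClass (BoundedContinuousFunction ℝ ℂ →⋆ₐ[ℂ] x1 →L[ℂ] x1) (⇑(RingHom.id ℂ)) (BoundedContinuousFunction ℝ ℂ) (x1 →L[ℂ] x1) := inferInstance
theorem a26.{u1} {x1 : Type u1} [x2 : NormedAddCommGroup x1] [x3 : InnerProductSpace ℂ x1] [x4 : CompleteSpace x1] : LinearMapClass (BoundedContinuousFunction ℝ ℂ →⋆ₐ[ℂ] x1 →L[ℂ] x1) ℂ (BoundedContinuousFunction ℝ ℂ) (x1 →L[ℂ] x1) := inferInstance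
theorem a27.{u1} {x1 : Type u1} [x2 : NormedAddCommGroup x1] [x3 : InnerProductSpace ℂ x1] [x4 : CompleteSpace x1] : MulHomClass (BoundedContinuousFunction ℝ ℂ →⋆ₐ[ℂ] x1 →L[ℂ] x1) (BoundedContinuousFunction ℝ ℂ) (x1 →L[ℂ] x1) := inferInstance
theorem a28.{u1} {x1 : Type u1} [x2 : NormedAddCommGroup x1] [x3 : InnerProductSpace ℂ x1] [x4 : CompleteSpace x1] : AddMonoidHomClass (BoundedContinuousFunction ℝ ℂ →⋆ₐ[ℂ] x1 →L[ℂ] x1) (BoundedContinuousFunction ℝ ℂ) (x1 →L[ℂ] x1) := inferInstance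
@[reducible] def a29.{u1} {x1 : Type u1} [x2 : NormedAddCommGroup x1] [x3 : InnerProductSpace ℂ x1] : SemigroupAction ℂ (x1 →L[ℂ] x1) := inferInstance
theorem a30.{u1} {x1 : Type u1} [x2 : NormedAddCommGroup x1] [x3 : InnerProductSpace ℂ x1] [x4 : CompleteSpace x1] : DistribMulActionSemiHomClass (BoundedContinuousFunction ℝ ℂ →⋆ₐ[ℂ] x1 →L[ℂ] x1) (⇑(MonoidHom.id ℂ)) (BoundedContinuousFunction ℝ ℂ) (x1 →L[ℂ] x1) := inferInstance
theorem a31.{u1} {x1 : Type u1} [x2 : NormedAddCommGroup x1] [x3 : InnerProductSpace ℂ x1] : IsScalarTower ℂ (x1 →L[ℂ] x1) (x1 →L[ℂ] x1) := inferInstance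
theorem a32.{u1} {x1 : Type u1} [x2 : NormedAddCommGroup x1] [x3 : InnerProductSpace ℂ x1] : AddMonoidHomClass (x1 ≃ₗᵢ⋆[ℂ] x1) x1 x1 := inferInstance
theorem a33.{u1} {x1 : Type u1} [x2 : NormedAddCommGroup x1] [x3 : InnerProductSpace ℂ x1] [x4 : CompleteSpace x1] : OneHomClass (BoundedContinuousFunction ℝ ℂ →⋆ₐ[ℂ] x1 →L[ℂ] x1) (BoundedContinuousFunction ℝ ℂ) (x1 →L[ℂ] x1) := inferInstance
theorem a34.{u1} {x1 : Type u1} [x2 : NormedAddCommGroup x1] [x3 : InnerProductSpace ℂ x1] [x4 : CompleteSpace x1] : MonoidHomClass (BoundedContinuousFunction ℝ ℂ →⋆ₐ[ℂ] x1 →L[ℂ] x1) (BoundedContinuousFunction ℝ ℂ) (x1 →L[ℂ] x1) := inferInstance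
end AFast7725ffx8b
attribute [local instance] AFast7725ffx8b.a0 AFast7725ffx8b.a1 AFast7725ffx8b.a2 AFast7725ffx8b.a3
  AFast7725ffx8b.a4 AFast7725ffx8b.a5 AFast7725ffx8b.a6 AFast7725ffx8b.a7 AFast7725ffx8b.a8
  AFast7725ffx8b.a9 AFast7725ffx8b.a10 AFast7725ffx8b.a11 AFast7725ffx8b.a12 AFast7725ffx8b.a13
  AFast7725ffx8b.a14 AFast7725ffx8b.a15 AFast7725ffx8b.a16 AFast7725ffx8b.a17 AFast7725ffx8b.a18
  AFast7725ffx8b.a19 AFast7725ffx8b.a20 AFast7725ffx8b.a21 AFast7725ffx8b.a22 AFast7725ffx8b.a23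
  AFast7725ffx8b.a24 AFast7725ffx8b.a25 AFast7725ffx8b.a26 AFast7725ffx8b.a27 AFast7725ffx8b.a28
  AFast7725ffx8b.a29 AFast7725ffx8b.a30 AFast7725ffx8b.a31 AFast7725ffx8b.a32 AFast7725ffx8b.a33
  AFast7725ffx8b.a34
section

open Filter Topology MeasureTheory
open scoped ComplexConjugate InnerProductSpace BoundedContinuousFunction

namespace Vale.Agent.P132

universe u

variable {H : Type u} [NormedAddCommGroup H] [InnerProductSpace ℂ H] [CompleteSpace H]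

theorem g2_mem_commutant {M : VonNeumannAlgebra H} {z : H →L[ℂ] H}
    (h : ∀ g ∈ M, ∀ v, g (z v) = z (g v)) : z ∈ M.commutant := by
  rw [VonNeumannAlgebra.mem_commutant_iff]
  intro g hg
  ext v
  exact h g hg v

theorem g2_commute_apply {M : VonNeumannAlgebra H} {g z : H →L[ℂ] H} (hg : g ∈ M)
    (hz : z ∈ M.commutant) (v : H) : g (z v) = z (g v) := by
  have := VonNeumannAlgebra.mem_commutant_iff.1 hz g hg
  have h2 := congrArg (fun f : H →L[ℂ] H => f v) this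
  simpa using h2

/-- star of an operator, inner product form -/
theorem g2_star_left (a : H →L[ℂ] H) (v w : H) : ⟪star a v, w⟫_ℂ = ⟪v, a w⟫_ℂ := by
  rw [ContinuousLinearMap.star_eq_adjoint, ContinuousLinearMap.adjoint_inner_left]

theorem g2_star_right (a : H →L[ℂ] H) (v w : H) : ⟪v, star a w⟫_ℂ = ⟪a v, w⟫_ℂ := by
  rw [ContinuousLinearMap.star_eq_adjoint, ContinuousLinearMap.adjoint_inner_right]

/-- resolvent of a positive operator -/
theorem g2_res (S : H →L[ℂ] H) (hsa : star S = S) (hS : ∀ v, 0 ≤ (⟪v, S v⟫_ℂ).re) (ε : ℝ)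
    (hε : 0 < ε) :
    ∃ B : H →L[ℂ] H, B * (S + (ε : ℂ) • 1) = 1 ∧ (S + (ε : ℂ) • 1) * B = 1 ∧ star B = B ∧
      ∀ v, ‖B (S v)‖ ≤ ‖v‖ := by
  have hpos : (0 : H →L[ℂ] H) ≤ S := by
    rw [ContinuousLinearMap.nonneg_iff_isPositive]
    rw [ContinuousLinearMap.isPositive_iff_complex]
    intro v
    have h1 : conj ⟪S v, v⟫_ℂ = ⟪S v, v⟫_ℂ := by
      rw [inner_conj_symm]
      calc ⟪v, S v⟫_ℂ = ⟪star S v, v⟫_ℂ := (g2_star_left S v v).symm
        _ = ⟪S v, v⟫_ℂ := by rw [hsa]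
    have h2 := Complex.conj_eq_iff_re.1 h1
    refine ⟨h2, ?_⟩
    have h3 := hS v
    rw [inner_conj_symm] at h1
    rw [h1] at h3
    exact h3
  have hunit : IsUnit (S + (ε : ℂ) • (1 : H →L[ℂ] H)) := by
    apply CStarAlgebra.isUnit_of_le (((ε : ℂ) • (1 : H →L[ℂ] H)))
    exact le_add_of_nonneg_left hpos
  obtain ⟨u, hu⟩ := hunit
  have hBS : (↑u⁻¹ : H →L[ℂ] H) * (S + (ε : ℂ) • 1) = 1 := by rw [← hu]; simp
  have hSB : (S + (ε : ℂ) • 1) * (↑u⁻¹ : H →L[ℂ] H) = 1 := by rw [← hu]; simp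
  refine ⟨(↑u⁻¹ : H →L[ℂ] H), hBS, hSB, ?_, ?_⟩
  · have h1 : star (S + (ε : ℂ) • (1 : H →L[ℂ] H)) = S + (ε : ℂ) • (1 : H →L[ℂ] H) := by
      simp [hsa]
    have h2 : star (↑u⁻¹ : H →L[ℂ] H) * (S + (ε : ℂ) • 1) = 1 := by
      have := congrArg star hSB
      rw [star_mul, h1, star_one] at this
      exact this
    calc star (↑u⁻¹ : H →L[ℂ] H) = star (↑u⁻¹ : H →L[ℂ] H) * ((S + (ε : ℂ) • 1) *
          (↑u⁻¹ : H →L[ℂ] H)) := by rw [hSB, mul_one]
      _ = (↑u⁻¹ : H →L[ℂ] H) := by rw [← mul_assoc, h2, one_mul]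
  · intro v
    set B : H →L[ℂ] H := (↑u⁻¹ : H →L[ℂ] H) with hB
    have hcomm : B * S = S * B := by
      have h1 : B * S + (ε : ℂ) • B = 1 := by
        rw [← hBS]; simp [mul_add]
      have h2 : S * B + (ε : ℂ) • B = 1 := by
        rw [← hSB]; simp [add_mul]
      exact add_right_cancel (h1.trans h2.symm)
    have e1 : B (S v) = S (B v) := by
      have := congrArg (fun f : H →L[ℂ] H => f v) hcomm
      simpa using this
    have e2 : S (B v) + (ε : ℂ) • B v = v := by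
      have := congrArg (fun f : H →L[ℂ] H => f v) hSB
      simpa using this
    rw [e1]
    have h3 : ‖S (B v)‖ ^ 2 ≤ ‖v‖ ^ 2 := by
      conv_rhs => rw [← e2]
      rw [@norm_add_sq ℂ]
      have h4 : 0 ≤ RCLike.re ⟪S (B v), (ε : ℂ) • B v⟫_ℂ := by
        rw [inner_smul_right]
        have h5 := hS (B v)
        have h6 : 0 ≤ (⟪S (B v), B v⟫_ℂ).re := by
          have h7 := inner_re_symm (𝕜 := ℂ) (S (B v)) (B v)
          simp only [RCLike.re_to_complex] at h7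
          rw [h7]; exact h5
        simp only [RCLike.re_to_complex, Complex.re_ofReal_mul]
        positivity
      linarith only [sq_nonneg ‖(ε : ℂ) • B v‖, h4]
    exact (sq_le_sq₀ (norm_nonneg _) (norm_nonneg _)).1 h3

/-- `(S + ε)⁻¹ S ζ → ζ` for a positive injective operator `S` -/
theorem g2_res_tendsto (S : H →L[ℂ] H) (hsa : star S = S)
    (hinj : ∀ v, S v = 0 → v = 0) (ζ : H) (δ : ℝ) (hδ : 0 < δ) :
    ∃ ε₀ > 0, ∀ ε : ℝ, 0 < ε → ε < ε₀ → ∀ B : H →L[ℂ] H, B * (S + (ε : ℂ) • 1) = 1 →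
      (∀ v, ‖B (S v)‖ ≤ ‖v‖) → ‖B (S ζ) - ζ‖ < δ := by
  -- range of `S` is dense
  have hdense : Dense (Set.range S) := by
    have h1 : (S.range.topologicalClosure : Submodule ℂ H) = ⊤ := by
      rw [Submodule.topologicalClosure_eq_top_iff, Submodule.eq_bot_iff]
      intro v hv
      apply hinj
      have h2 : ∀ w, ⟪w, S v⟫_ℂ = 0 := by
        intro w
        have h3 : ⟪S w, v⟫_ℂ = 0 := hv (S w) ⟨w, rfl⟩
        rw [← h3, ← g2_star_right S w v, hsa]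
      exact inner_self_eq_zero.1 (h2 (S v))
    have h2 := Submodule.dense_iff_topologicalClosure_eq_top.2 h1
    rw [LinearMap.coe_range] at h2
    exact h2
  obtain ⟨z, ⟨w, rfl⟩, hz⟩ := hdense.exists_dist_lt ζ (ε := δ / 3) (by positivity)
  rw [dist_eq_norm] at hz
  refine ⟨δ / (3 * (‖w‖ + 1)), by positivity, ?_⟩
  intro ε hε hε₀ B hB hBS
  have e1 : B (S (S w)) + (ε : ℂ) • B (S w) = S w := by
    have := congrArg (fun f : H →L[ℂ] H => f (S w)) hB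
    simpa using this
  have e2 : ‖B (S (S w)) - S w‖ ≤ ε * ‖w‖ := by
    have : B (S (S w)) - S w = -((ε : ℂ) • B (S w)) := by
      rw [eq_neg_iff_add_eq_zero, sub_add_eq_add_sub, e1, sub_self]
    rw [this, norm_neg, norm_smul, Complex.norm_real, Real.norm_of_nonneg hε.le]
    exact mul_le_mul_of_nonneg_left (hBS w) hε.le
  have e3 : ‖B (S (ζ - S w))‖ ≤ ‖ζ - S w‖ := hBS _
  have e4 : B (S ζ) - ζ = B (S (ζ - S w)) + (B (S (S w)) - S w) + (S w - ζ) := by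
    simp only [map_sub]
    abel
  have e5 : ε * ‖w‖ < δ / 3 := by
    have h1 : ε * ‖w‖ ≤ ε * (‖w‖ + 1) := by
      apply mul_le_mul_of_nonneg_left _ hε.le
      linarith only []
    have h2 : ε * (‖w‖ + 1) < δ / (3 * (‖w‖ + 1)) * (‖w‖ + 1) :=
      mul_lt_mul_of_pos_right hε₀ (by positivity)
    have h3 : δ / (3 * (‖w‖ + 1)) * (‖w‖ + 1) = δ / 3 := by
      field_simp
    linarith
  calc ‖B (S ζ) - ζ‖ = ‖B (S (ζ - S w)) + (B (S (S w)) - S w) + (S w - ζ)‖ := by rw [e4]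
    _ ≤ ‖B (S (ζ - S w))‖ + ‖B (S (S w)) - S w‖ + ‖S w - ζ‖ := norm_add₃_le
    _ < δ / 3 + δ / 3 + δ / 3 := by
        have h6 : ‖S w - ζ‖ = ‖ζ - S w‖ := norm_sub_rev _ _
        have h7 : ‖B (S (S w)) - S w‖ < δ / 3 := e2.trans_lt e5
        linarith
    _ = δ := by ring

theorem g2_smul_mem {M : VonNeumannAlgebra H} (c : ℂ) {a : H →L[ℂ] H} (ha : a ∈ M) :
    c • a ∈ M :=
  show c • a ∈ M.toStarSubalgebra from M.toStarSubalgebra.smul_mem ha c

/-- real part of an operator -/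
theorem g2_re_mem {M : VonNeumannAlgebra H} {a : H →L[ℂ] H} (ha : a ∈ M) :
    ∃ b ∈ M, ∃ c ∈ M, star b = b ∧ star c = c ∧ a = b + Complex.I • c := by
  have hs : star a ∈ M := star_mem ha
  refine ⟨(1 / 2 : ℂ) • (a + star a), g2_smul_mem _ (add_mem ha hs),
    (-(Complex.I / 2)) • (a - star a), g2_smul_mem _ (sub_mem ha hs), ?_, ?_, ?_⟩
  · rw [star_smul, star_add, star_star, add_comm]
    simp
  · rw [star_smul, star_sub, star_star]
    simp only [RCLike.star_def, map_neg, map_div₀, Complex.conj_I, map_ofNat]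
    rw [← neg_sub a (star a), smul_neg, ← neg_smul]
    ring_nf
  · rw [smul_smul]
    have h1 : Complex.I * (-(Complex.I / 2)) = 1 / 2 := by
      rw [mul_neg, ← mul_div_assoc, Complex.I_mul_I]; ring
    rw [h1, ← smul_add]
    have h2 : a + star a + (a - star a) = (2 : ℂ) • a := by
      rw [two_smul]; abel
    rw [h2, smul_smul]
    norm_num

/-- symmetric form of the hypothesis of `DL` -/
theorem g2_symm (M : VonNeumannAlgebra H) (ξ ζ : H)
    (hζ : ∀ a ∈ M, star a = a → (⟪a ξ, ζ⟫_ℂ).im = 0) (a : H →L[ℂ] H) (ha : a ∈ M) :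
    ⟪a ξ, ζ⟫_ℂ = ⟪a ζ, ξ⟫_ℂ := by
  have key : ∀ b ∈ M, star b = b → ⟪b ξ, ζ⟫_ℂ = ⟪b ζ, ξ⟫_ℂ := by
    intro b hb hbs
    have h1 := hζ b hb hbs
    have h2 : conj ⟪b ξ, ζ⟫_ℂ = ⟪b ξ, ζ⟫_ℂ := Complex.conj_eq_iff_im.2 h1
    rw [← h2, inner_conj_symm, ← g2_star_left b ζ ξ, hbs]
  obtain ⟨b, hb, c, hc, hbs, hcs, rfl⟩ := g2_re_mem ha
  simp only [add_apply, smul_apply, inner_add_left,
    inner_smul_left, key b hb hbs, key c hc hcs]

theorem g2_symm2 (M : VonNeumannAlgebra H) (ξ ζ : H)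
    (hζ : ∀ a ∈ M, star a = a → (⟪a ξ, ζ⟫_ℂ).im = 0) (x y : H →L[ℂ] H) (hx : x ∈ M)
    (hy : y ∈ M) : ⟪y ξ, x ζ⟫_ℂ = ⟪y ζ, x ξ⟫_ℂ := by
  have h1 := g2_symm M ξ ζ hζ (star x * y) (mul_mem (star_mem hx) hy)
  simpa [g2_star_left] using h1

/-- the vectors `(x ξ, x ζ)` -/
def g2_graph (M : VonNeumannAlgebra H) (ξ ζ : H) : Submodule ℂ (WithLp 2 (H × H)) where
  carrier := {w | ∃ x ∈ M, w = WithLp.toLp 2 (x ξ, x ζ)}
  add_mem' := by
    rintro _ _ ⟨x, hx, rfl⟩ ⟨y, hy, rfl⟩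
    exact ⟨x + y, add_mem hx hy, by simp [← WithLp.toLp_add]⟩
  zero_mem' := ⟨0, zero_mem M, by simp; rfl⟩
  smul_mem' := by
    rintro c _ ⟨x, hx, rfl⟩
    exact ⟨c • x, g2_smul_mem c hx, by simp [← WithLp.toLp_smul]⟩

/-- diagonal action on `H ⊕ H` -/
def g2_diag (a : H →L[ℂ] H) : WithLp 2 (H × H) →L[ℂ] WithLp 2 (H × H) :=
  ((WithLp.prodContinuousLinearEquiv 2 ℂ H H).symm : (H × H) →L[ℂ] WithLp 2 (H × H)) ∘L
    (a.prodMap a) ∘L ((WithLp.prodContinuousLinearEquiv 2 ℂ H H) :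
      WithLp 2 (H × H) →L[ℂ] (H × H))

omit [CompleteSpace H] in
theorem g2_diag_apply (a : H →L[ℂ] H) (u v : H) :
    g2_diag a (WithLp.toLp 2 (u, v)) = WithLp.toLp 2 (a u, a v) := by
  simp [g2_diag]

theorem g2_diag_inner (a : H →L[ℂ] H) (w w' : WithLp 2 (H × H)) :
    ⟪g2_diag (star a) w, w'⟫_ℂ = ⟪w, g2_diag a w'⟫_ℂ := by
  obtain ⟨⟨u, v⟩, rfl⟩ := WithLp.toLp_surjective 2 w
  obtain ⟨⟨u', v'⟩, rfl⟩ := WithLp.toLp_surjective 2 w'
  simp [g2_diag_apply, g2_star_left]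

theorem g2_proj_comm {W : Type*} [NormedAddCommGroup W] [InnerProductSpace ℂ W]
    (K : Submodule ℂ W) [K.HasOrthogonalProjection] (a b : W →L[ℂ] W)
    (hab : ∀ w w', ⟪b w, w'⟫_ℂ = ⟪w, a w'⟫_ℂ) (ha : ∀ w ∈ K, a w ∈ K) (hb : ∀ w ∈ K, b w ∈ K)
    (w : W) : a (K.starProjection w) = K.starProjection (a w) := by
  symm
  apply Submodule.eq_starProjection_of_mem_of_inner_eq_zero (ha _ (by simp))
  intro k hk
  rw [← map_sub, ← inner_conj_symm, ← hab, inner_conj_symm]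
  exact Submodule.starProjection_inner_eq_zero w (b k) (hb k hk)

/-- G2 -/
theorem dense_commutant (M : VonNeumannAlgebra H) (ξ : H) (hsep : ∀ a ∈ M, a ξ = 0 → a = 0) :
    Dense {ζ : H | ∃ a ∈ M.commutant, a ξ = ζ} := by
  let K : Submodule ℂ H :=
    { carrier := {ζ : H | ∃ a ∈ M.commutant, a ξ = ζ}
      add_mem' := by
        rintro _ _ ⟨x, hx, rfl⟩ ⟨y, hy, rfl⟩
        exact ⟨x + y, add_mem hx hy, by simp⟩
      zero_mem' := ⟨0, zero_mem _, by simp⟩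
      smul_mem' := by
        rintro c _ ⟨x, hx, rfl⟩
        exact ⟨c • x, g2_smul_mem c hx, by simp⟩ }
  let p : H →L[ℂ] H := K.topologicalClosure.starProjection
  have hinv : ∀ g ∈ M.commutant, ∀ w ∈ K.topologicalClosure, g w ∈ K.topologicalClosure := by
    intro g hg w hw
    refine map_mem_closure g.continuous hw ?_
    rintro _ ⟨x, hx, rfl⟩
    exact ⟨g * x, mul_mem hg hx, rfl⟩
  have hp : p ∈ M := by
    have h0 : p ∈ M.commutant.commutant := by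
      apply g2_mem_commutant
      intro g hg v
      exact g2_proj_comm K.topologicalClosure g (star g) (g2_star_left g) (hinv g hg)
        (hinv _ (star_mem hg)) v
    simpa using h0
  have hξ : ξ ∈ K.topologicalClosure :=
    K.le_topologicalClosure ⟨1, one_mem _, rfl⟩
  have hpξ : p ξ = ξ := Submodule.starProjection_eq_self_iff.2 hξ
  have hp1 : 1 - p = 0 := by
    apply hsep _ (sub_mem (one_mem _) hp)
    simp [hpξ]
  have htop : K.topologicalClosure = ⊤ := by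
    rw [Submodule.eq_top_iff']
    intro v
    have h1 : p = 1 := (sub_eq_zero.1 hp1).symm
    rw [← Submodule.starProjection_eq_self_iff (K := K.topologicalClosure)]
    change p v = v
    rw [h1]; rfl
  exact Submodule.dense_iff_topologicalClosure_eq_top.2 htop

/-- G2 -/
theorem DL (M : VonNeumannAlgebra H) (ξ : H) (hcyc : Dense {ζ : H | ∃ a ∈ M, a ξ = ζ}) (ζ : H)
    (hζ : ∀ a ∈ M, star a = a → (⟪a ξ, ζ⟫_ℂ).im = 0) :
    ζ ∈ closure (saVec M.commutant ξ) := by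
  let W := WithLp 2 (H × H)
  let G : Submodule ℂ W := (g2_graph M ξ ζ).topologicalClosure
  let E : W →L[ℂ] W := G.starProjection
  have hGinv : ∀ g ∈ M, ∀ w ∈ G, g2_diag g w ∈ G := by
    intro g hg w hw
    refine map_mem_closure (g2_diag g).continuous hw ?_
    rintro _ ⟨x, hx, rfl⟩
    exact ⟨g * x, mul_mem hg hx, by rw [g2_diag_apply]; rfl⟩
  have hEcomm : ∀ g ∈ M, ∀ w, g2_diag g (E w) = E (g2_diag g w) := fun g hg w =>
    g2_proj_comm G (g2_diag g) (g2_diag (star g)) (g2_diag_inner g) (hGinv g hg)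
      (hGinv _ (star_mem hg)) w
  let i1 : H →L[ℂ] W := ((WithLp.prodContinuousLinearEquiv 2 ℂ H H).symm :
    (H × H) →L[ℂ] WithLp 2 (H × H)) ∘L ContinuousLinearMap.inl ℂ H H
  let i2 : H →L[ℂ] W := ((WithLp.prodContinuousLinearEquiv 2 ℂ H H).symm :
    (H × H) →L[ℂ] WithLp 2 (H × H)) ∘L ContinuousLinearMap.inr ℂ H H
  have hi1 : ∀ v, i1 v = WithLp.toLp 2 (v, 0) := fun v => rfl
  have hi2 : ∀ v, i2 v = WithLp.toLp 2 (0, v) := fun v => rfl
  let e11 : H →L[ℂ] H := WithLp.fstL 2 ℂ H H ∘L E ∘L i1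
  let e12 : H →L[ℂ] H := WithLp.fstL 2 ℂ H H ∘L E ∘L i2
  let e21 : H →L[ℂ] H := WithLp.sndL 2 ℂ H H ∘L E ∘L i1
  let e22 : H →L[ℂ] H := WithLp.sndL 2 ℂ H H ∘L E ∘L i2
  have hE : ∀ u v, E (WithLp.toLp 2 (u, v)) = WithLp.toLp 2 (e11 u + e12 v, e21 u + e22 v) := by
    intro u v
    have h1 : (WithLp.toLp 2 (u, v) : W) = i1 u + i2 v := by
      rw [hi1, hi2, ← WithLp.toLp_add]; simp
    rw [h1, map_add]
    rfl
  have hEsymm : ∀ w w', ⟪E w, w'⟫_ℂ = ⟪w, E w'⟫_ℂ := fun w w' =>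
    Submodule.inner_starProjection_left_eq_right G w w'
  have hEE : ∀ w, E (E w) = E w := fun w =>
    Submodule.starProjection_eq_self_iff.2 (by simp [E])
  have hin : ∀ u v u' v' : H, ⟪(WithLp.toLp 2 (u, v) : W), WithLp.toLp 2 (u', v')⟫_ℂ =
      ⟪u, u'⟫_ℂ + ⟪v, v'⟫_ℂ := fun u v u' v' => rfl
  have hadj : ∀ u v u' v', ⟪e11 u + e12 v, u'⟫_ℂ + ⟪e21 u + e22 v, v'⟫_ℂ =
      ⟪u, e11 u' + e12 v'⟫_ℂ + ⟪v, e21 u' + e22 v'⟫_ℂ := by
    intro u v u' v'
    rw [← hin, ← hin, ← hE, ← hE]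
    exact hEsymm _ _
  have s11 : star e11 = e11 := by
    ext v
    apply ext_inner_left ℂ
    intro w
    rw [g2_star_right]
    simpa using hadj w 0 v 0
  have s22 : star e22 = e22 := by
    ext v
    apply ext_inner_left ℂ
    intro w
    rw [g2_star_right]
    simpa using hadj 0 w 0 v
  have s12 : star e12 = e21 := by
    ext v
    apply ext_inner_left ℂ
    intro w
    rw [g2_star_right]
    simpa using hadj 0 w v 0
  have hcomm : ∀ g ∈ M, ∀ u v, g (e11 u + e12 v) = e11 (g u) + e12 (g v) ∧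
      g (e21 u + e22 v) = e21 (g u) + e22 (g v) := by
    intro g hg u v
    have h1 := hEcomm g hg (WithLp.toLp 2 (u, v))
    rw [hE, g2_diag_apply, g2_diag_apply, hE] at h1
    have h2 := congrArg (WithLp.ofLp) h1
    simpa using h2
  have c11 : e11 ∈ M.commutant := g2_mem_commutant fun g hg v => by
    simpa using (hcomm g hg v 0).1
  have c12 : e12 ∈ M.commutant := g2_mem_commutant fun g hg v => by
    simpa using (hcomm g hg 0 v).1
  have c22 : e22 ∈ M.commutant := g2_mem_commutant fun g hg v => by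
    simpa using (hcomm g hg 0 v).2
  -- `E` fixes `(ξ, ζ)`
  have f1 : e11 ξ + e12 ζ = ξ ∧ e21 ξ + e22 ζ = ζ := by
    have h1 : (WithLp.toLp 2 (ξ, ζ) : W) ∈ G :=
      Submodule.le_topologicalClosure _ ⟨1, one_mem _, rfl⟩
    have h2 : E (WithLp.toLp 2 (ξ, ζ)) = WithLp.toLp 2 (ξ, ζ) :=
      Submodule.starProjection_eq_self_iff.2 h1
    rw [hE] at h2
    have h3 := congrArg (WithLp.ofLp) h2
    simpa using h3
  -- orthogonality to `G`
  have hperp : ∀ w : W, (∀ x ∈ M, ⟪(WithLp.toLp 2 (x ξ, x ζ) : W), w⟫_ℂ = 0) →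
      ∀ g ∈ G, ⟪g, w⟫_ℂ = 0 := by
    intro w hw g hg
    have hcl : IsClosed {g : W | ⟪g, w⟫_ℂ = 0} :=
      isClosed_eq (by fun_prop) continuous_const
    refine closure_minimal ?_ hcl hg
    rintro _ ⟨x, hx, rfl⟩
    exact hw x hx
  have hE0 : ∀ w : W, (∀ x ∈ M, ⟪(WithLp.toLp 2 (x ξ, x ζ) : W), w⟫_ℂ = 0) → E w = 0 := by
    intro w hw
    apply Submodule.eq_starProjection_of_mem_of_inner_eq_zero (zero_mem _)
    intro g hg
    rw [sub_zero, ← inner_conj_symm, hperp w hw g hg, map_zero]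
  have f2 : e11 ζ = e12 ξ ∧ e21 ζ = e22 ξ := by
    have h1 : E (WithLp.toLp 2 (ζ, -ξ)) = 0 := by
      apply hE0
      intro x hx
      rw [hin, inner_neg_right, g2_symm M ξ ζ hζ x hx, add_neg_cancel]
    rw [hE] at h1
    have h3 := congrArg (WithLp.ofLp) h1
    simp only [map_neg, WithLp.ofLp_zero, Prod.mk_eq_zero] at h3
    exact ⟨add_neg_eq_zero.1 h3.1, add_neg_eq_zero.1 h3.2⟩
  have hnorm : ∀ u v : H, ‖(WithLp.toLp 2 (u, v) : W)‖ ^ 2 = ‖u‖ ^ 2 + ‖v‖ ^ 2 := by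
    intro u v
    rw [WithLp.prod_norm_sq_eq_of_L2]
    rfl
  have q11 : ∀ v, ⟪v, e11 v⟫_ℂ = ((‖E (i1 v)‖ ^ 2 : ℝ) : ℂ) := by
    intro v
    have h1 : ⟪i1 v, E (i1 v)⟫_ℂ = ⟪v, e11 v⟫_ℂ := by
      rw [hi1, hE, hin]; simp
    have h2 : ⟪i1 v, E (i1 v)⟫_ℂ = ⟪E (i1 v), E (i1 v)⟫_ℂ := by rw [hEsymm, hEE]
    rw [← h1, h2, inner_self_eq_norm_sq_to_K]
    norm_cast
  have q22 : ∀ v, ⟪v, e22 v⟫_ℂ = ((‖E (i2 v)‖ ^ 2 : ℝ) : ℂ) := by
    intro v
    have h1 : ⟪i2 v, E (i2 v)⟫_ℂ = ⟪v, e22 v⟫_ℂ := by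
      rw [hi2, hE, hin]; simp
    have h2 : ⟪i2 v, E (i2 v)⟫_ℂ = ⟪E (i2 v), E (i2 v)⟫_ℂ := by rw [hEsymm, hEE]
    rw [← h1, h2, inner_self_eq_norm_sq_to_K]
    norm_cast
  have hdense0 : ∀ v : H, (∀ x ∈ M, ⟪x ξ, v⟫_ℂ = 0) → v = 0 := by
    intro v hv
    have hcl : IsClosed {g : H | ⟪g, v⟫_ℂ = 0} :=
      isClosed_eq (by fun_prop) continuous_const
    have h1 : ∀ g : H, g ∈ {g : H | ⟪g, v⟫_ℂ = 0} := by
      intro g
      refine closure_minimal ?_ hcl (hcyc g)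
      rintro _ ⟨x, hx, rfl⟩
      exact hv x hx
    exact inner_self_eq_zero.1 (h1 v)
  have inj11 : ∀ v, e11 v = 0 → v = 0 := by
    intro v hv
    have h1 := q11 v
    rw [hv, inner_zero_right] at h1
    have h2 : E (i1 v) = 0 := by
      have h3 : (‖E (i1 v)‖ ^ 2 : ℝ) = 0 := by exact_mod_cast h1.symm
      exact norm_eq_zero.1 (pow_eq_zero_iff (two_ne_zero) |>.1 h3)
    apply hdense0
    intro x hx
    have h4 : (WithLp.toLp 2 (x ξ, x ζ) : W) ∈ G :=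
      Submodule.le_topologicalClosure _ ⟨x, hx, rfl⟩
    have h5 : ⟪(WithLp.toLp 2 (x ξ, x ζ) : W), i1 v⟫_ℂ = 0 := by
      rw [← Submodule.starProjection_eq_self_iff.2 h4]
      change ⟪E _, _⟫_ℂ = 0
      rw [hEsymm, h2, inner_zero_right]
    rw [hi1, hin, inner_zero_right, add_zero] at h5
    exact h5
  let S' : H →L[ℂ] H := 1 - e22
  have hS'v : ∀ v, S' v = v - e22 v := fun v => rfl
  have sS' : star S' = S' := by simp [S', s22]
  have hpy : ∀ w : W, ‖w‖ ^ 2 = ‖E w‖ ^ 2 + ‖w - E w‖ ^ 2 := by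
    intro w
    have h1 : ⟪E w, w - E w⟫_ℂ = 0 := by
      rw [hEsymm, map_sub, hEE, sub_self, inner_zero_right]
    have h2 := norm_add_sq_eq_norm_sq_add_norm_sq_of_inner_eq_zero (𝕜 := ℂ) (E w) (w - E w) h1
    rw [add_sub_cancel] at h2
    nlinarith [h2]
  have q22' : ∀ v, (⟪v, S' v⟫_ℂ).re = ‖i2 v - E (i2 v)‖ ^ 2 := by
    intro v
    rw [hS'v, inner_sub_right, q22, inner_self_eq_norm_sq_to_K]
    have h1 := hpy (i2 v)
    have h2 : ‖i2 v‖ ^ 2 = ‖v‖ ^ 2 := by rw [hi2, hnorm]; simp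
    rw [h2] at h1
    have h3 : (((‖v‖ : ℂ)) ^ 2 - ((‖E (i2 v)‖ ^ 2 : ℝ) : ℂ)).re =
        ‖v‖ ^ 2 - ‖E (i2 v)‖ ^ 2 := by
      rw [Complex.sub_re, Complex.ofReal_re, ← Complex.ofReal_pow, Complex.ofReal_re]
    refine h3.trans ?_
    linarith
  have inj22 : ∀ v, S' v = 0 → v = 0 := by
    intro v hv
    have h1 := q22' v
    rw [hv, inner_zero_right] at h1
    have h2 : i2 v - E (i2 v) = 0 := by
      have h3 : ‖i2 v - E (i2 v)‖ ^ 2 = 0 := by rw [← h1]; simp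
      exact norm_eq_zero.1 (pow_eq_zero_iff (two_ne_zero) |>.1 h3)
    have h3 : i2 v ∈ G := by
      rw [sub_eq_zero.1 h2]; simp [E]
    apply hdense0
    intro y hy
    have h4 := hperp (WithLp.toLp 2 (y ζ, -y ξ)) (by
      intro x hx
      rw [hin, inner_neg_right, g2_symm2 M ξ ζ hζ y x hy hx, add_neg_cancel]) (i2 v) h3
    rw [hi2, hin, inner_zero_left, zero_add, inner_neg_right, neg_eq_zero] at h4
    rw [← inner_conj_symm, h4, map_zero]
  -- `e21 e11 = (1 - e22) e21`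
  have hint : ∀ v, e21 (e11 v) = S' (e21 v) := by
    intro v
    have h1 := hEE (i1 v)
    have h2 : E (i1 v) = WithLp.toLp 2 (e11 v, e21 v) := by rw [hi1, hE]; simp
    rw [h2, hE] at h1
    have h3 := congrArg (WithLp.ofLp) h1
    simp only [Prod.mk.injEq] at h3
    rw [hS'v, eq_sub_iff_add_eq]
    exact h3.2
  rw [Metric.mem_closure_iff]
  intro δ hδ
  obtain ⟨ε₁, hε₁, H1⟩ := g2_res_tendsto e11 s11 inj11 ζ δ hδ
  obtain ⟨ε₂, hε₂, H2⟩ := g2_res_tendsto S' sS' inj22 ζ δ hδ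
  let ε := min ε₁ ε₂ / 2
  have hmin : 0 < min ε₁ ε₂ := lt_min hε₁ hε₂
  have hε : 0 < ε := by (clear * - hε₁ hε₂; positivity)
  have hεlt : ε < min ε₁ ε₂ := half_lt_self hmin
  obtain ⟨B, hB1, hB2, hBs, hBn⟩ := g2_res e11 s11 (fun v => by
    rw [q11]; rw [Complex.ofReal_re]; (clear * -; positivity)) ε hε
  obtain ⟨B', hB1', hB2', hBs', hBn'⟩ := g2_res S' sS' (fun v => by
    rw [q22']; (clear * -; positivity)) ε hε
  have hBc : B ∈ M.commutant := by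
    apply g2_mem_commutant
    intro g hg v
    have h1 : ∀ u, B (e11 u) + (ε : ℂ) • B u = u := by
      intro u
      have := congrArg (fun f : H →L[ℂ] H => f u) hB1
      simpa using this
    have h2 : ∀ u, e11 (B u) + (ε : ℂ) • B u = u := by
      intro u
      have := congrArg (fun f : H →L[ℂ] H => f u) hB2
      simpa using this
    have h3 : g (B v) = B (e11 (g (B v))) + (ε : ℂ) • B (g (B v)) := (h1 _).symm
    rw [h3, ← g2_commute_apply hg c11, ← map_smul, ← map_add]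
    congr 1
    rw [← map_smul, ← map_add, h2]
  have hint' : ∀ v, e21 (B v) = B' (e21 v) := by
    intro v
    have h1 : ∀ u, B' (S' u) + (ε : ℂ) • B' u = u := by
      intro u
      have := congrArg (fun f : H →L[ℂ] H => f u) hB1'
      simpa using this
    have h2 : ∀ u, e11 (B u) + (ε : ℂ) • B u = u := by
      intro u
      have := congrArg (fun f : H →L[ℂ] H => f u) hB2
      simpa using this
    rw [← h1 (e21 (B v)), ← hint, ← map_smul, ← map_add, ← map_smul, ← map_add, h2]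
  let m : H →L[ℂ] H := B * e12
  have hm : m ∈ M.commutant := mul_mem hBc c12
  have hmξ : m ξ = B (e11 ζ) := by
    change B (e12 ξ) = _
    rw [f2.1]
  have hmsξ : star m ξ = B' (S' ζ) := by
    have h1 : star m = e21 * B := by
      rw [star_mul, hBs, s12]
    rw [h1]
    change e21 (B ξ) = _
    rw [hint']
    congr 1
    rw [hS'v, eq_sub_iff_add_eq]
    exact f1.2
  refine ⟨((1 / 2 : ℂ) • (m + star m)) ξ, ⟨(1 / 2 : ℂ) • (m + star m),
    g2_smul_mem _ (add_mem hm (star_mem hm)), ?_, rfl⟩, ?_⟩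
  · rw [star_smul, star_add, star_star, add_comm]
    simp
  · rw [dist_eq_norm]
    have h1 : ((1 / 2 : ℂ) • (m + star m)) ξ - ζ =
        (1 / 2 : ℂ) • ((B (e11 ζ) - ζ) + (B' (S' ζ) - ζ)) := by
      rw [smul_apply, add_apply, hmξ, hmsξ]
      module
    rw [norm_sub_rev, h1, norm_smul]
    have h2 := H1 ε hε (hεlt.trans_le (min_le_left _ _)) B hB1 hBn
    have h3 := H2 ε hε (hεlt.trans_le (min_le_right _ _)) B' hB1' hBn'
    have h4 := norm_add_le (B (e11 ζ) - ζ) (B' (S' ζ) - ζ)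
    have h5 : ‖(1 / 2 : ℂ)‖ = 1 / 2 := by simp
    rw [h5]
    linarith only [h4, h3, h2]

end Vale.Agent.P132
end

section

open Filter Topology
open scoped ComplexConjugate InnerProductSpace BoundedContinuousFunction

namespace Vale.Agent.P132

universe u

variable {H : Type u} [NormedAddCommGroup H] [InnerProductSpace ℂ H] [CompleteSpace H]

theorem RvD.T_inj {M : VonNeumannAlgebra H} {ξ : H} (D : RvD M ξ) {ζ : H} (h : D.T ζ = 0) :
    ζ = 0 := by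
  have h1 : (D.R * (2 - D.R)) ζ = 0 := by
    rw [← D.T_sq, mul_apply_eq_comp, h, map_zero]
  have h2 : D.R ((2 - D.R) ζ) = 0 := h1
  have h3 := D.R_inj _ h2
  apply D.R_inj'
  have h4 : (2 - D.R) ζ = (2 : ℂ) • ζ - D.R ζ := by
    rw [sub_apply]
    congr 1
    have : (2 : H →L[ℂ] H) = (2 : ℂ) • (1 : H →L[ℂ] H) := by
      rw [ofNat_smul_eq_nsmul]
      simp
    rw [this]
    rfl
  rw [h4, sub_eq_zero] at h3
  exact h3.symm

/-- the basic relation `T J a* ξ = (2 - R) a ξ` -/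
theorem RvD.TJ_star {M : VonNeumannAlgebra H} {ξ : H} (D : RvD M ξ) {a : H →L[ℂ] H}
    (ha : a ∈ M) : D.T (D.J (star a ξ)) = (2 : ℂ) • a ξ - D.R (a ξ) := by
  have hsa : star a ∈ M := star_mem ha
  obtain ⟨b, hb⟩ : ∃ b : H →L[ℂ] H, b = ((1 / 2 : ℂ)) • (a + star a) := ⟨_, rfl⟩
  obtain ⟨c, hc⟩ : ∃ c : H →L[ℂ] H, c = ((1 / (2 * Complex.I) : ℂ)) • (a - star a) := ⟨_, rfl⟩
  have hbM : b ∈ M := by
    rw [hb]
    exact M.toStarSubalgebra.smul_mem (M.toStarSubalgebra.add_mem ha hsa) _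
  have hcM : c ∈ M := by
    rw [hc]
    exact M.toStarSubalgebra.smul_mem (M.toStarSubalgebra.sub_mem ha hsa) _
  have hbs : star b = b := by
    rw [hb, star_smul, star_add, star_star, add_comm (star a)]
    congr 1
    simp
  have hcs : star c = c := by
    rw [hc, star_smul, star_sub, star_star, ← neg_sub a (star a), smul_neg, ← neg_smul]
    congr 1
    simp
  have hab : a = b + Complex.I • c := by
    rw [hb, hc, smul_smul]
    have : Complex.I * (1 / (2 * Complex.I)) = 1 / 2 := by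
      field_simp
    rw [this, ← smul_add]
    rw [show a + star a + (a - star a) = (2 : ℂ) • a by rw [two_smul]; abel, smul_smul]
    norm_num
  have hsab : star a = b - Complex.I • c := by
    have h5 := congrArg star hab
    rw [star_add, star_smul, hbs, hcs] at h5
    rw [h5]
    simp [sub_eq_add_neg]
  have h1 := D.JT_M b hbM hbs
  have h2 := D.JT_M c hcM hcs
  have e1 : star a ξ = b ξ - Complex.I • c ξ := by rw [hsab]; rfl
  have e2 : a ξ = b ξ + Complex.I • c ξ := by rw [hab]; rfl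
  have e3 : D.J (star a ξ) = D.J (b ξ) + Complex.I • D.J (c ξ) := by
    rw [e1, map_sub, map_smulₛₗ]
    simp
  rw [e3, e2, map_add, map_smul, ← D.J_T, ← D.J_T, h1, h2, map_add, map_smul]
  module

/-- G7 -/
theorem kms_of (M : VonNeumannAlgebra H) (ξ : H) (D : RvD M ξ) (E : ThData D.R D.T D.J) :
    ∀ a ∈ M, ∀ F G : ℝ →ᵇ ℂ, (∀ h : ℝ, F h = Real.exp (h / 2) * G h) →
      E.Th G (D.J (star a ξ)) = E.Th F (a ξ) := by
  intro a ha F G hFG
  rw [← sub_eq_zero]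
  apply D.T_inj
  have h1 : tB * G = G * tB := mul_comm _ _
  have h2 : tB * F = G * ((2 : ℂ) • (1 : ℝ →ᵇ ℂ) - rB) := by
    ext h
    simp only [BoundedContinuousFunction.mul_apply, BoundedContinuousFunction.sub_apply, tB_apply,
      rB_apply, hFG, BoundedContinuousFunction.smul_apply, BoundedContinuousFunction.coe_one,
      Pi.one_apply, smul_eq_mul, mul_one]
    have h3 : (1 + Real.exp h : ℂ) ≠ 0 := by
      have : (1 + Real.exp h : ℝ) ≠ 0 := by positivity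
      exact_mod_cast this
    have h4 : (Real.exp h : ℂ) = Real.exp (h / 2) * Real.exp (h / 2) := by
      rw [← Complex.ofReal_mul, ← Real.exp_add]
      congr 2
      ring
    push_cast at h3 h4 ⊢
    field_simp
    rw [h4]
    ring
  have h3 : ∀ ζ, D.T ζ = E.Th tB ζ := fun ζ => by rw [E.Th_t]
  have h5 : E.Th ((2 : ℂ) • (1 : ℝ →ᵇ ℂ) - rB) = (2 : ℂ) • (1 : H →L[ℂ] H) - D.R := by
    rw [map_sub, map_smul, map_one, E.Th_r]
  rw [map_sub, h3, h3, ← mul_apply_eq_comp, ← mul_apply_eq_comp, ← map_mul,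
    ← map_mul, h1, h2, map_mul, map_mul, mul_apply_eq_comp,
    mul_apply_eq_comp, ← h3, D.TJ_star ha, h5, ← map_sub]
  have h4 : (2 : ℂ) • a ξ - D.R (a ξ) - ((2 : ℂ) • (1 : H →L[ℂ] H) - D.R) (a ξ) = 0 := by
    simp
  rw [h4, map_zero]

end Vale.Agent.P132
end

section

open Filter Topology MeasureTheory
open scoped ComplexConjugate InnerProductSpace BoundedContinuousFunction

namespace Vale.Agent.P132

universe u

variable {H : Type u} [NormedAddCommGroup H] [InnerProductSpace ℂ H] [CompleteSpace H]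

theorem g5_inner_star_left (a : H →L[ℂ] H) (v w : H) : ⟪(star a) v, w⟫_ℂ = ⟪v, a w⟫_ℂ := by
  rw [ContinuousLinearMap.star_eq_adjoint, ContinuousLinearMap.adjoint_inner_left]

theorem g5_inner_star_right (a : H →L[ℂ] H) (v w : H) : ⟪v, (star a) w⟫_ℂ = ⟪a v, w⟫_ℂ := by
  rw [ContinuousLinearMap.star_eq_adjoint, ContinuousLinearMap.adjoint_inner_right]

theorem g5_inner_sa {a : H →L[ℂ] H} (ha : star a = a) (v w : H) : ⟪a v, w⟫_ℂ = ⟪v, a w⟫_ℂ := by
  conv_lhs => rw [← ha]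
  rw [g5_inner_star_left]

theorem g5_comm {M : VonNeumannAlgebra H} {a y : H →L[ℂ] H} (ha : a ∈ M)
    (hy : y ∈ M.commutant) (v : H) : a (y v) = y (a v) := by
  rw [VonNeumannAlgebra.mem_commutant_iff] at hy
  have := hy a ha
  exact congrArg (fun T : H →L[ℂ] H => T v) this

/-- an antiunitary reverses inner products -/
theorem g5_inner_J (J : H ≃ₗᵢ⋆[ℂ] H) (v w : H) : ⟪J v, J w⟫_ℂ = ⟪w, v⟫_ℂ := by
  have e1 : ‖J v + J w‖ = ‖w + v‖ := by
    rw [← map_add, J.norm_map, add_comm]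
  have e2 : ‖J v - J w‖ = ‖w - v‖ := by
    rw [← map_sub, J.norm_map, norm_sub_rev]
  have hI : J (Complex.I • w) = -(Complex.I • J w) := by
    rw [map_smulₛₗ]
    simp
  have e3 : ‖J v - Complex.I • J w‖ = ‖w - Complex.I • v‖ := by
    have h1 : J v - Complex.I • J w = J (v + Complex.I • w) := by
      rw [map_add, hI, sub_eq_add_neg]
    have h2 : w - Complex.I • v = (-Complex.I) • (v + Complex.I • w) := by
      rw [smul_add, smul_smul]
      simp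
      abel
    rw [h1, J.norm_map, h2, norm_smul]
    simp
  have e4 : ‖J v + Complex.I • J w‖ = ‖w + Complex.I • v‖ := by
    have h1 : J v + Complex.I • J w = J (v - Complex.I • w) := by
      rw [map_sub, hI, sub_neg_eq_add]
    have h2 : w + Complex.I • v = Complex.I • (v - Complex.I • w) := by
      rw [smul_sub, smul_smul]
      simp
      abel
    rw [h1, J.norm_map, h2, norm_smul]
    simp
  have hp := inner_eq_sum_norm_sq_div_four (𝕜 := ℂ) (J v) (J w)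
  have hq := inner_eq_sum_norm_sq_div_four (𝕜 := ℂ) w v
  simp only [RCLike.I_to_complex] at hp hq
  rw [hp, hq, e1, e2, e3, e4]

theorem g5_inner_J_right (J : H ≃ₗᵢ⋆[ℂ] H) (hJ : ∀ ζ, J (J ζ) = ζ) (v w : H) :
    ⟪v, J w⟫_ℂ = ⟪w, J v⟫_ℂ := by
  conv_lhs => rw [← hJ v]
  rw [g5_inner_J]

/-- decomposition into selfadjoint parts -/
theorem g5_decomp (M : VonNeumannAlgebra H) {y : H →L[ℂ] H} (hy : y ∈ M) :
    ∃ y1 ∈ M, ∃ y2 ∈ M, star y1 = y1 ∧ star y2 = y2 ∧ y = y1 + Complex.I • y2 := by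
  have hs : star y ∈ M := star_mem hy
  refine ⟨(2⁻¹ : ℂ) • (y + star y), M.toStarSubalgebra.smul_mem (add_mem hy hs) _,
    (-(2⁻¹ : ℂ) * Complex.I) • (y - star y), M.toStarSubalgebra.smul_mem (sub_mem hy hs) _,
    ?_, ?_, ?_⟩
  · rw [star_smul, star_add, star_star, add_comm]
    simp
  · rw [star_smul, star_sub, star_star]
    have : star (-(2⁻¹ : ℂ) * Complex.I) = -(-(2⁻¹ : ℂ) * Complex.I) := by
      simp
    rw [this, neg_smul, ← smul_neg, neg_sub]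
  · rw [smul_smul]
    have : Complex.I * (-(2⁻¹ : ℂ) * Complex.I) = 2⁻¹ := by
      linear_combination (-(2⁻¹ : ℂ)) * Complex.I_mul_I
    rw [this, ← smul_add]
    have h2 : y + star y + (y - star y) = (2 : ℂ) • y := by
      rw [two_smul]
      abel
    rw [h2, smul_smul]
    norm_num

/-- the linear Radon-Nikodym statement with `l = 1`, for all selfadjoint `x'` -/
def G5RN (M : VonNeumannAlgebra H) (ξ : H) : Prop :=
  ∀ x' ∈ M.commutant, star x' = x' → ∃ x ∈ M, star x = x ∧ ∀ b ∈ M,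
    ⟪ξ, x' (b ξ)⟫_ℂ = ⟪ξ, b (x ξ)⟫_ℂ + ⟪ξ, x (b ξ)⟫_ℂ

theorem g5RN_of {M : VonNeumannAlgebra H} {ξ : H}
    (h : ∀ x' ∈ M.commutant, star x' = x' → ∃ x ∈ M, star x = x ∧ ∀ b ∈ M,
      ⟪ξ, x' (b ξ)⟫_ℂ = (1 : ℂ) * ⟪ξ, b (x ξ)⟫_ℂ + conj (1 : ℂ) * ⟪ξ, x (b ξ)⟫_ℂ) :
    G5RN M ξ := by
  intro x' hx' hs
  obtain ⟨x, hx, hxs, hb⟩ := h x' hx' hs
  refine ⟨x, hx, hxs, fun b hbM => ?_⟩
  rw [hb b hbM, map_one, one_mul, one_mul]

theorem g5_key_sa {M : VonNeumannAlgebra H} {ξ : H} (hRN : G5RN M ξ) (D : RvD M ξ)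
    (y' : H →L[ℂ] H) (hy' : y' ∈ M.commutant) (hs : star y' = y') :
    ∃ y ∈ M, star y = y ∧ (∀ b ∈ M, ⟪ξ, y' (b ξ)⟫_ℂ = ⟪ξ, b (y ξ)⟫_ℂ + ⟪ξ, y (b ξ)⟫_ℂ) ∧
      D.R (y' ξ) = (2 : ℂ) • y ξ ∧ D.J (D.T (y' ξ)) = (2 : ℂ) • y ξ := by
  obtain ⟨y, hy, hys, hi⟩ := hRN y' hy' hs
  have hR : D.R (y' ξ) = (2 : ℂ) • y ξ := by
    refine D.R_M' y' hy' hs y hy hys fun b hb hbs => ?_
    have h1 : ⟪b ξ, y' ξ⟫_ℂ = ⟪ξ, b (y ξ)⟫_ℂ + ⟪ξ, y (b ξ)⟫_ℂ := by
      rw [g5_inner_sa hbs, g5_comm hb hy', hi b hb]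
    have h2 : ⟪b ξ, y ξ⟫_ℂ = ⟪ξ, b (y ξ)⟫_ℂ := g5_inner_sa hbs _ _
    have h3 : ⟪ξ, y (b ξ)⟫_ℂ = conj ⟪ξ, b (y ξ)⟫_ℂ := by
      rw [← h2, inner_conj_symm, g5_inner_sa hys]
    rw [inner_sub_right, inner_smul_right, h1, h2, h3, Complex.sub_re, Complex.add_re,
      Complex.conj_re, Complex.mul_re]
    simp only [Complex.re_ofNat, Complex.im_ofNat]
    ring
  exact ⟨y, hy, hys, hi, hR, by rw [D.JT_M' y' hy' hs, hR]⟩

theorem g5_key {M : VonNeumannAlgebra H} {ξ : H} (hRN : G5RN M ξ) (D : RvD M ξ)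
    (y' : H →L[ℂ] H) (hy' : y' ∈ M.commutant) :
    ∃ y ∈ M, (∀ b ∈ M, ⟪ξ, y' (b ξ)⟫_ℂ = ⟪ξ, b (y ξ)⟫_ℂ + ⟪ξ, y (b ξ)⟫_ℂ) ∧
      D.R (y' ξ) = (2 : ℂ) • y ξ ∧ D.J (D.T (y' ξ)) = (2 : ℂ) • (star y) ξ := by
  obtain ⟨y1', hy1', y2', hy2', hs1', hs2', rfl⟩ := g5_decomp M.commutant hy'
  obtain ⟨y1, hy1, hs1, hi1, hR1, hJ1⟩ := g5_key_sa hRN D y1' hy1' hs1'
  obtain ⟨y2, hy2, hs2, hi2, hR2, hJ2⟩ := g5_key_sa hRN D y2' hy2' hs2'
  refine ⟨y1 + Complex.I • y2, add_mem hy1 (M.toStarSubalgebra.smul_mem hy2 _), ?_, ?_, ?_⟩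
  · intro b hb
    simp only [add_apply, smul_apply, inner_add_right,
      inner_smul_right, map_add, map_smul]
    rw [hi1 b hb, hi2 b hb]
    ring
  · simp only [add_apply, smul_apply, map_add, map_smul]
    rw [hR1, hR2, smul_add, smul_comm]
  · rw [star_add, star_smul, hs1, hs2]
    simp only [add_apply, smul_apply, map_add, map_smul,
      map_smulₛₗ]
    rw [hJ1, hJ2, smul_add, smul_comm]
    rfl

/-- two bounded operators which agree on matrix elements of a dense set are equal -/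
theorem g5_ext {S : Set H} (hS : Dense S) {A B : H →L[ℂ] H}
    (h : ∀ v ∈ S, ∀ w ∈ S, ⟪v, A w⟫_ℂ = ⟪v, B w⟫_ℂ) : A = B := by
  have h1 : ∀ w ∈ S, A w = B w := by
    intro w hw
    have h2 : A w - B w = 0 := by
      apply hS.eq_zero_of_inner_left ℂ
      intro v hv
      rw [← inner_conj_symm, inner_sub_right, h v hv w hw, sub_self, map_zero]
    exact sub_eq_zero.1 h2
  ext w
  have hc := hS.closure_eq
  have : w ∈ closure S := by rw [hc]; trivial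
  have hcl : IsClosed {w : H | A w = B w} := isClosed_eq A.continuous B.continuous
  exact closure_minimal (fun w hw => h1 w hw) hcl this

theorem L2_of (M : VonNeumannAlgebra H) (ξ : H)
    (hcyc' : Dense {ζ : H | ∃ a ∈ M.commutant, a ξ = ζ}) (hRN1 : G5RN M ξ) (D : RvD M ξ)
    (x' : H →L[ℂ] H) (hx' : x' ∈ M.commutant) (hx's : star x' = x') (l : ℂ)
    (x : H →L[ℂ] H) (hx : x ∈ M) (hxs : star x = x)
    (hRN : ∀ b ∈ M, ⟪ξ, x' (b ξ)⟫_ℂ = l * ⟪ξ, b (x ξ)⟫_ℂ + conj l * ⟪ξ, x (b ξ)⟫_ℂ) :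
    D.T * jconj D.J x' * D.T =
      l • (D.R * x * (2 - D.R)) + conj l • ((2 - D.R) * x * D.R) := by
  have hTs : star D.T = D.T := (IsSelfAdjoint.of_nonneg D.T_nonneg).star_eq
  apply g5_ext hcyc'
  rintro _ ⟨z', hz', rfl⟩ _ ⟨y', hy', rfl⟩
  obtain ⟨z, hz, hzi, hzR, hzJ⟩ := g5_key hRN1 D z' hz'
  obtain ⟨y, hy, hyi, hyR, hyJ⟩ := g5_key hRN1 D y' hy'
  have hzs : star z ∈ M := star_mem hz
  have hys : star y ∈ M := star_mem hy
  have h2v : ∀ v : H, (2 - D.R) v = (2 : ℂ) • v - D.R v := by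
    intro v
    have h22 : (2 : H →L[ℂ] H) = (2 : ℂ) • (1 : H →L[ℂ] H) := by
      rw [two_smul, one_add_one_eq_two]
    rw [h22]
    rfl
  have hc2 : conj (2 : ℂ) = 2 := Complex.conj_ofNat 2
  -- left-hand side
  have hL : ⟪z' ξ, (D.T * jconj D.J x' * D.T) (y' ξ)⟫_ℂ =
      4 * (l * ⟪ξ, y (star z (x ξ))⟫_ℂ + conj l * ⟪ξ, x (y (star z ξ))⟫_ℂ) := by
    have h1 : ⟪z' ξ, (D.T * jconj D.J x' * D.T) (y' ξ)⟫_ℂ =
        ⟪D.T (z' ξ), D.J (x' (D.J (D.T (y' ξ))))⟫_ℂ := by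
      rw [g5_inner_sa hTs]
      rfl
    rw [h1, g5_inner_J_right D.J D.J_J, hzJ, hyJ, map_smul, inner_smul_left, inner_smul_right,
      g5_inner_sa hx's, g5_inner_star_left]
    have h2 : y (x' (star z ξ)) = x' ((y * star z) ξ) := g5_comm hy hx' _
    rw [h2, hRN (y * star z) (mul_mem hy hzs), hc2]
    have h3 : (y * star z) (x ξ) = y (star z (x ξ)) := rfl
    have h4 : x ((y * star z) ξ) = x (y (star z ξ)) := rfl
    rw [h3, h4]
    ring
  have hR1 : ⟪z' ξ, (D.R * x * (2 - D.R)) (y' ξ)⟫_ℂ = 4 * ⟪ξ, y (star z (x ξ))⟫_ℂ := by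
    have h1 : ⟪z' ξ, (D.R * x * (2 - D.R)) (y' ξ)⟫_ℂ =
        ⟪D.R (z' ξ), x ((2 - D.R) (y' ξ))⟫_ℂ := by
      rw [g5_inner_sa D.R_sa]
      rfl
    rw [h1, h2v, hzR, hyR, ← smul_sub, map_smul, map_sub, inner_smul_left, inner_smul_right,
      inner_sub_right, hc2]
    have h2 : ⟪z ξ, x (y' ξ)⟫_ℂ = ⟪ξ, y' ((star z * x) ξ)⟫_ℂ := by
      rw [← g5_inner_star_right z, g5_comm hx hy', g5_comm hzs hy']
      rfl
    have h3 : ⟪z ξ, x (y ξ)⟫_ℂ = ⟪ξ, (star z * x) (y ξ)⟫_ℂ := by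
      rw [← g5_inner_star_right z]
      rfl
    rw [h2, h3, hyi (star z * x) (mul_mem hzs hx)]
    have h4 : y ((star z * x) ξ) = y (star z (x ξ)) := rfl
    rw [h4]
    ring
  have hR2 : ⟪z' ξ, ((2 - D.R) * x * D.R) (y' ξ)⟫_ℂ = 4 * ⟪ξ, x (y (star z ξ))⟫_ℂ := by
    have h2s : star (2 - D.R) = 2 - D.R := by
      rw [star_sub, D.R_sa]
      simp
    have h1 : ⟪z' ξ, ((2 - D.R) * x * D.R) (y' ξ)⟫_ℂ =
        ⟪(2 - D.R) (z' ξ), x (D.R (y' ξ))⟫_ℂ := by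
      rw [g5_inner_sa h2s]
      rfl
    rw [h1, h2v, hzR, hyR, ← smul_sub, map_smul, inner_smul_left, inner_smul_right,
      inner_sub_left, hc2]
    have h2 : ⟪z' ξ, x (y ξ)⟫_ℂ = conj ⟪ξ, z' ((star y * x) ξ)⟫_ℂ := by
      have h5 : z' ((star y * x) ξ) = star y (x (z' ξ)) := by
        rw [g5_comm hx hz', g5_comm hys hz']
        rfl
      rw [h5, inner_conj_symm, g5_inner_star_left, g5_inner_sa hxs]
    have h3 : conj ⟪ξ, (star y * x) (z ξ)⟫_ℂ = ⟪z ξ, x (y ξ)⟫_ℂ := by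
      have h5 : (star y * x) (z ξ) = star y (x (z ξ)) := rfl
      rw [h5, inner_conj_symm, g5_inner_star_left, g5_inner_sa hxs]
    have h4 : conj ⟪ξ, z ((star y * x) ξ)⟫_ℂ = ⟪ξ, x (y (star z ξ))⟫_ℂ := by
      have h5 : z ((star y * x) ξ) = z (star y (x ξ)) := rfl
      rw [h5, inner_conj_symm, ← g5_inner_star_right z, g5_inner_star_left, g5_inner_sa hxs]
    rw [h2, hzi (star y * x) (mul_mem hys hx), map_add, h3, h4]
    ring
  rw [hL, add_apply, smul_apply, smul_apply, inner_add_right, inner_smul_right,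
    inner_smul_right, hR1, hR2]
  ring

end Vale.Agent.P132
end

section

open Filter Topology
open scoped ComplexConjugate InnerProductSpace BoundedContinuousFunction

namespace Vale.Agent.P132

universe u

variable {H : Type u} [NormedAddCommGroup H] [InnerProductSpace ℂ H] [CompleteSpace H]

/-- G5 -/
theorem L2 (M : VonNeumannAlgebra H) (ξ : H)
    (hcyc' : Dense {ζ : H | ∃ a ∈ M.commutant, a ξ = ζ}) (D : RvD M ξ)
    (x' : H →L[ℂ] H) (hx' : x' ∈ M.commutant) (hx's : star x' = x') (l : ℂ)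
    (x : H →L[ℂ] H) (hx : x ∈ M) (hxs : star x = x)
    (hRN : ∀ b ∈ M, ⟪ξ, x' (b ξ)⟫_ℂ = l * ⟪ξ, b (x ξ)⟫_ℂ + conj l * ⟪ξ, x (b ξ)⟫_ℂ) :
    D.T * jconj D.J x' * D.T =
      l • (D.R * x * (2 - D.R)) + conj l • ((2 - D.R) * x * D.R) :=
  L2_of M ξ hcyc' (g5RN_of fun y hy hys => RN M ξ hcyc' y hy hys 1 (by simp)) D x' hx' hx's l x
    hx hxs hRN

end Vale.Agent.P132
end

section

open Filter Topology MeasureTheory
open scoped ComplexConjugate InnerProductSpace BoundedContinuousFunction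

namespace Vale.Agent.P132

universe u

variable {H : Type u} [NormedAddCommGroup H] [InnerProductSpace ℂ H] [CompleteSpace H]

/-- clamp of `h` to `[-N, N]` -/
noncomputable def g9m (N : ℝ) (hN : 0 ≤ N) : ℝ →ᵇ ℂ :=
  BoundedContinuousFunction.ofNormedAddCommGroup
    (fun h : ℝ => ((max (-N) (min N h) : ℝ) : ℂ)) (by fun_prop) N
    (fun h => by
      rw [Complex.norm_real, Real.norm_eq_abs, abs_le]
      exact ⟨le_max_left _ _, max_le (by linarith) (min_le_left _ _)⟩)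

@[simp] theorem g9m_apply (N : ℝ) (hN : 0 ≤ N) (h : ℝ) :
    g9m N hN h = ((max (-N) (min N h) : ℝ) : ℂ) := rfl

/-- evaluation -/
noncomputable def g9ev (h : ℝ) : (ℝ →ᵇ ℂ) →+* ℂ where
  toFun := fun f => f h
  map_one' := rfl
  map_mul' := fun _ _ => rfl
  map_zero' := rfl
  map_add' := fun _ _ => rfl

theorem g9_exp_apply (F : ℝ →ᵇ ℂ) (h : ℝ) :
    (NormedSpace.exp F) h = Complex.exp (F h) := by
  have h1 : Continuous (g9ev h) := (BoundedContinuousFunction.evalCLM ℂ h).continuous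
  have h2 := NormedSpace.map_exp (g9ev h) h1 F
  rw [Complex.exp_eq_exp_ℂ]
  exact h2

/-- `e^{z m}` -/
noncomputable def g9e (N : ℝ) (hN : 0 ≤ N) (z : ℂ) : ℝ →ᵇ ℂ := NormedSpace.exp (z • g9m N hN)

theorem g9e_apply (N : ℝ) (hN : 0 ≤ N) (z : ℂ) (h : ℝ) :
    g9e N hN z h = Complex.exp (z * ((max (-N) (min N h) : ℝ) : ℂ)) := by
  rw [g9e, g9_exp_apply]
  rfl

theorem g9e_apply' (N : ℝ) (hN : 0 ≤ N) (z : ℂ) {h : ℝ} (hh : |h| ≤ N) :
    g9e N hN z h = Complex.exp (z * h) := by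
  rw [g9e_apply, min_eq_right (abs_le.1 hh).2, max_eq_right (abs_le.1 hh).1]

theorem g9e_add (N : ℝ) (hN : 0 ≤ N) (z w : ℂ) :
    g9e N hN (z + w) = g9e N hN z * g9e N hN w := by
  ext h
  rw [BoundedContinuousFunction.coe_mul, Pi.mul_apply, g9e_apply, g9e_apply, g9e_apply,
    add_mul, Complex.exp_add]

theorem g9e_star (N : ℝ) (hN : 0 ≤ N) (z : ℂ) : star (g9e N hN z) = g9e N hN (conj z) := by
  ext h
  rw [BoundedContinuousFunction.star_apply, g9e_apply, g9e_apply]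
  simp [← Complex.exp_conj]

theorem g9e_differentiable (N : ℝ) (hN : 0 ≤ N) : Differentiable ℂ (g9e N hN) := fun z =>
  (hasDerivAt_exp_smul_const (g9m N hN) z).differentiableAt

theorem g9e_norm_le (N : ℝ) (hN : 0 ≤ N) (z : ℂ) : ‖g9e N hN z‖ ≤ Real.exp (|z.re| * N) := by
  rw [BoundedContinuousFunction.norm_le (Real.exp_pos _).le]
  intro h
  rw [g9e_apply, Complex.norm_exp]
  apply Real.exp_le_exp.2
  have h1 : |max (-N) (min N h)| ≤ N := by
    rw [abs_le]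
    exact ⟨le_max_left _ _, max_le (by linarith) (min_le_left _ _)⟩
  have h2 : (z * ((max (-N) (min N h) : ℝ) : ℂ)).re = z.re * max (-N) (min N h) := by
    rw [Complex.re_mul_ofReal]
  rw [h2]
  calc z.re * max (-N) (min N h) ≤ |z.re * max (-N) (min N h)| := le_abs_self _
    _ = |z.re| * |max (-N) (min N h)| := abs_mul _ _
    _ ≤ |z.re| * N := by gcongr

theorem g9_expB_mul (N : ℝ) (hN : 0 ≤ N) (F : ℝ →ᵇ ℂ) (hF : ∀ h, F h ≠ 0 → |h| ≤ N) (t : ℝ) :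
    expB t * F = g9e N hN (Complex.I * t) * F := by
  ext h
  simp only [BoundedContinuousFunction.coe_mul, Pi.mul_apply]
  by_cases hh : F h = 0
  · rw [hh, mul_zero, mul_zero]
  · rw [g9e_apply' N hN _ (hF h hh), expB_apply]
    congr 2
    push_cast
    ring

/-- `cosh (m / 2)` -/
noncomputable def g9c (N : ℝ) (hN : 0 ≤ N) : ℝ →ᵇ ℂ :=
  (1 / 2 : ℂ) • (g9e N hN (1 / 2) + g9e N hN (-(1 / 2)))

theorem g9_tB_mul (N : ℝ) (hN : 0 ≤ N) (F : ℝ →ᵇ ℂ) (hF : ∀ h, F h ≠ 0 → |h| ≤ N) :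
    tB * (g9c N hN * F) = F := by
  ext h
  simp only [g9c, BoundedContinuousFunction.coe_mul, Pi.mul_apply,
    BoundedContinuousFunction.coe_smul, BoundedContinuousFunction.coe_add,
    Pi.add_apply, smul_eq_mul]
  by_cases hh : F h = 0
  · rw [hh]; simp
  · rw [g9e_apply' N hN _ (hF h hh), g9e_apply' N hN _ (hF h hh), tB_apply]
    have e1 : (1 / 2 : ℂ) * h = ((h / 2 : ℝ) : ℂ) := by push_cast; ring
    have e2 : (-(1 / 2) : ℂ) * h = ((-(h / 2) : ℝ) : ℂ) := by push_cast; ring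
    rw [e1, e2, ← Complex.ofReal_exp, ← Complex.ofReal_exp]
    have h1 : 0 < Real.exp h := Real.exp_pos h
    have h2 : Real.exp h = Real.exp (h / 2) * Real.exp (h / 2) := by
      rw [← Real.exp_add]; ring_nf
    have h3 : Real.exp (-(h / 2)) = (Real.exp (h / 2))⁻¹ := Real.exp_neg _
    have h4 : 0 < Real.exp (h / 2) := Real.exp_pos _
    have key : 2 * Real.exp (h / 2) / (1 + Real.exp h) *
        (1 / 2 * (Real.exp (h / 2) + Real.exp (-(h / 2)))) = 1 := by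
      rw [h2, h3]; field_simp; ring
    have key' := congrArg (fun r : ℝ => (r : ℂ)) key
    push_cast at key'
    push_cast
    rw [← mul_assoc, key', one_mul]

theorem g9_rB_mul (N : ℝ) (hN : 0 ≤ N) (F : ℝ →ᵇ ℂ) (hF : ∀ h, F h ≠ 0 → |h| ≤ N) :
    rB * (g9c N hN * F) = g9e N hN (-(1 / 2)) * F := by
  ext h
  simp only [g9c, BoundedContinuousFunction.coe_mul, Pi.mul_apply,
    BoundedContinuousFunction.coe_smul, BoundedContinuousFunction.coe_add,
    Pi.add_apply, smul_eq_mul]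
  by_cases hh : F h = 0
  · rw [hh]; simp
  · rw [g9e_apply' N hN _ (hF h hh), g9e_apply' N hN _ (hF h hh), rB_apply]
    have e1 : (1 / 2 : ℂ) * h = ((h / 2 : ℝ) : ℂ) := by push_cast; ring
    have e2 : (-(1 / 2) : ℂ) * h = ((-(h / 2) : ℝ) : ℂ) := by push_cast; ring
    rw [e1, e2, ← Complex.ofReal_exp, ← Complex.ofReal_exp]
    have h1 : 0 < Real.exp h := Real.exp_pos h
    have h2 : Real.exp h = Real.exp (h / 2) * Real.exp (h / 2) := by
      rw [← Real.exp_add]; ring_nf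
    have h3 : Real.exp (-(h / 2)) = (Real.exp (h / 2))⁻¹ := Real.exp_neg _
    have h4 : 0 < Real.exp (h / 2) := Real.exp_pos _
    have key : 2 / (1 + Real.exp h) *
        (1 / 2 * (Real.exp (h / 2) + Real.exp (-(h / 2)))) = Real.exp (-(h / 2)) := by
      rw [h2, h3]; field_simp; ring
    have key' := congrArg (fun r : ℝ => (r : ℂ)) key
    push_cast at key'
    push_cast
    rw [← mul_assoc, key']

theorem g9_two_sub (N : ℝ) (hN : 0 ≤ N) (F : ℝ →ᵇ ℂ) (hF : ∀ h, F h ≠ 0 → |h| ≤ N) :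
    (2 : ℂ) • (g9c N hN * F) - rB * (g9c N hN * F) = g9e N hN (1 / 2) * F := by
  rw [g9_rB_mul N hN F hF, g9c, smul_mul_assoc, smul_smul]
  norm_num
  rw [add_mul]
  abel

/-- `Th` as a continuous linear map -/
noncomputable def g9L (Th : (ℝ →ᵇ ℂ) →⋆ₐ[ℂ] (H →L[ℂ] H)) : (ℝ →ᵇ ℂ) →L[ℂ] (H →L[ℂ] H) :=
  LinearMap.mkContinuous Th.toAlgHom.toLinearMap 1 (fun F => by
    rw [one_mul]; exact NonUnitalStarAlgHom.norm_apply_le Th F)

theorem g9L_apply (Th : (ℝ →ᵇ ℂ) →⋆ₐ[ℂ] (H →L[ℂ] H)) (F : ℝ →ᵇ ℂ) : g9L Th F = Th F := rfl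

theorem g9_norm_Th (Th : (ℝ →ᵇ ℂ) →⋆ₐ[ℂ] (H →L[ℂ] H)) (F : ℝ →ᵇ ℂ) : ‖Th F‖ ≤ ‖F‖ :=
  NonUnitalStarAlgHom.norm_apply_le Th F

/-- `V z = exp (z B)` -/
noncomputable def g9V (Th : (ℝ →ᵇ ℂ) →⋆ₐ[ℂ] (H →L[ℂ] H)) (N : ℝ) (hN : 0 ≤ N) (z : ℂ) :
    H →L[ℂ] H := Th (g9e N hN z)

theorem g9V_differentiable (Th : (ℝ →ᵇ ℂ) →⋆ₐ[ℂ] (H →L[ℂ] H)) (N : ℝ) (hN : 0 ≤ N) :
    Differentiable ℂ (g9V Th N hN) :=
  (g9L Th).differentiable.comp (g9e_differentiable N hN)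

theorem g9V_norm_le (Th : (ℝ →ᵇ ℂ) →⋆ₐ[ℂ] (H →L[ℂ] H)) (N : ℝ) (hN : 0 ≤ N) (z : ℂ) :
    ‖g9V Th N hN z‖ ≤ Real.exp (|z.re| * N) :=
  (g9_norm_Th Th _).trans (g9e_norm_le N hN z)

theorem g9_inner_left (Th : (ℝ →ᵇ ℂ) →⋆ₐ[ℂ] (H →L[ℂ] H)) (F : ℝ →ᵇ ℂ) (a b : H) :
    ⟪a, Th F b⟫_ℂ = ⟪Th (star F) a, b⟫_ℂ := by
  rw [map_star, ContinuousLinearMap.star_eq_adjoint, ContinuousLinearMap.adjoint_inner_left]

theorem g9_sa_inner {R : H →L[ℂ] H} (hR : star R = R) (a b : H) : ⟪a, R b⟫_ℂ = ⟪R a, b⟫_ℂ := by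
  conv_rhs => rw [← hR]
  rw [ContinuousLinearMap.star_eq_adjoint, ContinuousLinearMap.adjoint_inner_left]

/-- the entire function of the strip identity -/
noncomputable def g9G (Th : (ℝ →ᵇ ℂ) →⋆ₐ[ℂ] (H →L[ℂ] H)) (N : ℝ) (hN : 0 ≤ N)
    (x : H →L[ℂ] H) (α β : H) (z : ℂ) : ℂ :=
  ⟪α, (g9V Th N hN (Complex.I * z) * x * g9V Th N hN (-(Complex.I * z))) β⟫_ℂ

theorem g9G_differentiable (Th : (ℝ →ᵇ ℂ) →⋆ₐ[ℂ] (H →L[ℂ] H)) (N : ℝ) (hN : 0 ≤ N)
    (x : H →L[ℂ] H) (α β : H) : Differentiable ℂ (g9G Th N hN x α β) := by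
  have hV := g9V_differentiable Th N hN
  have h1 : Differentiable ℂ fun z : ℂ => g9V Th N hN (Complex.I * z) :=
    hV.comp (differentiable_id.const_mul _)
  have h2 : Differentiable ℂ fun z : ℂ => g9V Th N hN (-(Complex.I * z)) :=
    hV.comp (differentiable_id.const_mul _).neg
  have h3 : Differentiable ℂ fun z : ℂ =>
      g9V Th N hN (Complex.I * z) * x * g9V Th N hN (-(Complex.I * z)) :=
    (h1.mul_const x).mul h2
  have h4 : Differentiable ℂ fun z : ℂ =>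
      (g9V Th N hN (Complex.I * z) * x * g9V Th N hN (-(Complex.I * z))) β :=
    (ContinuousLinearMap.apply ℂ H β).differentiable.comp h3
  exact (innerSL ℂ α).differentiable.comp h4

theorem g9G_bound (Th : (ℝ →ᵇ ℂ) →⋆ₐ[ℂ] (H →L[ℂ] H)) (N : ℝ) (hN : 0 ≤ N)
    (x : H →L[ℂ] H) (α β : H) (z : ℂ) (hz : |z.im| ≤ 1 / 2) :
    ‖g9G Th N hN x α β z‖ ≤ ‖α‖ * (Real.exp (1 / 2 * N) * ‖x‖ * Real.exp (1 / 2 * N) * ‖β‖) := by
  have e1 : ‖g9V Th N hN (Complex.I * z)‖ ≤ Real.exp (1 / 2 * N) := by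
    refine (g9V_norm_le Th N hN _).trans (Real.exp_le_exp.2 ?_)
    have : (Complex.I * z).re = -z.im := by simp
    rw [this, abs_neg]
    gcongr
  have e2 : ‖g9V Th N hN (-(Complex.I * z))‖ ≤ Real.exp (1 / 2 * N) := by
    refine (g9V_norm_le Th N hN _).trans (Real.exp_le_exp.2 ?_)
    have : (-(Complex.I * z)).re = z.im := by simp
    rw [this]
    gcongr
  unfold g9G
  refine (norm_inner_le_norm _ _).trans ?_
  gcongr
  refine (ContinuousLinearMap.le_opNorm _ _).trans ?_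
  gcongr
  refine (norm_mul_le _ _).trans ?_
  gcongr
  exact (norm_mul_le _ _).trans (by gcongr)

theorem g9_supp {F : ℝ →ᵇ ℂ} (hF : HasCompactSupport F) :
    ∃ N : ℝ, 0 ≤ N ∧ ∀ h, F h ≠ 0 → |h| ≤ N := by
  obtain ⟨r, hr⟩ := hF.isCompact.isBounded.exists_norm_le
  refine ⟨|r|, abs_nonneg _, fun h hh => ?_⟩
  rw [← Real.norm_eq_abs h]
  exact (hr h (subset_tsupport _ hh)).trans (le_abs_self r)

omit [CompleteSpace H] in
theorem g9_two (v : H) : (2 : ℂ) • v = (2 : H →L[ℂ] H) v := by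
  rw [two_smul, ← one_add_one_eq_two]
  rfl

/-- boundary values of the strip function -/
theorem g9_boundary {R T : H →L[ℂ] H} {J : H ≃ₗᵢ⋆[ℂ] H} (E : ThData R T J) (hR : star R = R)
    (hT : star T = T) (X x : H →L[ℂ] H) (l m : ℂ)
    (h : T * X * T = l • (R * x * (2 - R)) + m • ((2 - R) * x * R))
    (N : ℝ) (hN : 0 ≤ N) (F₁ F₂ : ℝ →ᵇ ℂ) (h1 : ∀ h, F₁ h ≠ 0 → |h| ≤ N)
    (h2 : ∀ h, F₂ h ≠ 0 → |h| ≤ N) (α β : H) (t : ℝ) :
    l * g9G E.Th N hN x (E.Th F₂ α) (E.Th F₁ β) (t + Complex.I / 2) +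
      m * g9G E.Th N hN x (E.Th F₂ α) (E.Th F₁ β) (t - Complex.I / 2) =
    ⟪E.Th F₂ α, (E.Th (expB t) * X * E.Th (expB (-t))) (E.Th F₁ β)⟫_ℂ := by
  -- vectors
  set G₁ : ℝ →ᵇ ℂ := expB (-t) * F₁ with hG₁
  set G₂ : ℝ →ᵇ ℂ := expB (-t) * F₂ with hG₂
  have hs1 : ∀ h, G₁ h ≠ 0 → |h| ≤ N := fun h hh => h1 h (fun h0 => hh (by
    rw [hG₁, BoundedContinuousFunction.coe_mul, Pi.mul_apply, h0, mul_zero]))
  have hs2 : ∀ h, G₂ h ≠ 0 → |h| ≤ N := fun h hh => h2 h (fun h0 => hh (by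
    rw [hG₂, BoundedContinuousFunction.coe_mul, Pi.mul_apply, h0, mul_zero]))
  set u₁ := E.Th (g9c N hN * G₁) β with hu₁
  set u₂ := E.Th (g9c N hN * G₂) α with hu₂
  have Tu : ∀ (G : ℝ →ᵇ ℂ) (v : H), (∀ h, G h ≠ 0 → |h| ≤ N) →
      T (E.Th (g9c N hN * G) v) = E.Th G v := fun G v hG => by
    conv_rhs => rw [← g9_tB_mul N hN G hG, map_mul, E.Th_t]
    rfl
  have Ru : ∀ (G : ℝ →ᵇ ℂ) (v : H), (∀ h, G h ≠ 0 → |h| ≤ N) →
      R (E.Th (g9c N hN * G) v) = E.Th (g9e N hN (-(1 / 2)) * G) v := fun G v hG => by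
    rw [← g9_rB_mul N hN G hG, map_mul E.Th rB, E.Th_r]
    rfl
  have Ru' : ∀ (G : ℝ →ᵇ ℂ) (v : H), (∀ h, G h ≠ 0 → |h| ≤ N) →
      (2 - R) (E.Th (g9c N hN * G) v) = E.Th (g9e N hN (1 / 2) * G) v := fun G v hG => by
    rw [← g9_two_sub N hN G hG, map_sub, map_smul, map_mul E.Th rB, E.Th_r]
    rw [_root_.sub_apply, _root_.sub_apply]
    congr 1
    rw [_root_.smul_apply]
    exact (g9_two (E.Th (g9c N hN * G) v)).symm
  -- both sides in terms of `u₁, u₂`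
  have hU : ∀ (F : ℝ →ᵇ ℂ) (v : H), E.Th (expB (-t)) (E.Th F v) = E.Th (expB (-t) * F) v :=
    fun F v => by rw [map_mul]; rfl
  have hstarU : star (expB t) = expB (-t) := by
    ext h
    rw [BoundedContinuousFunction.star_apply, expB_apply, expB_apply]
    simp [← Complex.exp_conj]
  have hRHS : ⟪E.Th F₂ α, (E.Th (expB t) * X * E.Th (expB (-t))) (E.Th F₁ β)⟫_ℂ =
      ⟪u₂, (T * X * T) u₁⟫_ℂ := by
    rw [mul_apply_eq_comp, mul_apply_eq_comp, mul_apply_eq_comp, mul_apply_eq_comp,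
      g9_inner_left, hstarU, hU, hU, g9_sa_inner hT, hu₁, hu₂, Tu G₁ β hs1, Tu G₂ α hs2]
  have hV : ∀ (z : ℂ) (F : ℝ →ᵇ ℂ) (v : H), g9V E.Th N hN z (E.Th F v) =
      E.Th (g9e N hN z * F) v := fun z F v => by rw [map_mul]; rfl
  have hshift : ∀ (z : ℂ) (F : ℝ →ᵇ ℂ), (∀ h, F h ≠ 0 → |h| ≤ N) →
      g9e N hN z * (expB (-t) * F) = g9e N hN (z - Complex.I * t) * F := fun z F hF => by
    rw [g9_expB_mul N hN F hF, ← mul_assoc, ← g9e_add]
    congr 2
    push_cast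
    ring
  have hGval : ∀ s : ℂ, (s.im = 0) → g9G E.Th N hN x (E.Th F₂ α) (E.Th F₁ β)
      (t + Complex.I * s) = ⟪E.Th (g9e N hN (-s - Complex.I * t) * F₂) α,
        x (E.Th (g9e N hN (s - Complex.I * t) * F₁) β)⟫_ℂ := by
    intro s hs
    unfold g9G
    rw [mul_apply_eq_comp, mul_apply_eq_comp, hV]
    rw [g9V, g9_inner_left, g9e_star]
    have e1 : (starRingEnd ℂ) (Complex.I * (t + Complex.I * s)) = -s - Complex.I * t := by
      have hs' : (starRingEnd ℂ) s = s := Complex.conj_eq_iff_im.2 hs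
      rw [map_mul, map_add, map_mul, Complex.conj_I, Complex.conj_ofReal, hs']
      have := Complex.I_mul_I
      linear_combination s * this
    have e2 : -(Complex.I * (t + Complex.I * s)) = s - Complex.I * t := by
      have := Complex.I_mul_I
      linear_combination (-s) * this
    rw [e1, e2]
    congr 1
    exact (congrArg (fun B : H →L[ℂ] H => B α) (map_mul E.Th _ _)).symm
  have hp : (t : ℂ) + Complex.I / 2 = t + Complex.I * (1 / 2) := by ring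
  have hm : (t : ℂ) - Complex.I / 2 = t + Complex.I * (-(1 / 2)) := by ring
  rw [hp, hm, hGval _ (by simp), hGval _ (by simp), hRHS, h]
  have hR2 : star (2 - R) = 2 - R := by rw [star_sub, hR, star_ofNat]
  rw [_root_.add_apply, _root_.smul_apply, _root_.smul_apply, inner_add_right, inner_smul_right,
    inner_smul_right, mul_apply_eq_comp, mul_apply_eq_comp, mul_apply_eq_comp, mul_apply_eq_comp,
    g9_sa_inner hR, g9_sa_inner hR2, hu₁, hu₂, Ru G₁ β hs1, Ru G₂ α hs2, Ru' G₁ β hs1,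
    Ru' G₂ α hs2, hG₁, hG₂, hshift _ _ h1, hshift _ _ h1, hshift _ _ h2, hshift _ _ h2, neg_neg]

theorem g9e_zero (N : ℝ) (hN : 0 ≤ N) : g9e N hN 0 = 1 := by
  rw [g9e, zero_smul, NormedSpace.exp_zero]

theorem g9_T_sa {R T : H →L[ℂ] H} {J : H ≃ₗᵢ⋆[ℂ] H} (E : ThData R T J) : star T = T := by
  rw [← E.Th_t, ← map_star]
  congr 1
  ext h
  rw [BoundedContinuousFunction.star_apply, tB_apply]
  exact Complex.conj_ofReal _

theorem g9_R_sa {R T : H →L[ℂ] H} {J : H ≃ₗᵢ⋆[ℂ] H} (E : ThData R T J) : star R = R := by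
  rw [← E.Th_r, ← map_star]
  congr 1
  ext h
  rw [BoundedContinuousFunction.star_apply, rB_apply]
  exact Complex.conj_ofReal _

/-- compactly supported version -/
theorem g9_L3c (R T : H →L[ℂ] H) (J : H ≃ₗᵢ⋆[ℂ] H) (E : ThData R T J)
    (X x : H →L[ℂ] H) (θ : ℝ) (hθ : |θ| < Real.pi)
    (h : T * X * T = Complex.exp (Complex.I * θ / 2) • (R * x * (2 - R)) +
      Complex.exp (-(Complex.I * θ / 2)) • ((2 - R) * x * R))
    (F₁ F₂ : ℝ →ᵇ ℂ) (h1 : HasCompactSupport F₁) (h2 : HasCompactSupport F₂) (α β : H) :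
    ∫ t : ℝ, (kk θ t : ℂ) *
      ⟪E.Th F₂ α, (E.Th (expB t) * X * E.Th (expB (-t))) (E.Th F₁ β)⟫_ℂ =
    ((2 * Real.cos (θ / 2) * ∫ t : ℝ, kk θ t : ℝ) : ℂ) * ⟪E.Th F₂ α, x (E.Th F₁ β)⟫_ℂ := by
  obtain ⟨N₁, hN₁, hs1⟩ := g9_supp h1
  obtain ⟨N₂, hN₂, hs2⟩ := g9_supp h2
  have hN : 0 ≤ N₁ + N₂ := by linarith
  have hs1' : ∀ h, F₁ h ≠ 0 → |h| ≤ N₁ + N₂ := fun h hh => by have := hs1 h hh; linarith
  have hs2' : ∀ h, F₂ h ≠ 0 → |h| ≤ N₁ + N₂ := fun h hh => by have := hs2 h hh; linarith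
  have hca := ca_lemma (g9G E.Th (N₁ + N₂) hN x (E.Th F₂ α) (E.Th F₁ β))
    (g9G_differentiable _ _ _ _ _ _) _ (fun z hz => g9G_bound _ _ _ _ _ _ z hz) θ hθ
  have h0 : g9G E.Th (N₁ + N₂) hN x (E.Th F₂ α) (E.Th F₁ β) 0 =
      ⟪E.Th F₂ α, x (E.Th F₁ β)⟫_ℂ := by
    unfold g9G g9V
    rw [mul_zero, neg_zero, g9e_zero, map_one, one_mul, mul_one]
  rw [h0] at hca
  rw [← hca]
  congr 1
  funext t
  rw [g9_boundary E (g9_R_sa E) (g9_T_sa E) X x _ _ h (N₁ + N₂) hN F₁ F₂ hs1' hs2' α β t]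

/-- continuity of the matrix coefficients -/
theorem g9_continuous {R T : H →L[ℂ] H} {J : H ≃ₗᵢ⋆[ℂ] H} (E : ThData R T J) (X : H →L[ℂ] H)
    (F₁ F₂ : ℝ →ᵇ ℂ) (h1 : HasCompactSupport F₁) (h2 : HasCompactSupport F₂) (α β : H) :
    Continuous fun t : ℝ =>
      ⟪E.Th F₂ α, (E.Th (expB t) * X * E.Th (expB (-t))) (E.Th F₁ β)⟫_ℂ := by
  have hstarU : ∀ t, star (expB t) = expB (-t) := fun t => by
    ext h
    rw [BoundedContinuousFunction.star_apply, expB_apply, expB_apply]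
    simp [← Complex.exp_conj]
  have hU : ∀ (t : ℝ) (F : ℝ →ᵇ ℂ) (v : H), E.Th (expB (-t)) (E.Th F v) =
      E.Th (expB (-t) * F) v := fun t F v => by rw [map_mul]; rfl
  have hc : ∀ (F : ℝ →ᵇ ℂ) (v : H), HasCompactSupport F →
      Continuous fun t : ℝ => E.Th (expB (-t) * F) v := by
    intro F v hF
    obtain ⟨N, hN, hs⟩ := g9_supp hF
    have he : (fun t : ℝ => E.Th (expB (-t) * F) v) =
        fun t : ℝ => (g9L E.Th (g9e N hN (Complex.I * ((-t : ℝ) : ℂ)) * F)) v := by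
      funext t
      rw [g9_expB_mul N hN F hs, g9L_apply]
    rw [he]
    have c1 : Continuous fun t : ℝ => g9e N hN (Complex.I * ((-t : ℝ) : ℂ)) :=
      (g9e_differentiable N hN).continuous.comp (by fun_prop)
    have c2 : Continuous fun t : ℝ => g9L E.Th (g9e N hN (Complex.I * ((-t : ℝ) : ℂ)) * F) :=
      (g9L E.Th).continuous.comp (c1.mul continuous_const)
    exact (ContinuousLinearMap.apply ℂ H v).continuous.comp c2
  have he : (fun t : ℝ =>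
      ⟪E.Th F₂ α, (E.Th (expB t) * X * E.Th (expB (-t))) (E.Th F₁ β)⟫_ℂ) =
      fun t : ℝ => ⟪E.Th (expB (-t) * F₂) α, X (E.Th (expB (-t) * F₁) β)⟫_ℂ := by
    funext t
    rw [mul_apply_eq_comp, mul_apply_eq_comp, g9_inner_left, hstarU, hU, hU]
  rw [he]
  exact (hc F₂ α h2).inner (X.continuous.comp (hc F₁ β h1))

theorem g9_norm_expB (t : ℝ) : ‖expB t‖ ≤ 1 := by
  rw [BoundedContinuousFunction.norm_le zero_le_one]
  intro h
  rw [expB_apply, mul_comm, Complex.norm_exp_ofReal_mul_I]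

/-- G9 -/
theorem L3 (R T : H →L[ℂ] H) (J : H ≃ₗᵢ⋆[ℂ] H) (E : ThData R T J)
    (X x : H →L[ℂ] H) (θ : ℝ) (hθ : |θ| < Real.pi)
    (h : T * X * T = Complex.exp (Complex.I * θ / 2) • (R * x * (2 - R)) +
      Complex.exp (-(Complex.I * θ / 2)) • ((2 - R) * x * R)) (α β : H) :
    ∫ t : ℝ, (kk θ t : ℂ) * ⟪α, (E.Th (expB t) * X * E.Th (expB (-t))) β⟫_ℂ =
    ((2 * Real.cos (θ / 2) * ∫ t : ℝ, kk θ t : ℝ) : ℂ) * ⟪α, x β⟫_ℂ := by
  have hseq : ∀ v : H, ∃ F : ℕ → (ℝ →ᵇ ℂ), (∀ n, HasCompactSupport (F n)) ∧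
      (∀ n, ‖F n‖ ≤ 1) ∧ Tendsto (fun n => E.Th (F n) v) atTop (𝓝 v) := by
    intro v
    have h1 : ∀ n : ℕ, ∃ F : ℝ →ᵇ ℂ, HasCompactSupport F ∧ ‖F‖ ≤ 1 ∧
        ‖E.Th F v - v‖ < 1 / ((n : ℝ) + 1) := fun n => E.Th_nondeg v _ (by positivity)
    choose F hF1 hF2 hF3 using h1
    refine ⟨F, hF1, hF2, ?_⟩
    rw [tendsto_iff_norm_sub_tendsto_zero]
    exact squeeze_zero (fun _ => norm_nonneg _) (fun n => (hF3 n).le)
      tendsto_one_div_add_atTop_nhds_zero_nat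
  obtain ⟨F₂, a1, a2, a3⟩ := hseq α
  obtain ⟨F₁, b1, b2, b3⟩ := hseq β
  have hW : ∀ t : ℝ, ‖E.Th (expB t) * X * E.Th (expB (-t))‖ ≤ ‖X‖ := by
    intro t
    have e1 := (g9_norm_Th E.Th (expB t)).trans (g9_norm_expB t)
    have e2 := (g9_norm_Th E.Th (expB (-t))).trans (g9_norm_expB (-t))
    calc ‖E.Th (expB t) * X * E.Th (expB (-t))‖ ≤ ‖E.Th (expB t)‖ * ‖X‖ * ‖E.Th (expB (-t))‖ :=
          (norm_mul_le _ _).trans (by gcongr; exact norm_mul_le _ _)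
      _ ≤ 1 * ‖X‖ * 1 := by gcongr
      _ = ‖X‖ := by ring
  have hL : Tendsto (fun n => ∫ t : ℝ, (kk θ t : ℂ) *
      ⟪E.Th (F₂ n) α, (E.Th (expB t) * X * E.Th (expB (-t))) (E.Th (F₁ n) β)⟫_ℂ) atTop
      (𝓝 (∫ t : ℝ, (kk θ t : ℂ) * ⟪α, (E.Th (expB t) * X * E.Th (expB (-t))) β⟫_ℂ)) := by
    refine tendsto_integral_of_dominated_convergence
      (fun t => kk θ t * (‖α‖ * (‖X‖ * ‖β‖))) (fun n => ?_)
      ((integrable_kk θ hθ).mul_const _) (fun n => ?_) ?_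
    · have hkc : Continuous fun t : ℝ => (kk θ t : ℂ) :=
        Complex.continuous_ofReal.comp (kk_continuous θ)
      exact (hkc.mul (g9_continuous E X _ _ (b1 n) (a1 n) α β)).aestronglyMeasurable
    · refine Eventually.of_forall fun t => ?_
      rw [norm_mul, Complex.norm_real, Real.norm_of_nonneg (kk_pos θ t).le]
      have e1 : ‖E.Th (F₂ n) α‖ ≤ ‖α‖ := by
        have := (E.Th (F₂ n)).le_opNorm α
        have h2 := (g9_norm_Th E.Th (F₂ n)).trans (a2 n)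
        linarith only [mul_nonneg (sub_nonneg.2 h2) (sub_nonneg.2 (norm_nonneg α)), this]
      have e2 : ‖E.Th (F₁ n) β‖ ≤ ‖β‖ := by
        have := (E.Th (F₁ n)).le_opNorm β
        have h2 := (g9_norm_Th E.Th (F₁ n)).trans (b2 n)
        linarith only [mul_nonneg (sub_nonneg.2 h2) (sub_nonneg.2 (norm_nonneg β)), this]
      have e3 := (kk_pos θ t).le
      refine mul_le_mul_of_nonneg_left ?_ e3
      refine (norm_inner_le_norm _ _).trans ?_
      refine mul_le_mul e1 ?_ (norm_nonneg _) (norm_nonneg _)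
      refine (ContinuousLinearMap.le_opNorm _ _).trans ?_
      exact mul_le_mul (hW t) e2 (norm_nonneg _) (norm_nonneg _)
    · refine Eventually.of_forall fun t => ?_
      refine Tendsto.const_mul _ ?_
      exact a3.inner (((E.Th (expB t) * X * E.Th (expB (-t))).continuous.tendsto β).comp b3)
  have hR : Tendsto (fun n => ((2 * Real.cos (θ / 2) * ∫ t : ℝ, kk θ t : ℝ) : ℂ) *
      ⟪E.Th (F₂ n) α, x (E.Th (F₁ n) β)⟫_ℂ) atTop
      (𝓝 (((2 * Real.cos (θ / 2) * ∫ t : ℝ, kk θ t : ℝ) : ℂ) * ⟪α, x β⟫_ℂ)) :=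
    Tendsto.const_mul _ (a3.inner ((x.continuous.tendsto β).comp b3))
  refine tendsto_nhds_unique hL (hR.congr fun n => ?_)
  exact (g9_L3c R T J E X x θ hθ h (F₁ n) (F₂ n) (b1 n) (a1 n) α β).symm

end Vale.Agent.P132
end

section

open Filter Topology MeasureTheory
open scoped ComplexConjugate InnerProductSpace BoundedContinuousFunction

namespace Vale.Agent.P132

universe u

variable {H : Type u} [NormedAddCommGroup H] [InnerProductSpace ℂ H] [CompleteSpace H]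

theorem g10_norm_Th (Th : (ℝ →ᵇ ℂ) →⋆ₐ[ℂ] (H →L[ℂ] H)) (F : ℝ →ᵇ ℂ) : ‖Th F‖ ≤ ‖F‖ :=
  NonUnitalStarAlgHom.norm_apply_le Th F

theorem g10_norm_expB (t : ℝ) : ‖expB t‖ ≤ 1 := by
  rw [BoundedContinuousFunction.norm_le zero_le_one]
  intro h
  rw [expB_apply, mul_comm, Complex.norm_exp_ofReal_mul_I]

/-- Norm continuity of `t ↦ expB t * F` for compactly supported `F`. -/
theorem g10_continuous_mul (F : ℝ →ᵇ ℂ) (hF : HasCompactSupport F) :
    Continuous fun t : ℝ => expB t * F := by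
  obtain ⟨r, hr⟩ : ∃ r : ℝ, ∀ h : ℝ, F h ≠ 0 → |h| ≤ r := by
    obtain ⟨r, hr⟩ := hF.isCompact.isBounded.exists_norm_le
    refine ⟨r, fun h hh => ?_⟩
    rw [← Real.norm_eq_abs]
    exact hr h (subset_tsupport _ hh)
  have hlip : ∀ s t : ℝ, ‖expB s * F - expB t * F‖ ≤ |s - t| * |r| * ‖F‖ := by
    intro s t
    rw [BoundedContinuousFunction.norm_le (by (clear * -; positivity))]
    intro h
    by_cases hh : F h = 0
    · simp only [BoundedContinuousFunction.coe_sub, BoundedContinuousFunction.coe_mul,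
        Pi.sub_apply, Pi.mul_apply, hh, mul_zero, sub_zero, norm_zero]
      (clear * -; positivity)
    · have h1 : ‖expB s h - expB t h‖ ≤ |s - t| * |r| := by
        rw [expB_apply, expB_apply]
        have h2 : Complex.exp (Complex.I * ((s * h : ℝ) : ℂ)) -
            Complex.exp (Complex.I * ((t * h : ℝ) : ℂ)) =
            Complex.exp (Complex.I * ((t * h : ℝ) : ℂ)) *
              (Complex.exp (Complex.I * (((s - t) * h : ℝ) : ℂ)) - 1) := by
          rw [mul_sub, ← Complex.exp_add, mul_one]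
          congr 2
          push_cast
          ring
        rw [h2, norm_mul, mul_comm Complex.I, Complex.norm_exp_ofReal_mul_I, one_mul]
        refine (Real.norm_exp_I_mul_ofReal_sub_one_le (x := (s - t) * h)).trans ?_
        rw [Real.norm_eq_abs, abs_mul]
        exact mul_le_mul_of_nonneg_left ((hr h hh).trans (le_abs_self r)) (abs_nonneg _)
      calc ‖(expB s * F - expB t * F) h‖ = ‖(expB s h - expB t h) * F h‖ := by
            simp [sub_mul]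
        _ = ‖expB s h - expB t h‖ * ‖F h‖ := norm_mul _ _
        _ ≤ (|s - t| * |r|) * ‖F‖ :=
            mul_le_mul h1 (F.norm_coe_le_norm h) (norm_nonneg _) (by positivity)
  rw [continuous_iff_continuousAt]
  intro t
  rw [ContinuousAt, tendsto_iff_norm_sub_tendsto_zero]
  refine squeeze_zero (fun s => norm_nonneg _) (fun s => hlip s t) ?_
  have : Continuous fun s : ℝ => |s - t| * |r| * ‖F‖ := by fun_prop
  simpa using this.tendsto t

/-- Strong continuity of the unitary group. -/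
theorem g10_continuous_Th {R T : H →L[ℂ] H} {J : H ≃ₗᵢ⋆[ℂ] H} (E : ThData R T J) (ζ : H) :
    Continuous fun t : ℝ => E.Th (expB t) ζ := by
  rw [Metric.continuous_iff]
  intro t ε hε
  obtain ⟨F, hF, -, h1⟩ := E.Th_nondeg ζ (ε / 4) (by positivity)
  have hc : Continuous fun t : ℝ => E.Th (expB t * F) ζ := by
    have h2 : Continuous fun t : ℝ => E.Th (expB t * F) := by
      have h3 : Continuous E.Th := by
        exact AddMonoidHomClass.continuous_of_bound E.Th 1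
          (fun F => by rw [one_mul]; exact g10_norm_Th _ _)
      exact h3.comp (g10_continuous_mul F hF)
    exact h2.clm_apply continuous_const
  rw [Metric.continuous_iff] at hc
  obtain ⟨δ, hδ, h2⟩ := hc t (ε / 4) (by positivity)
  refine ⟨δ, hδ, fun s hs => ?_⟩
  have h3 := h2 s hs
  have key : ∀ s : ℝ, ‖E.Th (expB s) ζ - E.Th (expB s * F) ζ‖ ≤ ε / 4 := by
    intro s
    rw [map_mul, mul_apply_eq_comp, ← map_sub]
    calc ‖E.Th (expB s) (ζ - E.Th F ζ)‖ ≤ ‖E.Th (expB s)‖ * ‖ζ - E.Th F ζ‖ :=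
          ContinuousLinearMap.le_opNorm _ _
      _ ≤ 1 * (ε / 4) := by
          apply mul_le_mul ((g10_norm_Th _ _).trans (g10_norm_expB s)) _ (norm_nonneg _)
            zero_le_one
          rw [norm_sub_rev]
          exact h1.le
      _ = ε / 4 := one_mul _
  rw [dist_eq_norm] at h3 ⊢
  have e : E.Th (expB s) ζ - E.Th (expB t) ζ =
      (E.Th (expB s) ζ - E.Th (expB s * F) ζ) + (E.Th (expB s * F) ζ - E.Th (expB t * F) ζ) -
      (E.Th (expB t) ζ - E.Th (expB t * F) ζ) := by abel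
  rw [e]
  calc _ ≤ ‖E.Th (expB s) ζ - E.Th (expB s * F) ζ‖ +
        ‖E.Th (expB s * F) ζ - E.Th (expB t * F) ζ‖ +
        ‖E.Th (expB t) ζ - E.Th (expB t * F) ζ‖ :=
        (norm_sub_le _ _).trans (add_le_add_left (norm_add_le _ _) _)
    _ < ε := by linarith only [key t, key s, h3, hε]

theorem g10_star_Th {R T : H →L[ℂ] H} {J : H ≃ₗᵢ⋆[ℂ] H} (E : ThData R T J) (t : ℝ) :
    star (E.Th (expB t)) = E.Th (expB (-t)) := by
  rw [← map_star]
  congr 1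
  ext h
  rw [BoundedContinuousFunction.star_apply, expB_apply, expB_apply, Complex.star_def,
    ← Complex.exp_conj]
  congr 1
  simp

/-- Continuity of the matrix coefficients of `t ↦ U_t X U_{-t}`. -/
theorem g10_continuous_inner {R T : H →L[ℂ] H} {J : H ≃ₗᵢ⋆[ℂ] H} (E : ThData R T J)
    (X : H →L[ℂ] H) (α β : H) :
    Continuous fun t : ℝ => ⟪α, (E.Th (expB t) * X * E.Th (expB (-t))) β⟫_ℂ := by
  have h1 : ∀ t : ℝ, ⟪α, (E.Th (expB t) * X * E.Th (expB (-t))) β⟫_ℂ =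
      ⟪E.Th (expB (-t)) α, X (E.Th (expB (-t)) β)⟫_ℂ := by
    intro t
    rw [← g10_star_Th E t, ContinuousLinearMap.star_eq_adjoint,
      ContinuousLinearMap.adjoint_inner_left]
    rfl
  simp only [h1]
  have h2 : ∀ ζ : H, Continuous fun t : ℝ => E.Th (expB (-t)) ζ :=
    fun ζ => (g10_continuous_Th E ζ).comp continuous_neg
  exact (h2 α).inner (X.continuous.comp (h2 β))

theorem g10_bound_inner {R T : H →L[ℂ] H} {J : H ≃ₗᵢ⋆[ℂ] H} (E : ThData R T J)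
    (X : H →L[ℂ] H) (α β : H) (t : ℝ) :
    ‖⟪α, (E.Th (expB t) * X * E.Th (expB (-t))) β⟫_ℂ‖ ≤ ‖α‖ * (‖X‖ * ‖β‖) := by
  have h1 : ∀ (t : ℝ) (ζ : H), ‖E.Th (expB t) ζ‖ ≤ ‖ζ‖ := by
    intro t ζ
    calc ‖E.Th (expB t) ζ‖ ≤ ‖E.Th (expB t)‖ * ‖ζ‖ := ContinuousLinearMap.le_opNorm _ _
      _ ≤ 1 * ‖ζ‖ := mul_le_mul_of_nonneg_right
          ((g10_norm_Th _ _).trans (g10_norm_expB t)) (norm_nonneg _)
      _ = ‖ζ‖ := one_mul _
  refine (norm_inner_le_norm _ _).trans (mul_le_mul_of_nonneg_left ?_ (norm_nonneg _))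
  change ‖E.Th (expB t) (X (E.Th (expB (-t)) β))‖ ≤ _
  exact (h1 _ _).trans ((X.le_opNorm _).trans
    (mul_le_mul_of_nonneg_left (h1 _ _) (norm_nonneg _)))

theorem g10_sigma_sa (M : VonNeumannAlgebra H) (ξ : H)
    (hcyc' : Dense {ζ : H | ∃ a ∈ M.commutant, a ξ = ζ}) (D : RvD M ξ)
    (E : ThData D.R D.T D.J) (y : H →L[ℂ] H) (hy : y ∈ M.commutant) (hys : star y = y) (t : ℝ) :
    E.Th (expB t) * jconj D.J y * E.Th (expB (-t)) ∈ M := by
  set S : ℝ → (H →L[ℂ] H) := fun t => E.Th (expB t) * jconj D.J y * E.Th (expB (-t)) with hS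
  have key : ∀ z' ∈ M.commutant, ∀ α β : H, ∀ t : ℝ,
      ⟪α, S t (z' β)⟫_ℂ - ⟪star z' α, S t β⟫_ℂ = 0 := by
    intro z' hz' α β
    apply fourier_unique (fun t => ⟪α, S t (z' β)⟫_ℂ - ⟪star z' α, S t β⟫_ℂ)
      ((g10_continuous_inner E _ _ _).sub (g10_continuous_inner E _ _ _))
      (‖α‖ * (‖jconj D.J y‖ * ‖z' β‖) + ‖star z' α‖ * (‖jconj D.J y‖ * ‖β‖))
      (fun t => (norm_sub_le _ _).trans
        (add_le_add (g10_bound_inner E _ _ _ t) (g10_bound_inner E _ _ _ t)))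
    intro θ hθ
    have hl : 0 < (Complex.exp (Complex.I * θ / 2)).re := by
      have e : Complex.I * θ / 2 = ((θ / 2 : ℝ) : ℂ) * Complex.I := by
        push_cast
        ring
      rw [e, Complex.exp_ofReal_mul_I_re]
      apply Real.cos_pos_of_mem_Ioo
      rw [abs_lt] at hθ
      constructor <;> linarith [hθ.1, hθ.2]
    obtain ⟨x, hx, hxs, hRN⟩ := RN M ξ hcyc' y hy hys (Complex.exp (Complex.I * θ / 2)) hl
    have h2 := L2 M ξ hcyc' D y hy hys _ x hx hxs hRN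
    have hconj : conj (Complex.exp (Complex.I * θ / 2)) = Complex.exp (-(Complex.I * θ / 2)) := by
      rw [← Complex.exp_conj]
      congr 1
      rw [map_div₀, map_mul, Complex.conj_I, Complex.conj_ofReal, map_ofNat]
      ring
    rw [hconj] at h2
    have h3 := L3 D.R D.T D.J E (jconj D.J y) x θ hθ h2
    have hint : ∀ a b : H, Integrable fun t : ℝ => (kk θ t : ℂ) * ⟪a, S t b⟫_ℂ := by
      intro a b
      have h4 : Integrable fun t : ℝ => (kk θ t : ℂ) := (integrable_kk θ hθ).ofReal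
      refine Integrable.mul_bdd (c := ‖a‖ * (‖jconj D.J y‖ * ‖b‖)) h4
        (g10_continuous_inner E _ _ _).aestronglyMeasurable
        (ae_of_all _ (fun t => g10_bound_inner E _ _ _ t))
    have h5 : (fun t : ℝ => (kk θ t : ℂ) * (⟪α, S t (z' β)⟫_ℂ - ⟪star z' α, S t β⟫_ℂ)) =
        fun t : ℝ => (kk θ t : ℂ) * ⟪α, S t (z' β)⟫_ℂ - (kk θ t : ℂ) * ⟪star z' α, S t β⟫_ℂ := by
      funext t
      ring
    rw [h5, integral_sub (hint _ _) (hint _ _), h3, h3]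
    have h6 : ⟪star z' α, x β⟫_ℂ = ⟪α, x (z' β)⟫_ℂ := by
      rw [ContinuousLinearMap.star_eq_adjoint, ContinuousLinearMap.adjoint_inner_left]
      have h7 := (VonNeumannAlgebra.mem_commutant_iff.1 hz') x hx
      have h8 := congrArg (fun a : H →L[ℂ] H => a β) h7
      change x (z' β) = z' (x β) at h8
      rw [h8]
    rw [h6, sub_self]
  have hmem : S t ∈ M.commutant.commutant := by
    rw [VonNeumannAlgebra.mem_commutant_iff]
    intro z' hz'
    ext β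
    refine ext_inner_left ℂ (fun α => ?_)
    have h1 := key z' hz' α β t
    rw [sub_eq_zero, ContinuousLinearMap.star_eq_adjoint,
      ContinuousLinearMap.adjoint_inner_left] at h1
    exact h1.symm
  rwa [VonNeumannAlgebra.commutant_commutant] at hmem

/-- G10b -/
theorem sigma_mem' (M : VonNeumannAlgebra H) (ξ : H)
    (hcyc' : Dense {ζ : H | ∃ a ∈ M.commutant, a ξ = ζ}) (D : RvD M ξ)
    (E : ThData D.R D.T D.J) (y : H →L[ℂ] H) (hy : y ∈ M.commutant) (t : ℝ) :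
    E.Th (expB t) * jconj D.J y * E.Th (expB (-t)) ∈ M := by
  set y1 : H →L[ℂ] H := (1 / 2 : ℂ) • (y + star y) with hy1
  set y2 : H →L[ℂ] H := (-(Complex.I) / 2 : ℂ) • (y - star y) with hy2
  have hsy : star y ∈ M.commutant := star_mem hy
  have m1 : y1 ∈ M.commutant := by
    have := M.commutant.toStarSubalgebra.smul_mem
      (M.commutant.toStarSubalgebra.add_mem hy hsy) (1 / 2 : ℂ)
    exact this
  have m2 : y2 ∈ M.commutant := by
    have := M.commutant.toStarSubalgebra.smul_mem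
      (M.commutant.toStarSubalgebra.sub_mem hy hsy) (-(Complex.I) / 2 : ℂ)
    exact this
  have s1 : star y1 = y1 := by
    rw [hy1, star_smul, star_add, star_star, add_comm]
    congr 1
    simp
  have s2 : star y2 = y2 := by
    rw [hy2, star_smul, star_sub, star_star, ← neg_sub, smul_neg, ← neg_smul]
    congr 1
    simp
    ring
  have e : jconj D.J y = jconj D.J y1 - Complex.I • jconj D.J y2 := by
    ext ζ
    have h1 : y (D.J ζ) = y1 (D.J ζ) + Complex.I • y2 (D.J ζ) := by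
      rw [hy1, hy2]
      simp only [_root_.smul_apply, _root_.add_apply,
        _root_.sub_apply, smul_smul]
      have : Complex.I * (-Complex.I / 2) = 1 / 2 := by
        rw [mul_div_assoc', mul_neg, Complex.I_mul_I, neg_neg]
      rw [this, ← smul_add, add_add_sub_cancel, ← two_smul ℂ (y (D.J ζ)), smul_smul]
      norm_num
    simp only [jconj_apply, _root_.sub_apply, _root_.smul_apply]
    rw [h1, map_add, map_smulₛₗ]
    simp [sub_eq_add_neg]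
  rw [e]
  have h1 := g10_sigma_sa M ξ hcyc' D E y1 m1 s1 t
  have h2 := g10_sigma_sa M ξ hcyc' D E y2 m2 s2 t
  have h3 : E.Th (expB t) * (jconj D.J y1 - Complex.I • jconj D.J y2) * E.Th (expB (-t)) =
      E.Th (expB t) * jconj D.J y1 * E.Th (expB (-t)) -
        Complex.I • (E.Th (expB t) * jconj D.J y2 * E.Th (expB (-t))) := by
    rw [mul_sub, sub_mul, mul_smul_comm, smul_mul_assoc]
  rw [h3]
  exact M.toStarSubalgebra.sub_mem h1 (M.toStarSubalgebra.smul_mem h2 _)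

end Vale.Agent.P132
end

section

/-!
# P132: transport of the hypotheses and of the conclusion through the GNS representation
-/

open Filter Topology
open scoped ComplexConjugate InnerProductSpace BoundedContinuousFunction

namespace Vale.Agent.P132

universe u

variable {H : Type u} [NormedAddCommGroup H] [InnerProductSpace ℂ H] [CompleteSpace H]
variable {K : Type u} [NormedAddCommGroup K] [InnerProductSpace ℂ K] [CompleteSpace K]

/-- separating vectors from `ModData` -/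
theorem ModData.sep {N : VonNeumannAlgebra K} {η : K} (E : ModData N η) :
    ∀ a ∈ N, a η = 0 → a = 0 := by
  intro a ha h
  have h1 : Set.EqOn a (0 : K →L[ℂ] K) {ζ : K | ∃ b ∈ N.commutant, b η = ζ} := by
    rintro _ ⟨b, hb, rfl⟩
    rw [ModData.comm_apply ha hb, h, map_zero]
    rfl
  have h2 := Continuous.ext_on E.cyc' a.continuous (0 : K →L[ℂ] K).continuous h1
  exact DFunLike.coe_injective h2

namespace StdRep

variable {M : VonNeumannAlgebra H} {φ : (H →L[ℂ] H) → ℂ} (R : StdRep M φ K)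

theorem map_sub {x y : H →L[ℂ] H} (hx : x ∈ M) (hy : y ∈ M) : R.π (x - y) = R.π x - R.π y := by
  have h1 : x - y = x + (-1 : ℂ) • y := by simp [sub_eq_add_neg]
  rw [h1, R.map_add x hx _ (M.toStarSubalgebra.smul_mem hy _), R.map_smul _ y hy]
  simp [sub_eq_add_neg]

theorem map_zero' : R.π 0 = 0 := by
  have := R.map_sub (zero_mem M) (zero_mem M)
  simpa using this

theorem injective {x y : H →L[ℂ] H} (hx : x ∈ M) (hy : y ∈ M) (h : R.π x = R.π y) : x = y := by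
  rw [← sub_eq_zero]
  apply R.inj _ (sub_mem hx hy)
  rw [R.map_sub hx hy, h, sub_self]

theorem factor (h : IsFactor M) : ∀ z ∈ R.N, z ∈ R.N.commutant → ∃ c : ℂ, z = c • 1 := by
  intro z hz hz'
  obtain ⟨x, hx, rfl⟩ := R.surj z hz
  obtain ⟨c, hc⟩ := h x hx (by
    rw [VonNeumannAlgebra.mem_commutant_iff]
    intro y hy
    rw [VonNeumannAlgebra.mem_commutant_iff] at hz'
    apply R.injective (mul_mem hy hx) (mul_mem hx hy)
    rw [R.map_mul y hy x hx, R.map_mul x hx y hy]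
    exact hz' _ (R.mem y hy))
  refine ⟨c, ?_⟩
  rw [hc, R.map_smul c 1 (one_mem M), R.map_one]

theorem typeIII (h : ∀ e ∈ M, star e = e → e * e = e → e ≠ 0 →
      ∃ v ∈ M, star v * v = e ∧ v * star v = 1) :
    ∀ e ∈ R.N, star e = e → e * e = e → e ≠ 0 → ∃ v ∈ R.N, star v * v = e ∧ v * star v = 1 := by
  intro e he h1 h2 h3
  obtain ⟨x, hx, rfl⟩ := R.surj e he
  obtain ⟨v, hv, hv1, hv2⟩ := h x hx
    (R.injective (star_mem hx) hx (by rw [R.map_star x hx, h1]))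
    (R.injective (mul_mem hx hx) hx (by rw [R.map_mul x hx x hx, h2]))
    (fun h0 => h3 (by rw [h0, R.map_zero']))
  refine ⟨R.π v, R.mem v hv, ?_, ?_⟩
  · rw [← R.map_star v hv, ← R.map_mul _ (star_mem hv) _ hv, hv1]
  · rw [← R.map_star v hv, ← R.map_mul _ hv _ (star_mem hv), hv2, R.map_one]

/-- the state induced by a vector of `K` -/
noncomputable def vecState (η : K) : (H →L[ℂ] H) → ℂ := fun x => ⟪η, R.π x η⟫_ℂ

theorem vecState_normal {η : K} (hη : ‖η‖ = 1) : IsNormalState M (R.vecState η) :=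
  R.normal η hη

theorem vecState_faithful {η : K} (E : ModData R.N η) : IsFaithful M (R.vecState η) := by
  intro x hx h
  apply R.inj x hx
  apply E.sep _ (R.mem x hx)
  have h1 : R.vecState η (star x * x) = ⟪R.π x η, R.π x η⟫_ℂ := by
    show ⟪η, R.π (star x * x) η⟫_ℂ = _
    rw [R.map_mul _ (star_mem hx) _ hx, R.map_star x hx, mul_apply_eq_comp,
      ContinuousLinearMap.star_eq_adjoint, ContinuousLinearMap.adjoint_inner_right]
  rw [h1] at h
  exact inner_self_eq_zero.1 h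

/-- the GNS space of a vector state is `K` -/
noncomputable def gnsOf {η : K} (E : ModData R.N η) : GNSSpace M (R.vecState η) K where
  Λ := fun x => R.π x η
  dense := by
    refine E.cyc.mono ?_
    rintro _ ⟨a, ha, rfl⟩
    obtain ⟨x, hx, rfl⟩ := R.surj a ha
    exact ⟨x, hx, rfl⟩
  inner := by
    intro x hx y hy
    show ⟪R.π x η, R.π y η⟫_ℂ = ⟪η, R.π (star x * y) η⟫_ℂ
    rw [R.map_mul _ (star_mem hx) _ hy, R.map_star _ hx, mul_apply_eq_comp,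
      ContinuousLinearMap.star_eq_adjoint, ContinuousLinearMap.adjoint_inner_right]

theorem graphS_gnsOf {η : K} (E : ModData R.N η) :
    (R.gnsOf E).graphS = closure {p : K × K | ∃ a ∈ R.N, p = (a η, star a η)} := by
  unfold GNSSpace.graphS
  congr 1
  ext p
  constructor
  · rintro ⟨x, hx, rfl⟩
    refine ⟨R.π x, R.mem x hx, ?_⟩
    show (R.π x η, R.π (star x) η) = _
    rw [R.map_star _ hx]
  · rintro ⟨a, ha, rfl⟩
    obtain ⟨x, hx, rfl⟩ := R.surj a ha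
    refine ⟨x, hx, ?_⟩
    show _ = (R.π x η, R.π (star x) η)
    rw [R.map_star _ hx]

theorem graphΔ_gnsOf {η : K} (E : ModData R.N η) (p : K × K) :
    p ∈ (R.gnsOf E).graphΔ ↔
      ∃ θ, (p.1, θ) ∈ closure {p : K × K | ∃ a ∈ R.N, p = (a η, star a η)} ∧
        ∀ a ∈ R.N, ⟪star a η, θ⟫_ℂ = ⟪p.2, a η⟫_ℂ := by
  constructor
  · rintro ⟨θ, h1, h2⟩
    refine ⟨θ, by rwa [← R.graphS_gnsOf E], ?_⟩
    intro a ha
    obtain ⟨x, hx, rfl⟩ := R.surj a ha
    have := h2 x hx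
    have h3 : (R.gnsOf E).Λ (star x) = star (R.π x) η := by
      show R.π (star x) η = _
      rw [R.map_star x hx]
    rw [h3] at this
    exact this
  · rintro ⟨θ, h1, h2⟩
    refine ⟨θ, by rwa [R.graphS_gnsOf E], ?_⟩
    intro x hx
    have h3 : (R.gnsOf E).Λ (star x) = star (R.π x) η := by
      show R.π (star x) η = _
      rw [R.map_star x hx]
    rw [h3]
    exact h2 _ (R.mem x hx)

/-- windows from Connes' invariant -/
theorem hspec (hS : connesS M = Set.Ici 0)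
    (hgap : ∀ (η : K) (E : ModData R.N η) (a b : ℝ),
      (∀ F : ℝ →ᵇ ℂ, tsupport F ⊆ Set.Ioo a b → E.Th F = 0) → ∀ l ∈ Set.Ioo a b, ∀ z : K,
        ∃! w : K, ∃ θ, (w, θ) ∈ closure {p : K × K | ∃ a ∈ R.N, p = (a η, star a η)} ∧
          ∀ a ∈ R.N, ⟪star a η, θ⟫_ℂ = ⟪((Real.exp l : ℝ) : ℂ) • w + z, a η⟫_ℂ)
    (η : K) (E : ModData R.N η) (a b : ℝ) (hab : a < b) :
    ∃ F : ℝ →ᵇ ℂ, tsupport F ⊆ Set.Ioo a b ∧ E.Th F ≠ 0 := by
  by_contra hcon
  push Not at hcon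
  have hl : (a + b) / 2 ∈ Set.Ioo a b := ⟨by linarith, by linarith⟩
  have h1 := hgap η E a b hcon _ hl
  have h2 : Real.exp ((a + b) / 2) ∈ connesS M := by
    rw [hS]
    exact (Real.exp_pos _).le
  have h3 := h2 (R.vecState η) (R.vecState_normal E.norm_xi) (R.vecState_faithful E) K
    (R.gnsOf E)
  apply h3
  intro z
  obtain ⟨w, hw1, hw2⟩ := h1 z
  refine ⟨w, ?_, ?_⟩
  · exact (R.graphΔ_gnsOf E _).2 hw1
  · intro w' hw'
    exact hw2 w' ((R.graphΔ_gnsOf E _).1 hw')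

/-- `|φ(y u) - φ(u y)| ≤ 2 ‖[u, ξ]‖ ‖y‖` -/
theorem comm_bound (D : ModData R.N R.ξ) {u y : K →L[ℂ] K} (hu : u ∈ R.N) (hy : y ∈ R.N) :
    ‖⟪R.ξ, y (u R.ξ)⟫_ℂ - ⟪R.ξ, u (y R.ξ)⟫_ℂ‖ ≤ 2 * ‖D.cm u R.ξ‖ * ‖y‖ := by
  have e1 : u R.ξ = D.cm u R.ξ + D.Rm u R.ξ := by
    simp [ModData.cm]
  have e2 : ⟪R.ξ, y (D.Rm u R.ξ)⟫_ℂ = ⟪D.Rm (star u) R.ξ, y R.ξ⟫_ℂ := by
    rw [D.comm_Rm hy hu, ← D.star_Rm, ContinuousLinearMap.star_eq_adjoint,
      ContinuousLinearMap.adjoint_inner_left]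
  have e3 : ⟪R.ξ, u (y R.ξ)⟫_ℂ = ⟪star u R.ξ, y R.ξ⟫_ℂ := by
    rw [ContinuousLinearMap.star_eq_adjoint, ContinuousLinearMap.adjoint_inner_left]
  have e4 : ‖D.Rm (star u) R.ξ - star u R.ξ‖ = ‖D.cm u R.ξ‖ := by
    have : D.Rm (star u) R.ξ - star u R.ξ = D.J (D.cm u R.ξ) := by
      rw [ModData.cm, _root_.map_sub, D.Rm_xi, D.Rm_xi, D.J_J, star_star]
    rw [this, D.norm_J]
  have e5 : ⟪R.ξ, y (u R.ξ)⟫_ℂ - ⟪R.ξ, u (y R.ξ)⟫_ℂ
      = ⟪R.ξ, y (D.cm u R.ξ)⟫_ℂ + ⟪D.Rm (star u) R.ξ - star u R.ξ, y R.ξ⟫_ℂ := by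
    rw [inner_sub_left, ← e2, ← e3]
    conv_lhs => rw [e1]
    rw [_root_.map_add, inner_add_right]
    ring
  rw [e5]
  have b1 : ‖⟪R.ξ, y (D.cm u R.ξ)⟫_ℂ‖ ≤ ‖y‖ * ‖D.cm u R.ξ‖ := by
    refine (norm_inner_le_norm _ _).trans ?_
    rw [R.norm_xi, one_mul]
    exact y.le_opNorm _
  have b2 : ‖⟪D.Rm (star u) R.ξ - star u R.ξ, y R.ξ⟫_ℂ‖ ≤ ‖D.cm u R.ξ‖ * ‖y‖ := by
    refine (norm_inner_le_norm _ _).trans ?_
    rw [e4]
    refine mul_le_mul_of_nonneg_left ?_ (norm_nonneg _)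
    have := y.le_opNorm R.ξ
    rwa [R.norm_xi, mul_one] at this
  calc _ ≤ _ := norm_add_le _ _
    _ ≤ ‖y‖ * ‖D.cm u R.ξ‖ + ‖D.cm u R.ξ‖ * ‖y‖ := add_le_add b1 b2
    _ = _ := by ring

/-- elements of the bicentralizer are sent to elements of `N`-class -/
theorem inN_of_bicentralizer (D : ModData R.N R.ξ) {a : H →L[ℂ] H} (ha : a ∈ bicentralizer M φ) :
    D.InN (R.π a) := by
  obtain ⟨haM, ha⟩ := ha
  refine ⟨R.mem a haM, ?_⟩
  intro ε hε
  by_contra hcon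
  push Not at hcon
  have hseq : ∀ n : ℕ, ∃ w ∈ M, w ∈ unitary (H →L[ℂ] H) ∧ ‖D.cm (R.π w) R.ξ‖ ≤ 1 / (n + 1) ∧
      ε < ‖R.π a (R.π w R.ξ) - R.π w (R.π a R.ξ)‖ := by
    intro n
    obtain ⟨u, huN, huu, h1, h2⟩ := hcon (1 / (n + 1)) (by positivity)
    obtain ⟨w, hw, rfl⟩ := R.surj u huN
    refine ⟨w, hw, ?_, h1, h2⟩
    rw [Unitary.mem_iff] at huu ⊢
    constructor
    · apply R.injective (mul_mem (star_mem hw) hw) (one_mem M)
      rw [R.map_mul _ (star_mem hw) _ hw, R.map_star w hw, R.map_one, huu.1]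
    · apply R.injective (mul_mem hw (star_mem hw)) (one_mem M)
      rw [R.map_mul _ hw _ (star_mem hw), R.map_star w hw, R.map_one, huu.2]
  choose w hwM hwu hw1 hw2 using hseq
  have hnorm : ∀ n, ‖w n‖ ≤ 1 := by
    intro n
    have h1 : ‖star (w n) * w n‖ ≤ 1 := by
      rw [(Unitary.mem_iff.1 (hwu n)).1]
      exact ContinuousLinearMap.norm_id_le
    rw [CStarRing.norm_star_mul_self] at h1
    (by_contra nlg; linarith [mul_nonneg (sub_nonneg.2 h1) (sub_nonneg.2 (norm_nonneg (w n))), mul_nonneg (le_of_lt (sub_pos.2 (not_le.1 nlg))) (sub_nonneg.2 h1), mul_pos (sub_pos.2 (not_le.1 nlg)) (sub_pos.2 (not_le.1 nlg)), mul_nonneg (mul_self_nonneg (‖w n‖ : ℝ)) (le_of_lt (sub_pos.2 (not_le.1 nlg)))])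
  have hac : AsympCentralizes M φ w := by
    intro δ hδ
    obtain ⟨n₀, hn₀⟩ := exists_nat_gt (2 / δ)
    filter_upwards [eventually_ge_atTop n₀] with n hn y hy hy1
    rw [← R.state _ (mul_mem hy (hwM n)), ← R.state _ (mul_mem (hwM n) hy),
      R.map_mul _ hy _ (hwM n), R.map_mul _ (hwM n) _ hy]
    have h1 := R.comm_bound D (R.mem _ (hwM n)) (R.mem y hy)
    have h2 : ‖R.π y‖ ≤ 1 := (R.norm_le y hy).trans hy1
    have h3 : 2 * ‖D.cm (R.π (w n)) R.ξ‖ * ‖R.π y‖ ≤ 2 * (1 / (n + 1)) * 1 := by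
      gcongr
      exact hw1 n
    refine (h1.trans h3).trans ?_
    have h4 : (n₀ : ℝ) ≤ n := by exact_mod_cast hn
    have h5 : (0 : ℝ) < (n : ℝ) + 1 := by positivity
    rw [mul_one, mul_one_div, div_le_iff₀ h5]
    rw [div_lt_iff₀ hδ] at hn₀
    nlinarith
  have h1 := ha w hwM ⟨1, hnorm⟩ hac
  have h2 := R.strong (fun n => a * w n - w n * a)
    (fun n => sub_mem (mul_mem haM (hwM n)) (mul_mem (hwM n) haM))
    ⟨2 * ‖a‖, fun n => by
      refine (norm_sub_le _ _).trans ?_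
      have h3 := norm_mul_le a (w n)
      have h4 := norm_mul_le (w n) a
      have h5 := hnorm n
      have h6 := norm_nonneg a
      linarith only [mul_nonneg (sub_nonneg.2 h5) (sub_nonneg.2 h6), h4, h3]⟩ h1 R.ξ
  have h3 := (tendsto_zero_iff_norm_tendsto_zero.1 h2).eventually (gt_mem_nhds hε)
  obtain ⟨n, hn⟩ := h3.exists
  have h4 := hw2 n
  have h5 : R.π (a * w n - w n * a) R.ξ
      = R.π a (R.π (w n) R.ξ) - R.π (w n) (R.π a R.ξ) := by
    rw [R.map_sub (mul_mem haM (hwM n)) (mul_mem (hwM n) haM), R.map_mul _ haM _ (hwM n),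
      R.map_mul _ (hwM n) _ haM]
    rfl
  rw [h5] at hn
  linarith

end StdRep

/-- The final reduction. -/
theorem bicentralizer_eq {M : VonNeumannAlgebra H} (hfac : IsFactor M)
    (hAll : ∀ e ∈ M, star e = e → e * e = e → e ≠ 0 → ∃ v ∈ M, star v * v = e ∧ v * star v = 1)
    (hS : connesS M = Set.Ici 0)
    {φ : (H →L[ℂ] H) → ℂ} (hφ : IsNormalState M φ) (hf : IsFaithful M φ)
    (hgap : ∀ (K : Type u) [NormedAddCommGroup K] [InnerProductSpace ℂ K] [CompleteSpace K]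
      (N : VonNeumannAlgebra K) (η : K) (E : ModData N η) (a b : ℝ),
      (∀ F : ℝ →ᵇ ℂ, tsupport F ⊆ Set.Ioo a b → E.Th F = 0) → ∀ l ∈ Set.Ioo a b, ∀ z : K,
        ∃! w : K, ∃ θ, (w, θ) ∈ closure {p : K × K | ∃ a ∈ N, p = (a η, star a η)} ∧
          ∀ a ∈ N, ⟪star a η, θ⟫_ℂ = ⟪((Real.exp l : ℝ) : ℂ) • w + z, a η⟫_ℂ)
    (hmod : ∀ (K : Type u) [NormedAddCommGroup K] [InnerProductSpace ℂ K] [CompleteSpace K]
      (N : VonNeumannAlgebra K) (ξ : K), ‖ξ‖ = 1 → Dense {ζ : K | ∃ a ∈ N, a ξ = ζ} →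
      (∀ a ∈ N, a ξ = 0 → a = 0) → Nonempty (ModData N ξ))
    (hcore : ∀ (K : Type u) [NormedAddCommGroup K] [InnerProductSpace ℂ K] [CompleteSpace K]
      (N : VonNeumannAlgebra K) (ξ : K) (D : ModData N ξ),
      (∀ z ∈ N, z ∈ N.commutant → ∃ c : ℂ, z = c • 1) →
      (∀ e ∈ N, star e = e → e * e = e → e ≠ 0 → ∃ v ∈ N, star v * v = e ∧ v * star v = 1) →
      (∀ (η : K) (E : ModData N η) (a b : ℝ), a < b →
        ∃ F : ℝ →ᵇ ℂ, tsupport F ⊆ Set.Ioo a b ∧ E.Th F ≠ 0) →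
      ∀ x : K →L[ℂ] K, D.InN x → ∃ c : ℂ, x = c • 1) :
    bicentralizer M φ = {a | ∃ c : ℂ, a = c • 1} := by
  apply Set.Subset.antisymm
  · intro a ha
    obtain ⟨K, _, _, _, ⟨R⟩⟩ := exists_stdRep M φ hφ hf
    obtain ⟨D⟩ := hmod K R.N R.ξ R.norm_xi R.cyc R.sep
    obtain ⟨c, hc⟩ := hcore K R.N R.ξ D (R.factor hfac) (R.typeIII hAll)
      (R.hspec hS fun η E a b h l hl z => hgap K R.N η E a b h l hl z)
      (R.π a) (R.inN_of_bicentralizer D ha)
    refine ⟨c, ?_⟩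
    apply R.injective ha.1 (M.toStarSubalgebra.smul_mem (one_mem M) c)
    rw [hc, R.map_smul c 1 (one_mem M), R.map_one]
  · rintro a ⟨c, rfl⟩
    refine ⟨M.toStarSubalgebra.smul_mem (one_mem M) c, ?_⟩
    intro w _ _ _ ζ
    have : ∀ n, ((c • (1 : H →L[ℂ] H)) * w n - w n * (c • (1 : H →L[ℂ] H))) ζ = 0 := by
      intro n
      simp
    simp only [this]
    exact tendsto_const_nhds

end Vale.Agent.P132
end

section

/-!
# P132, Part IV: the state `ψ = Z⁻¹ ∑ L⁻ⁿ φ(uₙ* · uₙ)`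
-/

open Filter Topology
open scoped InnerProductSpace

namespace Vale.Agent.P132

universe u

variable {H : Type u} [NormedAddCommGroup H] [InnerProductSpace ℂ H] [CompleteSpace H]

namespace Gs

theorem norm_pi_le {v : H →L[ℂ] H} (h : v * star v * v = v) (x : H) : ‖v x‖ ≤ ‖x‖ := by
  -- `v* v` is a projection
  have h2 : star v * v * (star v * v) = star v * v := by
    calc star v * v * (star v * v) = star v * (v * star v * v) := by simp only [mul_assoc]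
      _ = star v * v := by rw [h]
  have h3 : ‖star v * v‖ ≤ 1 := by
    have h4 : ‖star v * v‖ * ‖star v * v‖ = ‖star v * v‖ := by
      have h5 : star (star v * v) * (star v * v) = star v * v := by
        rw [star_mul, star_star]
        exact h2
      rw [← CStarRing.norm_star_mul_self, h5]
    by_contra hcon
    push Not at hcon
    linarith only [mul_pos (sub_pos.2 hcon) (sub_pos.2 hcon), mul_eq_zero_of_left (sub_eq_zero.2 h4) (‖star v * v‖ - (1)), mul_eq_zero_of_left (sub_eq_zero.2 h4) (‖star v * v‖ * ‖star v * v‖ - (‖star v * v‖)), mul_eq_zero_of_left (sub_eq_zero.2 h4) (0 - (0 - ‖star v * v‖ * ‖star v * v‖)), hcon]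
  have h4 : ‖v‖ * ‖v‖ ≤ 1 := by rw [← CStarRing.norm_star_mul_self]; exact h3
  have h5 : ‖v‖ ≤ 1 := by
    by_contra hcon
    push Not at hcon
    linarith [mul_pos (sub_pos.2 hcon) (sub_pos.2 hcon), mul_nonneg (sub_nonneg.2 h4) (le_of_lt (sub_pos.2 hcon)), mul_nonneg (sub_nonneg.2 h4) (sub_nonneg.2 h4), mul_nonneg (mul_self_nonneg (‖v‖ : ℝ)) (le_of_lt (sub_pos.2 hcon)), mul_nonneg (mul_self_nonneg (‖v‖ : ℝ)) (sub_nonneg.2 h4)]
  calc ‖v x‖ ≤ ‖v‖ * ‖x‖ := v.le_opNorm x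
    _ ≤ 1 * ‖x‖ := mul_le_mul_of_nonneg_right h5 (norm_nonneg _)
    _ = ‖x‖ := one_mul _

/-- the (unnormalized) vectors of the state -/
noncomputable def vec (L : ℝ) (u : ℕ → H →L[ℂ] H) (η : ℕ → H) (p : ℕ × ℕ) : H :=
  ((Real.sqrt ((L⁻¹) ^ p.1) : ℝ) : ℂ) • u p.1 (η p.2)

omit [CompleteSpace H] in
theorem norm_vec_sq {L : ℝ} (hL : 0 < L) (u : ℕ → H →L[ℂ] H) (η : ℕ → H) (p : ℕ × ℕ) :
    ‖vec L u η p‖ ^ 2 = (L⁻¹) ^ p.1 * ‖u p.1 (η p.2)‖ ^ 2 := by
  rw [vec, norm_smul, mul_pow, Complex.norm_real, Real.norm_of_nonneg (Real.sqrt_nonneg _),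
    Real.sq_sqrt (by positivity)]

theorem summable_vec {M : VonNeumannAlgebra H} {e : H →L[ℂ] H} {u : ℕ → H →L[ℂ] H}
    (hu : GFam M e u) {η : ℕ → H} (hη : HasSum (fun i => ‖η i‖ ^ 2) 1) {L : ℝ} (hL : 1 < L) :
    Summable fun p => ‖vec L u η p‖ ^ 2 := by
  have hL0 : 0 < L := by linarith
  have h1 : Summable fun n : ℕ => (L⁻¹) ^ n :=
    summable_geometric_of_lt_one (by positivity) (inv_lt_one_of_one_lt₀ hL)
  have h2 : Summable fun p : ℕ × ℕ => (L⁻¹) ^ p.1 * ‖η p.2‖ ^ 2 :=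
    h1.mul_of_nonneg hη.summable (fun n => by positivity) (fun n => by positivity)
  refine Summable.of_nonneg_of_le (fun p => by positivity) (fun p => ?_) h2
  rw [norm_vec_sq hL0]
  have h3 := norm_pi_le (hu.pi p.1) (η p.2)
  gcongr

/-- total mass -/
noncomputable def Z (L : ℝ) (u : ℕ → H →L[ℂ] H) (η : ℕ → H) : ℝ := ∑' p, ‖vec L u η p‖ ^ 2

/-- the state -/
noncomputable def psi (L : ℝ) (u : ℕ → H →L[ℂ] H) (η : ℕ → H) (x : H →L[ℂ] H) : ℂ :=
  ((Z L u η)⁻¹ : ℂ) * ∑' p, ⟪vec L u η p, x (vec L u η p)⟫_ℂ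

theorem summable_inner {M : VonNeumannAlgebra H} {e : H →L[ℂ] H} {u : ℕ → H →L[ℂ] H}
    (hu : GFam M e u) {η : ℕ → H} (hη : HasSum (fun i => ‖η i‖ ^ 2) 1) {L : ℝ} (hL : 1 < L)
    (x : H →L[ℂ] H) : Summable fun p => ⟪vec L u η p, x (vec L u η p)⟫_ℂ := by
  refine Summable.of_norm_bounded ((summable_vec hu hη hL).mul_left ‖x‖) (fun p => ?_)
  calc ‖⟪vec L u η p, x (vec L u η p)⟫_ℂ‖ ≤ ‖vec L u η p‖ * ‖x (vec L u η p)‖ :=
        norm_inner_le_norm _ _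
    _ ≤ ‖vec L u η p‖ * (‖x‖ * ‖vec L u η p‖) :=
        mul_le_mul_of_nonneg_left (x.le_opNorm _) (norm_nonneg _)
    _ = ‖x‖ * ‖vec L u η p‖ ^ 2 := by ring

theorem Z_pos {M : VonNeumannAlgebra H} {e : H →L[ℂ] H} {u : ℕ → H →L[ℂ] H}
    (hu : GFam M e u) {η : ℕ → H} (hη : HasSum (fun i => ‖η i‖ ^ 2) 1)
    (hη' : ∀ x ∈ M, (∀ i, x (η i) = 0) → x = 0) {L : ℝ} (hL : 1 < L) : 0 < Z L u η := by
  have hL0 : 0 < L := by linarith
  have hs := summable_vec hu hη hL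
  by_contra hcon
  push Not at hcon
  have h0 : Z L u η = 0 := le_antisymm hcon (tsum_nonneg fun p => sq_nonneg _)
  have h1 : ∀ p, ‖vec L u η p‖ ^ 2 = 0 := by
    have h2 : HasSum (fun p => ‖vec L u η p‖ ^ 2) 0 := by
      rw [← h0]
      exact hs.hasSum
    have h3 := (hasSum_zero_iff_of_nonneg fun p => sq_nonneg _).1 h2
    intro p
    exact congrFun h3 p
  have h2 : ∀ n i, u n (η i) = 0 := by
    intro n i
    have h3 := h1 (n, i)
    rw [norm_vec_sq hL0] at h3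
    have h4 : (L⁻¹) ^ n ≠ 0 := by positivity
    have h5 := (mul_eq_zero.1 h3).resolve_left h4
    rw [← norm_eq_zero]
    exact pow_eq_zero_iff two_ne_zero |>.1 h5
  have h3 : ∀ n, u n = 0 := fun n => hη' _ (hu.mem n) (h2 n)
  have h4 : ∀ ζ : H, ζ = 0 := fun ζ => hu.full ζ fun n => by rw [h3, star_zero]; rfl
  have h5 : ∀ i, ‖η i‖ ^ 2 = 0 := fun i => by rw [h4 (η i)]; simp
  have h6 : HasSum (fun i => ‖η i‖ ^ 2) 0 := by
    simp_rw [h5]
    exact hasSum_zero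
  exact zero_ne_one (h6.unique hη)

theorem isNormal_psi {M : VonNeumannAlgebra H} {e : H →L[ℂ] H} {u : ℕ → H →L[ℂ] H}
    (hu : GFam M e u) {η : ℕ → H} (hη : HasSum (fun i => ‖η i‖ ^ 2) 1)
    (hη' : ∀ x ∈ M, (∀ i, x (η i) = 0) → x = 0) {L : ℝ} (hL : 1 < L) :
    IsNormalState M (psi L u η) := by
  have hZ := Z_pos hu hη hη' hL
  set c : ℝ := Real.sqrt ((Z L u η)⁻¹) with hc
  have hc2 : c ^ 2 = (Z L u η)⁻¹ := Real.sq_sqrt (by positivity)
  have hc0 : 0 ≤ c := Real.sqrt_nonneg _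
  set ζ : ℕ → H := fun k => (c : ℂ) • vec L u η (Nat.unpair k) with hζ
  refine ⟨ζ, ?_, fun x _ => ?_⟩
  · have h1 : HasSum (fun p => c ^ 2 * ‖vec L u η p‖ ^ 2) (c ^ 2 * Z L u η) :=
      (summable_vec hu hη hL).hasSum.mul_left _
    rw [hc2, inv_mul_cancel₀ hZ.ne'] at h1
    have h2 := (Equiv.hasSum_iff Nat.pairEquiv.symm).2 h1
    convert h2 using 2 with k
    rw [hζ]
    simp only [Function.comp_apply]
    rw [norm_smul, mul_pow, Complex.norm_real, Real.norm_of_nonneg hc0, hc2]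
    rfl
  · have h1 : HasSum (fun p => ((Z L u η)⁻¹ : ℂ) * ⟪vec L u η p, x (vec L u η p)⟫_ℂ)
        (psi L u η x) := (summable_inner hu hη hL x).hasSum.mul_left _
    have h2 := (Equiv.hasSum_iff Nat.pairEquiv.symm).2 h1
    convert h2 using 2 with k
    rw [hζ]
    simp only [Function.comp_apply]
    rw [map_smul, inner_smul_left, inner_smul_right, Complex.conj_ofReal, ← mul_assoc,
      ← Complex.ofReal_mul, ← sq, hc2, Complex.ofReal_inv]
    rfl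

theorem isFaithful_psi {M : VonNeumannAlgebra H} {e : H →L[ℂ] H} {u : ℕ → H →L[ℂ] H}
    (hu : GFam M e u) {η : ℕ → H} (hη : HasSum (fun i => ‖η i‖ ^ 2) 1)
    (hη' : ∀ x ∈ M, (∀ i, x (η i) = 0) → x = 0) {L : ℝ} (hL : 1 < L) :
    IsFaithful M (psi L u η) := by
  have hZ := Z_pos hu hη hη' hL
  have hL0 : 0 < L := by linarith
  intro x hx h
  rw [psi] at h
  have h0 : ((Z L u η)⁻¹ : ℂ) ≠ 0 := inv_ne_zero (Complex.ofReal_ne_zero.2 hZ.ne')
  have h1 := (mul_eq_zero.1 h).resolve_left h0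
  have h2 : ∀ p, ⟪vec L u η p, (star x * x) (vec L u η p)⟫_ℂ =
      ((‖x (vec L u η p)‖ ^ 2 : ℝ) : ℂ) := fun p => by
    rw [Cmp.inner_star_mul_self]
    push_cast
    rfl
  simp_rw [h2] at h1
  rw [← Complex.ofReal_tsum, Complex.ofReal_eq_zero] at h1
  have hs : Summable fun p => ‖x (vec L u η p)‖ ^ 2 := by
    have h3 := (summable_inner hu hη hL (star x * x))
    simp_rw [h2] at h3
    exact Complex.summable_ofReal.1 h3
  have h3 : HasSum (fun p => ‖x (vec L u η p)‖ ^ 2) 0 := by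
    rw [← h1]
    exact hs.hasSum
  have h4 := (hasSum_zero_iff_of_nonneg fun p => sq_nonneg _).1 h3
  have h5 : ∀ n i, x (u n (η i)) = 0 := by
    intro n i
    have h6 : ‖x (vec L u η (n, i))‖ ^ 2 = 0 := congrFun h4 (n, i)
    have h7 : x (vec L u η (n, i)) = 0 := by
      rw [← norm_eq_zero]
      exact pow_eq_zero_iff two_ne_zero |>.1 h6
    rw [vec, map_smul] at h7
    refine (smul_eq_zero.1 h7).resolve_left ?_
    exact Complex.ofReal_ne_zero.2 (Real.sqrt_pos.2 (by positivity)).ne'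
  have h6 : ∀ n, x * u n = 0 := fun n => hη' _ (mul_mem hx (hu.mem n)) (h5 n)
  have h7 : star x = 0 := by
    ext ζ
    apply hu.full
    intro n
    have h8 := congrArg star (h6 n)
    rw [star_mul, star_zero] at h8
    exact congrArg (fun T : H →L[ℂ] H => T ζ) h8
  rw [← star_star x, h7, star_zero]

/-- evaluation of `ψ` on elements seen by one `u i` only -/
theorem psi_single {M : VonNeumannAlgebra H} {u : ℕ → H →L[ℂ] H}
    {φ : (H →L[ℂ] H) → ℂ} {η : ℕ → H}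
    (hφ : ∀ x ∈ M, HasSum (fun i => ⟪η i, x (η i)⟫_ℂ) (φ x)) {L : ℝ} (hL : 1 < L)
    (hu : ∀ n, u n ∈ M)
    {x : H →L[ℂ] H} (hx : x ∈ M) (i : ℕ) (h : ∀ n, n ≠ i → star (u n) * x * u n = 0) :
    psi L u η x = ((Z L u η)⁻¹ : ℂ) * (((L⁻¹) ^ i : ℝ) : ℂ) * φ (star (u i) * x * u i) := by
  have hL0 : 0 < L := by linarith
  rw [psi, mul_assoc]
  congr 1
  have h1 : ∀ p : ℕ × ℕ, ⟪vec L u η p, x (vec L u η p)⟫_ℂ =
      (((L⁻¹) ^ p.1 : ℝ) : ℂ) * ⟪η p.2, (star (u p.1) * x * u p.1) (η p.2)⟫_ℂ := by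
    intro p
    rw [vec, map_smul, inner_smul_left, inner_smul_right, Complex.conj_ofReal, ← mul_assoc,
      ← Complex.ofReal_mul, Real.mul_self_sqrt (by positivity)]
    congr 1
    rw [mul_apply_eq_comp, mul_apply_eq_comp, ContinuousLinearMap.star_eq_adjoint,
      ContinuousLinearMap.adjoint_inner_right]
  simp_rw [h1]
  have h2 := (hφ _ (mul_mem (mul_mem (star_mem (hu i)) hx) (hu i))).mul_left
    (((L⁻¹) ^ i : ℝ) : ℂ)
  have hinj : Function.Injective fun m : ℕ => ((i, m) : ℕ × ℕ) := fun a b hab => by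
    simpa using hab
  have h3 := (hinj.hasSum_iff (f := fun p : ℕ × ℕ => (((L⁻¹) ^ p.1 : ℝ) : ℂ) *
    ⟪η p.2, (star (u p.1) * x * u p.1) (η p.2)⟫_ℂ) (by
      rintro ⟨n, m⟩ hp
      have hn : n ≠ i := by
        rintro rfl
        exact hp ⟨m, rfl⟩
      simp only
      rw [h n hn]
      simp)).1 h2
  exact h3.tsum_eq

end Gs

end Vale.Agent.P132
end

section

/-!
# P132: a faithful normal state is a faithful normal semifinite weight
-/

open Filter Topology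
open scoped InnerProductSpace ENNReal NNReal

namespace Vale.Agent.P132

universe u

set_option linter.unusedSectionVars false

variable {H : Type u} [NormedAddCommGroup H] [InnerProductSpace ℂ H] [CompleteSpace H]

theorem sw_re_nonneg {p : H →L[ℂ] H} (hp : 0 ≤ p) (ζ : H) : 0 ≤ (⟪ζ, p ζ⟫_ℂ).re :=
  ((ContinuousLinearMap.nonneg_iff_isPositive p).1 hp).re_inner_nonneg_right ζ

theorem sw_re_mono {p q : H →L[ℂ] H} (h : p ≤ q) (ζ : H) :
    (⟪ζ, p ζ⟫_ℂ).re ≤ (⟪ζ, q ζ⟫_ℂ).re := by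
  have := sw_re_nonneg (sub_nonneg.2 h) ζ
  rw [sub_apply, inner_sub_right, Complex.sub_re] at this
  linarith

/-- Cauchy-Schwarz for a positive operator -/
theorem sw_cs {p : H →L[ℂ] H} (hp : 0 ≤ p) (v ζ : H) :
    ‖⟪v, p ζ⟫_ℂ‖ ^ 2 ≤ (⟪v, p v⟫_ℂ).re * (⟪ζ, p ζ⟫_ℂ).re := by
  have hs := CFC.sqrt_nonneg p
  have hs2 : CFC.sqrt p * CFC.sqrt p = p := CFC.sqrt_mul_sqrt_self p hp
  have hsa' : star (CFC.sqrt p) = CFC.sqrt p := hs.isSelfAdjoint.star_eq
  set b := CFC.sqrt p with hb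
  have key : ∀ v w : H, ⟪v, p w⟫_ℂ = ⟪b v, b w⟫_ℂ := by
    intro v w
    rw [← hs2]
    change ⟪v, b (b w)⟫_ℂ = _
    rw [← ContinuousLinearMap.adjoint_inner_left, ← ContinuousLinearMap.star_eq_adjoint, hsa']
  have h2 : ∀ v : H, (⟪v, p v⟫_ℂ).re = ‖b v‖ ^ 2 := by
    intro v
    rw [key]
    have := inner_self_eq_norm_sq_to_K (𝕜 := ℂ) (b v)
    rw [this]
    norm_cast
  rw [key, h2, h2, ← mul_pow]
  exact pow_le_pow_left₀ (norm_nonneg _) (norm_inner_le_norm _ _) 2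

theorem sw_norm_sq_le {p : H →L[ℂ] H} (hp : 0 ≤ p) (ζ : H) :
    ‖p ζ‖ ^ 2 ≤ ‖p‖ * (⟪ζ, p ζ⟫_ℂ).re := by
  have h1 := sw_cs hp (p ζ) ζ
  have h2 : (⟪p ζ, p (p ζ)⟫_ℂ).re ≤ ‖p‖ * ‖p ζ‖ ^ 2 := by
    calc (⟪p ζ, p (p ζ)⟫_ℂ).re ≤ ‖⟪p ζ, p (p ζ)⟫_ℂ‖ := Complex.re_le_norm _
      _ ≤ ‖p ζ‖ * ‖p (p ζ)‖ := norm_inner_le_norm _ _
      _ ≤ ‖p ζ‖ * (‖p‖ * ‖p ζ‖) := by gcongr; exact p.le_opNorm _
      _ = ‖p‖ * ‖p ζ‖ ^ 2 := by ring
  have h3 : ‖⟪p ζ, p ζ⟫_ℂ‖ = ‖p ζ‖ ^ 2 := by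
    rw [inner_self_eq_norm_sq_to_K]
    simp
  rw [h3] at h1
  have h4 := sw_re_nonneg hp ζ
  by_cases h0 : ‖p ζ‖ = 0
  · rw [h0]
    simpa using mul_nonneg (norm_nonneg p) h4
  · have h5 : 0 < ‖p ζ‖ ^ 2 := by positivity
    have h6 : (‖p ζ‖ ^ 2) ^ 2 ≤ (‖p‖ * ‖p ζ‖ ^ 2) * (⟪ζ, p ζ⟫_ℂ).re :=
      h1.trans (mul_le_mul_of_nonneg_right h2 h4)
    (by_contra nlg; linarith only [nlg, mul_pos (sub_pos.2 (not_le.1 nlg)) (sub_pos.2 h5), h6])

/-- a supremum of a directed set of positive operators is a weak limit -/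
theorem sw_lub {D : Set (H →L[ℂ] H)} (h0 : ∀ d ∈ D, 0 ≤ d) (hne : D.Nonempty)
    (hdir : DirectedOn (· ≤ ·) D) {x : H →L[ℂ] H} (hx : IsLUB D x) (ζ : H) {ε : ℝ} (hε : 0 < ε) :
    ∃ d ∈ D, (⟪ζ, x ζ⟫_ℂ).re - ε < (⟪ζ, d ζ⟫_ℂ).re := by
  by_contra hcon
  push Not at hcon
  -- the supremum of the quadratic forms at `ζ`
  set S : Set ℝ := (fun d : H →L[ℂ] H => (⟪ζ, d ζ⟫_ℂ).re) '' D with hS
  have hSne : S.Nonempty := hne.image _
  have hSb : BddAbove S := ⟨(⟪ζ, x ζ⟫_ℂ).re - ε, by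
    rintro _ ⟨d, hd, rfl⟩
    exact hcon d hd⟩
  set s := sSup S with hs
  have hsle : s ≤ (⟪ζ, x ζ⟫_ℂ).re - ε := csSup_le hSne (by
    rintro _ ⟨d, hd, rfl⟩
    exact hcon d hd)
  have hdle : ∀ d ∈ D, (⟪ζ, d ζ⟫_ℂ).re ≤ s := fun d hd => le_csSup hSb ⟨d, hd, rfl⟩
  have hseq : ∀ n : ℕ, ∃ d ∈ D, s - 1 / ((n : ℝ) + 1) < (⟪ζ, d ζ⟫_ℂ).re := by
    intro n
    obtain ⟨_, ⟨d, hd, rfl⟩, h⟩ := exists_lt_of_lt_csSup hSne
      (show s - 1 / ((n : ℝ) + 1) < s by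
        have : (0 : ℝ) < 1 / ((n : ℝ) + 1) := by positivity
        linarith)
    exact ⟨d, hd, h⟩
  choose d hdD hd using hseq
  have hxu : ∀ d ∈ D, d ≤ x := hx.1
  have hnorm : ∀ a ∈ D, ∀ b ∈ D, a ≤ b → ‖b - a‖ ≤ ‖x‖ := by
    intro a ha b hb hab
    refine CStarAlgebra.norm_le_norm_of_nonneg_of_le (sub_nonneg.2 hab) ?_
    have h1 : b - a ≤ b := sub_le_self _ (h0 a ha)
    exact h1.trans (hxu b hb)
  have hdiff : ∀ a ∈ D, ∀ b ∈ D, a ≤ b → ∀ δ : ℝ, s - δ ≤ (⟪ζ, a ζ⟫_ℂ).re →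
      ‖b ζ - a ζ‖ ^ 2 ≤ ‖x‖ * δ := by
    intro a ha b hb hab δ hδ
    have h1 := sw_norm_sq_le (sub_nonneg.2 hab) ζ
    rw [sub_apply, inner_sub_right, Complex.sub_re] at h1
    have h2 := hdle b hb
    have h3 := sw_re_mono hab ζ
    calc ‖b ζ - a ζ‖ ^ 2 ≤ ‖b - a‖ * ((⟪ζ, b ζ⟫_ℂ).re - (⟪ζ, a ζ⟫_ℂ).re) := h1
      _ ≤ ‖x‖ * δ := by
        refine mul_le_mul (hnorm a ha b hb hab) (by linarith) (by linarith) (norm_nonneg _)
  have hlim0 : Tendsto (fun n : ℕ => Real.sqrt (‖x‖ * (1 / ((n : ℝ) + 1)))) atTop (𝓝 0) := by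
    have h1 : Tendsto (fun n : ℕ => ‖x‖ * (1 / ((n : ℝ) + 1))) atTop (𝓝 (‖x‖ * 0)) :=
      (tendsto_one_div_add_atTop_nhds_zero_nat (𝕜 := ℝ)).const_mul _
    have h2 := (Real.continuous_sqrt.tendsto _).comp h1
    rw [mul_zero, Real.sqrt_zero] at h2
    exact h2
  have hbd : ∀ n, ∀ b ∈ D, d n ≤ b → ‖b ζ - d n ζ‖ ≤ Real.sqrt (‖x‖ * (1 / ((n : ℝ) + 1))) := by
    intro n b hb hle
    refine Real.le_sqrt_of_sq_le ?_
    exact hdiff (d n) (hdD n) b hb hle _ (hd n).le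
  have hcau : CauchySeq fun n => d n ζ := by
    rw [Metric.cauchySeq_iff]
    intro r hr
    obtain ⟨N, hN⟩ := (hlim0.eventually (gt_mem_nhds (half_pos hr))).exists_forall_of_atTop
    refine ⟨N, fun m hm n hn => ?_⟩
    obtain ⟨b, hb, hmb, hnb⟩ := hdir (d m) (hdD m) (d n) (hdD n)
    have h1 := (hbd m b hb hmb).trans_lt (hN m hm)
    have h2 := (hbd n b hb hnb).trans_lt (hN n hn)
    rw [dist_eq_norm]
    calc ‖d m ζ - d n ζ‖ = ‖(b ζ - d n ζ) - (b ζ - d m ζ)‖ := by congr 1; abel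
      _ ≤ ‖b ζ - d n ζ‖ + ‖b ζ - d m ζ‖ := norm_sub_le _ _
      _ < r := by linarith only [h2, h1]
  obtain ⟨η₀, hη₀⟩ := cauchySeq_tendsto_of_complete hcau
  set η := x ζ - η₀ with hη
  -- the inner product with `ζ`
  have hinner : (⟪ζ, η⟫_ℂ).re = (⟪ζ, x ζ⟫_ℂ).re - s := by
    have h1 : Tendsto (fun n => (⟪ζ, d n ζ⟫_ℂ).re) atTop (𝓝 (⟪ζ, η₀⟫_ℂ).re) :=
      (Complex.continuous_re.tendsto _).comp (tendsto_const_nhds.inner hη₀)
    have h2 : Tendsto (fun n => (⟪ζ, d n ζ⟫_ℂ).re) atTop (𝓝 s) := by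
      have h3 : Tendsto (fun n : ℕ => s - 1 / ((n : ℝ) + 1)) atTop (𝓝 (s - 0)) :=
        tendsto_const_nhds.sub tendsto_one_div_add_atTop_nhds_zero_nat
      rw [sub_zero] at h3
      exact tendsto_of_tendsto_of_tendsto_of_le_of_le h3 tendsto_const_nhds
        (fun n => (hd n).le) fun n => hdle _ (hdD n)
    rw [hη, inner_sub_right, Complex.sub_re, tendsto_nhds_unique h1 h2]
  have hηne : η ≠ 0 := by
    intro h
    rw [h, inner_zero_right] at hinner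
    simp only [Complex.zero_re] at hinner
    linarith
  -- the rank one operator below all `x - d`
  set m := (⟪ζ, x ζ⟫_ℂ).re - s with hm
  have hmpos : 0 < m := by linarith
  have hrank : ∀ a ∈ D, ∀ v : H, ‖⟪v, η⟫_ℂ‖ ^ 2 ≤ ((⟪v, x v⟫_ℂ).re - (⟪v, a v⟫_ℂ).re) * m := by
    intro a ha v
    have hch : ∀ n, ∃ b ∈ D, d n ≤ b ∧ a ≤ b := by
      intro n
      obtain ⟨b, hb, h1, h2⟩ := hdir (d n) (hdD n) a ha
      exact ⟨b, hb, h1, h2⟩
    choose b hbD hb1 hb2 using hch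
    have hblim : Tendsto (fun n => b n ζ) atTop (𝓝 η₀) := by
      have h1 : Tendsto (fun n => b n ζ - d n ζ) atTop (𝓝 0) := by
        rw [tendsto_zero_iff_norm_tendsto_zero]
        exact squeeze_zero (fun n => norm_nonneg _) (fun n => hbd n _ (hbD n) (hb1 n)) hlim0
      simpa using h1.add hη₀
    have h1 : Tendsto (fun n => ‖⟪v, (x - b n) ζ⟫_ℂ‖ ^ 2) atTop (𝓝 (‖⟪v, η⟫_ℂ‖ ^ 2)) := by
      refine Tendsto.pow (Tendsto.norm (tendsto_const_nhds.inner ?_)) 2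
      exact tendsto_const_nhds.sub hblim
    have h2 : Tendsto (fun n => ((⟪v, x v⟫_ℂ).re - (⟪v, a v⟫_ℂ).re) *
        ((⟪ζ, x ζ⟫_ℂ).re - (⟪ζ, b n ζ⟫_ℂ).re)) atTop
        (𝓝 (((⟪v, x v⟫_ℂ).re - (⟪v, a v⟫_ℂ).re) * m)) := by
      refine tendsto_const_nhds.mul (tendsto_const_nhds.sub ?_)
      have h3 : Tendsto (fun n : ℕ => s - 1 / ((n : ℝ) + 1)) atTop (𝓝 (s - 0)) :=
        tendsto_const_nhds.sub tendsto_one_div_add_atTop_nhds_zero_nat
      rw [sub_zero] at h3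
      exact tendsto_of_tendsto_of_tendsto_of_le_of_le h3 tendsto_const_nhds
        (fun n => ((hd n).trans_le (sw_re_mono (hb1 n) ζ)).le) fun n => hdle _ (hbD n)
    refine le_of_tendsto_of_tendsto' h1 h2 fun n => ?_
    have h3 := sw_cs (sub_nonneg.2 (hxu _ (hbD n))) v ζ
    have h4 : (⟪v, (x - b n) v⟫_ℂ).re ≤ (⟪v, x v⟫_ℂ).re - (⟪v, a v⟫_ℂ).re := by
      rw [sub_apply, inner_sub_right, Complex.sub_re]
      have := sw_re_mono (hb2 n) v
      linarith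
    have h5 : (⟪ζ, (x - b n) ζ⟫_ℂ).re = (⟪ζ, x ζ⟫_ℂ).re - (⟪ζ, b n ζ⟫_ℂ).re := by
      rw [sub_apply, inner_sub_right, Complex.sub_re]
    rw [h5] at h3
    refine h3.trans (mul_le_mul_of_nonneg_right h4 ?_)
    rw [← h5]
    exact sw_re_nonneg (sub_nonneg.2 (hxu _ (hbD n))) ζ
  -- the operator `|η⟩⟨η| / m`
  let T : H →L[ℂ] H := ((m⁻¹ : ℝ) : ℂ) • InnerProductSpace.rankOne ℂ η η
  have hT : ∀ v, T v = ((m⁻¹ : ℝ) : ℂ) • ⟪η, v⟫_ℂ • η := fun v => rfl
  have hTre : ∀ v, ⟪v, T v⟫_ℂ = ((m⁻¹ * ‖⟪v, η⟫_ℂ‖ ^ 2 : ℝ) : ℂ) := by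
    intro v
    rw [hT, inner_smul_right, inner_smul_right, ← inner_conj_symm η v]
    push_cast
    rw [Complex.conj_mul']
  have hub : x - T ∈ upperBounds D := by
    intro a ha
    rw [ContinuousLinearMap.le_def]
    have hpos : (x - a).IsPositive := (ContinuousLinearMap.nonneg_iff_isPositive _).1
      (sub_nonneg.2 (hxu a ha))
    have hTsa : IsSelfAdjoint T := by
      rw [ContinuousLinearMap.isSelfAdjoint_iff_isSymmetric]
      intro v w
      change ⟪T v, w⟫_ℂ = ⟪v, T w⟫_ℂ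
      rw [hT, hT, inner_smul_left, inner_smul_left, inner_smul_right, inner_smul_right,
        Complex.conj_ofReal, inner_conj_symm]
      ring
    rw [ContinuousLinearMap.isPositive_def']
    refine ⟨?_, fun v => ?_⟩
    · have : x - T - a = (x - a) - T := by abel
      rw [this]
      exact hpos.isSelfAdjoint.sub hTsa
    · rw [ContinuousLinearMap.reApplyInnerSelf_apply]
      change 0 ≤ (⟪(x - T - a) v, v⟫_ℂ).re
      rw [← inner_conj_symm, Complex.conj_re]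
      have h1 : (⟪v, (x - T - a) v⟫_ℂ).re =
          (⟪v, x v⟫_ℂ).re - m⁻¹ * ‖⟪v, η⟫_ℂ‖ ^ 2 - (⟪v, a v⟫_ℂ).re := by
        rw [sub_apply, sub_apply, inner_sub_right,
          inner_sub_right, Complex.sub_re, Complex.sub_re, hTre, Complex.ofReal_re]
      rw [h1]
      have h2 := hrank a ha v
      have h3 : m⁻¹ * ‖⟪v, η⟫_ℂ‖ ^ 2 ≤ (⟪v, x v⟫_ℂ).re - (⟪v, a v⟫_ℂ).re := by
        rw [inv_mul_le_iff₀ hmpos]
        linarith only [h2]
      linarith only [h3]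
  have hle := hx.2 hub
  have h1 := sw_re_mono hle η
  rw [sub_apply, inner_sub_right, Complex.sub_re, hTre,
    Complex.ofReal_re] at h1
  have h2 : 0 < m⁻¹ * ‖⟪η, η⟫_ℂ‖ ^ 2 := by
    have h3 : ⟪η, η⟫_ℂ ≠ 0 := inner_self_ne_zero.2 hηne
    (clear * - hmpos h3; positivity)
  linarith only [h2, h1]

/-- simultaneous version of `sw_lub` -/
theorem sw_lub_finset {D : Set (H →L[ℂ] H)} (h0 : ∀ d ∈ D, 0 ≤ d) (hne : D.Nonempty)
    (hdir : DirectedOn (· ≤ ·) D) {x : H →L[ℂ] H} (hx : IsLUB D x) {ι : Type*} (s : Finset ι)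
    (η : ι → H) {ε : ℝ} (hε : 0 < ε) :
    ∃ d ∈ D, ∀ i ∈ s, (⟪η i, x (η i)⟫_ℂ).re - ε < (⟪η i, d (η i)⟫_ℂ).re := by
  classical
  induction s using Finset.induction_on with
  | empty =>
    obtain ⟨d, hd⟩ := hne
    exact ⟨d, hd, by simp⟩
  | insert a s ha ih =>
    obtain ⟨d, hd, hd2⟩ := ih
    obtain ⟨c, hc, hc2⟩ := sw_lub h0 hne hdir hx (η a) hε
    obtain ⟨b, hb, h1, h2⟩ := hdir d hd c hc
    refine ⟨b, hb, fun i hi => ?_⟩
    rcases Finset.mem_insert.1 hi with rfl | hi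
    · exact hc2.trans_le (sw_re_mono h2 _)
    · exact (hd2 i hi).trans_le (sw_re_mono h1 _)

section State

variable {M : VonNeumannAlgebra H} {φ : (H →L[ℂ] H) → ℂ}

theorem sw_hasSum_re {η : ℕ → H} (hη : ∀ x ∈ M, HasSum (fun i => ⟪η i, x (η i)⟫_ℂ) (φ x))
    {x : H →L[ℂ] H} (hx : x ∈ M) : HasSum (fun i => (⟪η i, x (η i)⟫_ℂ).re) (φ x).re :=
  Complex.hasSum_re (hη x hx)

theorem sw_map_add (hφ : IsNormalState M φ) {x y : H →L[ℂ] H} (hx : x ∈ M) (hy : y ∈ M) :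
    φ (x + y) = φ x + φ y := by
  obtain ⟨η, -, hη⟩ := hφ
  refine (hη _ (add_mem hx hy)).unique ?_
  convert (hη x hx).add (hη y hy) using 2 with i
  rw [add_apply, inner_add_right]

theorem sw_map_smul (hφ : IsNormalState M φ) (c : ℂ) {x : H →L[ℂ] H} (hx : x ∈ M) :
    φ (c • x) = c * φ x := by
  obtain ⟨η, -, hη⟩ := hφ
  refine (hη _ (M.toStarSubalgebra.smul_mem hx c)).unique ?_
  have h1 := (hη x hx).mul_left c
  have h2 : (fun i => c * ⟪η i, x (η i)⟫_ℂ) = fun i => ⟪η i, (c • x) (η i)⟫_ℂ := by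
    funext i
    rw [smul_apply, inner_smul_right]
  rw [h2] at h1
  exact h1

theorem sw_nonneg (hφ : IsNormalState M φ) {x : H →L[ℂ] H} (hx : x ∈ M) (h0 : 0 ≤ x) :
    0 ≤ (φ x).re := by
  obtain ⟨η, -, hη⟩ := hφ
  exact (sw_hasSum_re hη hx).nonneg fun i => sw_re_nonneg h0 _

theorem sw_mono (hφ : IsNormalState M φ) {x y : H →L[ℂ] H} (hx : x ∈ M) (hy : y ∈ M)
    (h : x ≤ y) : (φ x).re ≤ (φ y).re := by
  obtain ⟨η, -, hη⟩ := hφ
  exact hasSum_le (fun i => sw_re_mono h _) (sw_hasSum_re hη hx) (sw_hasSum_re hη hy)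

/-- normality of a normal state -/
theorem sw_normal (hφ : IsNormalState M φ) {D : Set (H →L[ℂ] H)}
    (hD : ∀ x ∈ D, x ∈ M ∧ 0 ≤ x) (hne : D.Nonempty) (hdir : DirectedOn (· ≤ ·) D)
    {x : H →L[ℂ] H} (hxM : x ∈ M) (hx : IsLUB D x) {ε : ℝ} (hε : 0 < ε) :
    ∃ d ∈ D, (φ x).re - ε < (φ d).re := by
  obtain ⟨η, hη1, hη⟩ := hφ
  have hx0 : 0 ≤ x := by
    obtain ⟨d, hd⟩ := hne
    exact (hD d hd).2.trans (hx.1 hd)
  have hsum := sw_hasSum_re hη hxM
  have h1 := hsum.eventually (lt_mem_nhds (show (φ x).re - ε / 2 < (φ x).re by linarith))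
  obtain ⟨s, hs⟩ := h1.exists
  obtain ⟨d, hd, hd2⟩ := sw_lub_finset (fun d hd => (hD d hd).2) hne hdir hx s η
    (show 0 < ε / (2 * ((s.card : ℝ) + 1)) by (clear * - hε; positivity))
  refine ⟨d, hd, ?_⟩
  have h2 : ∑ i ∈ s, (⟪η i, d (η i)⟫_ℂ).re ≤ (φ d).re :=
    sum_le_hasSum s (fun i _ => sw_re_nonneg (hD d hd).2 _) (sw_hasSum_re hη (hD d hd).1)
  have h3 : ∑ i ∈ s, ((⟪η i, x (η i)⟫_ℂ).re - ε / (2 * ((s.card : ℝ) + 1))) ≤
      ∑ i ∈ s, (⟪η i, d (η i)⟫_ℂ).re := Finset.sum_le_sum fun i hi => (hd2 i hi).le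
  rw [Finset.sum_sub_distrib, Finset.sum_const, nsmul_eq_mul] at h3
  have h4 : (s.card : ℝ) * (ε / (2 * ((s.card : ℝ) + 1))) ≤ ε / 2 := by
    rw [← mul_div_assoc, div_le_div_iff₀ (by (clear * -; positivity)) (by norm_num)]
    linarith only [hε]
  linarith only [h4, h3, h2, hs]

/-- a faithful normal state is a faithful normal semifinite weight -/
theorem isFNSWeight_of_state (hφ : IsNormalState M φ) (hf : IsFaithful M φ) :
    IsFNSWeight M (fun x => ENNReal.ofReal (φ x).re) where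
  add := by
    intro x hx y hy hx0 hy0
    rw [sw_map_add hφ hx hy, Complex.add_re,
      ENNReal.ofReal_add (sw_nonneg hφ hx hx0) (sw_nonneg hφ hy hy0)]
  smul := by
    intro c x hx _
    rw [sw_map_smul hφ _ hx]
    have h1 : ((c : ℂ) * φ x).re = (c : ℝ) * (φ x).re := by
      simp [Complex.mul_re]
    rw [h1, ENNReal.ofReal_mul (NNReal.coe_nonneg c), ENNReal.ofReal_coe_nnreal]
  faithful := by
    intro x hx hx0 h
    rw [ENNReal.ofReal_eq_zero] at h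
    obtain ⟨η, hη1, hη⟩ := hφ
    have h1 := sw_hasSum_re hη hx
    have h2 : (φ x).re = 0 := le_antisymm h (h1.nonneg fun i => sw_re_nonneg hx0 _)
    rw [h2] at h1
    have h3 := (hasSum_zero_iff_of_nonneg fun i => sw_re_nonneg hx0 (η i)).1 h1
    have h4 : ∀ i, x (η i) = 0 := by
      intro i
      have h5 := sw_norm_sq_le hx0 (η i)
      have h6 : (⟪η i, x (η i)⟫_ℂ).re = 0 := congrFun h3 i
      rw [h6, mul_zero] at h5
      have h7 : ‖x (η i)‖ = 0 := by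
        have := norm_nonneg (x (η i))
        nlinarith
      exact norm_eq_zero.1 h7
    apply hf x hx
    refine (hη _ (mul_mem (star_mem hx) hx)).unique ?_
    have h5 : (fun i => ⟪η i, (star x * x) (η i)⟫_ℂ) = fun _ => 0 := by
      funext i
      change ⟪η i, (star x) (x (η i))⟫_ℂ = 0
      rw [h4 i, map_zero, inner_zero_right]
    rw [h5]
    exact hasSum_zero
  normal := by
    intro D hD hne hdir x hxM hx
    apply le_antisymm
    · refine ENNReal.le_of_forall_pos_le_add fun ε hε _ => ?_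
      obtain ⟨d, hd, hlt⟩ := sw_normal hφ hD hne hdir hxM hx (show (0 : ℝ) < ε from hε)
      calc ENNReal.ofReal (φ x).re ≤ ENNReal.ofReal ((φ d).re + ε) :=
            ENNReal.ofReal_le_ofReal (by linarith)
        _ = ENNReal.ofReal (φ d).re + ε := by
            rw [ENNReal.ofReal_add (sw_nonneg hφ (hD d hd).1 (hD d hd).2) (NNReal.coe_nonneg ε),
              ENNReal.ofReal_coe_nnreal]
        _ ≤ (⨆ y ∈ D, ENNReal.ofReal (φ y).re) + ε := by
            gcongr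
            exact le_biSup (fun y => ENNReal.ofReal (φ y).re) hd
    · exact iSup₂_le fun y hy => ENNReal.ofReal_le_ofReal (sw_mono hφ (hD y hy).1 hxM (hx.1 hy))
  semifinite := by
    intro x hx s ε hε
    exact ⟨x, ⟨hx, ENNReal.ofReal_lt_top⟩, fun ζ _ => by simpa using hε⟩

theorem sw_mem_nn {x : H →L[ℂ] H} :
    x ∈ nn M (fun x => ENNReal.ofReal (φ x).re) ↔ x ∈ M :=
  ⟨fun h => h.1, fun h => ⟨h, ENNReal.ofReal_lt_top⟩⟩

variable {K : Type u} [NormedAddCommGroup K] [InnerProductSpace ℂ K]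

theorem sw_ext (G : GNSSpace M φ K) {v w : K} (h : ∀ z ∈ M, ⟪G.Λ z, v⟫_ℂ = ⟪G.Λ z, w⟫_ℂ) :
    v = w := by
  have h1 : ∀ u : K, ⟪u, v - w⟫_ℂ = 0 := by
    have hcl : IsClosed {u : K | ⟪u, v - w⟫_ℂ = 0} :=
      isClosed_eq (continuous_id.inner continuous_const) continuous_const
    have hsub : {ζ : K | ∃ x ∈ M, G.Λ x = ζ} ⊆ {u : K | ⟪u, v - w⟫_ℂ = 0} := by
      rintro _ ⟨z, hz, rfl⟩
      change ⟪G.Λ z, v - w⟫_ℂ = 0
      rw [inner_sub_right, h z hz, sub_self]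
    intro u
    exact closure_minimal hsub hcl (G.dense u)
  exact sub_eq_zero.1 (inner_self_eq_zero.1 (h1 (v - w)))

/-- the GNS space of a state as GNS space of a weight -/
noncomputable def swGNS (hφ : IsNormalState M φ) (G : GNSSpace M φ K) :
    WGNSSpace M (fun x => ENNReal.ofReal (φ x).re) K where
  Λ := G.Λ
  add := by
    intro x hx y hy
    refine sw_ext G fun z hz => ?_
    rw [inner_add_right, G.inner z hz _ (add_mem hx.1 hy.1), G.inner z hz x hx.1,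
      G.inner z hz y hy.1, mul_add, sw_map_add hφ (mul_mem (star_mem hz) hx.1)
        (mul_mem (star_mem hz) hy.1)]
  smul := by
    intro c x hx
    refine sw_ext G fun z hz => ?_
    rw [inner_smul_right, G.inner z hz _ (M.toStarSubalgebra.smul_mem hx.1 c),
      G.inner z hz x hx.1, mul_smul_comm, sw_map_smul hφ _ (mul_mem (star_mem hz) hx.1)]
  norm_sq := by
    intro x hx
    rw [← G.inner x hx.1 x hx.1]
    congr 1
    rw [inner_self_eq_norm_sq_to_K]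
    norm_cast
  dense := by
    have h1 : {ζ : K | ∃ x ∈ nn M (fun x => ENNReal.ofReal (φ x).re), G.Λ x = ζ} =
        {ζ : K | ∃ x ∈ M, G.Λ x = ζ} := by
      ext ζ
      simp only [sw_mem_nn, Set.mem_ofPred_eq]
    rw [h1]
    exact G.dense

theorem swGNS_graphS (hφ : IsNormalState M φ) (G : GNSSpace M φ K) :
    (swGNS hφ G).graphS = G.graphS := by
  unfold WGNSSpace.graphS GNSSpace.graphS
  congr 1
  ext p
  constructor
  · rintro ⟨x, hx, -, rfl⟩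
    exact ⟨x, hx.1, rfl⟩
  · rintro ⟨x, hx, rfl⟩
    exact ⟨x, sw_mem_nn.2 hx, sw_mem_nn.2 (star_mem hx), rfl⟩

theorem swGNS_graphΔ (hφ : IsNormalState M φ) (G : GNSSpace M φ K) :
    (swGNS hφ G).graphΔ = G.graphΔ := by
  ext p
  constructor
  · rintro ⟨η, h1, h2⟩
    rw [swGNS_graphS] at h1
    exact ⟨η, h1, fun x hx => h2 x (sw_mem_nn.2 hx) (sw_mem_nn.2 (star_mem hx))⟩
  · rintro ⟨η, h1, h2⟩
    refine ⟨η, ?_, fun x hx _ => h2 x hx.1⟩
    rw [swGNS_graphS]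
    exact h1

theorem connesInvariant_subset : connesInvariant M ⊆ connesS M := by
  intro t ht φ hφ hf K _ _ _ G
  have h1 := ht _ (isFNSWeight_of_state hφ hf) K (swGNS hφ G)
  intro h2
  apply h1
  intro ζ'
  rw [swGNS_graphΔ]
  exact h2 ζ'

end State

end Vale.Agent.P132
end
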