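import Vale.Agent.P132.MathlibUsed
import Vale.Agent.P132.Bd8.B3
import Vale.Agent.P132.Bd8.B2
import Vale.Agent.P132.Bd8.B1

set_option linter.all false

namespace AFast65aa8ex7a
@[reducible] def a0.{u1} {x1 : Type u1} [x2 : NormedAddCommGroup x1] [x3 : InnerProductSpace ℂ x1] : Semiring (x1 →L[ℂ] x1) := inferInstance
@[reducible] def a1.{u1} {x1 : Type u1} [x2 : NormedAddCommGroup x1] [x3 : InnerProductSpace ℂ x1] : MulZeroOneClass (x1 →L[ℂ] x1) := inferInstance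
theorem a2.{u1} {x1 : Type u1} [x2 : NormedAddCommGroup x1] [x3 : InnerProductSpace ℂ x1] : DistribMulActionSemiHomClass (x1 →L[ℂ] x1) (⇑(RingHom.id ℂ)) x1 x1 := inferInstance
@[reducible] def a3.{u1} {x1 : Type u1} [x2 : NormedAddCommGroup x1] [x3 : InnerProductSpace ℂ x1] : MulOneClass (x1 →L[ℂ] x1) := inferInstance
@[reducible] def a4.{u1} {x1 : Type u1} [x2 : NormedAddCommGroup x1] [x3 : InnerProductSpace ℂ x1] : NonUnitalSemiring (x1 →L[ℂ] x1) := inferInstance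
@[reducible] def a5.{u1} {x1 : Type u1} [x2 : NormedAddCommGroup x1] [x3 : InnerProductSpace ℂ x1] : MulOne (x1 →L[ℂ] x1) := inferInstance
@[reducible] def a6.{u1} {x1 : Type u1} [x2 : NormedAddCommGroup x1] [x3 : InnerProductSpace ℂ x1] : NonAssocSemiring (x1 →L[ℂ] x1) := inferInstance
theorem a7 : ContinuousAdd ℂ := inferInstance
@[reducible] def a8.{u1} {x1 : Type u1} [x2 : NormedAddCommGroup x1] [x3 : InnerProductSpace ℂ x1] : Semigroup (x1 →L[ℂ] x1) := inferInstance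
@[reducible] def a9.{u1} {x1 : Type u1} [x2 : NormedAddCommGroup x1] [x3 : InnerProductSpace ℂ x1] : SemigroupWithZero (x1 →L[ℂ] x1) := inferInstance
@[reducible] noncomputable def a10 : Semiring (BoundedContinuousFunction ℝ ℂ) := inferInstance
@[reducible] def a11.{u1} {x1 : Type u1} [x2 : NormedAddCommGroup x1] [x3 : InnerProductSpace ℂ x1] : AddCommMonoid (x1 →L[ℂ] x1) := inferInstance
@[reducible] def a12.{u1} {x1 : Type u1} [x2 : NormedAddCommGroup x1] [x3 : InnerProductSpace ℂ x1] : Ring (x1 →L[ℂ] x1) := inferInstance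
@[reducible] def a13.{u1} {x1 : Type u1} [x2 : NormedAddCommGroup x1] [x3 : InnerProductSpace ℂ x1] : AddMonoid (x1 →L[ℂ] x1) := inferInstance
theorem a14.{u1} {x1 : Type u1} [x2 : NormedAddCommGroup x1] [x3 : InnerProductSpace ℂ x1] : SemilinearMapClass (x1 →L[ℂ] x1) (RingHom.id ℂ) x1 x1 := inferInstance
@[reducible] def a15.{u1} {x1 : Type u1} [x2 : NormedAddCommGroup x1] [x3 : InnerProductSpace ℂ x1] : NonAssocRing (x1 →L[ℂ] x1) := inferInstance
@[reducible] def a16.{u1} {x1 : Type u1} [x2 : NormedAddCommGroup x1] [x3 : InnerProductSpace ℂ x1] : AddZero (x1 →L[ℂ] x1) := inferInstance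
@[reducible] def a17.{u1} {x1 : Type u1} [x2 : NormedAddCommGroup x1] [x3 : InnerProductSpace ℂ x1] : AddZeroClass (x1 →L[ℂ] x1) := inferInstance
@[reducible] def a18.{u1} {x1 : Type u1} [x2 : NormedAddCommGroup x1] [x3 : InnerProductSpace ℂ x1] : Monoid (x1 →L[ℂ] x1) := inferInstance
@[reducible] def a19.{u1} {x1 : Type u1} [x2 : NormedAddCommGroup x1] [x3 : InnerProductSpace ℂ x1] : Add (x1 →L[ℂ] x1) := inferInstance
@[reducible] def a20.{u1} {x1 : Type u1} [x2 : NormedAddCommGroup x1] [x3 : InnerProductSpace ℂ x1] : Pow (x1 →L[ℂ] x1) ℕ := inferInstance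
@[reducible] def a21.{u1} {x1 : Type u1} [x2 : NormedAddCommGroup x1] [x3 : InnerProductSpace ℂ x1] : NPow (x1 →L[ℂ] x1) := inferInstance
@[reducible] def a22.{u1} {x1 : Type u1} [x2 : NormedAddCommGroup x1] [x3 : InnerProductSpace ℂ x1] : AddCommMonoidWithOne (x1 →L[ℂ] x1) := inferInstance
@[reducible] noncomputable def a23.{u1} {x1 : Type u1} [x2 : NormedAddCommGroup x1] [x3 : InnerProductSpace ℂ x1] [x4 : CompleteSpace x1] : StarAddMonoid (x1 →L[ℂ] x1) := inferInstance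
theorem a24 : ContinuousMul ℂ := inferInstance
theorem a25 : IsSemitopologicalSemiring ℂ := inferInstance
theorem a26 : IsTopologicalSemiring ℂ := inferInstance
theorem a27 : IsSemitopologicalRing ℂ := inferInstance
@[reducible] def a28.{u1} {x1 : Type u1} [x2 : NormedAddCommGroup x1] [x3 : InnerProductSpace ℂ x1] : AddCommGroup (x1 →L[ℂ] x1) := inferInstance
@[reducible] noncomputable def a29 : Star (BoundedContinuousFunction ℝ ℂ) := inferInstance
@[reducible] noncomputable def a30 : InvolutiveStar (BoundedContinuousFunction ℝ ℂ) := inferInstance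
@[reducible] def a31.{u1} {x1 : Type u1} [x2 : NormedAddCommGroup x1] [x3 : InnerProductSpace ℂ x1] : AddCommSemigroup (x1 →L[ℂ] x1) := inferInstance
@[reducible] noncomputable def a32 : StarAddMonoid (BoundedContinuousFunction ℝ ℂ) := inferInstance
theorem a33 : IsTopologicalRing ℂ := inferInstance
theorem a34.{u1} {x1 : Type u1} [x2 : NormedAddCommGroup x1] [x3 : InnerProductSpace ℂ x1] : DistribMulActionSemiHomClass (x1 →L[ℝ] x1) (⇑(RingHom.id ℝ)) x1 x1 := inferInstance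
theorem a35 : IsTopologicalAddGroup ℂ := inferInstance
theorem a36 : BoundedAdd ℂ := inferInstance
theorem a37.{u1} {x1 : Type u1} [x2 : NormedAddCommGroup x1] [x3 : InnerProductSpace ℂ x1] : MulActionSemiHomClass (x1 →L[ℂ] x1) (⇑(RingHom.id ℂ)) x1 x1 := inferInstance
@[reducible] def a38.{u1} {x1 : Type u1} [x2 : NormedAddCommGroup x1] [x3 : InnerProductSpace ℂ x1] : NonUnitalNonAssocSemiring (x1 →L[ℂ] x1) := inferInstance
@[reducible] noncomputable def a39.{u1} {x1 : Type u1} [x2 : NormedAddCommGroup x1] [x3 : InnerProductSpace ℂ x1] : SeminormedAddCommGroup (x1 →L[ℂ] x1) := inferInstance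
@[reducible] def a40.{u1} {x1 : Type u1} [x2 : NormedAddCommGroup x1] [x3 : InnerProductSpace ℂ x1] : Sub (x1 →L[ℂ] x1) := inferInstance
@[reducible] def a41.{u1} {x1 : Type u1} [x2 : NormedAddCommGroup x1] [x3 : InnerProductSpace ℂ x1] : AddMonoidWithOne (x1 →L[ℂ] x1) := inferInstance
@[reducible] noncomputable def a42.{u1} {x1 : Type u1} [x2 : NormedAddCommGroup x1] [x3 : InnerProductSpace ℂ x1] [x4 : CompleteSpace x1] : InvolutiveStar (x1 →L[ℂ] x1) := inferInstance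
@[reducible] def a43.{u1} {x1 : Type u1} [x2 : NormedAddCommGroup x1] [x3 : InnerProductSpace ℂ x1] : SubNegMonoid (x1 →L[ℂ] x1) := inferInstance
@[reducible] def a44.{u1} {x1 : Type u1} [x2 : NormedAddCommGroup x1] [x3 : InnerProductSpace ℂ x1] : AddGroup (x1 →L[ℂ] x1) := inferInstance
theorem a45.{u1} {x1 : Type u1} [x2 : NormedAddCommGroup x1] [x3 : InnerProductSpace ℂ x1] [x4 : CompleteSpace x1] : ContinuousFunctionalCalculus ℂ (x1 →L[ℂ] x1) IsStarNormal := inferInstance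
@[reducible] def a46.{u1} {x1 : Type u1} [x2 : NormedAddCommGroup x1] [x3 : InnerProductSpace ℂ x1] : AddCommMagma (x1 →L[ℂ] x1) := inferInstance
@[reducible] def a47.{u1} {x1 : Type u1} [x2 : NormedAddCommGroup x1] [x3 : InnerProductSpace ℂ x1] : Distrib (x1 →L[ℂ] x1) := inferInstance
@[reducible] def a48.{u1} {x1 : Type u1} [x2 : NormedAddCommGroup x1] [x3 : InnerProductSpace ℂ x1] : NegZeroClass (x1 →L[ℂ] x1) := inferInstance
@[reducible] def a49.{u1} {x1 : Type u1} [x2 : NormedAddCommGroup x1] [x3 : InnerProductSpace ℂ x1] : SubNegZeroMonoid (x1 →L[ℂ] x1) := inferInstance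
@[reducible] def a50.{u1} {x1 : Type u1} [x2 : NormedAddCommGroup x1] [x3 : InnerProductSpace ℂ x1] : SubtractionMonoid (x1 →L[ℂ] x1) := inferInstance
theorem a51.{u1} {x1 : Type u1} [x2 : NormedAddCommGroup x1] [x3 : InnerProductSpace ℂ x1] : SemilinearMapClass (x1 →L[ℝ] x1) (RingHom.id ℝ) x1 x1 := inferInstance
theorem a52 : CharZero ℝ := inferInstance
@[reducible] def a53.{u1} {x1 : Type u1} [x2 : NormedAddCommGroup x1] [x3 : InnerProductSpace ℂ x1] : NonUnitalNonAssocRing (x1 →L[ℂ] x1) := inferInstance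
theorem a54 : ContinuousSMul ℝ ℂ := inferInstance
@[reducible] def a55.{u1} {x1 : Type u1} [x2 : NormedAddCommGroup x1] [x3 : InnerProductSpace ℂ x1] : MulZeroClass (x1 →L[ℂ] x1) := inferInstance
theorem a56 : IsTopologicalDivisionRing ℂ := inferInstance
theorem a57 : NormedStarGroup ℂ := inferInstance
@[reducible] def a58.{u1} {x1 : Type u1} [x2 : NormedAddCommGroup x1] [x3 : InnerProductSpace ℂ x1] : SMul ℂ (WithLp 2 (x1 × x1)) := inferInstance
@[reducible] noncomputable def a59.{u1} {x1 : Type u1} [x2 : NormedAddCommGroup x1] [x3 : InnerProductSpace ℂ x1] : SeminormedAddGroup (x1 →L[ℂ] x1) := inferInstance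
theorem a60.{u1} {x1 : Type u1} [x2 : NormedAddCommGroup x1] [x3 : InnerProductSpace ℂ x1] : AddHomClass (x1 →L[ℝ] x1) x1 x1 := inferInstance
@[reducible] noncomputable def a61 : NonAssocSemiring (BoundedContinuousFunction ℝ ℂ) := inferInstance
@[reducible] noncomputable def a62 : Mul (BoundedContinuousFunction ℝ ℂ) := inferInstance
@[reducible] noncomputable def a63.{u1} {x1 : Type u1} [x2 : NormedAddCommGroup x1] [x3 : InnerProductSpace ℂ x1] : LE (x1 →L[ℂ] x1) := inferInstance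
theorem a64 : ExistsAddOfLE ℝ := inferInstance
theorem a65.{u1} {x1 : Type u1} [x2 : NormedAddCommGroup x1] [x3 : InnerProductSpace ℂ x1] : ContinuousSemilinearMapClass (x1 →L[ℂ] x1) (RingHom.id ℂ) x1 x1 := inferInstance
@[reducible] noncomputable def a66.{u1} {x1 : Type u1} [x2 : NormedAddCommGroup x1] [x3 : InnerProductSpace ℂ x1] : Preorder (x1 →L[ℂ] x1) := inferInstance
@[reducible] noncomputable def a67.{u1} {x1 : Type u1} [x2 : NormedAddCommGroup x1] [x3 : InnerProductSpace ℂ x1] : Norm (x1 →L[ℂ] x1) := inferInstance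
@[reducible] def a68.{u1} {x1 : Type u1} [x2 : NormedAddCommGroup x1] [x3 : InnerProductSpace ℂ x1] : SMulZeroClass ℂ (WithLp 2 (x1 × x1)) := inferInstance
theorem a69 : RingHomIsometric (RingHom.id ℂ) := inferInstance
end AFast65aa8ex7a
attribute [local instance] AFast65aa8ex7a.a0 AFast65aa8ex7a.a1 AFast65aa8ex7a.a2 AFast65aa8ex7a.a3
  AFast65aa8ex7a.a4 AFast65aa8ex7a.a5 AFast65aa8ex7a.a6 AFast65aa8ex7a.a7 AFast65aa8ex7a.a8
  AFast65aa8ex7a.a9 AFast65aa8ex7a.a10 AFast65aa8ex7a.a11 AFast65aa8ex7a.a12 AFast65aa8ex7a.a13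
  AFast65aa8ex7a.a14 AFast65aa8ex7a.a15 AFast65aa8ex7a.a16 AFast65aa8ex7a.a17 AFast65aa8ex7a.a18
  AFast65aa8ex7a.a19 AFast65aa8ex7a.a20 AFast65aa8ex7a.a21 AFast65aa8ex7a.a22 AFast65aa8ex7a.a23
  AFast65aa8ex7a.a24 AFast65aa8ex7a.a25 AFast65aa8ex7a.a26 AFast65aa8ex7a.a27 AFast65aa8ex7a.a28
  AFast65aa8ex7a.a29 AFast65aa8ex7a.a30 AFast65aa8ex7a.a31 AFast65aa8ex7a.a32 AFast65aa8ex7a.a33
  AFast65aa8ex7a.a34 AFast65aa8ex7a.a35 AFast65aa8ex7a.a36 AFast65aa8ex7a.a37 AFast65aa8ex7a.a38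
  AFast65aa8ex7a.a39 AFast65aa8ex7a.a40 AFast65aa8ex7a.a41 AFast65aa8ex7a.a42 AFast65aa8ex7a.a43
  AFast65aa8ex7a.a44 AFast65aa8ex7a.a45 AFast65aa8ex7a.a46 AFast65aa8ex7a.a47 AFast65aa8ex7a.a48
  AFast65aa8ex7a.a49 AFast65aa8ex7a.a50 AFast65aa8ex7a.a51 AFast65aa8ex7a.a52 AFast65aa8ex7a.a53
  AFast65aa8ex7a.a54 AFast65aa8ex7a.a55 AFast65aa8ex7a.a56 AFast65aa8ex7a.a57 AFast65aa8ex7a.a58
  AFast65aa8ex7a.a59 AFast65aa8ex7a.a60 AFast65aa8ex7a.a61 AFast65aa8ex7a.a62 AFast65aa8ex7a.a63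
  AFast65aa8ex7a.a64 AFast65aa8ex7a.a65 AFast65aa8ex7a.a66 AFast65aa8ex7a.a67 AFast65aa8ex7a.a68
  AFast65aa8ex7a.a69
namespace AFast65aa8ex7b
@[reducible] def a0.{u1} {x1 : Type u1} [x2 : NormedAddCommGroup x1] [x3 : InnerProductSpace ℂ x1] : Algebra ℂ (x1 →L[ℂ] x1) := inferInstance
@[reducible] def a1.{u1} {x1 : Type u1} [x2 : NormedAddCommGroup x1] [x3 : InnerProductSpace ℂ x1] : Module ℂ (x1 →L[ℂ] x1) := inferInstance
@[reducible] noncomputable def a2.{u1} {x1 : Type u1} [x2 : NormedAddCommGroup x1] [x3 : InnerProductSpace ℂ x1] : Module ℝ (x1 →L[ℂ] x1) := inferInstance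
@[reducible] noncomputable def a3.{u1} {x1 : Type u1} [x2 : NormedAddCommGroup x1] [x3 : InnerProductSpace ℂ x1] : SMul ℝ (x1 →L[ℂ] x1) := inferInstance
@[reducible] def a4.{u1} {x1 : Type u1} [x2 : NormedAddCommGroup x1] [x3 : InnerProductSpace ℂ x1] : SMul ℂ (x1 →L[ℂ] x1) := inferInstance
theorem a5.{u1} {x1 : Type u1} [x2 : NormedAddCommGroup x1] [x3 : InnerProductSpace ℂ x1] [x4 : CompleteSpace x1] : IsOrderedAddMonoid (x1 →L[ℂ] x1) := inferInstance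
theorem a6.{u1} {x1 : Type u1} [x2 : NormedAddCommGroup x1] [x3 : InnerProductSpace ℂ x1] : AddMonoidHomClass (x1 →L[ℂ] x1) x1 x1 := inferInstance
@[reducible] noncomputable def a7.{u1} {x1 : Type u1} [x2 : NormedAddCommGroup x1] [x3 : InnerProductSpace ℂ x1] : SMulZeroClass ℝ (x1 →L[ℂ] x1) := inferInstance
@[reducible] noncomputable def a8.{u1} {x1 : Type u1} [x2 : NormedAddCommGroup x1] [x3 : InnerProductSpace ℂ x1] : DistribSMul ℝ (x1 →L[ℂ] x1) := inferInstance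
@[reducible] noncomputable def a9.{u1} {x1 : Type u1} [x2 : NormedAddCommGroup x1] [x3 : InnerProductSpace ℂ x1] : Algebra ℝ (x1 →L[ℂ] x1) := inferInstance
@[reducible] def a10.{u1} {x1 : Type u1} [x2 : NormedAddCommGroup x1] [x3 : InnerProductSpace ℂ x1] : DistribSMul ℂ (x1 →L[ℂ] x1) := inferInstance
@[reducible] def a11.{u1} {x1 : Type u1} [x2 : NormedAddCommGroup x1] [x3 : InnerProductSpace ℂ x1] : SMulZeroClass ℂ (x1 →L[ℂ] x1) := inferInstance
@[reducible] noncomputable def a12.{u1} {x1 : Type u1} [x2 : NormedAddCommGroup x1] [x3 : InnerProductSpace ℂ x1] : DistribMulAction ℝ (x1 →L[ℂ] x1) := inferInstance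
theorem a13.{u1} {x1 : Type u1} [x2 : NormedAddCommGroup x1] [x3 : InnerProductSpace ℂ x1] : IsScalarTower ℂ (x1 →L[ℂ] x1) (x1 →L[ℂ] x1) := inferInstance
theorem a14.{u1} {x1 : Type u1} [x2 : NormedAddCommGroup x1] [x3 : InnerProductSpace ℂ x1] : SMulCommClass ℂ (x1 →L[ℂ] x1) (x1 →L[ℂ] x1) := inferInstance
@[reducible] def a15.{u1} {x1 : Type u1} [x2 : NormedAddCommGroup x1] [x3 : InnerProductSpace ℂ x1] : DistribMulAction ℂ (x1 →L[ℂ] x1) := inferInstance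
theorem a16.{u1} {x1 : Type u1} [x2 : NormedAddCommGroup x1] [x3 : InnerProductSpace ℂ x1] : IsScalarTower ℝ (x1 →L[ℂ] x1) (x1 →L[ℂ] x1) := inferInstance
theorem a17.{u1} {x1 : Type u1} [x2 : NormedAddCommGroup x1] [x3 : InnerProductSpace ℂ x1] : SMulCommClass ℝ (x1 →L[ℂ] x1) (x1 →L[ℂ] x1) := inferInstance
theorem a18.{u1} {x1 : Type u1} [x2 : NormedAddCommGroup x1] [x3 : InnerProductSpace ℂ x1] [x4 : CompleteSpace x1] : CovariantClass (x1 →L[ℂ] x1) (x1 →L[ℂ] x1) (Function.swap fun x1_1 x2_1 => x1_1 + x2_1) fun x1_1 x2_1 => x1_1 ≤ x2_1 := inferInstance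
@[reducible] def a19.{u1} {x1 : Type u1} [x2 : NormedAddCommGroup x1] [x3 : InnerProductSpace ℂ x1] : MulAction ℂ (x1 →L[ℂ] x1) := inferInstance
theorem a20.{u1} {x1 : Type u1} [x2 : NormedAddCommGroup x1] [x3 : InnerProductSpace ℂ x1] [x4 : CompleteSpace x1] : NonUnitalContinuousFunctionalCalculus ℝ (x1 →L[ℂ] x1) IsSelfAdjoint := inferInstance
theorem a21.{u1} {x1 : Type u1} [x2 : NormedAddCommGroup x1] [x3 : InnerProductSpace ℂ x1] : ZeroHomClass (x1 →L[ℂ] x1) x1 x1 := inferInstance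
theorem a22.{u1} {x1 : Type u1} [x2 : NormedAddCommGroup x1] [x3 : InnerProductSpace ℂ x1] [x4 : CompleteSpace x1] : AddLeftMono (x1 →L[ℂ] x1) := inferInstance
@[reducible] noncomputable def a23.{u1} {x1 : Type u1} [x2 : NormedAddCommGroup x1] [x3 : InnerProductSpace ℂ x1] : NonUnitalNormedRing (x1 →L[ℂ] x1) := inferInstance
theorem a24.{u1} {x1 : Type u1} [x2 : NormedAddCommGroup x1] [x3 : InnerProductSpace ℂ x1] [x4 : CompleteSpace x1] : IsOrderedCancelAddMonoid (x1 →L[ℂ] x1) := inferInstance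
theorem a25.{u1} {x1 : Type u1} [x2 : NormedAddCommGroup x1] [x3 : InnerProductSpace ℂ x1] [x4 : CompleteSpace x1] : NonUnitalAlgHomClass (BoundedContinuousFunction ℝ ℂ →⋆ₐ[ℂ] x1 →L[ℂ] x1) ℂ (BoundedContinuousFunction ℝ ℂ) (x1 →L[ℂ] x1) := inferInstance
theorem a26.{u1} {x1 : Type u1} [x2 : NormedAddCommGroup x1] [x3 : InnerProductSpace ℂ x1] : AddMonoidHomClass (x1 →L[ℝ] x1) x1 x1 := inferInstance
theorem a27.{u1} {x1 : Type u1} [x2 : NormedAddCommGroup x1] [x3 : InnerProductSpace ℂ x1] [x4 : CompleteSpace x1] : MulHomClass (BoundedContinuousFunction ℝ ℂ →⋆ₐ[ℂ] x1 →L[ℂ] x1) (BoundedContinuousFunction ℝ ℂ) (x1 →L[ℂ] x1) := inferInstance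
theorem a28.{u1} {x1 : Type u1} [x2 : NormedAddCommGroup x1] [x3 : InnerProductSpace ℂ x1] [x4 : CompleteSpace x1] : ContinuousFunctionalCalculus ℝ (x1 →L[ℂ] x1) IsSelfAdjoint := inferInstance
@[reducible] def a29.{u1} {x1 : Type u1} [x2 : NormedAddCommGroup x1] [x3 : InnerProductSpace ℂ x1] : SemigroupAction ℂ (x1 →L[ℂ] x1) := inferInstance
end AFast65aa8ex7b
attribute [local instance] AFast65aa8ex7b.a0 AFast65aa8ex7b.a1 AFast65aa8ex7b.a2 AFast65aa8ex7b.a3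
  AFast65aa8ex7b.a4 AFast65aa8ex7b.a5 AFast65aa8ex7b.a6 AFast65aa8ex7b.a7 AFast65aa8ex7b.a8
  AFast65aa8ex7b.a9 AFast65aa8ex7b.a10 AFast65aa8ex7b.a11 AFast65aa8ex7b.a12 AFast65aa8ex7b.a13
  AFast65aa8ex7b.a14 AFast65aa8ex7b.a15 AFast65aa8ex7b.a16 AFast65aa8ex7b.a17 AFast65aa8ex7b.a18
  AFast65aa8ex7b.a19 AFast65aa8ex7b.a20 AFast65aa8ex7b.a21 AFast65aa8ex7b.a22 AFast65aa8ex7b.a23
  AFast65aa8ex7b.a24 AFast65aa8ex7b.a25 AFast65aa8ex7b.a26 AFast65aa8ex7b.a27 AFast65aa8ex7b.a28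
  AFast65aa8ex7b.a29
section

open Filter Topology
open scoped ComplexConjugate InnerProductSpace BoundedContinuousFunction

namespace Vale.Agent.P132

universe u

variable {H : Type u} [NormedAddCommGroup H] [InnerProductSpace ℂ H] [CompleteSpace H]

theorem g1_proj (K : Submodule ℝ H) (hcl : IsClosed (K : Set H)) :
    ∃ P : H →L[ℝ] H, (∀ z, P z ∈ K) ∧ (∀ z, ∀ k ∈ K, (⟪k, z - P z⟫_ℂ).re = 0) := by
  let : InnerProductSpace ℝ H := InnerProductSpace.complexToReal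
  have : CompleteSpace K := hcl.completeSpace_coe
  refine ⟨K.starProjection, fun z => K.starProjection_apply_mem z, fun z k hk => ?_⟩
  have h1 : (inner ℝ (z - K.starProjection z) k : ℝ) = 0 :=
    K.starProjection_inner_eq_zero z k hk
  rw [real_inner_comm] at h1
  exact h1

omit [CompleteSpace H] in
theorem g1_smul (c : ℂ) (z : H) : c • z = c.re • z + c.im • (Complex.I • z) := by
  conv_lhs => rw [← Complex.re_add_im c]
  rw [add_smul, mul_smul, Complex.coe_smul, Complex.coe_smul]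

/-- a real operator commuting with `i` -/
noncomputable def g1_toC (B : H →L[ℝ] H) (h : ∀ z, B (Complex.I • z) = Complex.I • B z) :
    H →L[ℂ] H where
  toFun := B
  map_add' := B.map_add
  map_smul' := fun c z => by
    rw [g1_smul c z, map_add, B.map_smul, B.map_smul, h, ← g1_smul]
    rfl
  cont := B.cont

/-- a real operator anticommuting with `i` -/
noncomputable def g1_toCbar (B : H →L[ℝ] H) (h : ∀ z, B (Complex.I • z) = -(Complex.I • B z)) :
    H →ₛₗ[starRingEnd ℂ] H where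
  toFun := B
  map_add' := B.map_add
  map_smul' := fun c z => by
    rw [g1_smul c z, map_add, B.map_smul, B.map_smul, h, g1_smul (starRingEnd ℂ c)]
    simp

/-- intertwining passes to the functional calculus -/
theorem g1_intertwine {a : H →L[ℂ] H} (ha : IsSelfAdjoint a) (B : H → H) (hBc : Continuous B)
    (hadd : ∀ x y, B (x + y) = B x + B y) (hreal : ∀ (r : ℝ) x, B (r • x) = r • B x)
    (hB : ∀ z, B (a z) = a (B z)) (f : ℝ → ℝ) (z : H) : B (cfc f a z) = cfc f a (B z) := by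
  revert z
  refine cfc_cases (fun T => ∀ z, B (T z) = T (B z)) a f ?_ ?_
  · intro z
    have h0 : B 0 = 0 := by simpa using hreal 0 0
    simpa using h0
  · intro hf ha'
    generalize (⟨_, hf.domRestrict⟩ : C(spectrum ℝ a, ℝ)) = g
    have hall : ∀ g : C(spectrum ℝ a, ℝ), ∀ z, B (cfcHom ha g z) = cfcHom ha g (B z) := by
      intro g
      induction g using ContinuousMap.induction_on_of_compact with
      | const r =>
        intro z
        have : cfcHom ha (ContinuousMap.const (spectrum ℝ a) r) = algebraMap ℝ (H →L[ℂ] H) r := by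
          exact AlgHomClass.commutes (cfcHom ha) r
        rw [this, Algebra.algebraMap_eq_smul_one]
        simp [hreal]
      | id => intro z; rw [cfcHom_id ha]; exact hB z
      | star_id => intro z; rw [map_star, cfcHom_id, ha.star_eq]; exact hB z
      | add f g hf hg =>
        intro z
        rw [map_add]
        simp only [_root_.add_apply]
        rw [hadd, hf, hg]
      | mul f g hf hg =>
        intro z
        rw [map_mul]
        simp only [_root_.mul_apply_eq_comp]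
        rw [hf, hg]
      | frequently f hf =>
        intro z
        have hcl : IsClosed {g : C(spectrum ℝ a, ℝ) | B (cfcHom ha g z) = cfcHom ha g (B z)} := by
          have h1 : Continuous fun g : C(spectrum ℝ a, ℝ) => cfcHom ha g := cfcHom_continuous ha
          have h2 : ∀ w : H, Continuous fun g : C(spectrum ℝ a, ℝ) => (cfcHom ha g) w :=
            fun w => (ContinuousLinearMap.apply ℂ H w).continuous.comp h1
          exact isClosed_eq (hBc.comp (h2 z)) (h2 (B z))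
        have : f ∈ closure {g : C(spectrum ℝ a, ℝ) | B (cfcHom ha g z) = cfcHom ha g (B z)} := by
          rw [mem_closure_iff_frequently]
          exact hf.mono fun g hg => hg z
        rwa [hcl.closure_eq] at this
    exact hall g

omit [CompleteSpace H] in
theorem g1_inner_I_re (z w : H) :
    (⟪z, Complex.I • w⟫_ℂ).re = -(⟪z, w⟫_ℂ).im := by
  rw [inner_smul_right]; simp

omit [CompleteSpace H] in
theorem g1_inner_I_re' (z w : H) :
    (⟪Complex.I • z, w⟫_ℂ).re = (⟪z, w⟫_ℂ).im := by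
  rw [inner_smul_left]; simp

/-- Properties of the real projection. -/
structure G1P (K : Submodule ℝ H) (P : H →L[ℝ] H) : Prop where
  mem : ∀ z, P z ∈ K
  orth : ∀ z, ∀ k ∈ K, (⟪k, z - P z⟫_ℂ).re = 0

namespace G1P

variable {K : Submodule ℝ H} {P : H →L[ℝ] H}

omit [CompleteSpace H] in
theorem fix (h : G1P K P) {k : H} (hk : k ∈ K) : P k = k := by
  have h1 := h.orth k (k - P k) (K.sub_mem hk (h.mem k))
  have h2 : ‖k - P k‖ ^ 2 = 0 := by
    rw [← h1, inner_self_eq_norm_sq_to_K]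
    norm_cast
  have h3 : k - P k = 0 := by
    rw [← norm_eq_zero]; exact pow_eq_zero_iff (two_ne_zero) |>.1 h2
  exact (sub_eq_zero.1 h3).symm

omit [CompleteSpace H] in
theorem idem (h : G1P K P) (z : H) : P (P z) = P z := h.fix (h.mem z)

omit [CompleteSpace H] in
theorem re_left (h : G1P K P) (z w : H) : (⟪P z, w⟫_ℂ).re = (⟪P z, P w⟫_ℂ).re := by
  have h1 := h.orth w (P z) (h.mem z)
  rw [inner_sub_right, Complex.sub_re] at h1
  linarith

omit [CompleteSpace H] in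
theorem re_right (h : G1P K P) (z w : H) : (⟪z, P w⟫_ℂ).re = (⟪P z, P w⟫_ℂ).re := by
  have h1 := h.re_left w z
  rw [← inner_conj_symm, Complex.conj_re, ← inner_conj_symm (P z), Complex.conj_re]
  exact h1

omit [CompleteSpace H] in
theorem symm (h : G1P K P) (z w : H) : (⟪P z, w⟫_ℂ).re = (⟪z, P w⟫_ℂ).re := by
  exact (h.re_left z w).trans (h.re_right z w).symm

omit [CompleteSpace H] in
theorem norm_sq (h : G1P K P) (z : H) : (⟪z, P z⟫_ℂ).re = ‖P z‖ ^ 2 := by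
  rw [h.re_right, inner_self_eq_norm_sq_to_K]
  norm_cast

omit [CompleteSpace H] in
theorem norm_sub_sq (h : G1P K P) (z : H) : ‖z - P z‖ ^ 2 = ‖z‖ ^ 2 - ‖P z‖ ^ 2 := by
  have h1 : (⟪z - P z, z - P z⟫_ℂ).re = ‖z - P z‖ ^ 2 := by
    rw [inner_self_eq_norm_sq_to_K]; norm_cast
  have h2 : (⟪z, z⟫_ℂ).re = ‖z‖ ^ 2 := by
    rw [inner_self_eq_norm_sq_to_K]; norm_cast
  rw [← h1, inner_sub_left, Complex.sub_re, h.orth z _ (h.mem z), inner_sub_right,
    Complex.sub_re, h2, h.norm_sq, sub_zero]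

omit [CompleteSpace H] in
theorem norm_sq_le (h : G1P K P) (z : H) : ‖P z‖ ^ 2 ≤ ‖z‖ ^ 2 := by
  have := h.norm_sub_sq z
  have h2 := sq_nonneg ‖z - P z‖
  linarith

omit [CompleteSpace H] in
theorem mem_of_norm (h : G1P K P) {z : H} (hz : ‖z‖ ^ 2 ≤ ‖P z‖ ^ 2) : z ∈ K := by
  have h1 := h.norm_sub_sq z
  have h2 : ‖z - P z‖ ^ 2 = 0 := le_antisymm (by linarith) (sq_nonneg _)
  have h3 : z - P z = 0 := by
    rw [← norm_eq_zero]; exact pow_eq_zero_iff (two_ne_zero) |>.1 h2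
  rw [sub_eq_zero.1 h3]
  exact h.mem z

/-- The projection onto `iK`. -/
noncomputable def q (P : H →L[ℝ] H) : H →L[ℝ] H :=
  -((Complex.I • (ContinuousLinearMap.id ℂ H)).restrictScalars ℝ ∘L P ∘L
    (Complex.I • (ContinuousLinearMap.id ℂ H)).restrictScalars ℝ)

omit [CompleteSpace H] in
@[simp] theorem q_apply (z : H) : q P z = -(Complex.I • P (Complex.I • z)) := rfl

omit [CompleteSpace H] in
theorem I_I (z : H) : Complex.I • (Complex.I • z) = -z := by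
  rw [smul_smul, Complex.I_mul_I, neg_smul, one_smul]

omit [CompleteSpace H] in
theorem q_idem (h : G1P K P) (z : H) : q P (q P z) = q P z := by
  simp only [q_apply, smul_neg, I_I, neg_neg, h.idem]

omit [CompleteSpace H] in
theorem norm_q (z : H) : ‖q P z‖ = ‖P (Complex.I • z)‖ := by
  rw [q_apply, norm_neg, norm_smul, Complex.norm_I, one_mul]

omit [CompleteSpace H] in
theorem q_symm (h : G1P K P) (z w : H) : (⟪q P z, w⟫_ℂ).re = (⟪z, q P w⟫_ℂ).re := by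
  have h1 := h.symm (Complex.I • z) (Complex.I • w)
  rw [q_apply, q_apply, inner_neg_left, inner_neg_right, Complex.neg_re, Complex.neg_re,
    g1_inner_I_re', g1_inner_I_re]
  rw [g1_inner_I_re, g1_inner_I_re'] at h1
  linarith

omit [CompleteSpace H] in
theorem q_norm_sq (h : G1P K P) (z : H) : (⟪z, q P z⟫_ℂ).re = ‖q P z‖ ^ 2 := by
  rw [norm_q, ← h.norm_sq, q_apply, inner_neg_right, Complex.neg_re, g1_inner_I_re,
    g1_inner_I_re', neg_neg]

omit [CompleteSpace H] in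
theorem norm_q_sq_le (h : G1P K P) (z : H) : ‖q P z‖ ^ 2 ≤ ‖z‖ ^ 2 := by
  rw [norm_q]
  have := h.norm_sq_le (Complex.I • z)
  rwa [norm_smul, Complex.norm_I, one_mul] at this

/-- `R = P + Q` -/
noncomputable def R (P : H →L[ℝ] H) : H →L[ℂ] H :=
  g1_toC (P + q P) (fun z => by
    simp only [_root_.add_apply, q_apply, I_I, map_neg, smul_add, smul_neg]
    abel)

omit [CompleteSpace H] in
theorem R_apply (z : H) : R P z = P z + q P z := rfl

/-- `A = P - Q` as a conjugate linear map -/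
noncomputable def A (P : H →L[ℝ] H) : H →ₛₗ[starRingEnd ℂ] H :=
  g1_toCbar (P - q P) (fun z => by
    simp only [_root_.sub_apply, q_apply, I_I, map_neg, smul_sub, smul_neg]
    abel)

omit [CompleteSpace H] in
theorem A_apply (z : H) : A P z = P z - q P z := rfl

omit [CompleteSpace H] in
theorem A_continuous : Continuous (A P) := (P - q P).continuous

omit [CompleteSpace H] in
theorem A_A (h : G1P K P) (z : H) : A P (A P z) = R P (2 • z - R P z) := by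
  rw [A_apply, A_apply, R_apply, R_apply]
  simp only [map_sub, map_add, h.idem, h.q_idem, two_smul]
  abel

omit [CompleteSpace H] in
theorem A_R (h : G1P K P) (z : H) : A P (R P z) = 2 • A P z - R P (A P z) := by
  rw [A_apply, A_apply, R_apply, R_apply]
  simp only [map_sub, map_add, h.idem, h.q_idem, two_smul]
  abel

omit [CompleteSpace H] in
theorem re_R (h : G1P K P) (z : H) : (⟪z, R P z⟫_ℂ).re = ‖P z‖ ^ 2 + ‖q P z‖ ^ 2 := by
  rw [R_apply, inner_add_right, Complex.add_re, h.norm_sq, h.q_norm_sq]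

omit [CompleteSpace H] in
theorem R_re_symm (h : G1P K P) (z w : H) : (⟪R P z, w⟫_ℂ).re = (⟪z, R P w⟫_ℂ).re := by
  rw [R_apply, R_apply, inner_add_right, Complex.add_re, inner_add_left, Complex.add_re,
    h.symm, h.q_symm]

omit [CompleteSpace H] in
theorem A_re_symm (h : G1P K P) (z w : H) : (⟪A P z, w⟫_ℂ).re = (⟪z, A P w⟫_ℂ).re := by
  rw [A_apply, A_apply, inner_sub_right, Complex.sub_re, inner_sub_left, Complex.sub_re,
    h.symm, h.q_symm]

omit [CompleteSpace H] in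
theorem R_inner_symm (h : G1P K P) (z w : H) : ⟪R P z, w⟫_ℂ = ⟪z, R P w⟫_ℂ := by
  apply Complex.ext
  · exact h.R_re_symm z w
  · have h1 := h.R_re_symm z (Complex.I • w)
    rw [map_smul, g1_inner_I_re, g1_inner_I_re] at h1
    linarith

theorem R_sa (h : G1P K P) : star (R P) = R P := by
  rw [ContinuousLinearMap.star_eq_adjoint]
  refine (ContinuousLinearMap.eq_adjoint_iff _ _).2 (fun z w => ?_) |>.symm
  exact h.R_inner_symm z w

/-- `S = A^2 = R (2 - R)` -/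
noncomputable def S (P : H →L[ℝ] H) : H →L[ℂ] H := R P * (2 - R P)

omit [CompleteSpace H] in
theorem S_apply (h : G1P K P) (z : H) : S P z = A P (A P z) := by
  rw [h.A_A, S, mul_apply_eq_comp]
  congr 1

omit [CompleteSpace H] in
theorem S_nonneg (h : G1P K P) : 0 ≤ S P := by
  rw [ContinuousLinearMap.nonneg_iff_isPositive]
  refine ⟨?_, fun z => ?_⟩
  · intro z w
    have h1 : ∀ z w : H, (⟪S P z, w⟫_ℂ).re = (⟪z, S P w⟫_ℂ).re := fun z w => by
      rw [h.S_apply, h.S_apply, h.A_re_symm, h.A_re_symm]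
    apply Complex.ext
    · exact h1 z w
    · have h2 := h1 z (Complex.I • w)
      rw [map_smul, g1_inner_I_re, g1_inner_I_re] at h2
      have h3 := neg_injective h2
      exact h3
  · show 0 ≤ (⟪S P z, z⟫_ℂ).re
    rw [h.S_apply, h.A_re_symm]
    exact inner_self_nonneg (𝕜 := ℂ)

theorem exists_T (h : G1P K P) (hR : ∀ z, R P z = 0 → z = 0)
    (hR' : ∀ z, R P z = (2 : ℂ) • z → z = 0) :
    ∃ T : H →L[ℂ] H, 0 ≤ T ∧ T * T = S P ∧ (∀ z, A P (T z) = T (A P z)) ∧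
      (∀ z, R P (T z) = T (R P z)) ∧ (∀ z, ‖A P z‖ = ‖T z‖) ∧ DenseRange T ∧
      (∀ z, T z = 0 → z = 0) := by
  have hS := h.S_nonneg
  have hSsa : IsSelfAdjoint (S P) := IsSelfAdjoint.of_nonneg hS
  set T := CFC.sqrt (S P) with hT
  have hT0 : 0 ≤ T := CFC.sqrt_nonneg _
  have hTT : T * T = S P := CFC.sqrt_mul_sqrt_self (S P) hS
  have hTcfc : T = cfc Real.sqrt (S P) := by
    rw [hT, CFC.sqrt_eq_real_sqrt (S P) hS, cfcₙ_eq_cfc]
  have hTsa : star T = T := (IsSelfAdjoint.of_nonneg hT0).star_eq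
  have hTin : ∀ z w, ⟪T z, w⟫_ℂ = ⟪z, T w⟫_ℂ := fun z w => by
    have h1 := ContinuousLinearMap.adjoint_inner_left T w z
    rw [← ContinuousLinearMap.star_eq_adjoint, hTsa] at h1
    exact h1
  have hAT : ∀ z, A P (T z) = T (A P z) := by
    rw [hTcfc]
    refine fun z => g1_intertwine hSsa (A P) A_continuous (fun x y => map_add _ x y)
      (fun r x => ?_) (fun z => ?_) _ z
    · exact (P - q P).map_smul r x
    · rw [h.S_apply, h.S_apply]
  have hRT : ∀ z, R P (T z) = T (R P z) := by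
    rw [hTcfc]
    refine fun z => g1_intertwine hSsa (R P) (R P).continuous (fun x y => map_add _ x y)
      (fun r x => ?_) (fun z => ?_) _ z
    · exact (P + q P).map_smul r x
    · rw [S, mul_apply_eq_comp, mul_apply_eq_comp, _root_.sub_apply, _root_.sub_apply, map_sub,
        map_sub, map_sub]
      simp
  have hnorm : ∀ z, ‖A P z‖ = ‖T z‖ := by
    intro z
    have h1 : ‖A P z‖ ^ 2 = (⟪z, S P z⟫_ℂ).re := by
      rw [h.S_apply, ← h.A_re_symm, inner_self_eq_norm_sq_to_K]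
      norm_cast
    have h2 : ‖T z‖ ^ 2 = (⟪z, S P z⟫_ℂ).re := by
      rw [← hTT, mul_apply_eq_comp, ← hTin, inner_self_eq_norm_sq_to_K]
      norm_cast
    have h3 : ‖A P z‖ ^ 2 = ‖T z‖ ^ 2 := by rw [h1, h2]
    exact (pow_left_inj₀ (norm_nonneg _) (norm_nonneg _) two_ne_zero).1 h3
  have hTinj : ∀ z, T z = 0 → z = 0 := by
    intro z hz
    have h1 : S P z = 0 := by rw [← hTT, mul_apply_eq_comp, hz, map_zero]
    rw [S, mul_apply_eq_comp] at h1
    have h2 := hR _ h1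
    rw [_root_.sub_apply] at h2
    refine hR' z ?_
    rw [← sub_eq_zero.1 h2, two_smul]
    exact two_nsmul z
  refine ⟨T, hT0, hTT, hAT, hRT, hnorm, ?_, hTinj⟩
  have hbot : (LinearMap.range (T : H →ₗ[ℂ] H))ᗮ = ⊥ := by
    rw [Submodule.eq_bot_iff]
    intro z hz
    refine hTinj z ?_
    have h1 := (Submodule.mem_orthogonal' _ _).1 hz (T (T z)) ⟨T z, rfl⟩
    rw [← hTin, inner_self_eq_zero] at h1
    exact h1
  have h2 := Submodule.topologicalClosure_eq_top_iff.2 hbot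
  have h3 : Dense ((LinearMap.range (T : H →ₗ[ℂ] H) : Submodule ℂ H) : Set H) := by
    rw [Submodule.dense_iff_topologicalClosure_eq_top]
    exact h2
  exact h3

end G1P

/-- G1 -/
theorem exists_stdData (K : Submodule ℝ H) (hcl : IsClosed (K : Set H))
    (hsep : ∀ ζ : H, ζ ∈ K → Complex.I • ζ ∈ K → ζ = 0)
    (hdense : ∀ ζ : H, (∀ k ∈ K, ⟪k, ζ⟫_ℂ = 0) → ζ = 0) :
    Nonempty (StdData (K : Set H)) := by
  obtain ⟨P, hP1, hP2⟩ := g1_proj K hcl
  have h : G1P K P := ⟨hP1, hP2⟩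
  have hR : ∀ z, G1P.R P z = 0 → z = 0 := by
    intro z hz
    have h1 := h.re_R z
    rw [hz, inner_zero_right, Complex.zero_re, G1P.norm_q] at h1
    have h2 : ‖P z‖ ^ 2 = 0 := le_antisymm
      (by have := sq_nonneg ‖P (Complex.I • z)‖; linarith) (sq_nonneg _)
    have h3 : ‖P (Complex.I • z)‖ ^ 2 = 0 := le_antisymm
      (by have := sq_nonneg ‖P z‖; linarith) (sq_nonneg _)
    have h4 : P z = 0 := by
      rw [← norm_eq_zero]; exact pow_eq_zero_iff (two_ne_zero) |>.1 h2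
    have h5 : P (Complex.I • z) = 0 := by
      rw [← norm_eq_zero]; exact pow_eq_zero_iff (two_ne_zero) |>.1 h3
    refine hdense z (fun k hk => ?_)
    have h6 := h.orth z k hk
    have h7 := h.orth (Complex.I • z) k hk
    rw [h4, sub_zero] at h6
    rw [h5, sub_zero, g1_inner_I_re] at h7
    exact Complex.ext h6 (by simpa using h7)
  have hR' : ∀ z, G1P.R P z = (2 : ℂ) • z → z = 0 := by
    intro z hz
    have h1 := h.re_R z
    have h0 : (⟪z, (2 : ℂ) • z⟫_ℂ).re = 2 * ‖z‖ ^ 2 := by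
      rw [inner_smul_right, inner_self_eq_norm_sq_to_K]
      simp [← Complex.ofReal_pow]
    rw [hz, h0] at h1
    have h2 := h.norm_sq_le z
    have h3 := h.norm_q_sq_le z
    refine hsep z (h.mem_of_norm (by linarith)) (h.mem_of_norm ?_)
    rw [← G1P.norm_q, norm_smul, Complex.norm_I, one_mul]
    linarith
  obtain ⟨T, hT0, hTT, hAT, hRT, hnorm, hdr, hTinj⟩ := h.exists_T hR hR'
  -- the conjugation
  have hb : ∀ x, ‖G1P.A P x‖ ≤ 1 * ‖(T : H →ₗ[ℂ] H) x‖ := fun x => by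
    rw [one_mul]; exact (hnorm x).le
  have hdr' : DenseRange (T : H →ₗ[ℂ] H) := hdr
  set J : H →SL[starRingEnd ℂ] H := (G1P.A P).extendOfNorm (T : H →ₗ[ℂ] H) with hJ
  have hJT : ∀ z, J (T z) = G1P.A P z := fun z =>
    LinearMap.extendOfNorm_eq hdr' ⟨1, hb⟩ z
  have hind : ∀ f g : H → H, Continuous f → Continuous g → (∀ z, f (T z) = g (T z)) →
      ∀ z, f z = g z := by
    intro f g hf hg hfg
    have h1 := hdr.equalizer hf hg (funext hfg)
    exact fun z => congrFun h1 z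
  have hJn : ∀ z, ‖J z‖ = ‖z‖ := by
    have h1 : (fun z => ‖J z‖) = fun z => ‖z‖ := by
      refine hdr.equalizer (J.continuous.norm) continuous_norm (funext fun z => ?_)
      simp only [Function.comp]
      rw [hJT, hnorm]
    exact fun z => congrFun h1 z
  have hJTc : ∀ z, J (T z) = T (J z) :=
    hind (fun z => J (T z)) (fun z => T (J z)) (J.continuous.comp T.continuous)
      (T.continuous.comp J.continuous) (fun z => by
        simp only [hJT, hAT])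
  have hJJ : ∀ z, J (J z) = z := by
    refine hind (fun z => J (J z)) id (J.continuous.comp J.continuous) continuous_id ?_
    refine hind (fun z => J (J (T z))) (fun z => id (T z))
      ((J.continuous.comp J.continuous).comp T.continuous) T.continuous (fun z => ?_)
    simp only [id]
    rw [hJTc (T z), hJT, hJT, ← h.S_apply, ← hTT, mul_apply_eq_comp]
  have hJR : ∀ z, J (G1P.R P z) = (2 : ℂ) • J z - G1P.R P (J z) := by
    refine hind (fun z => J (G1P.R P z)) (fun z => (2 : ℂ) • J z - G1P.R P (J z))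
      (J.continuous.comp (G1P.R P).continuous)
      ((J.continuous.const_smul (2 : ℂ)).sub ((G1P.R P).continuous.comp J.continuous))
      (fun z => ?_)
    rw [hRT, hJT, h.A_R, hJT, two_smul, two_smul]
  have hJadd : ∀ x y, J (x + y) = J x + J y := fun x y => map_add J x y
  let Jeq : H ≃ₗᵢ⋆[ℂ] H :=
    { LinearEquiv.ofInvolutive (J : H →ₛₗ[starRingEnd ℂ] H) hJJ with
      norm_map' := hJn }
  have hJeq : ∀ z, Jeq z = J z := fun z => rfl
  refine ⟨{ R := G1P.R P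
            T := T
            J := Jeq
            R_sa := h.R_sa
            R_nonneg := fun z => ?_
            R_le := fun z => ?_
            R_inj := hR
            R_inj' := hR'
            T_nonneg := hT0
            T_sq := hTT
            J_J := hJJ
            J_R := hJR
            J_T := hJTc
            JT_K := fun k hk => ?_
            JT_K' := fun z hz => ?_ }⟩
  · rw [h.re_R]; positivity
  · rw [h.re_R]
    have h2 := h.norm_sq_le z
    have h3 := h.norm_q_sq_le z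
    linarith
  · rw [hJeq, hJT, G1P.A_apply, G1P.R_apply, h.fix hk, two_smul]
    abel
  · have h1 : P (Complex.I • z) = 0 := by
      have h2 := h.norm_sq (Complex.I • z)
      rw [← h.symm, g1_inner_I_re, hz _ (h.mem _), neg_zero] at h2
      rw [← norm_eq_zero]; exact pow_eq_zero_iff (two_ne_zero) |>.1 h2.symm
    have h2 : G1P.q P z = 0 := by
      rw [G1P.q_apply, h1, smul_zero, neg_zero]
    have h3 : G1P.R P z = P z := by rw [G1P.R_apply, h2, add_zero]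
    refine ⟨?_, ?_, fun k hk => ?_⟩
    · rw [hJeq, hJT, G1P.A_apply, h2, h3, sub_zero]
    · rw [h3]; exact h.mem z
    · rw [h3]; exact h.orth z k hk

end Vale.Agent.P132
end

section

open Filter Topology
open scoped ComplexConjugate InnerProductSpace BoundedContinuousFunction

namespace Vale.Agent.P132

universe u

variable {H : Type u} [NormedAddCommGroup H] [InnerProductSpace ℂ H] [CompleteSpace H]

/-! ### elementary positivity lemmas -/

theorem pE_inner_nonneg {a : H →L[ℂ] H} (h : 0 ≤ a) (x : H) : 0 ≤ (⟪x, a x⟫_ℂ).re :=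
  ((ContinuousLinearMap.nonneg_iff_isPositive a).1 h).re_inner_nonneg_right x

theorem pE_nonneg {a : H →L[ℂ] H} (hs : star a = a) (h : ∀ x, 0 ≤ (⟪x, a x⟫_ℂ).re) : 0 ≤ a := by
  rw [ContinuousLinearMap.nonneg_iff_isPositive, ContinuousLinearMap.isPositive_def']
  refine ⟨hs, fun x => ?_⟩
  have := h x
  rw [ContinuousLinearMap.reApplyInnerSelf_apply, ← inner_conj_symm]
  change 0 ≤ ((starRingEnd ℂ) ⟪x, a x⟫_ℂ).re
  rw [Complex.conj_re]
  exact this

theorem pE_star_of_nonneg {a : H →L[ℂ] H} (h : 0 ≤ a) : star a = a :=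
  (IsSelfAdjoint.of_nonneg h)

theorem pE_inner_star_left (a : H →L[ℂ] H) (x y : H) : ⟪a x, y⟫_ℂ = ⟪x, star a y⟫_ℂ := by
  rw [ContinuousLinearMap.star_eq_adjoint, ContinuousLinearMap.adjoint_inner_right]

theorem pE_inner_star_right (a : H →L[ℂ] H) (x y : H) : ⟪x, a y⟫_ℂ = ⟪star a x, y⟫_ℂ := by
  rw [ContinuousLinearMap.star_eq_adjoint, ContinuousLinearMap.adjoint_inner_left]

theorem pE_inner_self (x : H) : (⟪x, x⟫_ℂ).re = ‖x‖ ^ 2 := by
  have := @inner_self_eq_norm_sq ℂ H _ _ _ x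
  exact this

theorem pE_smul_nonneg {a : H →L[ℂ] H} (h : 0 ≤ a) {r : ℝ} (hr : 0 ≤ r) : 0 ≤ (r : ℂ) • a := by
  refine pE_nonneg ?_ fun x => ?_
  · rw [star_smul, pE_star_of_nonneg h]
    simp
  · have h1 : ⟪x, ((r : ℂ) • a) x⟫_ℂ = (r : ℂ) * ⟪x, a x⟫_ℂ := by
      rw [← inner_smul_right]; rfl
    rw [h1, Complex.re_ofReal_mul]
    exact mul_nonneg hr (pE_inner_nonneg h x)

theorem pE_smul_le {a b : H →L[ℂ] H} (h : a ≤ b) {r : ℝ} (hr : 0 ≤ r) :
    (r : ℂ) • a ≤ (r : ℂ) • b := by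
  rw [← sub_nonneg, ← smul_sub]
  exact pE_smul_nonneg (sub_nonneg.2 h) hr

/-- `r h y h ≤ h h` for `r ≤ 1 / (‖y‖ + 1)` -/
theorem pE_cut_le {h y : H →L[ℂ] H} (hs : star h = h) (hy : 0 ≤ y) :
    (((1 / (‖y‖ + 1) : ℝ) : ℂ)) • (h * y * h) ≤ h * h := by
  have hys : star y = y := pE_star_of_nonneg hy
  rw [← sub_nonneg]
  refine pE_nonneg ?_ fun x => ?_
  · rw [star_sub, star_mul, hs, star_smul, star_mul, star_mul, hs, hys, mul_assoc]
    simp
  · have e : ⟪x, (h * h - (((1 / (‖y‖ + 1) : ℝ) : ℂ)) • (h * y * h)) x⟫_ℂ =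
        ⟪h x, h x⟫_ℂ - (((1 / (‖y‖ + 1) : ℝ) : ℂ)) * ⟪h x, y (h x)⟫_ℂ := by
      rw [_root_.sub_apply, inner_sub_right, _root_.smul_apply,
        inner_smul_right, mul_apply_eq_comp, mul_apply_eq_comp,
        mul_apply_eq_comp, pE_inner_star_right h x, pE_inner_star_right h x, hs]
    rw [e, Complex.sub_re, Complex.re_ofReal_mul, pE_inner_self]
    have h1 : (⟪h x, y (h x)⟫_ℂ).re ≤ ‖y‖ * ‖h x‖ ^ 2 := by
      calc (⟪h x, y (h x)⟫_ℂ).re ≤ ‖⟪h x, y (h x)⟫_ℂ‖ := Complex.re_le_norm _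
        _ ≤ ‖h x‖ * ‖y (h x)‖ := norm_inner_le_norm _ _
        _ ≤ ‖h x‖ * (‖y‖ * ‖h x‖) := by gcongr; exact y.le_opNorm _
        _ = ‖y‖ * ‖h x‖ ^ 2 := by ring
    have h2 : 1 / (‖y‖ + 1) * (⟪h x, y (h x)⟫_ℂ).re ≤ ‖h x‖ ^ 2 := by
      have h3 : 0 < ‖y‖ + 1 := by positivity
      rw [div_mul_eq_mul_div, one_mul, div_le_iff₀ h3]
      linarith only [sq_nonneg ‖h x‖, h1]
    linarith only [h2]

namespace ModData

variable {M : VonNeumannAlgebra H} {ξ : H} (D : ModData M ξ)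

theorem cone_CW_left {a b : ℝ} {ζ : H} (h : D.CW a b ζ) {c : H →L[ℂ] H} (hc : D.InC c) :
    D.CW a b (c ζ) := fun F hF => by
  rw [InC.Th_comm D hc, h F hF, map_zero]

theorem cone_CW_right {a b : ℝ} {x : H →L[ℂ] H} (hx : x ∈ M) (h : D.CW a b (x ξ))
    {c : H →L[ℂ] H} (hc : D.InC c) : D.CW a b ((x * c) ξ) := fun F hF => by
  have h1 : (x * c) ξ = D.Rm c (x ξ) := by
    rw [← D.comm_Rm hx hc.1, InC.Rm_xi D hc]; rfl
  rw [h1, InC.Th_Rm D hc, h F hF, map_zero]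

/-- Lemma PC -/
theorem exists_cut {c : H →L[ℂ] H} (hc : D.InC c) (h0 : 0 ≤ c) {ζ : H}
    (hζ : 0 < (⟪c ξ, ζ⟫_ℂ).re) :
    ∃ h, D.InC h ∧ star h = h ∧ h ≠ 0 ∧
      ∀ y, D.InC y → 0 ≤ y → 0 ≤ (⟪(h * y * h) ξ, ζ⟫_ℂ).re := by
  set S : Set H := {k | ∃ g, D.InC g ∧ 0 ≤ g ∧ g ≤ c ∧ g ξ = k} with hS
  have hne : S.Nonempty := ⟨0, 0, InC.zero D, le_rfl, h0, by simp⟩
  have hcl : IsClosed S := by
    apply IsSeqClosed.isClosed
    intro k x hk hx
    choose g hg1 hg2 hg3 hg4 using hk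
    obtain ⟨b, hb1, hb2, hb3, hb4⟩ := D.closed_interval hc g hg1 hg2 hg3 x (by
      simpa only [hg4] using hx)
    exact ⟨b, hb1, hb2, hb3, hb4⟩
  have hconv : ∀ x ∈ S, ∀ y ∈ S, ∀ s t : ℝ, 0 ≤ s → 0 ≤ t → s + t = 1 →
      (s : ℂ) • x + (t : ℂ) • y ∈ S := by
    rintro _ ⟨g, hg1, hg2, hg3, rfl⟩ _ ⟨g', hg1', hg2', hg3', rfl⟩ s t hs ht hst
    refine ⟨(s : ℂ) • g + (t : ℂ) • g', InC.add D (InC.smul D hg1 _) (InC.smul D hg1' _), ?_, ?_,
      by simp⟩
    · exact add_nonneg (pE_smul_nonneg hg2 hs) (pE_smul_nonneg hg2' ht)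
    · have e : c = (s : ℂ) • c + (t : ℂ) • c := by
        rw [← add_smul, ← Complex.ofReal_add, hst]; simp
      calc (s : ℂ) • g + (t : ℂ) • g' ≤ (s : ℂ) • c + (t : ℂ) • c := by
            apply add_le_add
            · exact pE_smul_le hg3 hs
            · exact pE_smul_le hg3' ht
        _ = c := e.symm
  obtain ⟨_, ⟨g, hg1, hg2, hg3, rfl⟩, hmin⟩ := exists_nearest hne hcl hconv ζ
  have hg0 : g ≠ 0 := by
    rintro rfl
    have h1 := hmin (c ξ) ⟨c, hc, h0, le_rfl, rfl⟩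
    rw [_root_.zero_apply, sub_zero, sub_zero, ← inner_conj_symm, Complex.conj_re] at h1
    linarith
  obtain ⟨h, hh1, hh2, hh3, hh4⟩ := InC.exists_sqrt D hg1 hg2
  refine ⟨h, hh1, hh3, ?_, fun y hy hy0 => ?_⟩
  · rintro rfl
    exact hg0 (by rw [← hh4]; simp)
  · set r : ℝ := 1 / (‖y‖ + 1) with hr
    have hr0 : 0 < r := by (clear * -; positivity)
    have hhyh : D.InC (h * y * h) := InC.mul D (InC.mul D hh1 hy) hh1
    have hpos : 0 ≤ h * y * h := by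
      have := star_left_conjugate_nonneg hy0 h
      rwa [hh3] at this
    have hk : (g - (r : ℂ) • (h * y * h)) ξ ∈ S := by
      refine ⟨g - (r : ℂ) • (h * y * h), InC.sub D hg1 (InC.smul D hhyh _), ?_, ?_, rfl⟩
      · rw [sub_nonneg, ← hh4]
        exact pE_cut_le hh3 hy0
      · refine le_trans ?_ hg3
        rw [sub_le_self_iff]
        exact pE_smul_nonneg hpos hr0.le
    have h1 := hmin _ hk
    have e1 : (g - (r : ℂ) • (h * y * h)) ξ - g ξ = -((r : ℂ) • (h * y * h) ξ) := by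
      simp
    rw [e1, inner_neg_right, inner_smul_right, Complex.neg_re, Complex.re_ofReal_mul] at h1
    have h2 : 0 ≤ (⟪ζ - g ξ, (h * y * h) ξ⟫_ℂ).re := by
      by_contra hcon
      push Not at hcon
      linarith only [mul_pos (sub_pos.2 hr0) (sub_pos.2 hcon), h1]
    rw [inner_sub_left, Complex.sub_re] at h2
    have h3 : ⟪g ξ, (h * y * h) ξ⟫_ℂ = ⟪g ξ, y (g ξ)⟫_ℂ := by
      have hgs : star g = g := pE_star_of_nonneg hg2
      calc ⟪g ξ, (h * y * h) ξ⟫_ℂ = ⟪ξ, (h * (h * h * y * h)) ξ⟫_ℂ := by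
            rw [pE_inner_star_left, hgs, ← hh4]
            simp only [mul_assoc, mul_apply_eq_comp]
        _ = ⟪ξ, ((h * h * y * h) * h) ξ⟫_ℂ :=
            InC.trace D hh1 (InC.mul D (InC.mul D (InC.mul D hh1 hh1) hy) hh1)
        _ = ⟪g ξ, y (g ξ)⟫_ℂ := by
            rw [pE_inner_star_left, hgs, ← hh4]
            simp only [mul_assoc, mul_apply_eq_comp]
    rw [h3] at h2
    have h4 := pE_inner_nonneg hy0 (g ξ)
    rw [← inner_conj_symm, Complex.conj_re]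
    linarith only [h4, h2]

/-! ### the two key inequalities -/

theorem InC.mem {a : H →L[ℂ] H} (ha : D.InC a) : a ∈ M := ha.1

theorem xi_mem_fixS : ξ ∈ D.fixS := fun t => D.U_xi t

theorem Th_Th_apply (F G : ℝ →ᵇ ℂ) (ζ : H) : D.Th F (D.Th G ζ) = D.Th (F * G) ζ := by
  rw [map_mul]; rfl

theorem CW.Th_mem {a b : ℝ} {ζ : H} (h : D.CW a b ζ) (G : ℝ →ᵇ ℂ) : D.CW a b (D.Th G ζ) := by
  intro F hF
  rw [Th_Th_apply, mul_comm, ← Th_Th_apply, h F hF, map_zero]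

theorem CW.smul_mem {a b : ℝ} {ζ : H} (h : D.CW a b ζ) (c : ℂ) : D.CW a b (c • ζ) := by
  intro F hF
  rw [map_smul, h F hF, smul_zero]

/-- `P0 ((h a h) ξ) = (h e h) ξ` if `e ξ = P0 (a ξ)` -/
theorem P0_sandwich {h a e : H →L[ℂ] H} (hh : D.InC h) (ha : a ∈ M) (he : D.InC e)
    (hea : e ξ = D.P0 (a ξ)) : D.P0 ((h * a * h) ξ) = (h * e * h) ξ := by
  have h1 : (h * a * h) ξ = h (D.Rm h (a ξ)) := by
    rw [← D.comm_Rm ha (InC.mem D hh), InC.Rm_xi D hh]; rfl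
  have h2 : (h * e * h) ξ = h (D.Rm h (e ξ)) := by
    rw [← D.comm_Rm (InC.mem D he) (InC.mem D hh), InC.Rm_xi D hh]; rfl
  rw [h1, h2, D.P0_InC hh, D.P0_Rm hh, hea]

theorem inner_of_fix {ζ : H} (hζ : ζ ∈ D.fixS) (v : H) : ⟪v, ζ⟫_ℂ = ⟪D.P0 v, ζ⟫_ℂ := by
  rw [D.inner_P0, D.P0_of_fix hζ]

theorem key1 {h h' b : H →L[ℂ] H} (hh : D.InC h) (hhs : star h = h) (hh' : D.InC h')
    (hhs' : star h' = h') (hb : b ∈ M) {ζ : H} (hζ : ζ ∈ D.fixS) {α : ℝ}
    (hpos : ∀ y, D.InC y → 0 ≤ y → 0 ≤ (⟪(h * y * h) ξ, ζ - (α : ℂ) • ξ⟫_ℂ).re) :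
    α * ‖(h' * b * h) ξ‖ ^ 2 ≤ (⟪(star (h' * b * h) * (h' * b * h)) ξ, ζ⟫_ℂ).re := by
  set a : H →L[ℂ] H := star b * (h' * h') * b with ha
  have haM : a ∈ M := mul_mem (mul_mem (star_mem hb) (mul_mem hh'.1 hh'.1)) hb
  have ha0 : 0 ≤ a := by
    have : a = star (h' * b) * (h' * b) := by
      rw [ha, star_mul, hhs']; simp only [mul_assoc]
    rw [this]; exact star_mul_self_nonneg _
  obtain ⟨e, he1, he2, he3⟩ := D.exists_E_nonneg haM ha0
  have e1 : star (h' * b * h) * (h' * b * h) = h * a * h := by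
    rw [ha, star_mul, star_mul, hhs, hhs']; simp only [mul_assoc]
  have hfix : ζ - (α : ℂ) • ξ ∈ D.fixS := sub_mem hζ (D.fixS.smul_mem _ D.xi_mem_fixS)
  have h1 : 0 ≤ (⟪(h * a * h) ξ, ζ - (α : ℂ) • ξ⟫_ℂ).re := by
    rw [D.inner_of_fix hfix, D.P0_sandwich hh haM he1 he3]
    exact hpos e he1 he2
  rw [inner_sub_right, inner_smul_right, Complex.sub_re, Complex.re_ofReal_mul] at h1
  have h2 : (⟪(h * a * h) ξ, ξ⟫_ℂ).re = ‖(h' * b * h) ξ‖ ^ 2 := by
    rw [← e1, mul_apply_eq_comp, pE_inner_star_left, star_star, pE_inner_self]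
  rw [e1]
  rw [h2] at h1
  linarith

theorem pair_eq {b f : H →L[ℂ] H} (hb : b ∈ M) (hf : f ∈ M) {δ : ℝ} (hδ : δ ≤ 1)
    (hw : D.CW (-δ) δ (b ξ)) (hfb : f ξ = D.Th (eB (-(1 / 4))) (b ξ)) {a : H →L[ℂ] H}
    (ha : D.InC a) : ⟪a ξ, b (D.J (b ξ))⟫_ℂ = ⟪a ξ, (f * star f) ξ⟫_ℂ := by
  have has : D.InC (star a) := InC.adj D ha
  have hfw : D.CW (-δ) δ (f ξ) := by rw [hfb]; exact CW.Th_mem D hw _
  have hcw : D.CW (-δ) δ ((star a * b) ξ) := D.cone_CW_left hw has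
  have hcw2 : D.CW (-δ) δ ((star a * f) ξ) := D.cone_CW_left hfw has
  have h1 : D.J (star (star a * b) ξ) = D.Th (eB (1 / 2)) ((star a * b) ξ) :=
    D.J_star_xi (mul_mem has.1 hb) hδ hcw
  have h2 : D.J (star (star a * f) ξ) = D.Th (eB (1 / 2)) ((star a * f) ξ) :=
    D.J_star_xi (mul_mem has.1 hf) hδ hcw2
  have h3 : D.J (star f ξ) = D.Th (eB (1 / 2)) (f ξ) := D.J_star_xi hf hδ hfw
  have e12 : eB (1 / 2) * eB (-(1 / 4)) = eB (1 / 4) := by
    rw [← eB_add]; norm_num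
  have e14 : eB (1 / 4) * eB (1 / 4) = eB (1 / 2) := by
    rw [← eB_add]; norm_num
  have L : ⟪a ξ, b (D.J (b ξ))⟫_ℂ = ⟪b ξ, D.Th (eB (1 / 2)) (star a (b ξ))⟫_ℂ := by
    calc ⟪a ξ, b (D.J (b ξ))⟫_ℂ = ⟪star (star a * b) ξ, D.J (b ξ)⟫_ℂ := by
          rw [pE_inner_star_right, star_mul, star_star]; rfl
      _ = ⟪b ξ, D.J (star (star a * b) ξ)⟫_ℂ := D.inner_J_right _ _
      _ = _ := by rw [h1]; rfl
  have R : ⟪a ξ, (f * star f) ξ⟫_ℂ = ⟪b ξ, D.Th (eB (1 / 2)) (star a (b ξ))⟫_ℂ := by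
    calc ⟪a ξ, (f * star f) ξ⟫_ℂ = ⟪star (star a * f) ξ, star f ξ⟫_ℂ := by
          rw [mul_apply_eq_comp, pE_inner_star_right, star_mul, star_star]; rfl
      _ = ⟪D.J (star f ξ), D.J (star (star a * f) ξ)⟫_ℂ := (D.inner_J_J _ _).symm
      _ = ⟪D.Th (eB (1 / 4)) (b ξ), D.Th (eB (1 / 4)) (star a (b ξ))⟫_ℂ := by
          rw [h2, h3, mul_apply_eq_comp, hfb, D.Th_Th_apply, e12, ← InC.Th_comm D has,
            D.Th_Th_apply, e12]
      _ = ⟪b ξ, D.Th (eB (1 / 2)) (star a (b ξ))⟫_ℂ := by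
          rw [pE_inner_star_left, ← map_star, star_eB, D.Th_Th_apply, e14]
  rw [L, R]

theorem key2 {h' b : H →L[ℂ] H} (hh' : D.InC h')
    (hhs' : star h' = h') (hb : b ∈ M) {δ : ℝ} (hδ : δ ≤ 1)
    (hw : D.CW (-δ) δ (b ξ)) {ζ : H} (hζ : ζ ∈ D.fixS) {α : ℝ}
    (hpos : ∀ y, D.InC y → 0 ≤ y → 0 ≤ (⟪(h' * y * h') ξ, ζ - (α : ℂ) • ξ⟫_ℂ).re) :
    α * (⟪D.Th (eB (1 / 2)) ((h' * b) ξ), (h' * b) ξ⟫_ℂ).re ≤
      (⟪(h' * b) (D.J ((h' * b) ξ)), ζ⟫_ℂ).re := by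
  obtain ⟨f, hf, hfb⟩ := D.exists_power hb hδ hw (-(1 / 4))
  obtain ⟨e, he1, he2, he3⟩ := D.exists_E_nonneg (mul_mem hf (star_mem hf))
    (mul_star_self_nonneg f)
  have hP : D.P0 (b (D.J (b ξ))) = e ξ := by
    rw [he3]
    exact D.P0_eq_of_inner fun a ha => D.pair_eq hb hf hδ hw hfb ha
  have h1 : (h' * b) (D.J ((h' * b) ξ)) = h' (D.Rm h' (b (D.J (b ξ)))) := by
    rw [← D.comm_Rm hb hh'.1, mul_apply_eq_comp, mul_apply_eq_comp, D.J_apply_eq, hhs']
  have hP' : D.P0 ((h' * b) (D.J ((h' * b) ξ))) = (h' * e * h') ξ := by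
    rw [h1, D.P0_InC hh', D.P0_Rm hh', hP, ← D.comm_Rm he1.1 hh'.1, InC.Rm_xi D hh']
    rfl
  have hfix : ζ - (α : ℂ) • ξ ∈ D.fixS := sub_mem hζ (D.fixS.smul_mem _ D.xi_mem_fixS)
  have h2 : 0 ≤ (⟪(h' * b) (D.J ((h' * b) ξ)), ζ - (α : ℂ) • ξ⟫_ℂ).re := by
    rw [D.inner_of_fix hfix, hP']
    exact hpos e he1 he2
  rw [inner_sub_right, inner_smul_right, Complex.sub_re, Complex.re_ofReal_mul] at h2
  have hw' : D.CW (-δ) δ ((h' * b) ξ) := D.cone_CW_left hw hh'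
  have h3 : ⟪(h' * b) (D.J ((h' * b) ξ)), ξ⟫_ℂ =
      ⟪D.Th (eB (1 / 2)) ((h' * b) ξ), (h' * b) ξ⟫_ℂ := by
    rw [pE_inner_star_left, D.inner_J_left, D.J_star_xi (mul_mem hh'.1 hb) hδ hw']
  rw [h3] at h2
  linarith only [h2]

/-! ### the cone and the separation argument -/

/-- sums of the pairs `(b* b ξ, b J b ξ)` for `b ∈ M` with window `[-δ, δ]` -/
def coneS (δ : ℝ) : Set (WithLp 2 (H × H)) :=
  {w | ∃ (ι : Type) (_ : Fintype ι) (b : ι → H →L[ℂ] H), (∀ i, b i ∈ M) ∧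
    (∀ i, D.CW (-δ) δ (b i ξ)) ∧ w.fst = ∑ i, (star (b i) * b i) ξ ∧
    w.snd = ∑ i, b i (D.J (b i ξ))}

theorem coneS_zero (δ : ℝ) : (0 : WithLp 2 (H × H)) ∈ D.coneS δ :=
  ⟨Empty, inferInstance, fun i => i.elim, fun i => i.elim, fun i => i.elim, by simp, by simp⟩

theorem coneS_add {δ : ℝ} {v w : WithLp 2 (H × H)} (hv : v ∈ D.coneS δ) (hw : w ∈ D.coneS δ) :
    v + w ∈ D.coneS δ := by
  obtain ⟨ι, hι, b, hb1, hb2, hb3, hb4⟩ := hv
  obtain ⟨ι', hι', b', hb1', hb2', hb3', hb4'⟩ := hw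
  refine ⟨ι ⊕ ι', inferInstance, Sum.elim b b', ?_, ?_, ?_, ?_⟩
  · rintro (i | i)
    · exact hb1 i
    · exact hb1' i
  · rintro (i | i)
    · exact hb2 i
    · exact hb2' i
  · rw [Fintype.sum_sum_type, WithLp.add_fst, hb3, hb3']
    rfl
  · rw [Fintype.sum_sum_type, WithLp.add_snd, hb4, hb4']
    rfl

theorem coneS_smul {δ : ℝ} {v : WithLp 2 (H × H)} (hv : v ∈ D.coneS δ) {s : ℝ} (hs : 0 ≤ s) :
    (s : ℂ) • v ∈ D.coneS δ := by
  obtain ⟨ι, hι, b, hb1, hb2, hb3, hb4⟩ := hv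
  have hss : ((Real.sqrt s : ℝ) : ℂ) * ((Real.sqrt s : ℝ) : ℂ) = (s : ℂ) := by
    rw [← Complex.ofReal_mul, Real.mul_self_sqrt hs]
  refine ⟨ι, hι, fun i => ((Real.sqrt s : ℝ) : ℂ) • b i, fun i => M.toStarSubalgebra.smul_mem (hb1 i) _,
    fun i => CW.smul_mem D (hb2 i) _, ?_, ?_⟩
  · rw [WithLp.smul_fst, hb3, Finset.smul_sum]
    refine Finset.sum_congr rfl fun i _ => ?_
    rw [star_smul, smul_mul_smul_comm, RCLike.star_def, Complex.conj_ofReal, hss]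
    rfl
  · rw [WithLp.smul_snd, hb4, Finset.smul_sum]
    refine Finset.sum_congr rfl fun i _ => ?_
    rw [_root_.smul_apply, _root_.smul_apply, map_smulₛₗ, map_smul, smul_smul, Complex.conj_ofReal, hss]

/-- the group acting on pairs -/
noncomputable def W2 (t : ℝ) (w : WithLp 2 (H × H)) : WithLp 2 (H × H) :=
  WithLp.toLp 2 (D.U t w.fst, D.U t w.snd)

theorem continuous_W2 (t : ℝ) : Continuous (D.W2 t) := by
  unfold W2
  refine (WithLp.prod_continuous_toLp 2 H H).comp ?_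
  exact ((D.U t).continuous.comp (WithLp.continuous_fst 2 H H)).prodMk
    ((D.U t).continuous.comp (WithLp.continuous_snd 2 H H))

theorem coneS_W2 {δ : ℝ} {v : WithLp 2 (H × H)} (hv : v ∈ D.coneS δ) (t : ℝ) :
    D.W2 t v ∈ D.coneS δ := by
  obtain ⟨ι, hι, b, hb1, hb2, hb3, hb4⟩ := hv
  refine ⟨ι, hι, fun i => D.sg t (b i), fun i => D.sg_mem (hb1 i) t, fun i => ?_, ?_, ?_⟩
  · rw [sg_xi]
    exact CW.apply_U D (hb2 i) t
  · change D.U t v.fst = _
    rw [hb3, map_sum]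
    refine Finset.sum_congr rfl fun i _ => ?_
    rw [star_sg, ← sg_mul, sg_xi]
  · change D.U t v.snd = _
    rw [hb4, map_sum]
    refine Finset.sum_congr rfl fun i _ => ?_
    rw [sg_xi, J_U, sg_U_apply]

theorem W2_sub (t : ℝ) (v w : WithLp 2 (H × H)) : D.W2 t (v - w) = D.W2 t v - D.W2 t w := by
  unfold W2
  rw [WithLp.sub_fst, WithLp.sub_snd, map_sub, map_sub]
  rfl

theorem W2_neg_W2 (t : ℝ) (v : WithLp 2 (H × H)) : D.W2 t (D.W2 (-t) v) = v := by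
  apply (WithLp.equiv 2 (H × H)).injective
  apply Prod.ext
  · exact D.U_apply_neg t v.fst
  · exact D.U_apply_neg t v.snd

theorem inner_W2 (t : ℝ) (v w : WithLp 2 (H × H)) : ⟪D.W2 t v, D.W2 t w⟫_ℂ = ⟪v, w⟫_ℂ := by
  rw [WithLp.prod_inner_apply, WithLp.prod_inner_apply]
  change ⟪D.U t v.fst, D.U t w.fst⟫_ℂ + ⟪D.U t v.snd, D.U t w.snd⟫_ℂ = _
  rw [inner_U_U, inner_U_U]
  rfl

theorem cone_approx
    (hXL : ∀ c c' : H →L[ℂ] H, D.InC c → star c = c → c ≠ 0 → D.InC c' → star c' = c' → c' ≠ 0 →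
      ∀ δ > 0, ∃ b ∈ M, D.CW (-δ) δ (b ξ) ∧ c' * b * c ≠ 0)
    {c : H →L[ℂ] H} (hc : D.InC c) (h0 : 0 ≤ c) (h1 : ⟪ξ, c ξ⟫_ℂ = 1)
    {δ : ℝ} (hδ : 0 < δ) {ε : ℝ} (hε : 0 < ε) :
    ∃ (ι : Type) (_ : Fintype ι) (b : ι → H →L[ℂ] H), (∀ i, b i ∈ M) ∧
      (∀ i, D.CW (-δ) δ (b i ξ)) ∧
      ‖∑ i, (star (b i) * b i) ξ - ξ‖ ≤ ε ∧ ‖∑ i, b i (D.J (b i ξ)) - c ξ‖ ≤ ε := by
  set y : WithLp 2 (H × H) := WithLp.toLp 2 (ξ, c ξ) with hy
  by_cases hyc : y ∈ closure (D.coneS δ)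
  · obtain ⟨w, ⟨ι, hι, b, hb1, hb2, hb3, hb4⟩, hw⟩ := Metric.mem_closure_iff.1 hyc ε hε
    rw [dist_eq_norm] at hw
    have hsq : ‖y - w‖ ^ 2 = ‖(y - w).fst‖ ^ 2 + ‖(y - w).snd‖ ^ 2 :=
      WithLp.prod_norm_sq_eq_of_L2 _
    have e1 : (y - w).fst = -(∑ i, (star (b i) * b i) ξ - ξ) := by
      rw [WithLp.sub_fst, hb3]
      change ξ - _ = _
      abel
    have e2 : (y - w).snd = -(∑ i, b i (D.J (b i ξ)) - c ξ) := by
      rw [WithLp.sub_snd, hb4]
      change c ξ - _ = _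
      abel
    rw [e1, e2, norm_neg, norm_neg] at hsq
    refine ⟨ι, hι, b, hb1, hb2, ?_, ?_⟩
    · refine le_trans ?_ hw.le
      apply le_of_sq_le_sq _ (norm_nonneg _)
      rw [hsq]; linarith only [sq_nonneg ‖∑ i, b i (D.J (b i ξ)) - c ξ‖]
    · refine le_trans ?_ hw.le
      apply le_of_sq_le_sq _ (norm_nonneg _)
      rw [hsq]; linarith only [sq_nonneg ‖∑ i, (star (b i) * b i) ξ - ξ‖]
  · exfalso
    set K : Set (WithLp 2 (H × H)) := closure (D.coneS δ) with hK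
    have hKadd : ∀ v ∈ K, ∀ w ∈ K, v + w ∈ K := fun v hv w hw =>
      map_mem_closure₂ continuous_add hv hw fun a ha b hb => D.coneS_add ha hb
    have hKsmul : ∀ v ∈ K, ∀ s : ℝ, 0 ≤ s → (s : ℂ) • v ∈ K := fun v hv s hs =>
      map_mem_closure (continuous_const_smul (s : ℂ)) hv fun a ha => D.coneS_smul ha hs
    have hKW : ∀ v ∈ K, ∀ t, D.W2 t v ∈ K := fun v hv t =>
      map_mem_closure (D.continuous_W2 t) hv fun a ha => D.coneS_W2 ha t
    have hK0 : (0 : WithLp 2 (H × H)) ∈ K := subset_closure (D.coneS_zero δ)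
    obtain ⟨p, hpK, hp⟩ := exists_nearest (K := K) ⟨0, hK0⟩ isClosed_closure
      (fun v hv w hw s t hs ht _ => hKadd _ (hKsmul v hv s hs) _ (hKsmul w hw t ht)) y
    set ζ : WithLp 2 (H × H) := y - p with hζ
    have hζ0 : ζ ≠ 0 := by
      intro h
      apply hyc
      have : y = p := sub_eq_zero.1 h
      rw [this]; exact hpK
    have hneg : ∀ w ∈ K, (⟪w, ζ⟫_ℂ).re ≤ 0 := by
      intro w hw
      have := hp (w + p) (hKadd w hw p hpK)
      rw [add_sub_cancel_right] at this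
      rw [← inner_conj_symm, Complex.conj_re]
      exact this
    have hp0 : 0 ≤ (⟪p, ζ⟫_ℂ).re := by
      have := hp 0 hK0
      rw [zero_sub, inner_neg_right, Complex.neg_re] at this
      rw [← inner_conj_symm, Complex.conj_re]
      linarith
    have hyW : ∀ t, D.W2 t y = y := by
      intro t
      unfold W2
      rw [hy]
      change WithLp.toLp 2 (D.U t ξ, D.U t (c ξ)) = _
      rw [D.U_xi, hc.2 t]
    have hpW : ∀ t, D.W2 t p = p := by
      intro t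
      refine nearest_unique hpK (hKW p hpK t) hp fun w hw => ?_
      have := hp (D.W2 (-t) w) (hKW w hw (-t))
      rw [← D.inner_W2 t, W2_sub, W2_sub, hyW, D.W2_neg_W2] at this
      exact this
    have hζW : ∀ t, D.W2 t ζ = ζ := by
      intro t
      rw [hζ, W2_sub, hyW, hpW]
    have hf1 : ζ.fst ∈ D.fixS := fun t => by
      have := congrArg WithLp.fst (hζW t)
      exact this
    have hf2 : ζ.snd ∈ D.fixS := fun t => by
      have := congrArg WithLp.snd (hζW t)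
      exact this
    set q : ℝ := ‖ζ‖ ^ 2 with hq
    have hq0 : 0 < q := by
      have := norm_pos_iff.2 hζ0
      positivity
    have hs : q ≤ (⟪ξ, ζ.fst⟫_ℂ).re + (⟪c ξ, ζ.snd⟫_ℂ).re := by
      have e : ⟪y, ζ⟫_ℂ = ⟪ξ, ζ.fst⟫_ℂ + ⟪c ξ, ζ.snd⟫_ℂ := by
        rw [WithLp.prod_inner_apply]
        rfl
      have e2 : (⟪y, ζ⟫_ℂ).re = (⟪p, ζ⟫_ℂ).re + q := by
        have h3 : ⟪y, ζ⟫_ℂ = ⟪p, ζ⟫_ℂ + ⟪ζ, ζ⟫_ℂ := by
          rw [← inner_add_left, hζ]; congr 1; abel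
        have h4 := @inner_self_eq_norm_sq ℂ (WithLp 2 (H × H)) _ _ _ ζ
        rw [h3, Complex.add_re, hq]
        congr 1
      rw [e, Complex.add_re] at e2
      linarith
    set α₁ : ℝ := (⟪ξ, ζ.fst⟫_ℂ).re - q / 4 with hα₁
    set α₂ : ℝ := (⟪c ξ, ζ.snd⟫_ℂ).re - q / 4 with hα₂
    have hα : q / 2 ≤ α₁ + α₂ := by rw [hα₁, hα₂]; linarith only [hs]
    have hξξ : ⟪ξ, ξ⟫_ℂ = 1 := by
      rw [inner_self_eq_norm_sq_to_K, D.norm_xi]; simp
    have hcs : star c = c := pE_star_of_nonneg h0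
    have hcξ : ⟪c ξ, ξ⟫_ℂ = 1 := by rw [pE_inner_star_left, hcs, h1]
    obtain ⟨h, hh1, hh2, hh3, hh4⟩ := D.exists_cut (InC.one D) zero_le_one
      (ζ := ζ.fst - (α₁ : ℂ) • ξ) (by
        rw [inner_sub_right, inner_smul_right]
        change 0 < (⟪ξ, ζ.fst⟫_ℂ - (α₁ : ℂ) * ⟪ξ, ξ⟫_ℂ).re
        rw [hξξ, mul_one, Complex.sub_re, Complex.ofReal_re, hα₁]
        linarith only [hq0])
    obtain ⟨h', hh1', hh2', hh3', hh4'⟩ := D.exists_cut hc h0
      (ζ := ζ.snd - (α₂ : ℂ) • ξ) (by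
        rw [inner_sub_right, inner_smul_right, hcξ, mul_one, Complex.sub_re, Complex.ofReal_re, hα₂]
        linarith)
    -- choose a small window
    obtain ⟨δ', hδ'0, hδ'1, hδ'2, hδ'3⟩ : ∃ δ' : ℝ, 0 < δ' ∧ δ' ≤ 1 ∧ δ' ≤ δ ∧
        |α₂| * (Real.exp (δ' / 2) - 1) < q / 2 := by
      have hcont : Tendsto (fun d : ℝ => |α₂| * (Real.exp (d / 2) - 1)) (𝓝 0) (𝓝 0) := by
        have : Continuous fun d : ℝ => |α₂| * (Real.exp (d / 2) - 1) := by fun_prop
        have h2 := this.tendsto 0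
        simpa using h2
      have hev := hcont.eventually (gt_mem_nhds (half_pos hq0))
      obtain ⟨r, hr0, hr⟩ := Metric.eventually_nhds_iff.1 hev
      refine ⟨min (r / 2) (min 1 δ), by positivity, (min_le_right _ _).trans (min_le_left _ _),
        (min_le_right _ _).trans (min_le_right _ _), hr ?_⟩
      rw [Real.dist_eq, sub_zero, abs_of_pos (by positivity)]
      exact (min_le_left _ _).trans_lt (by linarith only [hr0])
    obtain ⟨b, hbM, hbw, hb0⟩ := hXL h h' hh1 hh2 hh3 hh1' hh2' hh3' δ' hδ'0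
    set b' : H →L[ℂ] H := h' * b * h with hb'
    have hb'M : b' ∈ M := mul_mem (mul_mem hh1'.1 hbM) hh1.1
    have hbhw : D.CW (-δ') δ' ((b * h) ξ) := D.cone_CW_right hbM hbw hh1
    have hb'w : D.CW (-δ') δ' (b' ξ) := by
      rw [hb', mul_assoc]
      exact D.cone_CW_left hbhw hh1'
    have hnb : 0 < ‖b' ξ‖ := by
      rw [norm_pos_iff]
      intro h
      exact hb0 (D.ext_xi hb'M (zero_mem M) (by simpa using h))
    have k1 := D.key1 hh1 hh2 hh1' hh2' hbM hf1 hh4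
    have k2 := D.key2 hh1' hh2' (mul_mem hbM hh1.1) hδ'1 hbhw hf2 hh4'
    have e3 : h' * (b * h) = b' := by rw [hb', mul_assoc]
    rw [e3] at k2
    rw [← hb'] at k1
    -- the pair belongs to the cone
    have hmem : WithLp.toLp 2 ((star b' * b') ξ, b' (D.J (b' ξ))) ∈ K := by
      apply subset_closure
      refine ⟨Unit, inferInstance, fun _ => b', fun _ => hb'M, fun _ => ?_, ?_, ?_⟩
      · exact CW.mono D hb'w (by linarith only [hδ'2]) hδ'2
      · simp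
      · simp
    have k3 := hneg _ hmem
    have e4 : ⟪(WithLp.toLp 2 ((star b' * b') ξ, b' (D.J (b' ξ))) : WithLp 2 (H × H)), ζ⟫_ℂ =
        ⟪(star b' * b') ξ, ζ.fst⟫_ℂ + ⟪b' (D.J (b' ξ)), ζ.snd⟫_ℂ := by
      rw [WithLp.prod_inner_apply]
      rfl
    rw [e4, Complex.add_re] at k3
    have k4 : |(⟪D.Th (eB (1 / 2)) (b' ξ), b' ξ⟫_ℂ).re - ‖b' ξ‖ ^ 2| ≤
        (Real.exp (δ' / 2) - 1) * ‖b' ξ‖ ^ 2 := by
      have h5 := CW.norm_sub_le D hδ'0.le hδ'1 hb'w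
      have e5 : (⟪D.Th (eB (1 / 2)) (b' ξ), b' ξ⟫_ℂ).re - ‖b' ξ‖ ^ 2 =
          (⟪D.Th (eB (1 / 2)) (b' ξ) - b' ξ, b' ξ⟫_ℂ).re := by
        rw [inner_sub_left, Complex.sub_re, pE_inner_self]
      rw [e5]
      calc |(⟪D.Th (eB (1 / 2)) (b' ξ) - b' ξ, b' ξ⟫_ℂ).re|
          ≤ ‖⟪D.Th (eB (1 / 2)) (b' ξ) - b' ξ, b' ξ⟫_ℂ‖ := Complex.abs_re_le_norm _
        _ ≤ ‖D.Th (eB (1 / 2)) (b' ξ) - b' ξ‖ * ‖b' ξ‖ := norm_inner_le_norm _ _
        _ ≤ ((Real.exp (δ' / 2) - 1) * ‖b' ξ‖) * ‖b' ξ‖ := by gcongr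
        _ = _ := by ring
    set X : ℝ := (⟪D.Th (eB (1 / 2)) (b' ξ), b' ξ⟫_ℂ).re with hX
    set n2 : ℝ := ‖b' ξ‖ ^ 2 with hn2
    have hn2pos : 0 < n2 := by (clear * - hnb; positivity)
    have k5 : α₂ * X ≥ α₂ * n2 - |α₂| * ((Real.exp (δ' / 2) - 1) * n2) := by
      have h6 : |α₂ * (X - n2)| ≤ |α₂| * ((Real.exp (δ' / 2) - 1) * n2) := by
        rw [abs_mul]
        exact mul_le_mul_of_nonneg_left k4 (abs_nonneg _)
      have h7 := neg_le_of_abs_le h6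
      linarith only [h7]
    have k6 : |α₂| * (Real.exp (δ' / 2) - 1) * n2 < q / 2 * n2 :=
      mul_lt_mul_of_pos_right hδ'3 hn2pos
    have k7 : q / 2 * n2 ≤ (α₁ + α₂) * n2 := mul_le_mul_of_nonneg_right hα hn2pos.le
    linarith only [k7, k6, k5, k1, k2, k3]

end ModData

end Vale.Agent.P132
end

section

/-! P132: the abstract Hilbert space part of Lemma B.

`G` is a submonoid of contractions (in the application the operators `ζ ↦ W ζ W*`), `ξ` a vector,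
`η` a vector such that `g η` is close to `η` whenever `g ∈ G` almost fixes `ξ`. -/

namespace Vale.Agent.P132

open Finset

section Convex

variable {A : Type*} [Ring A] [Algebra ℝ A]

theorem mul_mem_convexHull_left (G : Submonoid A) {a b : A} (ha : a ∈ G)
    (hb : b ∈ convexHull ℝ (G : Set A)) : a * b ∈ convexHull ℝ (G : Set A) := by
  have h : convexHull ℝ (G : Set A) ⊆ {x | a * x ∈ convexHull ℝ (G : Set A)} := by
    refine convexHull_min (fun x hx => subset_convexHull ℝ _ (G.mul_mem ha hx)) ?_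
    intro x hx y hy s t hs ht hst
    have := (convex_convexHull ℝ (G : Set A)) hx hy hs ht hst
    simpa [mul_add, mul_smul_comm] using this
  exact h hb

/-- The convex hull of a monoid is closed under multiplication. -/
theorem mul_mem_convexHull (G : Submonoid A) {a b : A} (ha : a ∈ convexHull ℝ (G : Set A))
    (hb : b ∈ convexHull ℝ (G : Set A)) : a * b ∈ convexHull ℝ (G : Set A) := by
  have h : convexHull ℝ (G : Set A) ⊆ {x | x * b ∈ convexHull ℝ (G : Set A)} := by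
    refine convexHull_min (fun x hx => mul_mem_convexHull_left G hx hb) ?_
    intro x hx y hy s t hs ht hst
    have := (convex_convexHull ℝ (G : Set A)) hx hy hs ht hst
    simpa [add_mul, smul_mul_assoc] using this
  exact h ha

theorem pow_mem_convexHull (G : Submonoid A) {a : A} (ha : a ∈ convexHull ℝ (G : Set A)) (n : ℕ) :
    a ^ n ∈ convexHull ℝ (G : Set A) := by
  induction n with
  | zero => rw [pow_zero]; exact subset_convexHull ℝ _ G.one_mem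
  | succ n ih => rw [pow_succ]; exact mul_mem_convexHull G ih ha

end Convex

variable {H : Type*} [NormedAddCommGroup H] [InnerProductSpace ℂ H]

theorem mulA (A B : H →L[ℂ] H) (x : H) : (A * B) x = A (B x) := rfl

theorem oneA (x : H) : (1 : H →L[ℂ] H) x = x := rfl

theorem inner_self_re (x : H) : (inner ℂ x x : ℂ).re = ‖x‖ ^ 2 := by
  rw [← inner_self_eq_norm_sq (𝕜 := ℂ)]; rfl

/-- The moments of a positive contraction. -/
noncomputable def mom (Φ : H →L[ℂ] H) (y : H) (k : ℕ) : ℝ := (inner ℂ ((Φ ^ k) y) y).re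

section Moments

variable {Φ : H →L[ℂ] H} (hsa : ∀ x y : H, inner ℂ (Φ x) y = inner ℂ x (Φ y))
  (h0 : ∀ x : H, 0 ≤ (inner ℂ (Φ x) x).re) (h1 : ∀ x : H, (inner ℂ (Φ x) x).re ≤ ‖x‖ ^ 2)

include hsa in
theorem pow_sa (k : ℕ) (x y : H) : inner ℂ ((Φ ^ k) x) y = inner ℂ x ((Φ ^ k) y) := by
  induction k generalizing x y with
  | zero => simp
  | succ k ih =>
    rw [pow_succ', mulA, hsa, ih, ← mulA, ← pow_succ, pow_succ', mulA]

include hsa in
theorem mom_even (y : H) (k : ℕ) : mom Φ y (2 * k) = ‖(Φ ^ k) y‖ ^ 2 := by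
  rw [mom, two_mul, pow_add, mulA, pow_sa hsa, inner_self_re]

include hsa in
theorem mom_odd (y : H) (k : ℕ) :
    mom Φ y (2 * k + 1) = (inner ℂ (Φ ((Φ ^ k) y)) ((Φ ^ k) y)).re := by
  rw [mom, show 2 * k + 1 = k + (1 + k) by ring, pow_add, mulA, pow_sa hsa, pow_add, pow_one,
    mulA]

include hsa h0 in
theorem mom_nonneg (y : H) (k : ℕ) : 0 ≤ mom Φ y k := by
  rcases Nat.even_or_odd' k with ⟨j, rfl | rfl⟩
  · rw [mom_even hsa]; positivity
  · rw [mom_odd hsa]; exact h0 _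

include hsa in
theorem mom_second (y : H) (k : ℕ) :
    mom Φ y k - 2 * mom Φ y (k + 1) + mom Φ y (k + 2) = mom Φ (y - Φ y) k := by
  have e1 : (Φ ^ (k + 1)) y = (Φ ^ k) (Φ y) := by rw [pow_succ, mulA]
  have e2 : (Φ ^ (k + 2)) y = (Φ ^ (k + 1)) (Φ y) := by rw [pow_succ, mulA]
  have e3 : (inner ℂ ((Φ ^ (k + 1)) (Φ y)) y : ℂ) = inner ℂ ((Φ ^ k) (Φ y)) (Φ y) := by
    rw [pow_succ', mulA, hsa]
  have e4 : (inner ℂ ((Φ ^ k) y) (Φ y) : ℂ) = inner ℂ ((Φ ^ (k + 1)) y) y := by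
    rw [pow_succ', mulA, hsa]
  unfold mom
  rw [map_sub, inner_sub_left, inner_sub_right, inner_sub_right, ← e3, e4, e2, ← e1]
  simp only [Complex.sub_re]
  ring

include hsa h0 h1 in
theorem mom_antitone (y : H) (k : ℕ) : mom Φ y (k + 1) ≤ mom Φ y k := by
  rcases Nat.even_or_odd' k with ⟨j, rfl | rfl⟩
  · rw [mom_even hsa, mom_odd hsa]; exact h1 _
  · rw [show 2 * j + 1 + 1 = 2 * (j + 1) by ring, mom_even hsa, mom_odd hsa]
    set z := (Φ ^ j) y with hz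
    have e : (Φ ^ (j + 1)) y = Φ z := by rw [pow_succ', mulA]
    rw [e]
    have a1 := h1 (Φ z)
    have a2 := h0 (z - Φ z)
    rw [map_sub, inner_sub_left, inner_sub_right, inner_sub_right] at a2
    have a3 : (inner ℂ (Φ (Φ z)) z : ℂ) = inner ℂ (Φ z) (Φ z) := hsa _ _
    have a4 : (inner ℂ (Φ z) (Φ z) : ℂ).re = ‖Φ z‖ ^ 2 := inner_self_re _
    rw [a3] at a2
    simp only [Complex.sub_re] at a2
    rw [a4] at a2
    linarith

include hsa h0 in
theorem mom_diff_antitone (y : H) (k : ℕ) :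
    mom Φ y (k + 1) - mom Φ y (k + 2) ≤ mom Φ y k - mom Φ y (k + 1) := by
  have h2 := mom_second hsa y k
  have h3 := mom_nonneg hsa h0 (y - Φ y) k
  linarith

include hsa h0 in
theorem mom_diff_le (y : H) {j k : ℕ} (h : j ≤ k) :
    mom Φ y k - mom Φ y (k + 1) ≤ mom Φ y j - mom Φ y (j + 1) := by
  induction k, h using Nat.le_induction with
  | base => exact le_rfl
  | succ k _ ih => exact (mom_diff_antitone hsa h0 y k).trans ih

theorem sum_mom (y : H) (n : ℕ) :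
    ∑ k ∈ range n, (mom Φ y k - mom Φ y (k + 1)) = mom Φ y 0 - mom Φ y n :=
  Finset.sum_range_sub' _ _

theorem mom_zero (y : H) : mom Φ y 0 = ‖y‖ ^ 2 := by
  rw [mom, pow_zero, oneA, inner_self_re]

include hsa h0 in
/-- `⟨y,y⟩ - ⟨Φⁿ y,y⟩ ≤ n (⟨y,y⟩ - ⟨Φ y,y⟩)`. -/
theorem mom_pow_le (y : H) (n : ℕ) :
    mom Φ y 0 - mom Φ y n ≤ n * (mom Φ y 0 - mom Φ y 1) := by
  rw [← sum_mom]
  calc ∑ k ∈ range n, (mom Φ y k - mom Φ y (k + 1))
      ≤ ∑ _k ∈ range n, (mom Φ y 0 - mom Φ y 1) :=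
        Finset.sum_le_sum fun k _ => mom_diff_le hsa h0 y (Nat.zero_le k)
    _ = n * (mom Φ y 0 - mom Φ y 1) := by
        rw [Finset.sum_const, card_range, nsmul_eq_mul]

include hsa h0 in
/-- `⟨(1-Φ) Φⁿ y, Φⁿ y⟩ ≤ ‖y‖² / (2n+1)`. -/
theorem mom_last_le (y : H) (n : ℕ) :
    (2 * n + 1) * (‖(Φ ^ n) y‖ ^ 2 - (inner ℂ (Φ ((Φ ^ n) y)) ((Φ ^ n) y)).re) ≤ ‖y‖ ^ 2 := by
  rw [← mom_even hsa, ← mom_odd hsa]
  calc (2 * (n : ℝ) + 1) * (mom Φ y (2 * n) - mom Φ y (2 * n + 1))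
      = ∑ _k ∈ range (2 * n + 1), (mom Φ y (2 * n) - mom Φ y (2 * n + 1)) := by
        rw [Finset.sum_const, card_range, nsmul_eq_mul]
        push_cast
        ring
    _ ≤ ∑ k ∈ range (2 * n + 1), (mom Φ y k - mom Φ y (k + 1)) :=
        Finset.sum_le_sum fun k hk => mom_diff_le hsa h0 y (by simp at hk; omega)
    _ = mom Φ y 0 - mom Φ y (2 * n + 1) := sum_mom y _
    _ ≤ mom Φ y 0 := by linarith [mom_nonneg hsa h0 y (2 * n + 1)]
    _ = ‖y‖ ^ 2 := mom_zero y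

end Moments

section Average

variable {ι : Type} [Fintype ι] (U V : ι → (H →L[ℂ] H))

/-- `Φ = 1/2 + (1/4m) ∑ (U_j + U_j*)`. -/
noncomputable def lbAvg : H →L[ℂ] H :=
  (1 / 2 : ℝ) • (1 : H →L[ℂ] H) + (1 / (4 * (Fintype.card ι : ℝ))) • ∑ j, (U j + V j)

variable {U V} (hUV : ∀ j x y, inner ℂ (U j x) y = inner ℂ x (V j y))
  (hU : ∀ j x, ‖U j x‖ = ‖x‖)

theorem lbAvg_apply (x : H) : lbAvg U V x =
    (1 / 2 : ℝ) • x + (1 / (4 * (Fintype.card ι : ℝ))) • ∑ j, (U j x + V j x) := by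
  simp [lbAvg]

theorem inner_rsmul_left (r : ℝ) (x y : H) : inner ℂ (r • x) y = (r : ℂ) * inner ℂ x y := by
  rw [show r • x = (r : ℂ) • x from (Complex.coe_smul r x).symm ▸ rfl, inner_smul_left]
  simp

theorem inner_rsmul_right (r : ℝ) (x y : H) : inner ℂ x (r • y) = (r : ℂ) * inner ℂ x y := by
  rw [show r • y = (r : ℂ) • y from (Complex.coe_smul r y).symm ▸ rfl, inner_smul_right]

include hUV in
theorem lbAvg_sa (x y : H) : inner ℂ (lbAvg U V x) y = inner ℂ x (lbAvg U V y) := by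
  have hVU : ∀ j x y, inner ℂ (V j x) y = inner ℂ x (U j y) := fun j x y => by
    rw [← inner_conj_symm, ← hUV, inner_conj_symm]
  rw [lbAvg_apply, lbAvg_apply, inner_add_left, inner_add_right, inner_rsmul_left, inner_rsmul_right,
    inner_rsmul_left, inner_rsmul_right, sum_inner, inner_sum]
  congr 2
  refine Finset.sum_congr rfl fun j _ => ?_
  rw [inner_add_left, inner_add_right, hUV, hVU, add_comm]

omit [Fintype ι] in
include hU in
theorem normsq_sub (j : ι) (x : H) :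
    (inner ℂ (U j x) x).re = ‖x‖ ^ 2 - ‖U j x - x‖ ^ 2 / 2 := by
  have h := @norm_sub_sq ℂ H _ _ _ (U j x) x
  rw [hU] at h
  have h2 : RCLike.re (inner ℂ (U j x) x) = (inner ℂ (U j x) x).re := rfl
  rw [h2] at h
  linarith

include hUV hU in
theorem lbAvg_form [Nonempty ι] (x : H) : (inner ℂ (lbAvg U V x) x).re =
    ‖x‖ ^ 2 - (1 / (4 * (Fintype.card ι : ℝ))) * ∑ j, ‖U j x - x‖ ^ 2 := by
  have hm : (Fintype.card ι : ℝ) ≠ 0 := by
    have := Fintype.card_pos (α := ι)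
    positivity
  have h1 : ∀ j, (inner ℂ (U j x + V j x) x).re = 2 * ‖x‖ ^ 2 - ‖U j x - x‖ ^ 2 := fun j => by
    rw [inner_add_left, Complex.add_re, normsq_sub hU]
    have : (inner ℂ (V j x) x : ℂ) = (starRingEnd ℂ) (inner ℂ (U j x) x) := by
      rw [hUV, inner_conj_symm]
    rw [this, Complex.conj_re, normsq_sub hU]
    ring
  rw [lbAvg_apply, inner_add_left, inner_rsmul_left, inner_rsmul_left, Complex.add_re,
    Complex.re_ofReal_mul, Complex.re_ofReal_mul, inner_self_re, sum_inner, Complex.re_sum,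
    Finset.sum_congr rfl fun j _ => h1 j, Finset.sum_sub_distrib, Finset.sum_const, card_univ,
    nsmul_eq_mul]
  field_simp
  ring

include hUV hU in
theorem lbAvg_nonneg [Nonempty ι] (x : H) : 0 ≤ (inner ℂ (lbAvg U V x) x).re := by
  rw [lbAvg_form hUV hU]
  have hm : (0 : ℝ) < (Fintype.card ι : ℝ) := by
    have := Fintype.card_pos (α := ι)
    positivity
  have h1 : ∑ j, ‖U j x - x‖ ^ 2 ≤ ∑ _j : ι, 4 * ‖x‖ ^ 2 := by
    refine Finset.sum_le_sum fun j _ => ?_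
    have : ‖U j x - x‖ ≤ 2 * ‖x‖ := by
      calc ‖U j x - x‖ ≤ ‖U j x‖ + ‖x‖ := norm_sub_le _ _
        _ = 2 * ‖x‖ := by rw [hU]; ring
    calc ‖U j x - x‖ ^ 2 ≤ (2 * ‖x‖) ^ 2 := by gcongr
      _ = 4 * ‖x‖ ^ 2 := by ring
  rw [Finset.sum_const, card_univ, nsmul_eq_mul] at h1
  have h2 : (1 / (4 * (Fintype.card ι : ℝ))) * ∑ j, ‖U j x - x‖ ^ 2 ≤
      (1 / (4 * (Fintype.card ι : ℝ))) * ((Fintype.card ι : ℝ) * (4 * ‖x‖ ^ 2)) :=
    mul_le_mul_of_nonneg_left h1 (by positivity)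
  have h3 : (1 / (4 * (Fintype.card ι : ℝ))) * ((Fintype.card ι : ℝ) * (4 * ‖x‖ ^ 2)) =
      ‖x‖ ^ 2 := by field_simp
  linarith

include hUV hU in
theorem lbAvg_le [Nonempty ι] (x : H) : (inner ℂ (lbAvg U V x) x).re ≤ ‖x‖ ^ 2 := by
  rw [lbAvg_form hUV hU]
  have : 0 ≤ (1 / (4 * (Fintype.card ι : ℝ))) * ∑ j, ‖U j x - x‖ ^ 2 := by positivity
  linarith only [this]

theorem lbAvg_mem [Nonempty ι] (G : Submonoid (H →L[ℂ] H)) (hUG : ∀ j, U j ∈ G)
    (hVG : ∀ j, V j ∈ G) : lbAvg U V ∈ convexHull ℝ (G : Set (H →L[ℂ] H)) := by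
  have hm : (Fintype.card ι : ℝ) ≠ 0 := by
    have := Fintype.card_pos (α := ι)
    positivity
  have hc := convex_convexHull ℝ (G : Set (H →L[ℂ] H))
  have h1 : (1 : H →L[ℂ] H) ∈ convexHull ℝ (G : Set (H →L[ℂ] H)) :=
    subset_convexHull ℝ _ G.one_mem
  have h2 : (1 / (Fintype.card ι : ℝ)) • ∑ j, ((1 / 2 : ℝ) • U j + (1 / 2 : ℝ) • V j) ∈
      convexHull ℝ (G : Set (H →L[ℂ] H)) := by
    rw [Finset.smul_sum]
    refine hc.sum_mem (fun _ _ => by positivity) (by simp [hm]) fun j _ => ?_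
    exact hc (subset_convexHull ℝ _ (hUG j)) (subset_convexHull ℝ _ (hVG j)) (by norm_num)
      (by norm_num) (by norm_num)
  have h3 := hc h1 h2 (a := 1 / 2) (b := 1 / 2) (by norm_num) (by norm_num) (by norm_num)
  convert h3 using 1
  rw [lbAvg]
  congr 1
  rw [← Finset.sum_congr rfl fun j _ => smul_add (1 / 2 : ℝ) (U j) (V j), ← Finset.smul_sum,
    smul_smul, smul_smul]
  congr 1
  field_simp
  norm_num

end Average

/-- The estimate `‖Ψ η - η‖ ≤ ε + K (1 - re ⟨Ψ ξ, ξ⟩)` passes to the convex hull. -/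
theorem hull_bound (G : Set (H →L[ℂ] H)) (ξ η : H) (ε K : ℝ)
    (h : ∀ g ∈ G, ‖g η - η‖ ≤ ε + K * (1 - (inner ℂ (g ξ) ξ).re)) {Ψ : H →L[ℂ] H}
    (hΨ : Ψ ∈ convexHull ℝ G) : ‖Ψ η - η‖ ≤ ε + K * (1 - (inner ℂ (Ψ ξ) ξ).re) := by
  have key : convexHull ℝ G ⊆ {Ψ | ‖Ψ η - η‖ ≤ ε + K * (1 - (inner ℂ (Ψ ξ) ξ).re)} := by
    refine convexHull_min (fun g hg => h g hg) ?_
    intro A hA B hB a b ha hb hab
    simp only [Set.mem_ofPred_eq] at hA hB ⊢
    have e0 : ∀ x : H, (a • A + b • B) x = a • A x + b • B x := fun x => rfl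
    have e1 : (a • A + b • B) η - η = a • (A η - η) + b • (B η - η) := by
      have h3 : a • η + b • η = η := by rw [← add_smul, hab, one_smul]
      rw [e0, smul_sub, smul_sub, sub_add_sub_comm, h3]
    have e2 : (inner ℂ ((a • A + b • B) ξ) ξ).re =
        a * (inner ℂ (A ξ) ξ).re + b * (inner ℂ (B ξ) ξ).re := by
      rw [e0, inner_add_left, inner_rsmul_left, inner_rsmul_left, Complex.add_re,
        Complex.re_ofReal_mul, Complex.re_ofReal_mul]
    rw [e1, e2]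
    calc ‖a • (A η - η) + b • (B η - η)‖ ≤ ‖a • (A η - η)‖ + ‖b • (B η - η)‖ := norm_add_le _ _
      _ = a * ‖A η - η‖ + b * ‖B η - η‖ := by
          rw [norm_smul, norm_smul, Real.norm_of_nonneg ha, Real.norm_of_nonneg hb]
      _ ≤ a * (ε + K * (1 - (inner ℂ (A ξ) ξ).re)) + b * (ε + K * (1 - (inner ℂ (B ξ) ξ).re)) := by
          gcongr
      _ = (a + b) * (ε + K) - K * (a * (inner ℂ (A ξ) ξ).re + b * (inner ℂ (B ξ) ξ).re) := by
          ring
      _ = ε + K * (1 - (a * (inner ℂ (A ξ) ξ).re + b * (inner ℂ (B ξ) ξ).re)) := by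
          rw [hab]; ring
  exact key hΨ

/-- **Lemma B, abstract form.** If `g η` is close to `η` whenever `g ∈ G` almost fixes `ξ`, then
for every `ε` there is `c > 0` such that for every finite family of unitaries `U_j ∈ G` with
`∑ ‖U_j ξ - ξ‖² ≤ δ` there is `ζ` with `‖ζ - η‖ ≤ ε` and `∑ ‖U_j ζ - ζ‖² ≤ (‖η‖² / c) δ`. -/
theorem lemmaB_abstract (G : Submonoid (H →L[ℂ] H)) (ξ η : H) (hξ : ‖ξ‖ = 1)
    (hK : ∀ ε > 0, ∃ K : ℝ, ∀ g ∈ G, ‖g η - η‖ ≤ ε + K * (1 - (inner ℂ (g ξ) ξ).re))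
    (ε : ℝ) (hε : 0 < ε) :
    ∃ c : ℝ, 0 < c ∧ ∀ (ι : Type) [Fintype ι] (U V : ι → (H →L[ℂ] H)),
      (∀ j x y, inner ℂ (U j x) y = inner ℂ x (V j y)) → (∀ j x, ‖U j x‖ = ‖x‖) →
      (∀ j, U j ∈ G) → (∀ j, V j ∈ G) →
      ∀ δ > 0, ∑ j, ‖U j ξ - ξ‖ ^ 2 ≤ δ →
        ∃ ζ : H, ‖ζ - η‖ ≤ ε ∧ ‖ζ‖ ≤ ‖η‖ ∧ ∑ j, ‖U j ζ - ζ‖ ^ 2 ≤ ‖η‖ ^ 2 / c * δ := by
  obtain ⟨K, hK⟩ := hK (ε / 2) (by positivity)
  refine ⟨ε / (2 * (|K| + 1)), by positivity, ?_⟩
  set c : ℝ := ε / (2 * (|K| + 1)) with hc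
  have hc0 : 0 < c := by positivity
  intro ι _ U V hUV hU hUG hVG δ hδ hsum
  rcases isEmpty_or_nonempty ι with hι | hι
  · refine ⟨η, by simp [hε.le], le_rfl, ?_⟩
    rw [Finset.univ_eq_empty, Finset.sum_empty]
    (clear * - hε hδ; positivity)
  have hm : (0 : ℝ) < (Fintype.card ι : ℝ) := by
    have := Fintype.card_pos (α := ι)
    positivity
  set m : ℝ := (Fintype.card ι : ℝ) with hmdef
  have hsa := lbAvg_sa hUV
  have h0 := lbAvg_nonneg hUV hU
  have h1 := lbAvg_le hUV hU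
  set Φ := lbAvg U V with hΦ
  set n : ℕ := ⌊4 * m * c / δ⌋₊ with hn
  have hn1 : (n : ℝ) ≤ 4 * m * c / δ := Nat.floor_le (by (clear * - hε hδ; positivity))
  have hn2 : 4 * m * c / δ < n + 1 := Nat.lt_floor_add_one _
  refine ⟨(Φ ^ n) η, ?_, ?_, ?_⟩
  · have hmem : Φ ^ n ∈ convexHull ℝ (G : Set (H →L[ℂ] H)) :=
      pow_mem_convexHull G (lbAvg_mem G hUG hVG) n
    have h2 := hull_bound (G : Set (H →L[ℂ] H)) ξ η (ε / 2) K hK hmem
    have h3 : 1 - (inner ℂ ((Φ ^ n) ξ) ξ).re ≤ c := by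
      have h4 := mom_pow_le hsa h0 ξ n
      rw [mom_zero, hξ] at h4
      have h5 : mom Φ ξ 1 = 1 - (1 / (4 * m)) * ∑ j, ‖U j ξ - ξ‖ ^ 2 := by
        rw [mom, pow_one, hΦ, lbAvg_form hUV hU, hξ, one_pow, hmdef]
      rw [h5] at h4
      calc 1 - (inner ℂ ((Φ ^ n) ξ) ξ).re = 1 ^ 2 - mom Φ ξ n := by rw [mom]; norm_num
        _ ≤ n * (1 ^ 2 - (1 - (1 / (4 * m)) * ∑ j, ‖U j ξ - ξ‖ ^ 2)) := h4
        _ = n * ((1 / (4 * m)) * ∑ j, ‖U j ξ - ξ‖ ^ 2) := by ring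
        _ ≤ (4 * m * c / δ) * ((1 / (4 * m)) * δ) := by gcongr
        _ = c := by field_simp
    have h3' : 0 ≤ 1 - (inner ℂ ((Φ ^ n) ξ) ξ).re := by
      have h6 : ∀ k, mom Φ ξ k ≤ mom Φ ξ 0 := fun k => by
        induction k with
        | zero => exact le_rfl
        | succ k ih => exact (mom_antitone hsa h0 h1 ξ k).trans ih
      have h7 := h6 n
      rw [mom_zero, hξ, mom] at h7
      linarith only [h7]
    calc ‖(Φ ^ n) η - η‖ ≤ ε / 2 + K * (1 - (inner ℂ ((Φ ^ n) ξ) ξ).re) := h2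
      _ ≤ ε / 2 + |K| * (1 - (inner ℂ ((Φ ^ n) ξ) ξ).re) := by
          gcongr; exact le_abs_self K
      _ ≤ ε / 2 + (|K| + 1) * c := by
          gcongr
          linarith only []
      _ = ε := by rw [hc]; field_simp; ring
  · have h6 : ∀ k, mom Φ η k ≤ mom Φ η 0 := fun k => by
      induction k with
      | zero => exact le_rfl
      | succ k ih => exact (mom_antitone hsa h0 h1 η k).trans ih
    have h7 := h6 (2 * n)
    rw [mom_zero, mom_even hsa] at h7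
    exact le_of_sq_le_sq h7 (norm_nonneg _)
  · have h2 := mom_last_le hsa h0 η n
    rw [hΦ, lbAvg_form hUV hU, ← hΦ] at h2
    set S := ∑ j, ‖U j ((Φ ^ n) η) - (Φ ^ n) η‖ ^ 2 with hS
    have hS0 : 0 ≤ S := by (clear * -; positivity)
    have h3 : (2 * n + 1) * ((1 / (4 * m)) * S) ≤ ‖η‖ ^ 2 := by
      calc (2 * (n : ℝ) + 1) * ((1 / (4 * m)) * S)
          = (2 * n + 1) * (‖(Φ ^ n) η‖ ^ 2 - (‖(Φ ^ n) η‖ ^ 2 - (1 / (4 * m)) * S)) := by ring
        _ ≤ ‖η‖ ^ 2 := h2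
    have h4 : 4 * m * c / δ ≤ 2 * n + 1 := by
      have : (0 : ℝ) ≤ n := Nat.cast_nonneg n
      linarith only [this, hn2]
    have h5 : (4 * m * c / δ) * ((1 / (4 * m)) * S) ≤ ‖η‖ ^ 2 :=
      (mul_le_mul_of_nonneg_right h4 (by (clear * -; positivity))).trans h3
    have h6 : (4 * m * c / δ) * ((1 / (4 * m)) * S) = c / δ * S := by field_simp
    rw [h6] at h5
    calc S = (δ / c) * (c / δ * S) := by field_simp
      _ ≤ (δ / c) * ‖η‖ ^ 2 := by gcongr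
      _ = ‖η‖ ^ 2 / c * δ := by ring

end Vale.Agent.P132
end

section

/-! P132, Part I: Proposition A and Lemma B over `ModData`. -/

open scoped ComplexConjugate InnerProductSpace

namespace Vale.Agent.P132

universe u

variable {H : Type u} [NormedAddCommGroup H] [InnerProductSpace ℂ H] [CompleteSpace H]

namespace ModData

variable {M : VonNeumannAlgebra H} {ξ : H} (D : ModData M ξ)

theorem cm_mul' {a b : H →L[ℂ] H} (ha : a ∈ M) (hb : b ∈ M) (ζ : H) :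
    D.cm (a * b) ζ = a (D.cm b ζ) + D.Rm b (D.cm a ζ) := by
  have h1 : (a * b) ζ = a (b ζ) := rfl
  have h2 : D.Rm (a * b) ζ = D.Rm b (D.Rm a ζ) := by rw [D.Rm_mul]; rfl
  rw [cm, cm, cm, h1, h2, map_sub, map_sub, D.comm_Rm ha hb]
  abel

theorem norm_Rm_unitary {W : H →L[ℂ] H} (hW : W * star W = 1) (ζ : H) : ‖D.Rm W ζ‖ = ‖ζ‖ := by
  rw [D.Rm_apply, D.norm_J]
  have h : ‖star W (D.J ζ)‖ ^ 2 = ‖D.J ζ‖ ^ 2 := by
    rw [← @inner_self_eq_norm_sq ℂ, ← @inner_self_eq_norm_sq ℂ, ContinuousLinearMap.star_eq_adjoint,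
      ContinuousLinearMap.adjoint_inner_left, ← ContinuousLinearMap.star_eq_adjoint]
    have : W (star W (D.J ζ)) = D.J ζ := by
      have := congrArg (fun T : H →L[ℂ] H => T (D.J ζ)) hW
      simpa using this
    rw [this]
  rw [D.norm_J] at h
  exact (sq_eq_sq₀ (norm_nonneg _) (norm_nonneg _)).1 h

theorem norm_unitary {W : H →L[ℂ] H} (hW : star W * W = 1) (ζ : H) : ‖W ζ‖ = ‖ζ‖ := by
  have h : ‖W ζ‖ ^ 2 = ‖ζ‖ ^ 2 := by
    rw [← @inner_self_eq_norm_sq ℂ, ← @inner_self_eq_norm_sq ℂ,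
      ← ContinuousLinearMap.adjoint_inner_left, ← ContinuousLinearMap.star_eq_adjoint]
    have : star W (W ζ) = ζ := by
      have := congrArg (fun T : H →L[ℂ] H => T ζ) hW
      simpa using this
    rw [this]
  exact (sq_eq_sq₀ (norm_nonneg _) (norm_nonneg _)).1 h

/-- `Ad W : ζ ↦ W ζ W*` -/
noncomputable def Ad (W : H →L[ℂ] H) : H →L[ℂ] H := W * D.Rm (star W)

theorem Ad_apply (W : H →L[ℂ] H) (ζ : H) : D.Ad W ζ = W (D.Rm (star W) ζ) := rfl

theorem norm_Ad {W : H →L[ℂ] H} (hW : star W * W = 1) (ζ : H) :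
    ‖D.Ad W ζ‖ = ‖ζ‖ := by
  rw [Ad_apply, norm_unitary hW, D.norm_Rm_unitary]
  rw [star_star, hW]

theorem inner_Ad {W : H →L[ℂ] H} (hWM : W ∈ M) (x y : H) :
    ⟪D.Ad W x, y⟫_ℂ = ⟪x, D.Ad (star W) y⟫_ℂ := by
  have h1 : star (D.Ad W) = D.Ad (star W) := by
    rw [Ad, Ad, star_mul, D.star_Rm]
    exact ((VonNeumannAlgebra.mem_commutant_iff.1 (D.Rm_mem (star_mem (star_mem hWM)))) _
      (star_mem hWM)).symm
  rw [← h1, ContinuousLinearMap.star_eq_adjoint, ContinuousLinearMap.adjoint_inner_right]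

theorem norm_Ad_sub {W : H →L[ℂ] H} (hWM : W ∈ M) (h1 : star W * W = 1) (h2 : W * star W = 1)
    (ζ : H) : ‖D.Ad W ζ - ζ‖ = ‖D.cm W ζ‖ := by
  rw [← D.norm_Rm_unitary h2 (D.Ad W ζ - ζ), map_sub, Ad_apply, ← D.comm_Rm hWM hWM]
  have h3 : D.Rm W (D.Rm (star W) ζ) = ζ := by
    have h4 : D.Rm W * D.Rm (star W) = 1 := by rw [← D.Rm_mul, h1, D.Rm_one]
    have := congrArg (fun T : H →L[ℂ] H => T ζ) h4
    simpa using this
  rw [h3, cm]

/-- The monoid of the operators `Ad W`, `W` a unitary of `M`. -/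
def AdG : Submonoid (H →L[ℂ] H) where
  carrier := {g | ∃ W ∈ M, star W * W = 1 ∧ W * star W = 1 ∧ g = D.Ad W}
  one_mem' := ⟨1, one_mem _, by simp, by simp, by simp [Ad]⟩
  mul_mem' := by
    rintro _ _ ⟨W, hW, h1, h2, rfl⟩ ⟨V, hV, h3, h4, rfl⟩
    refine ⟨W * V, mul_mem hW hV, ?_, ?_, ?_⟩
    · rw [star_mul, mul_assoc, ← mul_assoc (star W), h1, one_mul, h3]
    · rw [star_mul, mul_assoc, ← mul_assoc V, h4, one_mul, h2]
    · rw [Ad, Ad, Ad, star_mul, D.Rm_mul]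
      have := (VonNeumannAlgebra.mem_commutant_iff.1 (D.Rm_mem (star_mem hW))) V hV
      calc W * D.Rm (star W) * (V * D.Rm (star V))
          = W * (D.Rm (star W) * V) * D.Rm (star V) := by simp only [mul_assoc]
        _ = W * (V * D.Rm (star W)) * D.Rm (star V) := by rw [this]
        _ = W * V * (D.Rm (star W) * D.Rm (star V)) := by simp only [mul_assoc]

theorem Ad_mem {W : H →L[ℂ] H} (hWM : W ∈ M) (h1 : star W * W = 1) (h2 : W * star W = 1) :
    D.Ad W ∈ D.AdG := ⟨W, hWM, h1, h2, rfl⟩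

omit [CompleteSpace H] in
theorem one_sub_inner {g ζ : H} (h : ‖g‖ = ‖ζ‖) (hζ : ‖ζ‖ = 1) :
    ‖g - ζ‖ ^ 2 = 2 * (1 - (inner ℂ g ζ).re) := by
  have h1 := @norm_sub_sq ℂ H _ _ _ g ζ
  have h2 : RCLike.re (inner ℂ g ζ) = (inner ℂ g ζ).re := rfl
  rw [h2, h, hζ] at h1
  rw [h1]; ring

/-- **Proposition A** (linearized). -/
theorem propA {x : H →L[ℂ] H} (hx : D.InN x) {ε : ℝ} (hε : 0 < ε) :
    ∃ K : ℝ, ∀ g ∈ D.AdG, ‖g (x ξ) - x ξ‖ ≤ ε + K * (1 - (inner ℂ (g ξ) ξ).re) := by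
  obtain ⟨hxM, hx⟩ := hx
  obtain ⟨δ₀, hδ₀, hδ⟩ := hx (ε / 2) (by positivity)
  set δ : ℝ := min δ₀ (ε / (2 * (‖x‖ + 1))) with hδdef
  have hδpos : 0 < δ := lt_min hδ₀ (by positivity)
  refine ⟨4 * ‖x ξ‖ / δ ^ 2, ?_⟩
  rintro _ ⟨W, hWM, h1, h2, rfl⟩
  have hn : ‖D.Ad W ξ - ξ‖ ^ 2 = 2 * (1 - (inner ℂ (D.Ad W ξ) ξ).re) :=
    one_sub_inner (D.norm_Ad h1 ξ) D.norm_xi
  rw [D.norm_Ad_sub hWM h1 h2] at hn
  have hK0 : 0 ≤ 4 * ‖x ξ‖ / δ ^ 2 * (1 - (inner ℂ (D.Ad W ξ) ξ).re) := by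
    have : 0 ≤ 1 - (inner ℂ (D.Ad W ξ) ξ).re := by linarith only [sq_nonneg ‖D.cm W ξ‖, hn]
    (clear * - hδ₀ hε this; positivity)
  rcases le_total ‖D.cm W ξ‖ δ with hle | hle
  · have hstar : ‖D.cm (star W) ξ‖ ≤ δ := by rw [D.norm_cm_star_xi]; exact hle
    have hu : star W ∈ unitary (H →L[ℂ] H) := by
      rw [Unitary.mem_iff, star_star]; exact ⟨h2, h1⟩
    have h3 := hδ (star W) (star_mem hWM) hu (hstar.trans (min_le_left _ _))
    have e : D.Ad W (x ξ) - x ξ =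
        W (x (star W ξ) - star W (x ξ)) - W (x (D.cm (star W) ξ)) := by
      have e1 : D.Rm (star W) (x ξ) = x (D.Rm (star W) ξ) := (D.comm_Rm hxM (star_mem hWM) ξ).symm
      have e2 : D.Rm (star W) ξ = star W ξ - D.cm (star W) ξ := by rw [cm]; abel
      have e3 : W (star W (x ξ)) = x ξ := by
        have := congrArg (fun T : H →L[ℂ] H => T (x ξ)) h2
        simpa using this
      rw [Ad_apply, e1, e2, map_sub, map_sub, map_sub, e3]
      abel
    have h4 : ‖D.Ad W (x ξ) - x ξ‖ ≤ ε := by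
      rw [e]
      calc ‖W (x (star W ξ) - star W (x ξ)) - W (x (D.cm (star W) ξ))‖
          ≤ ‖W (x (star W ξ) - star W (x ξ))‖ + ‖W (x (D.cm (star W) ξ))‖ := norm_sub_le _ _
        _ = ‖x (star W ξ) - star W (x ξ)‖ + ‖x (D.cm (star W) ξ)‖ := by
            rw [norm_unitary h1, norm_unitary h1]
        _ ≤ ε / 2 + ‖x‖ * δ := by
            refine add_le_add h3 ((x.le_opNorm _).trans ?_)
            gcongr
        _ ≤ ε / 2 + (‖x‖ + 1) * (ε / (2 * (‖x‖ + 1))) := by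
            gcongr
            · linarith only []
            · exact min_le_right _ _
        _ = ε := by field_simp; ring
    linarith only [h4, hK0]
  · have h5 : ‖D.Ad W (x ξ) - x ξ‖ ≤ 2 * ‖x ξ‖ := by
      calc ‖D.Ad W (x ξ) - x ξ‖ ≤ ‖D.Ad W (x ξ)‖ + ‖x ξ‖ := norm_sub_le _ _
        _ = 2 * ‖x ξ‖ := by rw [D.norm_Ad h1]; ring
    have h6 : 1 ≤ ‖D.cm W ξ‖ ^ 2 / δ ^ 2 := by
      rw [le_div_iff₀ (by positivity), one_mul]
      gcongr
    calc ‖D.Ad W (x ξ) - x ξ‖ ≤ 2 * ‖x ξ‖ := h5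
      _ = 2 * ‖x ξ‖ * 1 := by ring
      _ ≤ 2 * ‖x ξ‖ * (‖D.cm W ξ‖ ^ 2 / δ ^ 2) := by gcongr
      _ = 4 * ‖x ξ‖ / δ ^ 2 * (1 - (inner ℂ (D.Ad W ξ) ξ).re) := by rw [hn]; ring
      _ ≤ ε + 4 * ‖x ξ‖ / δ ^ 2 * (1 - (inner ℂ (D.Ad W ξ) ξ).re) := by linarith only [hε]

/-- Commutators with a Cayley transform. -/
theorem cayley_cm {A : H →L[ℂ] H} (hA : A ∈ M) (hsa : IsSelfAdjoint A) {s : ℝ} (hs : 0 < s)
    (hs1 : s * ‖A‖ < 1) :
    ∃ u ∈ M, star u * u = 1 ∧ u * star u = 1 ∧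
      (∀ ζ, ‖D.cm u ζ‖ ≤ 2 * s * ‖D.cm A ζ‖) ∧
      (∀ ζ, 2 * s * ‖D.cm A ζ‖ ≤ (1 + s * ‖A‖) ^ 2 * ‖D.cm u ζ‖) := by
  obtain ⟨u, b, c, huM, hcM, h1, h2, hb, hcb, hbc, hu, hc1⟩ := cayley M hA hsa hs hs1
  refine ⟨u, huM, h1, h2, ?_⟩
  have hbM : b ∈ M := by
    refine mem_of_commute M fun g hg => ?_
    have h3 : g * A = A * g := mul_comm_of_mem_commutant hA hg
    rw [hb, mul_sub, sub_mul, mul_one, one_mul, mul_smul_comm, smul_mul_assoc, h3]
  have hcm1 : ∀ ζ, D.cm 1 ζ = 0 := fun ζ => by simp [cm]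
  have hcmb : ∀ ζ, D.cm b ζ = -((Complex.I * s) • D.cm A ζ) := fun ζ => by
    have : b = 1 + (-(Complex.I * s)) • A := by rw [hb, neg_smul, sub_eq_add_neg]
    rw [this, D.cm_add, D.cm_smul, hcm1, zero_add, neg_smul]
  have hcmc : ∀ ζ, D.cm c ζ = (Complex.I * s) • D.Rm c (c (D.cm A ζ)) := fun ζ => by
    have e1 : c (D.cm b ζ) + D.Rm b (D.cm c ζ) = 0 := by
      rw [← D.cm_mul' hcM hbM, hcb, hcm1]
    have e2 : D.Rm c (D.Rm b (D.cm c ζ)) = D.cm c ζ := by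
      have h4 : D.Rm c * D.Rm b = 1 := by rw [← D.Rm_mul, hbc, D.Rm_one]
      have := congrArg (fun T : H →L[ℂ] H => T (D.cm c ζ)) h4
      simpa using this
    have e3 : D.Rm b (D.cm c ζ) = -(c (D.cm b ζ)) := by
      rw [eq_neg_iff_add_eq_zero, add_comm]; exact e1
    rw [← e2, e3, hcmb, map_neg, map_neg, map_neg, neg_neg, map_smul, map_smul]
  have hcmu : ∀ ζ, D.cm u ζ = (2 * Complex.I * s : ℂ) • D.Rm c (c (D.cm A ζ)) := fun ζ => by
    have : u = (2 : ℂ) • c + (-1 : ℂ) • (1 : H →L[ℂ] H) := by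
      rw [hu, neg_smul, one_smul, sub_eq_add_neg]
    rw [this, D.cm_add, D.cm_smul, D.cm_smul, hcm1, smul_zero, add_zero, hcmc, smul_smul]
    congr 1
    ring
  have hns : ‖(2 * Complex.I * s : ℂ)‖ = 2 * s := by
    rw [norm_mul, norm_mul, Complex.norm_I, Complex.norm_real, Real.norm_of_nonneg hs.le]
    simp
  have hnb : ‖b‖ ≤ 1 + s * ‖A‖ := by
    rw [hb]
    refine (norm_sub_le _ _).trans ?_
    rw [norm_smul, norm_mul, Complex.norm_I, Complex.norm_real, Real.norm_of_nonneg hs.le, one_mul]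
    gcongr
    exact ContinuousLinearMap.norm_id_le
  refine ⟨fun ζ => ?_, fun ζ => ?_⟩
  · rw [hcmu, norm_smul, hns]
    gcongr
    calc ‖D.Rm c (c (D.cm A ζ))‖ ≤ ‖D.Rm c‖ * (‖c‖ * ‖D.cm A ζ‖) :=
          ((D.Rm c).le_opNorm _).trans (by gcongr; exact c.le_opNorm _)
      _ ≤ 1 * (1 * ‖D.cm A ζ‖) := by
          gcongr
          exact (D.norm_Rm_le c).trans hc1
      _ = ‖D.cm A ζ‖ := by ring
  · have e1 : D.Rm b (b (D.cm u ζ)) = (2 * Complex.I * s : ℂ) • D.cm A ζ := by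
      rw [hcmu, map_smul, map_smul]
      congr 1
      rw [D.comm_Rm hbM hcM]
      have e2 : b (c (D.cm A ζ)) = D.cm A ζ := by
        have := congrArg (fun T : H →L[ℂ] H => T (D.cm A ζ)) hbc
        simpa using this
      have h4 : D.Rm b * D.Rm c = 1 := by rw [← D.Rm_mul, hcb, D.Rm_one]
      rw [e2]
      have := congrArg (fun T : H →L[ℂ] H => T (D.cm A ζ)) h4
      simpa using this
    calc 2 * s * ‖D.cm A ζ‖ = ‖D.Rm b (b (D.cm u ζ))‖ := by rw [e1, norm_smul, hns]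
      _ ≤ ‖D.Rm b‖ * (‖b‖ * ‖D.cm u ζ‖) :=
          ((D.Rm b).le_opNorm _).trans (by gcongr; exact b.le_opNorm _)
      _ ≤ (1 + s * ‖A‖) * ((1 + s * ‖A‖) * ‖D.cm u ζ‖) := by
          have hb0 : 0 ≤ 1 + s * ‖A‖ := by positivity
          gcongr
          exact (D.norm_Rm_le b).trans hnb
      _ = (1 + s * ‖A‖) ^ 2 * ‖D.cm u ζ‖ := by ring

/-- Lemma B for self-adjoint families. -/
theorem lemmaB_sa {x : H →L[ℂ] H} (hx : D.InN x) {ε : ℝ} (hε : 0 < ε) :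
    ∃ C > 0, ∀ (ι : Type) [Fintype ι] (a : ι → (H →L[ℂ] H)) (_ : ∀ i, a i ∈ M)
      (_ : ∀ i, IsSelfAdjoint (a i)) (D0 : ℝ) (_ : 0 < D0), ∑ i, ‖D.cm (a i) ξ‖ ^ 2 ≤ D0 →
      ∃ z : H, ‖z - x ξ‖ ≤ ε ∧ ‖z‖ ≤ ‖x ξ‖ ∧ ∑ i, ‖D.cm (a i) z‖ ^ 2 ≤ C * D0 := by
  obtain ⟨c, hc, hmain⟩ := lemmaB_abstract D.AdG ξ (x ξ) D.norm_xi
    (fun ε hε => D.propA hx hε) ε hε
  refine ⟨2 * (‖x ξ‖ ^ 2 / c) + 1, by positivity, ?_⟩
  intro ι _ a ha hsa D0 hD hsum
  set κ : ℝ := 1 + ∑ i, ‖a i‖ with hκ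
  have hκ1 : 1 ≤ κ := by
    have : 0 ≤ ∑ i, ‖a i‖ := Finset.sum_nonneg fun i _ => norm_nonneg _
    linarith
  have haκ : ∀ i, ‖a i‖ ≤ κ := fun i => by
    have := Finset.single_le_sum (f := fun i => ‖a i‖) (fun i _ => norm_nonneg _)
      (Finset.mem_univ i)
    linarith
  set s : ℝ := 1 / (8 * κ) with hs
  have hs0 : 0 < s := by (clear * -; positivity)
  have hsκ : ∀ i, s * ‖a i‖ ≤ 1 / 8 := fun i => by
    calc s * ‖a i‖ ≤ s * κ := by gcongr; exact haκ i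
      _ = 1 / 8 := by rw [hs]; field_simp
  choose u huM hu1 hu2 hu3 hu4 using fun i =>
    D.cayley_cm (ha i) (hsa i) hs0 (lt_of_le_of_lt (hsκ i) (by norm_num))
  obtain ⟨z, hz1, hz2, hz3⟩ := hmain ι (fun i => D.Ad (u i)) (fun i => D.Ad (star (u i)))
    (fun i x y => D.inner_Ad (huM i) x y) (fun i x => D.norm_Ad (hu1 i) x)
    (fun i => D.Ad_mem (huM i) (hu1 i) (hu2 i))
    (fun i => D.Ad_mem (star_mem (huM i)) (by rw [star_star]; exact hu2 i)
      (by rw [star_star]; exact hu1 i))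
    (4 * s ^ 2 * D0) (by positivity)
    (by
      calc ∑ i, ‖D.Ad (u i) ξ - ξ‖ ^ 2 = ∑ i, ‖D.cm (u i) ξ‖ ^ 2 := by
            refine Finset.sum_congr rfl fun i _ => ?_
            rw [D.norm_Ad_sub (huM i) (hu1 i) (hu2 i)]
        _ ≤ ∑ i, 4 * s ^ 2 * ‖D.cm (a i) ξ‖ ^ 2 := by
            refine Finset.sum_le_sum fun i _ => ?_
            calc ‖D.cm (u i) ξ‖ ^ 2 ≤ (2 * s * ‖D.cm (a i) ξ‖) ^ 2 := by
                  gcongr; exact hu3 i ξ
              _ = 4 * s ^ 2 * ‖D.cm (a i) ξ‖ ^ 2 := by ring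
        _ = 4 * s ^ 2 * ∑ i, ‖D.cm (a i) ξ‖ ^ 2 := by rw [Finset.mul_sum]
        _ ≤ 4 * s ^ 2 * D0 := by gcongr)
  refine ⟨z, hz1, hz2, ?_⟩
  have hz4 : ∀ i, ‖D.Ad (u i) z - z‖ = ‖D.cm (u i) z‖ := fun i =>
    D.norm_Ad_sub (huM i) (hu1 i) (hu2 i) z
  simp only [hz4] at hz3
  have h5 : ∀ i, 4 * s ^ 2 * ‖D.cm (a i) z‖ ^ 2 ≤ 2 * ‖D.cm (u i) z‖ ^ 2 := fun i => by
    have h6 := hu4 i z
    have h7 : (1 + s * ‖a i‖) ^ 2 ≤ (9 / 8) ^ 2 := by
      have := hsκ i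
      have h0 : 0 ≤ 1 + s * ‖a i‖ := by (clear * -; positivity)
      gcongr
      linarith only [this]
    have h8 : 2 * s * ‖D.cm (a i) z‖ ≤ (9 / 8) ^ 2 * ‖D.cm (u i) z‖ := h6.trans (by gcongr)
    calc 4 * s ^ 2 * ‖D.cm (a i) z‖ ^ 2 = (2 * s * ‖D.cm (a i) z‖) ^ 2 := by ring
      _ ≤ ((9 / 8) ^ 2 * ‖D.cm (u i) z‖) ^ 2 := by gcongr
      _ = (9 / 8) ^ 4 * ‖D.cm (u i) z‖ ^ 2 := by ring
      _ ≤ 2 * ‖D.cm (u i) z‖ ^ 2 := by
          have : (9 / 8 : ℝ) ^ 4 ≤ 2 := by norm_num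
          gcongr
  have h9 : 4 * s ^ 2 * ∑ i, ‖D.cm (a i) z‖ ^ 2 ≤ 2 * (‖x ξ‖ ^ 2 / c * (4 * s ^ 2 * D0)) := by
    calc 4 * s ^ 2 * ∑ i, ‖D.cm (a i) z‖ ^ 2 = ∑ i, 4 * s ^ 2 * ‖D.cm (a i) z‖ ^ 2 := by
          rw [Finset.mul_sum]
      _ ≤ ∑ i, 2 * ‖D.cm (u i) z‖ ^ 2 := Finset.sum_le_sum fun i _ => h5 i
      _ = 2 * ∑ i, ‖D.cm (u i) z‖ ^ 2 := by rw [Finset.mul_sum]
      _ ≤ 2 * (‖x ξ‖ ^ 2 / c * (4 * s ^ 2 * D0)) := by gcongr
  have h10 : ∑ i, ‖D.cm (a i) z‖ ^ 2 ≤ 2 * (‖x ξ‖ ^ 2 / c) * D0 := by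
    have h11 : 0 < 4 * s ^ 2 := by (clear * -; positivity)
    refine le_of_mul_le_mul_left ?_ h11
    calc 4 * s ^ 2 * ∑ i, ‖D.cm (a i) z‖ ^ 2 ≤ 2 * (‖x ξ‖ ^ 2 / c * (4 * s ^ 2 * D0)) := h9
      _ = 4 * s ^ 2 * (2 * (‖x ξ‖ ^ 2 / c) * D0) := by ring
  calc ∑ i, ‖D.cm (a i) z‖ ^ 2 ≤ 2 * (‖x ξ‖ ^ 2 / c) * D0 := h10
    _ ≤ (2 * (‖x ξ‖ ^ 2 / c) + 1) * D0 := by linarith only [hD]

/-- **Lemma B.** -/
theorem lemmaB {x : H →L[ℂ] H} (hx : D.InN x) {ε : ℝ} (hε : 0 < ε) :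
    ∃ C > 0, ∀ (ι : Type) [Fintype ι] (a : ι → (H →L[ℂ] H)) (_ : ∀ i, a i ∈ M)
      (D0 : ℝ) (_ : 0 < D0), ∑ i, ‖D.cm (a i) ξ‖ ^ 2 ≤ D0 →
      ∃ z : H, ‖z - x ξ‖ ≤ ε ∧ ‖z‖ ≤ ‖x ξ‖ ∧ ∑ i, ‖D.cm (a i) z‖ ^ 2 ≤ C * D0 := by
  obtain ⟨C, hC, hmain⟩ := D.lemmaB_sa hx hε
  refine ⟨2 * C, by positivity, ?_⟩
  intro ι _ a ha D0 hD hsum
  set A : ι → (H →L[ℂ] H) := fun i => (1 / 2 : ℂ) • (a i + star (a i)) with hA
  set B : ι → (H →L[ℂ] H) := fun i => (-(Complex.I / 2) : ℂ) • (a i + (-1 : ℂ) • star (a i))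
    with hB
  have hsmulM : ∀ (k : ℂ) {y : H →L[ℂ] H}, y ∈ M → k • y ∈ M := fun k y hy => by
    refine mem_of_commute M fun g hg => ?_
    rw [mul_smul_comm, smul_mul_assoc, mul_comm_of_mem_commutant hy hg]
  have hAM : ∀ i, A i ∈ M := fun i => hsmulM _ (add_mem (ha i) (star_mem (ha i)))
  have hBM : ∀ i, B i ∈ M := fun i =>
    hsmulM _ (add_mem (ha i) (hsmulM _ (star_mem (ha i))))
  have hAsa : ∀ i, IsSelfAdjoint (A i) := fun i => by
    rw [IsSelfAdjoint, hA]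
    simp only [star_smul, star_add, star_star, RCLike.star_def, map_div₀, map_one, map_ofNat]
    rw [add_comm]
  have hBsa : ∀ i, IsSelfAdjoint (B i) := fun i => by
    have hc1 : star (-(Complex.I / 2)) = Complex.I / 2 := by simp [neg_div]
    have hc2 : star (-1 : ℂ) = -1 := by simp
    rw [IsSelfAdjoint, hB]
    simp only [star_smul, star_add, star_star, hc1, hc2]
    module
  have hcma : ∀ i ζ, D.cm (a i) ζ = D.cm (A i) ζ + Complex.I • D.cm (B i) ζ := fun i ζ => by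
    have e : a i = A i + Complex.I • B i := by
      rw [hA, hB]
      simp only [smul_add, smul_smul]
      have e1 : Complex.I * -(Complex.I / 2) = 1 / 2 := by
        have := Complex.I_mul_I
        linear_combination (-1 / 2 : ℂ) * this
      rw [e1, show Complex.I * (-(Complex.I / 2) * -1) = -(1 / 2 : ℂ) by
        have := Complex.I_mul_I
        linear_combination (1 / 2 : ℂ) * this]
      rw [neg_smul]
      have e2 : a i = (1 / 2 : ℂ) • a i + (1 / 2 : ℂ) • a i := by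
        rw [← add_smul]; norm_num
      conv_lhs => rw [e2]
      abel
    conv_lhs => rw [e]
    rw [D.cm_add, D.cm_smul Complex.I (B i)]
  have hcms : ∀ i, D.cm (star (a i)) ξ = D.cm (A i) ξ - Complex.I • D.cm (B i) ξ := fun i => by
    have e : star (a i) = A i + (-Complex.I) • B i := by
      rw [hA, hB]
      simp only [smul_add, smul_smul]
      have e1 : -Complex.I * -(Complex.I / 2) = -(1 / 2 : ℂ) := by
        have := Complex.I_mul_I
        linear_combination (1 / 2 : ℂ) * this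
      rw [e1, show -Complex.I * (-(Complex.I / 2) * -1) = (1 / 2 : ℂ) by
        have := Complex.I_mul_I
        linear_combination (-1 / 2 : ℂ) * this]
      rw [neg_smul]
      have e2 : star (a i) = (1 / 2 : ℂ) • star (a i) + (1 / 2 : ℂ) • star (a i) := by
        rw [← add_smul]; norm_num
      conv_lhs => rw [e2]
      abel
    rw [e, D.cm_add, D.cm_smul (-Complex.I) (B i), neg_smul, ← sub_eq_add_neg]
  have hpar : ∀ i, ‖D.cm (A i) ξ‖ ^ 2 + ‖D.cm (B i) ξ‖ ^ 2 = ‖D.cm (a i) ξ‖ ^ 2 := fun i => by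
    have h1 := parallelogram_law_with_norm ℂ (D.cm (A i) ξ) (Complex.I • D.cm (B i) ξ)
    rw [← hcma, ← hcms, D.norm_cm_star_xi, norm_smul, Complex.norm_I, one_mul] at h1
    nlinarith
  obtain ⟨z, hz1, hz2, hz3⟩ := hmain (ι ⊕ ι) (Sum.elim A B)
    (fun i => by cases i <;> simp [hAM, hBM]) (fun i => by cases i <;> simp [hAsa, hBsa]) D0 hD
    (by
      rw [Fintype.sum_sum_type]
      simp only [Sum.elim_inl, Sum.elim_inr]
      rw [← Finset.sum_add_distrib]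
      simpa only [hpar] using hsum)
  refine ⟨z, hz1, hz2, ?_⟩
  rw [Fintype.sum_sum_type] at hz3
  simp only [Sum.elim_inl, Sum.elim_inr] at hz3
  calc ∑ i, ‖D.cm (a i) z‖ ^ 2 ≤ ∑ i, (2 * ‖D.cm (A i) z‖ ^ 2 + 2 * ‖D.cm (B i) z‖ ^ 2) := by
        refine Finset.sum_le_sum fun i _ => ?_
        rw [hcma]
        have h1 : ‖D.cm (A i) z + Complex.I • D.cm (B i) z‖ ≤ ‖D.cm (A i) z‖ + ‖D.cm (B i) z‖ := by
          refine (norm_add_le _ _).trans ?_
          rw [norm_smul, Complex.norm_I, one_mul]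
        calc ‖D.cm (A i) z + Complex.I • D.cm (B i) z‖ ^ 2
            ≤ (‖D.cm (A i) z‖ + ‖D.cm (B i) z‖) ^ 2 := by gcongr
          _ ≤ 2 * ‖D.cm (A i) z‖ ^ 2 + 2 * ‖D.cm (B i) z‖ ^ 2 := by
              linarith only [sq_nonneg (‖D.cm (A i) z‖ - ‖D.cm (B i) z‖)]
    _ = 2 * (∑ i, ‖D.cm (A i) z‖ ^ 2 + ∑ i, ‖D.cm (B i) z‖ ^ 2) := by
        rw [Finset.sum_add_distrib, ← Finset.mul_sum, ← Finset.mul_sum]; ring
    _ ≤ 2 * (C * D0) := by gcongr
    _ = 2 * C * D0 := by ring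

end ModData

end Vale.Agent.P132
end

section

/-!
P132 Part III, section C: the modular data of a corner and its windows.
-/

open Filter Topology
open scoped ComplexConjugate InnerProductSpace BoundedContinuousFunction

set_option linter.unusedSectionVars false

namespace Vale.Agent.P132

universe u

variable {H : Type u} [NormedAddCommGroup H] [InnerProductSpace ℂ H] [CompleteSpace H]

theorem c2_inner_star_left (a : H →L[ℂ] H) (x y : H) : ⟪a x, y⟫_ℂ = ⟪x, star a y⟫_ℂ := by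
  rw [ContinuousLinearMap.star_eq_adjoint, ContinuousLinearMap.adjoint_inner_right]

namespace ModData

variable {M : VonNeumannAlgebra H} {ξ : H} (D : ModData M ξ)

section corner

variable {r v : H →L[ℂ] H}

/-- `v J v J` -/
noncomputable def cV (v : H →L[ℂ] H) : H →L[ℂ] H := v * D.Rm (star v)

/-- `J v J` commutes with `M` -/
theorem c2_comm {a v : H →L[ℂ] H} (ha : a ∈ M) (hv : v ∈ M) : a * D.Rm v = D.Rm v * a := by
  ext ζ
  exact D.comm_Rm ha hv ζ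

theorem cV_mul_star (hv : v ∈ M) (hv2 : v * star v = 1) : D.cV v * star (D.cV v) = 1 := by
  rw [cV, star_mul, D.star_Rm, star_star]
  calc v * D.Rm (star v) * (D.Rm v * star v) = v * (D.Rm (star v) * D.Rm v) * star v := by
        simp only [mul_assoc]
    _ = v * D.Rm (v * star v) * star v := by rw [← D.Rm_mul]
    _ = 1 := by rw [hv2, D.Rm_one, mul_one, hv2]

theorem star_cV_mul (hv : v ∈ M) (hv1 : star v * v = r) :
    star (D.cV v) * D.cV v = r * D.Rm r := by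
  rw [cV, star_mul, D.star_Rm, star_star]
  calc D.Rm v * star v * (v * D.Rm (star v)) = D.Rm v * (star v * v) * D.Rm (star v) := by
        simp only [mul_assoc]
    _ = D.Rm v * r * D.Rm (star v) := by rw [hv1]
    _ = r * D.Rm v * D.Rm (star v) := by
        rw [D.c2_comm (hv1 ▸ mul_mem (star_mem hv) hv) hv]
    _ = r * D.Rm (star v * v) := by rw [mul_assoc, ← D.Rm_mul]
    _ = r * D.Rm r := by rw [hv1]

theorem v_mul_r (hv2 : v * star v = 1) (hv1 : star v * v = r) : v * r = v := by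
  rw [← hv1, ← mul_assoc, hv2, one_mul]

theorem cV_mul_r (hv : v ∈ M) (hv1 : star v * v = r) (hv2 : v * star v = 1) :
    D.cV v * r = D.cV v := by
  have hr : r ∈ M := hv1 ▸ mul_mem (star_mem hv) hv
  rw [cV, mul_assoc, ← D.c2_comm hr (star_mem hv), ← mul_assoc, v_mul_r hv2 hv1]

theorem cV_mul_Rm (hv1 : star v * v = r) (hv2 : v * star v = 1) :
    D.cV v * D.Rm r = D.cV v := by
  have hrv : r * star v = star v := by
    rw [← hv1, mul_assoc, hv2, mul_one]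
  rw [cV, mul_assoc, ← D.Rm_mul, hrv]

theorem cV_mul_q (hv : v ∈ M) (hv1 : star v * v = r) (hv2 : v * star v = 1) :
    D.cV v * (r * D.Rm r) = D.cV v := by
  rw [← mul_assoc, D.cV_mul_r hv hv1 hv2, D.cV_mul_Rm hv1 hv2]

/-- `V (v* a v) = a V` -/
theorem cV_conj {a : H →L[ℂ] H} (ha : a ∈ M) (hv : v ∈ M) (hv2 : v * star v = 1) :
    D.cV v * (star v * a * v) = a * D.cV v := by
  have hx : star v * a * v ∈ M := mul_mem (mul_mem (star_mem hv) ha) hv
  rw [cV, mul_assoc, ← D.c2_comm hx (star_mem hv), ← mul_assoc, ← mul_assoc a v]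
  congr 1
  calc v * (star v * a * v) = (v * star v) * (a * v) := by simp only [mul_assoc]
    _ = a * v := by rw [hv2, one_mul]

theorem J_cV (hv : v ∈ M) (ζ : H) : D.J (D.cV v ζ) = D.cV v (D.J ζ) := by
  have h1 : D.cV v ζ = v (D.Rm (star v) ζ) := rfl
  have h2 : D.cV v (D.J ζ) = v (D.Rm (star v) (D.J ζ)) := rfl
  rw [h1, h2, D.J_apply_eq, D.J_Rm, star_star, D.comm_Rm hv (star_mem hv)]

theorem J_star_cV (hv : v ∈ M) (ζ : H) : D.J (star (D.cV v) ζ) = star (D.cV v) (D.J ζ) := by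
  have h1 : star (D.cV v) = D.Rm v * star v := by
    rw [cV, star_mul, D.star_Rm, star_star]
  have h2 : ∀ η, star (D.cV v) η = D.Rm v (star v η) := fun η => by rw [h1]; rfl
  rw [h2, h2, D.J_Rm, D.J_apply_eq, star_star, D.comm_Rm (star_mem hv) hv]

theorem q_Th (hr : D.InC r) (F : ℝ →ᵇ ℂ) : D.Th F * (r * D.Rm r) = (r * D.Rm r) * D.Th F := by
  ext ζ
  change D.Th F (r (D.Rm r ζ)) = r (D.Rm r (D.Th F ζ))
  rw [InC.Th_comm D hr, InC.Th_Rm D hr]

theorem norm_cV_le (hv : v ∈ M) (hv2 : v * star v = 1) : ‖D.cV v‖ ≤ 1 := by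
  have h1 : ‖D.cV v * star (D.cV v)‖ = ‖D.cV v‖ * ‖D.cV v‖ := CStarRing.norm_self_mul_star
  rw [D.cV_mul_star hv hv2] at h1
  have h2 : ‖(1 : H →L[ℂ] H)‖ ≤ 1 := ContinuousLinearMap.norm_id_le
  nlinarith [norm_nonneg (D.cV v)]

theorem q_xi (hr : D.InC r) (hr1 : star r = r) (hr2 : r * r = r) : (r * D.Rm r) ξ = r ξ := by
  have h2 : r (r ξ) = r ξ := congrArg (fun T : H →L[ℂ] H => T ξ) hr2
  rw [mul_apply_eq_comp, InC.Rm_xi D hr, h2]

theorem norm_cV_xi (hr : D.InC r) (hr1 : star r = r) (hr2 : r * r = r) (hv : v ∈ M)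
    (hv1 : star v * v = r) : ‖D.cV v ξ‖ = ‖r ξ‖ := by
  have h1 : (⟪D.cV v ξ, D.cV v ξ⟫_ℂ) = ⟪r ξ, r ξ⟫_ℂ := by
    rw [c2_inner_star_left, c2_inner_star_left r, hr1, ← mul_apply_eq_comp, D.star_cV_mul hv hv1,
      D.q_xi hr hr1 hr2, ← mul_apply_eq_comp, hr2]
  rw [@norm_eq_sqrt_re_inner ℂ, @norm_eq_sqrt_re_inner ℂ _ _ _ _ (r ξ), h1]

/-- The functional calculus `F ↦ V Th(F) V*` of the corner. -/
noncomputable def cornerTh (hr : D.InC r) (hv : v ∈ M) (hv1 : star v * v = r)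
    (hv2 : v * star v = 1) : (ℝ →ᵇ ℂ) →⋆ₐ[ℂ] (H →L[ℂ] H) where
  toFun F := D.cV v * D.Th F * star (D.cV v)
  map_one' := by rw [map_one, mul_one, D.cV_mul_star hv hv2]
  map_mul' F G := by
    rw [map_mul]
    have h1 : D.cV v * D.Th F * star (D.cV v) * (D.cV v * D.Th G * star (D.cV v)) =
        D.cV v * (D.Th F * (star (D.cV v) * D.cV v)) * (D.Th G * star (D.cV v)) := by
      simp only [mul_assoc]
    have h2 : D.cV v * (r * D.Rm r * D.Th F) = D.cV v * D.Th F := by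
      rw [← mul_assoc (D.cV v), D.cV_mul_q hv hv1 hv2]
    rw [h1, D.star_cV_mul hv hv1, D.q_Th hr, h2]
    simp only [mul_assoc]
  map_zero' := by rw [map_zero, mul_zero, zero_mul]
  map_add' F G := by rw [map_add, mul_add, add_mul]
  commutes' c := by
    rw [Algebra.algebraMap_eq_smul_one, map_smul, map_one, mul_smul_comm, mul_one,
      smul_mul_assoc, D.cV_mul_star hv hv2, Algebra.algebraMap_eq_smul_one]
  map_star' F := by
    rw [map_star, star_mul, star_mul, star_star]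
    simp only [mul_assoc]

theorem cornerTh_apply (hr : D.InC r) (hv : v ∈ M) (hv1 : star v * v = r)
    (hv2 : v * star v = 1) (F : ℝ →ᵇ ℂ) (ζ : H) :
    D.cornerTh hr hv hv1 hv2 F ζ = D.cV v (D.Th F (star (D.cV v) ζ)) := rfl

/-- `V Th(F) V* V ζ = V Th(F) ζ` -/
theorem cornerTh_cV (hr : D.InC r) (hv : v ∈ M) (hv1 : star v * v = r)
    (hv2 : v * star v = 1) (F : ℝ →ᵇ ℂ) (ζ : H) :
    D.cornerTh hr hv hv1 hv2 F (D.cV v ζ) = D.cV v (D.Th F ζ) := by
  have h1 : star (D.cV v) (D.cV v ζ) = (r * D.Rm r) ζ := by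
    rw [← mul_apply_eq_comp, D.star_cV_mul hv hv1]
  have h2 : D.Th F ((r * D.Rm r) ζ) = (r * D.Rm r) (D.Th F ζ) :=
    congrArg (fun T : H →L[ℂ] H => T ζ) (D.q_Th hr F)
  have h3 : D.cV v ((r * D.Rm r) (D.Th F ζ)) = D.cV v (D.Th F ζ) :=
    congrArg (fun T : H →L[ℂ] H => T (D.Th F ζ)) (D.cV_mul_q hv hv1 hv2)
  rw [cornerTh_apply, h1, h2, h3]

/-- `V (x ξ) = a V ξ` with `a = v x v*`, for `x ∈ M` -/
theorem cV_x_xi (hr : D.InC r) (hv : v ∈ M) (hv1 : star v * v = r)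
    (hv2 : v * star v = 1) {x : H →L[ℂ] H} (hx : x ∈ M) :
    D.cV v (x ξ) = (v * x * star v) (D.cV v ξ) := by
  have hM : v * x * star v ∈ M := mul_mem (mul_mem hv hx) (star_mem hv)
  have h1 : (v * x * star v) (D.cV v ξ) = D.cV v ((star v * (v * x * star v) * v) ξ) := by
    rw [← mul_apply_eq_comp, ← D.cV_conj hM hv hv2]; rfl
  have h2 : star v * (v * x * star v) * v = r * x * r := by
    calc star v * (v * x * star v) * v = (star v * v) * x * (star v * v) := by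
          simp only [mul_assoc]
      _ = r * x * r := by rw [hv1]
  have h3 : (r * x * r) ξ = r (D.Rm r (x ξ)) := by
    rw [← D.comm_Rm hx hr.1, InC.Rm_xi D hr]; rfl
  have h4 : D.cV v ((r * D.Rm r) (x ξ)) = D.cV v (x ξ) :=
    congrArg (fun T : H →L[ℂ] H => T (x ξ)) (D.cV_mul_q hv hv1 hv2)
  rw [h1, h2, h3, ← mul_apply_eq_comp r, h4]

theorem surj_cV (hv : v ∈ M) (hv2 : v * star v = 1) : Function.Surjective (D.cV v) := fun ζ =>
  ⟨star (D.cV v) ζ, congrArg (fun T : H →L[ℂ] H => T ζ) (D.cV_mul_star hv hv2)⟩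

/-- The modular data of the vector `η = V ξ / ‖V ξ‖`. -/
noncomputable def cornerData (hr : D.InC r) (hr1 : star r = r) (hr2 : r * r = r) (hr0 : r ≠ 0)
    (hv : v ∈ M) (hv1 : star v * v = r) (hv2 : v * star v = 1) :
    ModData M (((‖r ξ‖⁻¹ : ℝ) : ℂ) • D.cV v ξ) where
  norm_xi := by
    have h0 : ‖r ξ‖ ≠ 0 := by
      rw [norm_ne_zero_iff]
      intro h
      exact hr0 (D.ext_xi hr.1 (zero_mem M) (by simpa using h))
    rw [norm_smul, D.norm_cV_xi hr hr1 hr2 hv hv1, Complex.norm_real, norm_inv, norm_norm,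
      inv_mul_cancel₀ h0]
  cyc := by
    have h0 : ‖r ξ‖ ≠ 0 := by
      rw [norm_ne_zero_iff]
      intro h
      exact hr0 (D.ext_xi hr.1 (zero_mem M) (by simpa using h))
    refine ((D.surj_cV hv hv2).denseRange.dense_image (D.cV v).continuous D.cyc).mono ?_
    rintro _ ⟨_, ⟨x, hx, rfl⟩, rfl⟩
    refine ⟨((‖r ξ‖ : ℝ) : ℂ) • (v * x * star v),
      M.toStarSubalgebra.smul_mem (mul_mem (mul_mem hv hx) (star_mem hv)) _, ?_⟩
    rw [_root_.smul_apply, map_smul, smul_smul, ← Complex.ofReal_mul, mul_inv_cancel₀ h0,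
      Complex.ofReal_one, one_smul, D.cV_x_xi hr hv hv1 hv2 hx]
  cyc' := by
    have h0 : ‖r ξ‖ ≠ 0 := by
      rw [norm_ne_zero_iff]
      intro h
      exact hr0 (D.ext_xi hr.1 (zero_mem M) (by simpa using h))
    refine ((D.surj_cV hv hv2).denseRange.dense_image (D.cV v).continuous D.cyc').mono ?_
    rintro _ ⟨_, ⟨y, hy, rfl⟩, rfl⟩
    have hR1 : D.Rm (star v) ∈ M.commutant := D.Rm_mem (star_mem hv)
    have hR2 : D.Rm v ∈ M.commutant := D.Rm_mem hv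
    have hb : D.Rm (star v) * y * D.Rm v ∈ M.commutant := mul_mem (mul_mem hR1 hy) hR2
    refine ⟨((‖r ξ‖ : ℝ) : ℂ) • (D.Rm (star v) * y * D.Rm v),
      M.commutant.toStarSubalgebra.smul_mem hb _, ?_⟩
    rw [_root_.smul_apply, map_smul, smul_smul, ← Complex.ofReal_mul, mul_inv_cancel₀ h0,
      Complex.ofReal_one, one_smul]
    -- `b V ξ = V y ξ`
    have h1 : (D.Rm (star v) * y * D.Rm v) (D.cV v ξ) =
        v (D.Rm (star v) (y (D.Rm v (D.Rm (star v) ξ)))) := by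
      change (D.Rm (star v) * y * D.Rm v) (v (D.Rm (star v) ξ)) = _
      rw [← comm_apply hv hb]
      rfl
    have h2 : D.Rm v (D.Rm (star v) ξ) = D.Rm r ξ := by
      rw [← mul_apply_eq_comp, ← D.Rm_mul, hv1]
    have h3 : D.cV v (y ξ) = D.cV v (r (y ξ)) :=
      (congrArg (fun T : H →L[ℂ] H => T (y ξ)) (D.cV_mul_r hv hv1 hv2)).symm
    rw [h1, h2, InC.Rm_xi D hr, h3, comm_apply hr.1 hy]
    rfl
  J := D.J
  J_J := D.J_J
  J_xi := by
    rw [map_smulₛₗ, Complex.conj_ofReal, D.J_cV hv, D.J_xi]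
  Th := D.cornerTh hr hv hv1 hv2
  Th_nondeg := fun ζ ε hε => by
    obtain ⟨F, hF1, hF2, hF3⟩ := D.Th_nondeg (star (D.cV v) ζ) ε hε
    refine ⟨F, hF1, hF2, ?_⟩
    have h1 : ζ = D.cV v (star (D.cV v) ζ) :=
      (congrArg (fun T : H →L[ℂ] H => T ζ) (D.cV_mul_star hv hv2)).symm
    have h2 : D.cornerTh hr hv hv1 hv2 F ζ - ζ =
        D.cV v (D.Th F (star (D.cV v) ζ) - star (D.cV v) ζ) := by
      rw [map_sub, ← h1, cornerTh_apply]
    rw [h2]
    calc ‖D.cV v (D.Th F (star (D.cV v) ζ) - star (D.cV v) ζ)‖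
        ≤ ‖D.cV v‖ * ‖D.Th F (star (D.cV v) ζ) - star (D.cV v) ζ‖ := (D.cV v).le_opNorm _
      _ ≤ 1 * ‖D.Th F (star (D.cV v) ζ) - star (D.cV v) ζ‖ :=
          mul_le_mul_of_nonneg_right (D.norm_cV_le hv hv2) (norm_nonneg _)
      _ < ε := by rw [one_mul]; exact hF3
  Th_xi := fun F => by
    rw [map_smul, D.cornerTh_cV hr hv hv1 hv2, D.Th_xi, map_smul, smul_comm]
  J_Th := fun F ζ => by
    rw [cornerTh_apply, D.J_cV hv, D.J_Th, D.J_star_cV hv, cornerTh_apply]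
  kms := fun a ha F G hFG => by
    have hx : star v * a * v ∈ M := mul_mem (mul_mem (star_mem hv) ha) hv
    have h1 : ∀ c ∈ M, c (D.cV v ξ) = D.cV v ((star v * c * v) ξ) := fun c hc => by
      rw [← mul_apply_eq_comp, ← D.cV_conj hc hv hv2]; rfl
    have h2 : star v * star a * v = star (star v * a * v) := by
      rw [star_mul, star_mul, star_star, mul_assoc]
    have h3 : a (((‖r ξ‖⁻¹ : ℝ) : ℂ) • D.cV v ξ) =
        ((‖r ξ‖⁻¹ : ℝ) : ℂ) • D.cV v ((star v * a * v) ξ) := by rw [map_smul, h1 a ha]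
    have h4 : star a (((‖r ξ‖⁻¹ : ℝ) : ℂ) • D.cV v ξ) =
        ((‖r ξ‖⁻¹ : ℝ) : ℂ) • D.cV v (star (star v * a * v) ξ) := by
      rw [map_smul, h1 _ (star_mem ha), h2]
    rw [h3, h4, map_smulₛₗ, Complex.conj_ofReal, D.J_cV hv, map_smul, map_smul,
      D.cornerTh_cV hr hv hv1 hv2, D.cornerTh_cV hr hv hv1 hv2, D.kms _ hx F G hFG]
  J_mem := D.J_mem
  U_mem := fun a ha t => by
    have hx : star v * a * v ∈ M := mul_mem (mul_mem (star_mem hv) ha) hv
    have key : D.cornerTh hr hv hv1 hv2 (expB t) * a * D.cornerTh hr hv hv1 hv2 (expB (-t)) =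
        v * D.sg t (star v * a * v) * star v := by
      ext ζ
      change D.cV v (D.U t (star (D.cV v) (a (D.cV v (D.U (-t) (star (D.cV v) ζ)))))) =
        v (D.U t ((star v * a * v) (D.U (-t) (star v ζ))))
      have h1 : ∀ η, a (D.cV v η) = D.cV v ((star v * a * v) η) := fun η => by
        rw [← mul_apply_eq_comp, ← D.cV_conj ha hv hv2]; rfl
      have h2 : ∀ η, star (D.cV v) (D.cV v η) = r (D.Rm r η) := fun η => by
        rw [← mul_apply_eq_comp, D.star_cV_mul hv hv1]; rfl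
      have h3 : ∀ η, D.U t (r (D.Rm r η)) = r (D.Rm r (D.U t η)) := fun η => by
        rw [U, InC.Th_comm D hr, InC.Th_Rm D hr]
      have h4 : ∀ η, D.cV v (r (D.Rm r η)) = D.cV v η := fun η =>
        congrArg (fun T : H →L[ℂ] H => T η) (D.cV_mul_q hv hv1 hv2)
      have h5 : star (D.cV v) ζ = D.Rm v (star v ζ) := by
        rw [cV, star_mul, D.star_Rm, star_star]; rfl
      have hs := D.sg_mem hx t
      have h6 : D.U t ((star v * a * v) (D.U (-t) (D.Rm v (star v ζ)))) =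
          D.Rm v (D.U t ((star v * a * v) (D.U (-t) (star v ζ)))) := by
        have h7 := D.comm_Rm hs hv (star v ζ)
        rw [sg_apply, sg_apply] at h7
        exact h7
      rw [h1, h2, h3, h4, h5, h6]
      have h8 : ∀ η, D.cV v (D.Rm v η) = v η := fun η => by
        change v (D.Rm (star v) (D.Rm v η)) = v η
        rw [← mul_apply_eq_comp (D.Rm (star v)), ← D.Rm_mul, hv2, D.Rm_one]
        rfl
      rw [h8]
    rw [key]
    exact mul_mem (mul_mem hv (D.sg_mem hx t)) (star_mem hv)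

end corner

theorem exists_corner_window
    (hspec : ∀ (η : H) (E : ModData M η) (a b : ℝ), a < b →
      ∃ F : ℝ →ᵇ ℂ, tsupport F ⊆ Set.Ioo a b ∧ E.Th F ≠ 0)
    {r v : H →L[ℂ] H} (hr : D.InC r) (hr1 : star r = r) (hr2 : r * r = r)
    (hv : v ∈ M) (hv1 : star v * v = r) (hv2 : v * star v = 1) {a b : ℝ} (hab : a < b) :
    ∃ y ∈ M, y ≠ 0 ∧ r * y = y ∧ y * r = y ∧ D.CW a b (y ξ) := by
  by_cases hr0 : r = 0
  · -- then `1 = v v* = v r v* = 0`
    have h1 : v = 0 := by rw [← v_mul_r hv2 hv1, hr0, mul_zero]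
    obtain ⟨F, -, hF⟩ := hspec ξ D a b hab
    exfalso
    apply hF
    have h2 : (1 : H →L[ℂ] H) = 0 := by rw [← hv2, h1, zero_mul]
    rw [← mul_one (D.Th F), h2, mul_zero]
  set E := D.cornerData hr hr1 hr2 hr0 hv hv1 hv2 with hE
  set w : ℝ := (b - a) / 4 with hw
  have hw0 : 0 < w := by rw [hw]; linarith only [hab]
  obtain ⟨F, hFs, hF⟩ := hspec _ E (a + w) (b - w) (by rw [hw]; linarith only [hw0, hw])
  -- a smooth cutoff
  let ρ : ContDiffBump ((a + b) / 2) := ⟨w, 2 * w, hw0, by linarith⟩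
  obtain ⟨f, hf1, hf2, hf3⟩ : ∃ f : ℝ →ᵇ ℂ, ContDiff ℝ (⊤ : ℕ∞) f ∧ HasCompactSupport f ∧
      ∀ h, f h = ((ρ h : ℝ) : ℂ) := by
    have h1 : ContDiff ℝ (⊤ : ℕ∞) (fun x : ℝ => ((ρ x : ℝ) : ℂ)) :=
      Complex.ofRealCLM.contDiff.comp ρ.contDiff
    have h2 : HasCompactSupport (fun x : ℝ => ((ρ x : ℝ) : ℂ)) :=
      ρ.hasCompactSupport.comp_left (g := fun x : ℝ => (x : ℂ)) (by simp)
    refine ⟨BoundedContinuousFunction.ofNormedAddCommGroup (fun x : ℝ => ((ρ x : ℝ) : ℂ))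
      h1.continuous 1 (fun x => ?_), h1, h2, fun h => rfl⟩
    rw [Complex.norm_real, Real.norm_of_nonneg ρ.nonneg]
    exact ρ.le_one
  have hfF : F * f = F := by
    ext h
    rw [BoundedContinuousFunction.coe_mul, Pi.mul_apply, hf3]
    by_cases hh : h ∈ Set.Ioo (a + w) (b - w)
    · have h1 : ρ h = 1 := by
        apply ρ.one_of_mem_closedBall
        rw [Metric.mem_closedBall, Real.dist_eq, abs_le]
        change -w ≤ h - (a + b) / 2 ∧ h - (a + b) / 2 ≤ w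
        constructor
        · have := hh.1; rw [hw] at this ⊢; linarith only [this]
        · have := hh.2; rw [hw] at this ⊢; linarith only [this]
      rw [h1, Complex.ofReal_one, mul_one]
    · have h1 : F h = 0 := by
        by_contra hne
        exact hh (hFs (subset_tsupport _ hne))
      rw [h1, zero_mul]
  have hfsupp : ∀ h, h ∉ Set.Icc a b → f h = 0 := by
    intro h hh
    rw [hf3]
    have h1 : ρ h = 0 := by
      apply ρ.zero_of_le_dist
      change 2 * w ≤ dist h ((a + b) / 2)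
      rw [Real.dist_eq]
      by_contra hcon
      push Not at hcon
      rw [abs_lt] at hcon
      exact hh ⟨by have := hcon.1; rw [hw] at this; linarith only [this],
        by have := hcon.2; rw [hw] at this; linarith only [this]⟩
    rw [h1, Complex.ofReal_zero]
  -- some vector `a₀ η` is not killed
  obtain ⟨a₀, ha₀, hne⟩ : ∃ a₀ ∈ M, E.Th F (a₀ (((‖r ξ‖⁻¹ : ℝ) : ℂ) • D.cV v ξ)) ≠ 0 := by
    by_contra hcon
    push Not at hcon
    apply hF
    ext ζ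
    have hcl : IsClosed {ζ : H | E.Th F ζ = (0 : H →L[ℂ] H) ζ} :=
      isClosed_eq (E.Th F).continuous (0 : H →L[ℂ] H).continuous
    have hsub : {ζ : H | ∃ a ∈ M, a (((‖r ξ‖⁻¹ : ℝ) : ℂ) • D.cV v ξ) = ζ} ⊆
        {ζ : H | E.Th F ζ = (0 : H →L[ℂ] H) ζ} := by
      rintro _ ⟨c, hc, rfl⟩
      exact hcon c hc
    have := E.cyc.closure_eq ▸ hcl.closure_subset_iff.2 hsub
    exact this (Set.mem_univ ζ)
  set x : H →L[ℂ] H := star v * a₀ * v with hx
  have hxM : x ∈ M := mul_mem (mul_mem (star_mem hv) ha₀) hv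
  have hFx : D.Th F (x ξ) ≠ 0 := by
    intro h0
    apply hne
    have h1 : a₀ (D.cV v ξ) = D.cV v (x ξ) := by
      rw [← mul_apply_eq_comp, ← D.cV_conj ha₀ hv hv2]; rfl
    rw [map_smul, map_smul, h1]
    have h2 : E.Th F (D.cV v (x ξ)) = D.cV v (D.Th F (x ξ)) :=
      D.cornerTh_cV hr hv hv1 hv2 F (x ξ)
    rw [h2, h0, map_zero, smul_zero]
  have hfx : D.Th f (x ξ) ≠ 0 := by
    intro h0
    apply hFx
    rw [← hfF, map_mul, mul_apply_eq_comp, h0, map_zero]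
  obtain ⟨y, hyM, hy⟩ := D.exists_smooth hxM f hf1 hf2
  have hrx : r * x = x := by
    rw [hx, ← mul_assoc, ← mul_assoc, ← hv1, mul_assoc (star v) v (star v), hv2, mul_one]
  have hxr : x * r = x := by
    rw [hx, mul_assoc, v_mul_r hv2 hv1]
  refine ⟨y, hyM, ?_, ?_, ?_, ?_⟩
  · rintro rfl
    exact hfx (by rw [← hy]; rfl)
  · refine D.ext_xi (mul_mem hr.1 hyM) hyM ?_
    have h1 : r (x ξ) = x ξ := congrArg (fun T : H →L[ℂ] H => T ξ) hrx
    rw [mul_apply_eq_comp, hy, ← InC.Th_comm D hr, h1]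
  · refine D.ext_xi (mul_mem hyM hr.1) hyM ?_
    have h1 : (y * r) ξ = D.Rm r (y ξ) := by
      rw [← D.comm_Rm hyM hr.1, InC.Rm_xi D hr]; rfl
    have h2 : (x * r) ξ = D.Rm r (x ξ) := by
      rw [← D.comm_Rm hxM hr.1, InC.Rm_xi D hr]; rfl
    rw [h1, hy, ← InC.Th_Rm D hr, ← h2, hxr]
  · rw [hy]
    exact D.CW_of_support f hfsupp (x ξ)

end ModData

end Vale.Agent.P132
end

section

/-!
# P132: from the spectrum of the modular operators to the functional calculus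
-/

open Filter Topology
open scoped ComplexConjugate InnerProductSpace BoundedContinuousFunction

namespace Vale.Agent.P132

universe u

variable {H : Type u} [NormedAddCommGroup H] [InnerProductSpace ℂ H] [CompleteSpace H]
  {K : Type u} [NormedAddCommGroup K] [InnerProductSpace ℂ K] [CompleteSpace K]
  {M : VonNeumannAlgebra H} {φ : (H →L[ℂ] H) → ℂ}

/-- the vector state of `η` pulled back to `M` -/
noncomputable def sptState (R : StdRep M φ K) (η : K) : (H →L[ℂ] H) → ℂ := fun x => ⟪η, R.π x η⟫_ℂ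

theorem spt_inner (R : StdRep M φ K) (η : K) {x y : H →L[ℂ] H} (hx : x ∈ M) (hy : y ∈ M) :
    ⟪R.π x η, R.π y η⟫_ℂ = sptState R η (star x * y) := by
  rw [sptState, R.map_mul _ (star_mem hx) _ hy, R.map_star x hx]
  change _ = ⟪η, (star (R.π x)) (R.π y η)⟫_ℂ
  rw [ContinuousLinearMap.star_eq_adjoint, ContinuousLinearMap.adjoint_inner_right]

theorem spt_normal (R : StdRep M φ K) (η : K) (E : ModData R.N η) :
    IsNormalState M (sptState R η) := R.normal η E.norm_xi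

theorem spt_faithful (R : StdRep M φ K) (η : K) (E : ModData R.N η) :
    IsFaithful M (sptState R η) := by
  intro x hx h
  rw [← spt_inner R η hx hx, inner_self_eq_zero] at h
  apply R.inj x hx
  exact E.ext_xi (R.mem x hx) (zero_mem _) (by rw [h]; rfl)

/-- the GNS space given by `η` -/
noncomputable def sptGNS (R : StdRep M φ K) (η : K) (E : ModData R.N η) :
    GNSSpace M (sptState R η) K where
  Λ := fun x => R.π x η
  dense := by
    intro ζ
    refine closure_mono ?_ (E.cyc ζ)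
    rintro _ ⟨a, ha, rfl⟩
    obtain ⟨x, hx, rfl⟩ := R.surj a ha
    exact ⟨x, hx, rfl⟩
  inner := fun x hx y hy => spt_inner R η hx hy

theorem spt_graphS (R : StdRep M φ K) (η : K) (E : ModData R.N η) :
    (sptGNS R η E).graphS = gS R.N η := by
  unfold GNSSpace.graphS gS
  congr 1
  ext p
  constructor
  · rintro ⟨x, hx, rfl⟩
    refine ⟨R.π x, R.mem _ hx, ?_⟩
    rw [← R.map_star _ hx]; rfl
  · rintro ⟨a, ha, rfl⟩
    obtain ⟨x, hx, rfl⟩ := R.surj a ha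
    refine ⟨x, hx, ?_⟩
    rw [← R.map_star _ hx]; rfl

theorem spt_graphD (R : StdRep M φ K) (η : K) (E : ModData R.N η) :
    (sptGNS R η E).graphΔ = gD R.N η := by
  ext p
  constructor
  · rintro ⟨θ, h1, h2⟩
    rw [spt_graphS] at h1
    refine ⟨θ, h1, ?_⟩
    intro a ha
    obtain ⟨x, hx, rfl⟩ := R.surj a ha
    rw [← R.map_star _ hx]
    exact h2 x hx
  · rintro ⟨θ, h1, h2⟩
    rw [← spt_graphS R η E] at h1
    refine ⟨θ, h1, ?_⟩
    intro x hx
    have h3 := h2 (R.π x) (R.mem _ hx)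
    rw [← R.map_star _ hx] at h3
    exact h3

end Vale.Agent.P132
end
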