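import Vale.Agent.P132.MathlibUsed
import Vale.Agent.P132.Bd8.B4
import Vale.Agent.P132.Bd8.B5
import Vale.Agent.P132.Bd8.B3
import Vale.Agent.P132.Bd8.B1
import Vale.Agent.P132.Bd8.B2

set_option linter.all false

namespace AFast779a3bx9a
@[reducible] def a0.{u1} {x1 : Type u1} [x2 : NormedAddCommGroup x1] [x3 : InnerProductSpace ℂ x1] : Semiring (x1 →L[ℂ] x1) := inferInstance
@[reducible] def a1.{u1} {x1 : Type u1} [x2 : NormedAddCommGroup x1] [x3 : InnerProductSpace ℂ x1] : NonAssocSemiring (x1 →L[ℂ] x1) := inferInstance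
@[reducible] def a2.{u1} {x1 : Type u1} [x2 : NormedAddCommGroup x1] [x3 : InnerProductSpace ℂ x1] : AddCommMonoid (x1 →L[ℂ] x1) := inferInstance
@[reducible] def a3.{u1} {x1 : Type u1} [x2 : NormedAddCommGroup x1] [x3 : InnerProductSpace ℂ x1] : Ring (x1 →L[ℂ] x1) := inferInstance
@[reducible] noncomputable def a4.{u1} {x1 : Type u1} [x2 : NormedAddCommGroup x1] [x3 : InnerProductSpace ℂ x1] [x4 : CompleteSpace x1] : StarAddMonoid (x1 →L[ℂ] x1) := inferInstance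
theorem a5 : ContinuousAdd ℂ := inferInstance
@[reducible] def a6.{u1} {x1 : Type u1} [x2 : NormedAddCommGroup x1] [x3 : InnerProductSpace ℂ x1] : NonAssocRing (x1 →L[ℂ] x1) := inferInstance
@[reducible] def a7.{u1} {x1 : Type u1} [x2 : NormedAddCommGroup x1] [x3 : InnerProductSpace ℂ x1] : Distrib (x1 →L[ℂ] x1) := inferInstance
@[reducible] def a8.{u1} {x1 : Type u1} [x2 : NormedAddCommGroup x1] [x3 : InnerProductSpace ℂ x1] : MulZeroOneClass (x1 →L[ℂ] x1) := inferInstance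
@[reducible] def a9.{u1} {x1 : Type u1} [x2 : NormedAddCommGroup x1] [x3 : InnerProductSpace ℂ x1] : NonUnitalNonAssocSemiring (x1 →L[ℂ] x1) := inferInstance
@[reducible] noncomputable def a10 : Semiring (BoundedContinuousFunction ℝ ℂ) := inferInstance
@[reducible] def a11.{u1} {x1 : Type u1} [x2 : NormedAddCommGroup x1] [x3 : InnerProductSpace ℂ x1] : Sub (x1 →L[ℂ] x1) := inferInstance
@[reducible] def a12.{u1} {x1 : Type u1} [x2 : NormedAddCommGroup x1] [x3 : InnerProductSpace ℂ x1] : AddMonoid (x1 →L[ℂ] x1) := inferInstance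
@[reducible] def a13.{u1} {x1 : Type u1} [x2 : NormedAddCommGroup x1] [x3 : InnerProductSpace ℂ x1] : NonUnitalNonAssocRing (x1 →L[ℂ] x1) := inferInstance
@[reducible] def a14.{u1} {x1 : Type u1} [x2 : NormedAddCommGroup x1] [x3 : InnerProductSpace ℂ x1] : MulOneClass (x1 →L[ℂ] x1) := inferInstance
theorem a15.{u1} {x1 : Type u1} [x2 : NormedAddCommGroup x1] [x3 : InnerProductSpace ℂ x1] [x4 : CompleteSpace x1] : ContinuousFunctionalCalculus ℂ (x1 →L[ℂ] x1) IsStarNormal := inferInstance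
@[reducible] def a16.{u1} {x1 : Type u1} [x2 : NormedAddCommGroup x1] [x3 : InnerProductSpace ℂ x1] : AddZeroClass (x1 →L[ℂ] x1) := inferInstance
@[reducible] def a17.{u1} {x1 : Type u1} [x2 : NormedAddCommGroup x1] [x3 : InnerProductSpace ℂ x1] : AddCommGroup (x1 →L[ℂ] x1) := inferInstance
@[reducible] def a18.{u1} {x1 : Type u1} [x2 : NormedAddCommGroup x1] [x3 : InnerProductSpace ℂ x1] : NonUnitalSemiring (x1 →L[ℂ] x1) := inferInstance
@[reducible] def a19.{u1} {x1 : Type u1} [x2 : NormedAddCommGroup x1] [x3 : InnerProductSpace ℂ x1] : AddZero (x1 →L[ℂ] x1) := inferInstance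
@[reducible] def a20.{u1} {x1 : Type u1} [x2 : NormedAddCommGroup x1] [x3 : InnerProductSpace ℂ x1] : Add (x1 →L[ℂ] x1) := inferInstance
theorem a21.{u1} {x1 : Type u1} [x2 : NormedAddCommGroup x1] [x3 : InnerProductSpace ℂ x1] : DistribMulActionSemiHomClass (x1 →L[ℂ] x1) (⇑(RingHom.id ℂ)) x1 x1 := inferInstance
@[reducible] def a22.{u1} {x1 : Type u1} [x2 : NormedAddCommGroup x1] [x3 : InnerProductSpace ℂ x1] : MulOne (x1 →L[ℂ] x1) := inferInstance
@[reducible] def a23.{u1} {x1 : Type u1} [x2 : NormedAddCommGroup x1] [x3 : InnerProductSpace ℂ x1] : AddCommMonoidWithOne (x1 →L[ℂ] x1) := inferInstance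
theorem a24 : ContinuousMul ℂ := inferInstance
@[reducible] def a25.{u1} {x1 : Type u1} [x2 : NormedAddCommGroup x1] [x3 : InnerProductSpace ℂ x1] : SubNegMonoid (x1 →L[ℂ] x1) := inferInstance
theorem a26 : IsTopologicalRing ℂ := inferInstance
theorem a27 : IsSemitopologicalSemiring ℂ := inferInstance
theorem a28 : IsTopologicalSemiring ℂ := inferInstance
theorem a29 : IsSemitopologicalRing ℂ := inferInstance
@[reducible] def a30.{u1} {x1 : Type u1} [x2 : NormedAddCommGroup x1] [x3 : InnerProductSpace ℂ x1] : AddGroup (x1 →L[ℂ] x1) := inferInstance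
@[reducible] def a31.{u1} {x1 : Type u1} [x2 : NormedAddCommGroup x1] [x3 : InnerProductSpace ℂ x1] : Semigroup (x1 →L[ℂ] x1) := inferInstance
@[reducible] noncomputable def a32 : Star (BoundedContinuousFunction ℝ ℂ) := inferInstance
@[reducible] def a33.{u1} {x1 : Type u1} [x2 : NormedAddCommGroup x1] [x3 : InnerProductSpace ℂ x1] : SemigroupWithZero (x1 →L[ℂ] x1) := inferInstance
@[reducible] noncomputable def a34 : InvolutiveStar (BoundedContinuousFunction ℝ ℂ) := inferInstance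
@[reducible] noncomputable def a35 : StarAddMonoid (BoundedContinuousFunction ℝ ℂ) := inferInstance
theorem a36 : IsTopologicalAddGroup ℂ := inferInstance
@[reducible] def a37.{u1} {x1 : Type u1} [x2 : NormedAddCommGroup x1] [x3 : InnerProductSpace ℂ x1] : SubtractionMonoid (x1 →L[ℂ] x1) := inferInstance
@[reducible] noncomputable def a38.{u1} {x1 : Type u1} [x2 : NormedAddCommGroup x1] [x3 : InnerProductSpace ℂ x1] : TopologicalSpace (x1 →L[ℂ] x1) := inferInstance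
@[reducible] def a39.{u1} {x1 : Type u1} [x2 : NormedAddCommGroup x1] [x3 : InnerProductSpace ℂ x1] : AddMonoidWithOne (x1 →L[ℂ] x1) := inferInstance
theorem a40 : BoundedAdd ℂ := inferInstance
@[reducible] def a41.{u1} {x1 : Type u1} [x2 : NormedAddCommGroup x1] [x3 : InnerProductSpace ℂ x1] : AddGroupWithOne (x1 →L[ℂ] x1) := inferInstance
@[reducible] def a42.{u1} {x1 : Type u1} [x2 : NormedAddCommGroup x1] [x3 : InnerProductSpace ℂ x1] : SubNegZeroMonoid (x1 →L[ℂ] x1) := inferInstance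
@[reducible] noncomputable def a43.{u1} {x1 : Type u1} [x2 : NormedAddCommGroup x1] [x3 : InnerProductSpace ℂ x1] [x4 : CompleteSpace x1] : InvolutiveStar (x1 →L[ℂ] x1) := inferInstance
@[reducible] def a44.{u1} {x1 : Type u1} [x2 : NormedAddCommGroup x1] [x3 : InnerProductSpace ℂ x1] : SubtractionCommMonoid (x1 →L[ℂ] x1) := inferInstance
theorem a45.{u1} {x1 : Type u1} [x2 : NormedAddCommGroup x1] [x3 : InnerProductSpace ℂ x1] : SemilinearMapClass (x1 →L[ℂ] x1) (RingHom.id ℂ) x1 x1 := inferInstance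
@[reducible] def a46.{u1} {x1 : Type u1} [x2 : NormedAddCommGroup x1] [x3 : InnerProductSpace ℂ x1] : NegZeroClass (x1 →L[ℂ] x1) := inferInstance
@[reducible] def a47.{u1} {x1 : Type u1} [x2 : NormedAddCommGroup x1] [x3 : InnerProductSpace ℂ x1] : AddCommSemigroup (x1 →L[ℂ] x1) := inferInstance
@[reducible] noncomputable def a48 : NonAssocSemiring (BoundedContinuousFunction ℝ ℂ) := inferInstance
theorem a49.{u1} {x1 : Type u1} [x2 : NormedAddCommGroup x1] [x3 : InnerProductSpace ℂ x1] : DistribMulActionSemiHomClass (x1 ≃ₗᵢ⋆[ℂ] x1) (⇑(starRingEnd ℂ)) x1 x1 := inferInstance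
@[reducible] def a50.{u1} {x1 : Type u1} [x2 : NormedAddCommGroup x1] [x3 : InnerProductSpace ℂ x1] : Neg (x1 →L[ℂ] x1) := inferInstance
theorem a51 : IsTopologicalDivisionRing ℂ := inferInstance
@[reducible] def a52.{u1} {x1 : Type u1} [x2 : NormedAddCommGroup x1] [x3 : InnerProductSpace ℂ x1] : MulZeroClass (x1 →L[ℂ] x1) := inferInstance
theorem a53 : CharZero ℝ := inferInstance
theorem a54 : NormedStarGroup ℂ := inferInstance
@[reducible] noncomputable def a55.{u1} {x1 : Type u1} [x2 : NormedAddCommGroup x1] [x3 : InnerProductSpace ℂ x1] : Norm (x1 →L[ℂ] x1) := inferInstance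
theorem a56.{u1} {x1 : Type u1} [x2 : NormedAddCommGroup x1] [x3 : InnerProductSpace ℂ x1] : SemilinearMapClass (x1 ≃ₗᵢ⋆[ℂ] x1) (starRingEnd ℂ) x1 x1 := inferInstance
@[reducible] noncomputable def a57.{u1} {x1 : Type u1} [x2 : NormedAddCommGroup x1] [x3 : InnerProductSpace ℂ x1] : SeminormedAddCommGroup (x1 →L[ℂ] x1) := inferInstance
@[reducible] def a58.{u1} {x1 : Type u1} [x2 : NormedAddCommGroup x1] [x3 : InnerProductSpace ℂ x1] : AddCommMagma (x1 →L[ℂ] x1) := inferInstance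
@[reducible] def a59.{u1} {x1 : Type u1} [x2 : NormedAddCommGroup x1] [x3 : InnerProductSpace ℂ x1] : AddSemigroup (x1 →L[ℂ] x1) := inferInstance
@[reducible] def a60.{u1} {x1 : Type u1} [x2 : NormedAddCommGroup x1] [x3 : InnerProductSpace ℂ x1] : Monoid (x1 →L[ℂ] x1) := inferInstance
theorem a61.{u1} {x1 : Type u1} [x2 : NormedAddCommGroup x1] [x3 : InnerProductSpace ℂ x1] : T2Space (x1 →L[ℂ] x1) := inferInstance
end AFast779a3bx9a
attribute [local instance] AFast779a3bx9a.a0 AFast779a3bx9a.a1 AFast779a3bx9a.a2 AFast779a3bx9a.a3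
  AFast779a3bx9a.a4 AFast779a3bx9a.a5 AFast779a3bx9a.a6 AFast779a3bx9a.a7 AFast779a3bx9a.a8
  AFast779a3bx9a.a9 AFast779a3bx9a.a10 AFast779a3bx9a.a11 AFast779a3bx9a.a12 AFast779a3bx9a.a13
  AFast779a3bx9a.a14 AFast779a3bx9a.a15 AFast779a3bx9a.a16 AFast779a3bx9a.a17 AFast779a3bx9a.a18
  AFast779a3bx9a.a19 AFast779a3bx9a.a20 AFast779a3bx9a.a21 AFast779a3bx9a.a22 AFast779a3bx9a.a23
  AFast779a3bx9a.a24 AFast779a3bx9a.a25 AFast779a3bx9a.a26 AFast779a3bx9a.a27 AFast779a3bx9a.a28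
  AFast779a3bx9a.a29 AFast779a3bx9a.a30 AFast779a3bx9a.a31 AFast779a3bx9a.a32 AFast779a3bx9a.a33
  AFast779a3bx9a.a34 AFast779a3bx9a.a35 AFast779a3bx9a.a36 AFast779a3bx9a.a37 AFast779a3bx9a.a38
  AFast779a3bx9a.a39 AFast779a3bx9a.a40 AFast779a3bx9a.a41 AFast779a3bx9a.a42 AFast779a3bx9a.a43
  AFast779a3bx9a.a44 AFast779a3bx9a.a45 AFast779a3bx9a.a46 AFast779a3bx9a.a47 AFast779a3bx9a.a48
  AFast779a3bx9a.a49 AFast779a3bx9a.a50 AFast779a3bx9a.a51 AFast779a3bx9a.a52 AFast779a3bx9a.a53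
  AFast779a3bx9a.a54 AFast779a3bx9a.a55 AFast779a3bx9a.a56 AFast779a3bx9a.a57 AFast779a3bx9a.a58
  AFast779a3bx9a.a59 AFast779a3bx9a.a60 AFast779a3bx9a.a61
namespace AFast779a3bx9b
@[reducible] def a0.{u1} {x1 : Type u1} [x2 : NormedAddCommGroup x1] [x3 : InnerProductSpace ℂ x1] : Algebra ℂ (x1 →L[ℂ] x1) := inferInstance
@[reducible] noncomputable def a1.{u1} {x1 : Type u1} [x2 : NormedAddCommGroup x1] [x3 : InnerProductSpace ℂ x1] : Algebra ℝ (x1 →L[ℂ] x1) := inferInstance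
@[reducible] def a2.{u1} {x1 : Type u1} [x2 : NormedAddCommGroup x1] [x3 : InnerProductSpace ℂ x1] : SMul ℂ (x1 →L[ℂ] x1) := inferInstance
@[reducible] def a3.{u1} {x1 : Type u1} [x2 : NormedAddCommGroup x1] [x3 : InnerProductSpace ℂ x1] : Module ℂ (x1 →L[ℂ] x1) := inferInstance
@[reducible] def a4.{u1} {x1 : Type u1} [x2 : NormedAddCommGroup x1] [x3 : InnerProductSpace ℂ x1] : SMulZeroClass ℂ (x1 →L[ℂ] x1) := inferInstance
@[reducible] noncomputable def a5.{u1} {x1 : Type u1} [x2 : NormedAddCommGroup x1] [x3 : InnerProductSpace ℂ x1] : NonUnitalNormedRing (x1 →L[ℂ] x1) := inferInstance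
theorem a6.{u1} {x1 : Type u1} [x2 : NormedAddCommGroup x1] [x3 : InnerProductSpace ℂ x1] [x4 : CompleteSpace x1] : IsOrderedAddMonoid (x1 →L[ℂ] x1) := inferInstance
@[reducible] noncomputable def a7.{u1} {x1 : Type u1} [x2 : NormedAddCommGroup x1] [x3 : InnerProductSpace ℂ x1] : NonUnitalSeminormedRing (x1 →L[ℂ] x1) := inferInstance
@[reducible] def a8.{u1} {x1 : Type u1} [x2 : NormedAddCommGroup x1] [x3 : InnerProductSpace ℂ x1] : DistribSMul ℂ (x1 →L[ℂ] x1) := inferInstance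
@[reducible] noncomputable def a9.{u1} {x1 : Type u1} [x2 : NormedAddCommGroup x1] [x3 : InnerProductSpace ℂ x1] : Module ℝ (x1 →L[ℂ] x1) := inferInstance
theorem a10.{u1} {x1 : Type u1} [x2 : NormedAddCommGroup x1] [x3 : InnerProductSpace ℂ x1] [x4 : CompleteSpace x1] : ContinuousFunctionalCalculus ℝ (x1 →L[ℂ] x1) IsSelfAdjoint := inferInstance
@[reducible] noncomputable def a11.{u1} {x1 : Type u1} [x2 : NormedAddCommGroup x1] [x3 : InnerProductSpace ℂ x1] : SMul ℝ (x1 →L[ℂ] x1) := inferInstance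
@[reducible] def a12.{u1} {x1 : Type u1} [x2 : NormedAddCommGroup x1] [x3 : InnerProductSpace ℂ x1] : DistribMulAction ℂ (x1 →L[ℂ] x1) := inferInstance
theorem a13.{u1} {x1 : Type u1} [x2 : NormedAddCommGroup x1] [x3 : InnerProductSpace ℂ x1] : AddMonoidHomClass (x1 →L[ℂ] x1) x1 x1 := inferInstance
theorem a14.{u1} {x1 : Type u1} [x2 : NormedAddCommGroup x1] [x3 : InnerProductSpace ℂ x1] [x4 : CompleteSpace x1] : NonUnitalAlgHomClass (BoundedContinuousFunction ℝ ℂ →⋆ₐ[ℂ] x1 →L[ℂ] x1) ℂ (BoundedContinuousFunction ℝ ℂ) (x1 →L[ℂ] x1) := inferInstance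
@[reducible] noncomputable def a15.{u1} {x1 : Type u1} [x2 : NormedAddCommGroup x1] [x3 : InnerProductSpace ℂ x1] : SMulZeroClass ℝ (x1 →L[ℂ] x1) := inferInstance
@[reducible] noncomputable def a16.{u1} {x1 : Type u1} [x2 : NormedAddCommGroup x1] [x3 : InnerProductSpace ℂ x1] : DistribSMul ℝ (x1 →L[ℂ] x1) := inferInstance
theorem a17.{u1} {x1 : Type u1} [x2 : NormedAddCommGroup x1] [x3 : InnerProductSpace ℂ x1] [x4 : CompleteSpace x1] : NonnegSpectrumClass ℝ (x1 →L[ℂ] x1) := inferInstance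
theorem a18.{u1} {x1 : Type u1} [x2 : NormedAddCommGroup x1] [x3 : InnerProductSpace ℂ x1] [x4 : CompleteSpace x1] : CovariantClass (x1 →L[ℂ] x1) (x1 →L[ℂ] x1) (Function.swap fun x1_1 x2_1 => x1_1 + x2_1) fun x1_1 x2_1 => x1_1 ≤ x2_1 := inferInstance
theorem a19.{u1} {x1 : Type u1} [x2 : NormedAddCommGroup x1] [x3 : InnerProductSpace ℂ x1] : IsSemitopologicalRing (x1 →L[ℂ] x1) := inferInstance
theorem a20.{u1} {x1 : Type u1} [x2 : NormedAddCommGroup x1] [x3 : InnerProductSpace ℂ x1] [x4 : CompleteSpace x1] : MulHomClass (BoundedContinuousFunction ℝ ℂ →⋆ₐ[ℂ] x1 →L[ℂ] x1) (BoundedContinuousFunction ℝ ℂ) (x1 →L[ℂ] x1) := inferInstance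
@[reducible] noncomputable def a21.{u1} {x1 : Type u1} [x2 : NormedAddCommGroup x1] [x3 : InnerProductSpace ℂ x1] : DistribMulAction ℝ (x1 →L[ℂ] x1) := inferInstance
theorem a22.{u1} {x1 : Type u1} [x2 : NormedAddCommGroup x1] [x3 : InnerProductSpace ℂ x1] [x4 : CompleteSpace x1] : AddLeftMono (x1 →L[ℂ] x1) := inferInstance
@[reducible] noncomputable def a23.{u1} {x1 : Type u1} [x2 : NormedAddCommGroup x1] [x3 : InnerProductSpace ℂ x1] : NormedAlgebra ℝ (x1 →L[ℂ] x1) := inferInstance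
theorem a24.{u1} {x1 : Type u1} [x2 : NormedAddCommGroup x1] [x3 : InnerProductSpace ℂ x1] [x4 : CompleteSpace x1] : OneHomClass (BoundedContinuousFunction ℝ ℂ →⋆ₐ[ℂ] x1 →L[ℂ] x1) (BoundedContinuousFunction ℝ ℂ) (x1 →L[ℂ] x1) := inferInstance
theorem a25.{u1} {x1 : Type u1} [x2 : NormedAddCommGroup x1] [x3 : InnerProductSpace ℂ x1] [x4 : CompleteSpace x1] : AddMonoidHomClass (BoundedContinuousFunction ℝ ℂ →⋆ₐ[ℂ] x1 →L[ℂ] x1) (BoundedContinuousFunction ℝ ℂ) (x1 →L[ℂ] x1) := inferInstance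
theorem a26.{u1} {x1 : Type u1} [x2 : NormedAddCommGroup x1] [x3 : InnerProductSpace ℂ x1] [x4 : CompleteSpace x1] : MonoidHomClass (BoundedContinuousFunction ℝ ℂ →⋆ₐ[ℂ] x1 →L[ℂ] x1) (BoundedContinuousFunction ℝ ℂ) (x1 →L[ℂ] x1) := inferInstance
@[reducible] def a27.{u1} {x1 : Type u1} [x2 : NormedAddCommGroup x1] [x3 : InnerProductSpace ℂ x1] : MulAction ℂ (x1 →L[ℂ] x1) := inferInstance
theorem a28.{u1} {x1 : Type u1} [x2 : NormedAddCommGroup x1] [x3 : InnerProductSpace ℂ x1] [x4 : CompleteSpace x1] : IsOrderedCancelAddMonoid (x1 →L[ℂ] x1) := inferInstance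
theorem a29.{u1} {x1 : Type u1} [x2 : NormedAddCommGroup x1] [x3 : InnerProductSpace ℂ x1] [x4 : CompleteSpace x1] : DistribMulActionSemiHomClass (BoundedContinuousFunction ℝ ℂ →⋆ₐ[ℂ] x1 →L[ℂ] x1) (⇑(MonoidHom.id ℂ)) (BoundedContinuousFunction ℝ ℂ) (x1 →L[ℂ] x1) := inferInstance
theorem a30.{u1} {x1 : Type u1} [x2 : NormedAddCommGroup x1] [x3 : InnerProductSpace ℂ x1] [x4 : CompleteSpace x1] : MonoidWithZeroHomClass (BoundedContinuousFunction ℝ ℂ →⋆ₐ[ℂ] x1 →L[ℂ] x1) (BoundedContinuousFunction ℝ ℂ) (x1 →L[ℂ] x1) := inferInstance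
theorem a31.{u1} {x1 : Type u1} [x2 : NormedAddCommGroup x1] [x3 : InnerProductSpace ℂ x1] : ZeroHomClass (x1 →L[ℂ] x1) x1 x1 := inferInstance
theorem a32.{u1} {x1 : Type u1} [x2 : NormedAddCommGroup x1] [x3 : InnerProductSpace ℂ x1] [x4 : CompleteSpace x1] : IsTopologicalRing (x1 →L[ℂ] x1) := inferInstance
theorem a33.{u1} {x1 : Type u1} [x2 : NormedAddCommGroup x1] [x3 : InnerProductSpace ℂ x1] : AddMonoidHomClass (x1 ≃ₗᵢ⋆[ℂ] x1) x1 x1 := inferInstance
@[reducible] def a34.{u1} {x1 : Type u1} [x2 : NormedAddCommGroup x1] [x3 : InnerProductSpace ℂ x1] : SemigroupAction ℂ (x1 →L[ℂ] x1) := inferInstance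
theorem a35.{u1} {x1 : Type u1} [x2 : NormedAddCommGroup x1] [x3 : InnerProductSpace ℂ x1] : IsScalarTower ℂ (x1 →L[ℂ] x1) (x1 →L[ℂ] x1) := inferInstance
theorem a36.{u1} {x1 : Type u1} [x2 : NormedAddCommGroup x1] [x3 : InnerProductSpace ℂ x1] : SMulCommClass ℂ (x1 →L[ℂ] x1) (x1 →L[ℂ] x1) := inferInstance
@[reducible] def a37.{u1} {x1 : Type u1} [x2 : NormedAddCommGroup x1] [x3 : InnerProductSpace ℂ x1] : SMulZeroClass ℕ (x1 →L[ℂ] x1) := inferInstance
end AFast779a3bx9b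
attribute [local instance] AFast779a3bx9b.a0 AFast779a3bx9b.a1 AFast779a3bx9b.a2 AFast779a3bx9b.a3
  AFast779a3bx9b.a4 AFast779a3bx9b.a5 AFast779a3bx9b.a6 AFast779a3bx9b.a7 AFast779a3bx9b.a8
  AFast779a3bx9b.a9 AFast779a3bx9b.a10 AFast779a3bx9b.a11 AFast779a3bx9b.a12 AFast779a3bx9b.a13
  AFast779a3bx9b.a14 AFast779a3bx9b.a15 AFast779a3bx9b.a16 AFast779a3bx9b.a17 AFast779a3bx9b.a18
  AFast779a3bx9b.a19 AFast779a3bx9b.a20 AFast779a3bx9b.a21 AFast779a3bx9b.a22 AFast779a3bx9b.a23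
  AFast779a3bx9b.a24 AFast779a3bx9b.a25 AFast779a3bx9b.a26 AFast779a3bx9b.a27 AFast779a3bx9b.a28
  AFast779a3bx9b.a29 AFast779a3bx9b.a30 AFast779a3bx9b.a31 AFast779a3bx9b.a32 AFast779a3bx9b.a33
  AFast779a3bx9b.a34 AFast779a3bx9b.a35 AFast779a3bx9b.a36 AFast779a3bx9b.a37
section

open Filter Topology
open scoped ComplexConjugate InnerProductSpace BoundedContinuousFunction

namespace Vale.Agent.P132

universe u

variable {H : Type u} [NormedAddCommGroup H] [InnerProductSpace ℂ H] [CompleteSpace H]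

theorem g3_smul_mem (M : VonNeumannAlgebra H) {a : H →L[ℂ] H} (ha : a ∈ M) (c : ℂ) :
    c • a ∈ M := M.toStarSubalgebra.smul_mem ha c

theorem g3_decomp (M : VonNeumannAlgebra H) {a : H →L[ℂ] H} (ha : a ∈ M) :
    ∃ b ∈ M, ∃ c ∈ M, star b = b ∧ star c = c ∧ a = b + Complex.I • c := by
  refine ⟨(1 / 2 : ℂ) • (a + star a), g3_smul_mem M (add_mem ha (star_mem ha)) _,
    (-Complex.I / 2 : ℂ) • (a - star a), g3_smul_mem M (sub_mem ha (star_mem ha)) _, ?_, ?_, ?_⟩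
  · simp only [star_smul, star_add, star_star]
    rw [add_comm (star a) a]
    congr 1
    simp
  · simp only [star_smul, star_sub, star_star]
    rw [← neg_sub a (star a), smul_neg, ← neg_smul]
    congr 1
    simp [Complex.ext_iff]
    norm_num
  · rw [smul_smul, smul_add, smul_sub]
    have h : Complex.I * (-Complex.I / 2) = (1 / 2 : ℂ) := by
      have := Complex.I_mul_I
      linear_combination (-1 / 2 : ℂ) * this
    rw [h]
    module

/-- inner products of `a ξ` and `y ξ` are real for commuting selfadjoint `a`, `y` -/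
theorem g3_real (ξ : H) {a y : H →L[ℂ] H} (ha : star a = a) (hy : star y = y)
    (hc : a * y = y * a) : (⟪a ξ, y ξ⟫_ℂ).im = 0 := by
  have h1 : ⟪a ξ, y ξ⟫_ℂ = ⟪y ξ, a ξ⟫_ℂ := by
    calc ⟪a ξ, y ξ⟫_ℂ = ⟪(star a) ξ, y ξ⟫_ℂ := by rw [ha]
      _ = ⟪ξ, a (y ξ)⟫_ℂ := by
          rw [ContinuousLinearMap.star_eq_adjoint, ContinuousLinearMap.adjoint_inner_left]
      _ = ⟪ξ, y (a ξ)⟫_ℂ := by
          rw [show a (y ξ) = (a * y) ξ from rfl, hc]
          rfl
      _ = ⟪(star y) ξ, a ξ⟫_ℂ := by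
          rw [ContinuousLinearMap.star_eq_adjoint, ContinuousLinearMap.adjoint_inner_left]
      _ = ⟪y ξ, a ξ⟫_ℂ := by rw [hy]
  have h2 : (starRingEnd ℂ) ⟪a ξ, y ξ⟫_ℂ = ⟪a ξ, y ξ⟫_ℂ := by
    rw [inner_conj_symm, ← h1]
  exact Complex.conj_eq_iff_im.mp h2

/-- the real subspace of vectors `a ξ`, `a` selfadjoint -/
def g3_sub (M : VonNeumannAlgebra H) (ξ : H) : Submodule ℝ H where
  carrier := saVec M ξ
  add_mem' := by
    rintro x y ⟨a, ha, has, rfl⟩ ⟨b, hb, hbs, rfl⟩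
    exact ⟨a + b, add_mem ha hb, by rw [star_add, has, hbs], by simp⟩
  zero_mem' := ⟨0, zero_mem M, by simp, by simp⟩
  smul_mem' := by
    rintro c x ⟨a, ha, has, rfl⟩
    refine ⟨(c : ℂ) • a, g3_smul_mem M ha _, ?_, ?_⟩
    · rw [star_smul, has]
      simp
    · simp

theorem g3_inner_im (M : VonNeumannAlgebra H) (ξ : H) {k : H} (hk : k ∈ closure (saVec M ξ))
    {y : H →L[ℂ] H} (hy : y ∈ M.commutant) (hys : star y = y) : (⟪k, y ξ⟫_ℂ).im = 0 := by
  have hcl : IsClosed {k : H | (⟪k, y ξ⟫_ℂ).im = 0} :=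
    isClosed_eq (by fun_prop) continuous_const
  refine closure_minimal ?_ hcl hk
  rintro _ ⟨a, ha, has, rfl⟩
  exact g3_real ξ has hys (VonNeumannAlgebra.mem_commutant_iff.mp hy a ha)

theorem g3_zero_of (M : VonNeumannAlgebra H) (ξ : H)
    (hcyc : Dense {ζ : H | ∃ a ∈ M, a ξ = ζ}) (ζ : H)
    (h : ∀ a ∈ M, star a = a → ⟪a ξ, ζ⟫_ℂ = 0) : ζ = 0 := by
  have h2 : ∀ a ∈ M, ⟪a ξ, ζ⟫_ℂ = 0 := by
    intro a ha
    obtain ⟨b, hb, c, hc, hbs, hcs, rfl⟩ := g3_decomp M ha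
    change ⟪b ξ + Complex.I • c ξ, ζ⟫_ℂ = 0
    simp only [inner_add_left, inner_smul_left, h b hb hbs, h c hc hcs, mul_zero, add_zero]
  have hcl : IsClosed {v : H | ⟪v, ζ⟫_ℂ = 0} := isClosed_eq (by fun_prop) continuous_const
  have h3 : (Set.univ : Set H) ⊆ {v : H | ⟪v, ζ⟫_ℂ = 0} := by
    rw [← hcyc.closure_eq]
    refine closure_minimal ?_ hcl
    rintro _ ⟨a, ha, rfl⟩
    exact h2 a ha
  exact inner_self_eq_zero.mp (h3 (Set.mem_univ ζ) : ⟪ζ, ζ⟫_ℂ = 0)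

theorem g3_hsep (M : VonNeumannAlgebra H) (ξ : H)
    (hcyc' : Dense {ζ : H | ∃ a ∈ M.commutant, a ξ = ζ}) (ζ : H)
    (h1 : ζ ∈ (g3_sub M ξ).topologicalClosure)
    (h2 : Complex.I • ζ ∈ (g3_sub M ξ).topologicalClosure) : ζ = 0 := by
  refine g3_zero_of M.commutant ξ hcyc' ζ (fun y hy hys => ?_)
  have e1 : (⟪ζ, y ξ⟫_ℂ).im = 0 := g3_inner_im M ξ h1 hy hys
  have e2 : (⟪Complex.I • ζ, y ξ⟫_ℂ).im = 0 := g3_inner_im M ξ h2 hy hys
  rw [inner_smul_left] at e2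
  have e3 : (⟪ζ, y ξ⟫_ℂ).re = 0 := by simpa using e2
  have e4 : ⟪ζ, y ξ⟫_ℂ = 0 := Complex.ext e3 e1
  rw [← inner_conj_symm, e4, map_zero]

theorem g3_hdense (M : VonNeumannAlgebra H) (ξ : H)
    (hcyc : Dense {ζ : H | ∃ a ∈ M, a ξ = ζ}) (ζ : H)
    (h : ∀ k ∈ (g3_sub M ξ).topologicalClosure, ⟪k, ζ⟫_ℂ = 0) : ζ = 0 :=
  g3_zero_of M ξ hcyc ζ (fun a ha has => h _ (subset_closure ⟨a, ha, has, rfl⟩))


omit [CompleteSpace H] in
theorem g3_uniq (K : Submodule ℝ H) {z r s : H} (hr : r ∈ K) (hs : s ∈ K)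
    (h1 : ∀ k ∈ K, (⟪k, z - r⟫_ℂ).re = 0) (h2 : ∀ k ∈ K, (⟪k, z - s⟫_ℂ).re = 0) : r = s := by
  have h3 := h1 (r - s) (K.sub_mem hr hs)
  have h4 := h2 (r - s) (K.sub_mem hr hs)
  have h5 : (⟪r - s, r - s⟫_ℂ).re = 0 := by
    have e : r - s = (z - s) - (z - r) := by abel
    conv_lhs => rw [e, inner_sub_right, Complex.sub_re, ← e, h3, h4, sub_zero]
  have h6 : ‖r - s‖ ^ 2 = 0 := by
    rw [← h5, inner_self_eq_norm_sq_to_K]; norm_cast
  have h7 : ‖r - s‖ = 0 := by simpa using h6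
  exact sub_eq_zero.mp (norm_eq_zero.mp h7)

theorem g3_dbl (K : Submodule ℝ H) (hcl : IsClosed (K : Set H)) (v : H)
    (h : ∀ n : H, (∀ k ∈ K, (⟪k, n⟫_ℂ).re = 0) → (⟪n, v⟫_ℂ).re = 0) : v ∈ K := by
  obtain ⟨P, hP1, hP2⟩ := g1_proj K hcl
  have h1 := h (v - P v) (hP2 v)
  have h2 : (⟪v - P v, P v⟫_ℂ).re = 0 := by
    have h3 := hP2 v (P v) (hP1 v)
    rw [← inner_conj_symm, Complex.conj_re]
    exact h3
  have h4 : ‖v - P v‖ ^ 2 = 0 := by
    have h5 : (⟪v - P v, v - P v⟫_ℂ).re = 0 := by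
      conv_lhs => rw [inner_sub_right, Complex.sub_re, h1, h2, sub_zero]
    rw [← h5, inner_self_eq_norm_sq_to_K]; norm_cast
  have h7 : ‖v - P v‖ = 0 := by simpa using h4
  rw [sub_eq_zero.mp (norm_eq_zero.mp h7)]
  exact hP1 v

omit [CompleteSpace H] in
theorem g3_two_sub (R : H →L[ℂ] H) (z : H) : (2 - R) z = (2 : ℂ) • z - R z := by
  rw [← one_add_one_eq_two, ← one_add_one_eq_two, add_smul, one_smul]
  rfl

/-- G3 -/
theorem exists_RvD_pair (M : VonNeumannAlgebra H) (ξ : H)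
    (hcyc : Dense {ζ : H | ∃ a ∈ M, a ξ = ζ})
    (hcyc' : Dense {ζ : H | ∃ a ∈ M.commutant, a ξ = ζ}) :
    ∃ (D : RvD M ξ) (D' : RvD M.commutant ξ), D'.R = 2 - D.R ∧ D'.T = D.T ∧ D'.J = D.J := by
  set K : Submodule ℝ H := (g3_sub M ξ).topologicalClosure with hK
  have hKcl : IsClosed (K : Set H) := (g3_sub M ξ).isClosed_topologicalClosure
  obtain ⟨S⟩ := exists_stdData K hKcl (fun ζ h1 h2 => g3_hsep M ξ hcyc' ζ h1 h2)
    (fun ζ h => g3_hdense M ξ hcyc ζ h)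
  have haK : ∀ a ∈ M, star a = a → a ξ ∈ K := fun a ha has => subset_closure ⟨a, ha, has, rfl⟩
  have hξK : ξ ∈ K := haK 1 (one_mem M) (star_one _)
  have him : ∀ y ∈ M.commutant, star y = y → ∀ k ∈ K, (⟪k, y ξ⟫_ℂ).im = 0 :=
    fun y hy hys k hk => g3_inner_im M ξ hk hy hys
  have him1 : ∀ k ∈ K, (⟪k, ξ⟫_ℂ).im = 0 := him 1 (one_mem _) (star_one _)
  have hRξ : S.R ξ = ξ := by
    obtain ⟨-, h1, h2⟩ := S.JT_K' ξ him1
    exact g3_uniq K h1 hξK h2 (fun k _ => by simp)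
  have hTT : S.T (S.T ξ) = ξ := by
    have h1 : (S.T * S.T) ξ = (S.R * (2 - S.R)) ξ := by rw [S.T_sq]
    have h2 : (S.R * (2 - S.R)) ξ = S.R ((2 : ℂ) • ξ - S.R ξ) := by
      rw [← g3_two_sub]; rfl
    rw [h2, hRξ] at h1
    have h3 : (2 : ℂ) • ξ - ξ = ξ := by rw [two_smul]; abel
    rw [h3, hRξ] at h1
    exact h1
  have hTξ : S.T ξ = ξ := by
    have hpos := (ContinuousLinearMap.nonneg_iff_isPositive S.T).mp S.T_nonneg
    set w : H := S.T ξ - ξ with hw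
    have h1 : S.T w = -w := by
      rw [hw, map_sub, hTT]; abel
    have h2 := hpos.re_inner_nonneg_right w
    rw [h1, inner_neg_right] at h2
    have h3 : (⟪w, w⟫_ℂ).re = ‖w‖ ^ 2 := by rw [inner_self_eq_norm_sq_to_K]; norm_cast
    have h4 : ‖w‖ ^ 2 ≤ 0 := by
      have : 0 ≤ -(⟪w, w⟫_ℂ).re := h2
      linarith
    have h5 : ‖w‖ = 0 := by nlinarith [norm_nonneg w]
    exact sub_eq_zero.mp (norm_eq_zero.mp h5)
  have hJξ : S.J ξ = ξ := by
    have h1 := (S.JT_K' ξ him1).1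
    rwa [hTξ, hRξ] at h1
  have haR : ∀ a ∈ M, star a = a → S.J (S.T (a ξ)) = (2 : ℂ) • a ξ - S.R (a ξ) :=
    fun a ha has => S.JT_K (a ξ) (haK a ha has)
  have hyR : ∀ y ∈ M.commutant, star y = y → S.J (S.T (y ξ)) = S.R (y ξ) :=
    fun y hy hys => (S.JT_K' (y ξ) (him y hy hys)).1
  let D : RvD M ξ :=
    { R := S.R
      T := S.T
      J := S.J
      R_sa := S.R_sa
      R_nonneg := S.R_nonneg
      R_le := S.R_le
      R_inj := S.R_inj
      R_inj' := S.R_inj'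
      T_nonneg := S.T_nonneg
      T_sq := S.T_sq
      J_J := S.J_J
      J_R := S.J_R
      J_T := S.J_T
      R_xi := hRξ
      J_xi := hJξ
      JT_M := haR
      JT_M' := hyR
      R_M' := by
        intro y hy hys x hx hxs hb
        obtain ⟨-, h1, h2⟩ := S.JT_K' (y ξ) (him y hy hys)
        refine g3_uniq K h1 ?_ h2 ?_
        · have h3 := haK ((2 : ℂ) • x) (g3_smul_mem M hx _) (by rw [star_smul, hxs]; simp)
          exact h3
        · have hcl : IsClosed {k : H | (⟪k, y ξ - (2 : ℂ) • x ξ⟫_ℂ).re = 0} :=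
            isClosed_eq (by fun_prop) continuous_const
          have h4 : closure (saVec M ξ) ⊆ {k : H | (⟪k, y ξ - (2 : ℂ) • x ξ⟫_ℂ).re = 0} := by
            refine closure_minimal ?_ hcl
            rintro _ ⟨b, hbm, hbs, rfl⟩
            exact hb b hbm hbs
          exact fun k hk => h4 hk }
  let D' : RvD M.commutant ξ :=
    { R := 2 - S.R
      T := S.T
      J := S.J
      R_sa := by rw [star_sub, S.R_sa, star_ofNat]
      R_nonneg := by
        intro z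
        rw [g3_two_sub, inner_sub_right, inner_smul_right, Complex.sub_re,
          inner_self_eq_norm_sq_to_K]
        have h1 := S.R_le z
        have h2 : ((2 : ℂ) * ((‖z‖ : ℂ)) ^ 2).re = 2 * ‖z‖ ^ 2 := by norm_cast
        have h3 : 0 ≤ ((2 : ℂ) * ((‖z‖ : ℂ)) ^ 2).re - (⟪z, S.R z⟫_ℂ).re := by
          rw [h2]; linarith
        exact h3
      R_le := by
        intro z
        rw [g3_two_sub, inner_sub_right, inner_smul_right, Complex.sub_re,
          inner_self_eq_norm_sq_to_K]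
        have h1 := S.R_nonneg z
        have h2 : ((2 : ℂ) * ((‖z‖ : ℂ)) ^ 2).re = 2 * ‖z‖ ^ 2 := by norm_cast
        have h3 : ((2 : ℂ) * ((‖z‖ : ℂ)) ^ 2).re - (⟪z, S.R z⟫_ℂ).re ≤ 2 * ‖z‖ ^ 2 := by
          rw [h2]; linarith
        exact h3
      R_inj := by
        intro z hz
        rw [g3_two_sub, sub_eq_zero] at hz
        exact S.R_inj' z hz.symm
      R_inj' := by
        intro z hz
        rw [g3_two_sub, sub_eq_self] at hz
        exact S.R_inj z hz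
      T_nonneg := S.T_nonneg
      T_sq := by rw [S.T_sq]; noncomm_ring
      J_J := S.J_J
      J_R := by
        intro z
        rw [g3_two_sub, g3_two_sub, map_sub, map_smulₛₗ, S.J_R, map_ofNat]
      J_T := S.J_T
      R_xi := by rw [g3_two_sub, hRξ, two_smul]; abel
      J_xi := hJξ
      JT_M := by
        intro a ha has
        rw [g3_two_sub, hyR a ha has]; abel
      JT_M' := by
        intro y hy hys
        rw [VonNeumannAlgebra.commutant_commutant] at hy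
        rw [g3_two_sub, haR y hy hys]
      R_M' := by
        intro y hy hys x hx hxs hb
        rw [VonNeumannAlgebra.commutant_commutant] at hy
        set v : H := y ξ - (2 : ℂ) • x ξ with hv
        have hk0 : -(Complex.I • v) ∈ K := by
          refine g3_dbl K hKcl _ (fun n hn => ?_)
          have h1 : Complex.I • n ∈ closure (saVec M.commutant ξ) := by
            refine DL M ξ hcyc _ (fun a ha has => ?_)
            rw [inner_smul_right]
            have := hn (a ξ) (haK a ha has)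
            simpa using this
          have hcl : IsClosed {k : H | (⟪k, v⟫_ℂ).re = 0} :=
            isClosed_eq (by fun_prop) continuous_const
          have h4 : closure (saVec M.commutant ξ) ⊆ {k : H | (⟪k, v⟫_ℂ).re = 0} := by
            refine closure_minimal ?_ hcl
            rintro _ ⟨b, hbm, hbs, rfl⟩
            exact hb b hbm hbs
          have h5 : (⟪Complex.I • n, v⟫_ℂ).re = 0 := h4 h1
          rw [inner_smul_left] at h5
          rw [inner_neg_right, inner_smul_right]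
          simpa using h5
        have hk1 := S.JT_K _ hk0
        have e1 : S.J (S.T (-(Complex.I • v))) = Complex.I • S.J (S.T v) := by
          rw [map_neg, map_neg, map_smul, map_smulₛₗ]
          simp
        have e2 : (2 : ℂ) • (-(Complex.I • v)) - S.R (-(Complex.I • v)) =
            -(Complex.I • ((2 : ℂ) • v - S.R v)) := by
          rw [map_neg, map_smul]; module
        rw [e1, e2] at hk1
        have hk2 : S.J (S.T v) = -((2 : ℂ) • v - S.R v) := by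
          have h1 := congrArg (fun z => (-Complex.I) • z) hk1
          simp only [smul_smul, smul_neg] at h1
          simpa using h1
        have hy1 := haR y hy hys
        have hx1 := hyR x hx hxs
        have hJv : S.J (S.T v) = S.J (S.T (y ξ)) - (2 : ℂ) • S.J (S.T (x ξ)) := by
          rw [hv, map_sub, map_sub, map_smul, map_smulₛₗ, map_ofNat]
        have hRv : S.R v = S.R (y ξ) - (2 : ℂ) • S.R (x ξ) := by
          rw [hv, map_sub, map_smul]
        rw [hJv, hy1, hx1, hRv, hv] at hk2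
        rw [g3_two_sub]
        have h9 : (2 : ℂ) • ((2 : ℂ) • y ξ - S.R (y ξ)) = (2 : ℂ) • ((2 : ℂ) • x ξ) := by
          have h10 := sub_eq_zero.mpr hk2
          apply sub_eq_zero.mp
          rw [← h10]
          module
        exact smul_right_injective H (two_ne_zero' ℂ) h9 }
  exact ⟨D, D', rfl, rfl, rfl⟩

end Vale.Agent.P132
end

section

/-!
# P132, G6: `ThData` from `R`, `T`, `J`
-/

open scoped ComplexConjugate Topology BoundedContinuousFunction InnerProductSpace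
open Set Filter Complex ContinuousLinearMap

noncomputable section

namespace Vale.Agent.P132.G6

/-! ### facts about the change of variable -/

lemma hh_one : hh 1 = 0 := by
  unfold hh; norm_num

lemma hh_sub (r : ℝ) : hh (2 - r) = - hh r := by
  unfold hh
  rw [← Real.log_inv, inv_div]
  congr 2
  ring

lemma exp_hh {r : ℝ} (hr : r ∈ Ioo (0 : ℝ) 2) :
    Real.exp (hh r) = (2 - r) / r := by
  unfold hh
  rw [Real.exp_log (div_pos (by linarith [hr.2]) hr.1)]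

lemma ww_le {r : ℝ} (hr : r ∈ Ioo (0 : ℝ) 2) :
    ww r ≤ 4 * Real.exp (-|hh r|) := by
  have h0 : 0 < r := hr.1
  have h2 : 0 < 2 - r := by linarith [hr.2]
  rcases le_total 0 (hh r) with h | h
  · rw [abs_of_nonneg h, Real.exp_neg, exp_hh hr, inv_div]
    unfold ww
    rw [← mul_div_assoc, le_div_iff₀ h2]
    nlinarith [mul_pos h0 h2]
  · rw [abs_of_nonpos h, neg_neg, exp_hh hr]
    unfold ww
    rw [← mul_div_assoc, le_div_iff₀ h0]
    nlinarith [mul_pos h0 h2]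

lemma ww_eq_zero {r : ℝ} (hr : r ∈ Icc (0 : ℝ) 2)
    (h : r ∉ Ioo (0 : ℝ) 2) : ww r = 0 := by
  rcases eq_or_lt_of_le hr.1 with h0 | h0
  · rw [← h0]; simp [ww]
  · rcases eq_or_lt_of_le hr.2 with h2 | h2
    · rw [h2]; simp [ww]
    · exact absurd ⟨h0, h2⟩ h

lemma rB_hh {r : ℝ} (hr : r ∈ Ioo (0 : ℝ) 2) : rB (hh r) = (r : ℂ) := by
  rw [rB_apply, exp_hh hr]
  congr 1
  have h0 : r ≠ 0 := hr.1.ne'
  field_simp
  ring

/-- the square root of `tB` -/
def sB : ℝ →ᵇ ℂ :=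
  BoundedContinuousFunction.ofNormedAddCommGroup
    (fun h : ℝ => ((Real.sqrt (2 * Real.exp (h / 2) / (1 + Real.exp h)) : ℝ) : ℂ))
    (by
      have : Continuous fun h : ℝ => 2 * Real.exp (h / 2) / (1 + Real.exp h) :=
        (by fun_prop : Continuous fun h : ℝ => 2 * Real.exp (h / 2)).div (by fun_prop)
          (fun h => by positivity)
      exact continuous_ofReal.comp (Real.continuous_sqrt.comp this)) 1
    (fun h => by
      rw [Complex.norm_real, Real.norm_of_nonneg (Real.sqrt_nonneg _)]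
      refine Real.sqrt_le_iff.2 ⟨zero_le_one, ?_⟩
      rw [one_pow]
      have h1 : 0 < Real.exp h := Real.exp_pos h
      have h2 : Real.exp h = Real.exp (h / 2) ^ 2 := by
        rw [← Real.exp_nat_mul]; ring_nf
      rw [div_le_iff₀ (by positivity)]
      linarith only [sq_nonneg (Real.exp (h / 2) - 1), h2])

/-- cutoff functions -/
def cutB (n : ℝ) : ℝ →ᵇ ℂ :=
  BoundedContinuousFunction.ofNormedAddCommGroup
    (fun h : ℝ => ((max 0 (min 1 (n + 1 - |h|)) : ℝ) : ℂ)) (by fun_prop) 1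
    (fun h => by
      rw [Complex.norm_real, Real.norm_of_nonneg (le_max_left _ _)]
      exact max_le zero_le_one (min_le_left _ _))

lemma cutB_apply (n h : ℝ) :
    cutB n h = ((max 0 (min 1 (n + 1 - |h|)) : ℝ) : ℂ) := rfl

lemma norm_cutB (n : ℝ) : ‖cutB n‖ ≤ 1 :=
  BoundedContinuousFunction.norm_ofNormedAddCommGroup_le _ zero_le_one _

lemma cutB_compact (n : ℝ) : HasCompactSupport (cutB n) := by
  apply HasCompactSupport.intro (K := Icc (-(n + 1)) (n + 1)) isCompact_Icc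
  intro x hx
  rw [cutB_apply]
  have h1 : n + 1 < |x| := by
    by_contra h
    push Not at h
    exact hx (abs_le.1 h)
  rw [max_eq_left]
  · simp
  · exact (min_le_right _ _).trans (by linarith)

variable {H : Type*} [NormedAddCommGroup H] [InnerProductSpace ℂ H] [CompleteSpace H]

namespace RData

variable {R : H →L[ℂ] H}

/-- constructor -/
lemma of_bounds (R_sa : star R = R)
    (R_nonneg : ∀ ζ, 0 ≤ (⟪ζ, R ζ⟫_ℂ).re)
    (R_le : ∀ ζ, (⟪ζ, R ζ⟫_ℂ).re ≤ 2 * ‖ζ‖ ^ 2)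
    (R_inj : ∀ ζ, R ζ = 0 → ζ = 0)
    (R_inj' : ∀ ζ, R ζ = (2 : ℂ) • ζ → ζ = 0) : RData R := by
  have hsa : IsSelfAdjoint R := R_sa
  have hsymm : ∀ z, RCLike.re (inner ℂ (R z) z) = (⟪z, R z⟫_ℂ).re := fun z =>
    inner_re_symm (𝕜 := ℂ) (R z) z
  refine ⟨hsa, ?_, R_inj, R_inj'⟩
  have h0 : 0 ≤ R := by
    rw [ContinuousLinearMap.nonneg_iff_isPositive]
    refine (ContinuousLinearMap.isPositive_def' (T := R)).2 ⟨hsa, fun z => ?_⟩
    rw [ContinuousLinearMap.reApplyInnerSelf_apply, hsymm]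
    exact R_nonneg z
  have h2 : R ≤ algebraMap ℝ (H →L[ℂ] H) 2 := by
    rw [ContinuousLinearMap.le_def]
    refine (ContinuousLinearMap.isPositive_def').2 ⟨?_, fun z => ?_⟩
    · exact (IsSelfAdjoint.algebraMap (H →L[ℂ] H) (IsSelfAdjoint.all (2 : ℝ))).sub hsa
    · rw [ContinuousLinearMap.reApplyInnerSelf_apply, sub_apply, inner_sub_left, map_sub, hsymm]
      have h3 : (algebraMap ℝ (H →L[ℂ] H) 2) z = (2 : ℂ) • z := by
        rw [Algebra.algebraMap_eq_smul_one]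
        simp [smul_apply, one_apply_eq_self]
        rfl
      have h4 : RCLike.re (inner ℂ ((2 : ℂ) • z) z) = 2 * ‖z‖ ^ 2 := by
        rw [inner_smul_left, ← inner_self_eq_norm_sq (𝕜 := ℂ) z]
        simp
      rw [h3, h4]
      linarith [R_le z]
  intro r hr
  refine ⟨spectrum_nonneg_of_nonneg h0 hr, ?_⟩
  exact (le_algebraMap_iff_spectrum_le (a := R) (r := 2) hsa).1 h2 r hr

variable (hR : RData R)
include hR

/-- `Th F` is a usual function of `R` when `F ∘ h` extends continuously. -/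
lemma Th_eq_Ph {F : ℝ →ᵇ ℂ} {f : ℝ → ℂ} (hf : ContinuousOn f (spectrum ℝ R))
    (h : ∀ r ∈ Ioo (0 : ℝ) 2, F (hh r) = f r) : hR.Th F = Ph R f := by
  rw [Th_apply]
  apply hR.ThOp_eq_of
  unfold Wop Bop
  rw [← Ph_mul hf contW]
  apply Ph_congr
  intro r hr
  simp only [GG]
  by_cases hr2 : r ∈ Ioo (0 : ℝ) 2
  · rw [h r hr2, mul_comm]
  · rw [ww_eq_zero (hR.spec hr) hr2]; simp

lemma Th_rB : hR.Th rB = R := by
  rw [hR.Th_eq_Ph (f := fun r => (r : ℂ)) (by fun_prop) fun r hr => rB_hh hr, Ph_ofReal]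
  exact cfc_id' ℝ R hR.sa

lemma Th_nonneg {F G : ℝ →ᵇ ℂ} (h : ∀ x, F x = conj (G x) * G x) : 0 ≤ hR.Th F := by
  have h1 : F = star G * G := by
    ext x
    rw [h x]; rfl
  rw [h1, map_mul, map_star]
  exact star_mul_self_nonneg _

lemma Th_sub_rB : hR.Th (2 - rB) = 2 - R := by
  rw [map_sub, hR.Th_rB, map_ofNat]

lemma Th_tB_nonneg : 0 ≤ hR.Th tB := by
  apply hR.Th_nonneg (G := sB)
  intro x
  have h1 : sB x = ((Real.sqrt (2 * Real.exp (x / 2) / (1 + Real.exp x)) : ℝ) : ℂ) := rfl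
  rw [h1, conj_ofReal, ← ofReal_mul, Real.mul_self_sqrt (by positivity)]
  rfl

lemma Th_tB_sq : hR.Th tB * hR.Th tB = R * (2 - R) := by
  have h0 : R * (2 - R) = hR.Th rB * hR.Th (2 - rB) := by rw [hR.Th_rB, hR.Th_sub_rB]
  rw [h0, ← map_mul, ← map_mul]
  congr 1
  ext h
  simp only [BoundedContinuousFunction.coe_mul, Pi.mul_apply, tB_apply, rB_apply,
    BoundedContinuousFunction.coe_sub, Pi.sub_apply]
  have h2 : (2 : ℝ →ᵇ ℂ) h = ((2 : ℝ) : ℂ) := by
    simp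
  rw [h2, ← ofReal_mul, ← ofReal_sub, ← ofReal_mul]
  congr 1
  have h1 : 0 < Real.exp h := Real.exp_pos h
  have h2 : Real.exp h = Real.exp (h / 2) ^ 2 := by
    rw [← Real.exp_nat_mul]; ring_nf
  field_simp
  rw [h2]; ring

lemma Th_tB {T : H →L[ℂ] H} (hT : 0 ≤ T) (hT2 : T * T = R * (2 - R)) : hR.Th tB = T := by
  have h1 := CFC.sqrt_unique hT2 hT
  have h2 := CFC.sqrt_unique hR.Th_tB_sq hR.Th_tB_nonneg
  rw [← h1, h2]

/-! ### strong continuity -/

lemma norm_Th_le (F : ℝ →ᵇ ℂ) (z : H) : ‖hR.Th F z‖ ≤ ‖F‖ * ‖z‖ := hR.norm_ThOp_le F z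

lemma norm_Th_W_le (F : ℝ →ᵇ ℂ) {ε : ℝ} (hε : 0 ≤ ε)
    (h : ∀ r ∈ Ioo (0 : ℝ) 2, ww r * ‖F (hh r)‖ ≤ ε) (w : H) :
    ‖hR.Th F (Wop R w)‖ ≤ ε * ‖w‖ := by
  rw [Th_apply, hR.ThOp_W]
  unfold Bop
  have h1 : ‖Ph R (GG F) w‖ ≤ ‖Ph R (fun _ => (ε : ℂ) * 1) w‖ := by
    apply norm_Ph_le (hR.contG F) (by fun_prop)
    intro r hr
    rw [mul_one, Complex.norm_real, Real.norm_of_nonneg hε, GG, norm_mul, Complex.norm_real,
      Real.norm_of_nonneg (ww_nonneg (hR.spec hr))]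
    by_cases hr2 : r ∈ Ioo (0 : ℝ) 2
    · exact h r hr2
    · rw [ww_eq_zero (hR.spec hr) hr2, zero_mul]
      exact hε
  rw [Ph_smul _ (by fun_prop), Ph_one hR.sa, smul_apply, norm_smul, one_apply_eq_self,
    Complex.norm_real, Real.norm_of_nonneg hε] at h1
  exact h1

/-- `F ↦ Th F` is strongly continuous on bounded sets for locally uniform convergence. -/
lemma tendsto_Th {ι : Type*} {l : Filter ι} (F : ι → ℝ →ᵇ ℂ) (G : ℝ →ᵇ ℂ) (C : ℝ)
    (hC : ∀ i, ‖F i‖ ≤ C)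
    (hloc : ∀ n : ℝ, TendstoUniformlyOn (fun i x => F i x) G l (Icc (-n) n)) (z : H) :
    Tendsto (fun i => hR.Th (F i) z) l (𝓝 (hR.Th G z)) := by
  set K : ℝ := |C| + ‖G‖ + 1 with hK
  have hKpos : 0 < K := by positivity
  have hFG : ∀ i, ‖F i - G‖ ≤ K := fun i => by
    calc ‖F i - G‖ ≤ ‖F i‖ + ‖G‖ := norm_sub_le _ _
      _ ≤ |C| + ‖G‖ := by gcongr; exact (hC i).trans (le_abs_self C)
      _ ≤ K := by rw [hK]; linarith
  rw [Metric.tendsto_nhds]
  intro ε hε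
  obtain ⟨w, hw⟩ : ∃ w, ‖z - Wop R w‖ < ε / (2 * K) := by
    have h1 := hR.dense_Wop z
    rw [Metric.mem_closure_iff] at h1
    obtain ⟨b, ⟨w, rfl⟩, hb⟩ := h1 (ε / (2 * K)) (by (clear * - hε; positivity))
    exact ⟨w, by rwa [dist_eq_norm] at hb⟩
  set δ : ℝ := ε / (2 * (‖w‖ + 1)) with hδ
  have hδpos : 0 < δ := by positivity
  have h3 : Tendsto (fun n : ℝ => 4 * Real.exp (-n) * K) atTop (𝓝 0) := by
    have := (Real.tendsto_exp_neg_atTop_nhds_zero.const_mul 4).mul_const K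
    simpa using this
  obtain ⟨n, hn⟩ := (h3.eventually (gt_mem_nhds hδpos)).exists
  have h4 := Metric.tendstoUniformlyOn_iff.1 (hloc n) (δ / 4) (by positivity)
  filter_upwards [h4] with i hi
  rw [dist_eq_norm]
  have h5 : hR.Th (F i) z - hR.Th G z =
      hR.Th (F i - G) (z - Wop R w) + hR.Th (F i - G) (Wop R w) := by
    rw [← map_add, sub_add_cancel, map_sub]; rfl
  have h6 : ‖hR.Th (F i - G) (z - Wop R w)‖ ≤ K * (ε / (2 * K)) :=
    (hR.norm_Th_le _ _).trans (mul_le_mul (hFG i) hw.le (norm_nonneg _) hKpos.le)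
  have h7 : ‖hR.Th (F i - G) (Wop R w)‖ ≤ δ * ‖w‖ := by
    apply hR.norm_Th_W_le _ hδpos.le
    intro r hr
    have hw4 : ww r ≤ 4 * Real.exp (-|hh r|) := ww_le hr
    by_cases hrn : |hh r| ≤ n
    · have h8 : ‖(F i - G) (hh r)‖ ≤ δ / 4 := by
        have := hi (hh r) (abs_le.1 hrn)
        rw [dist_comm, dist_eq_norm] at this
        exact this.le
      have h9 : ww r ≤ 4 := hw4.trans (by
        have : Real.exp (-|hh r|) ≤ 1 := Real.exp_le_one_iff.2 (by simp)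
        linarith only [this])
      calc ww r * ‖(F i - G) (hh r)‖ ≤ 4 * (δ / 4) :=
            mul_le_mul h9 h8 (norm_nonneg _) (by norm_num)
        _ = δ := by ring
    · push Not at hrn
      have h8 : ‖(F i - G) (hh r)‖ ≤ K := ((F i - G).norm_coe_le_norm _).trans (hFG i)
      have h9 : ww r ≤ 4 * Real.exp (-n) := hw4.trans (by
        have : Real.exp (-|hh r|) ≤ Real.exp (-n) := Real.exp_le_exp.2 (by linarith only [hrn])
        linarith)
      calc ww r * ‖(F i - G) (hh r)‖ ≤ 4 * Real.exp (-n) * K :=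
            mul_le_mul h9 h8 (norm_nonneg _) (by positivity)
        _ ≤ δ := hn.le
  have h8 : K * (ε / (2 * K)) = ε / 2 := by field_simp
  have h9 : δ * ‖w‖ < ε / 2 := by
    rw [hδ, div_mul_eq_mul_div, div_lt_div_iff₀ (by positivity) (by norm_num)]
    linarith only [hε]
  calc ‖hR.Th (F i) z - hR.Th G z‖ ≤ _ + _ := by rw [h5]; exact norm_add_le _ _
    _ < ε := by rw [h8] at h6; linarith only [h9, h7, h6]

lemma tendsto_Th_cutB (z : H) : Tendsto (fun n : ℝ => hR.Th (cutB n) z) atTop (𝓝 z) := by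
  have h1 := hR.tendsto_Th (l := atTop) (fun n : ℝ => cutB n) 1 1 norm_cutB (fun m => ?_) z
  · simpa using h1
  · rw [Metric.tendstoUniformlyOn_iff]
    intro ε hε
    filter_upwards [eventually_ge_atTop m] with n hn x hx
    have h2 : |x| ≤ m := abs_le.2 hx
    have h3 : cutB n x = 1 := by
      rw [cutB_apply, min_eq_left (by linarith), max_eq_right zero_le_one]
      simp
    rw [h3]
    simpa using hε

lemma Th_nondeg (z : H) (ε : ℝ) (hε : 0 < ε) :
    ∃ F : ℝ →ᵇ ℂ, HasCompactSupport F ∧ ‖F‖ ≤ 1 ∧ ‖hR.Th F z - z‖ < ε := by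
  obtain ⟨n, hn⟩ := ((Metric.tendsto_nhds.1 (hR.tendsto_Th_cutB z)) ε hε).exists
  exact ⟨cutB n, cutB_compact n, norm_cutB n, by rwa [dist_eq_norm] at hn⟩

/-! ### fixed vectors -/

lemma Ph_fix {f : ℝ → ℂ} (hf : ContinuousOn f (Icc 0 2)) (z : H) (hz : R z = z) :
    Ph R f z = f 1 • z := by
  have hfs : ContinuousOn f (spectrum ℝ R) := hf.mono hR.spec
  obtain ⟨K, hK⟩ := isCompact_Icc.exists_bound_of_continuousOn
    (hf.sub (continuousOn_const (c := f 1)))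
  have key : ∀ ε > 0, ‖Ph R f z - f 1 • z‖ ≤ ε * ‖z‖ := by
    intro ε hε
    have h1 := Metric.continuousOn_iff.1 hf 1 (by norm_num) ε hε
    obtain ⟨δ, hδ, h1⟩ := h1
    set L : ℝ := |K| / δ with hL
    have hL0 : 0 ≤ L := by positivity
    have e1 : Ph R f z - f 1 • z = Ph R (fun r => f r + (-f 1) * 1) z := by
      rw [Ph_add hfs (by fun_prop), Ph_smul _ (by fun_prop), Ph_one hR.sa]
      simp [sub_eq_add_neg]
    have e2 : Ph R (fun r => (ε : ℂ) * 1 + (L : ℂ) * ((|r - 1| : ℝ) : ℂ)) z =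
        (ε : ℂ) • z + (L : ℂ) • Ph R (fun r => ((|r - 1| : ℝ) : ℂ)) z := by
      have ca : ContinuousOn (fun r : ℝ => ((|r - 1| : ℝ) : ℂ)) (spectrum ℝ R) :=
        (Complex.continuous_ofReal.comp
          (continuous_abs.comp (continuous_id.sub continuous_const))).continuousOn
      rw [Ph_add (f := fun _ => (ε : ℂ) * 1) (g := fun r => (L : ℂ) * ((|r - 1| : ℝ) : ℂ))
          continuousOn_const (continuousOn_const.mul ca),
        Ph_smul (f := fun _ => 1) _ continuousOn_const, Ph_one hR.sa,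
        Ph_smul (f := fun r => ((|r - 1| : ℝ) : ℂ)) _ ca]
      rfl
    have e3 : Ph R (fun r => ((|r - 1| : ℝ) : ℂ)) z = 0 := by
      have h2 : ‖Ph R (fun r => ((|r - 1| : ℝ) : ℂ)) z‖ ≤
          ‖Ph R (fun r => (r : ℂ) + (-1 : ℂ) * 1) z‖ := by
        apply norm_Ph_le (by fun_prop) (by fun_prop)
        intro r _
        have h3 : (r : ℂ) + (-1 : ℂ) * 1 = ((r - 1 : ℝ) : ℂ) := by push_cast; ring
        rw [h3, Complex.norm_real, Complex.norm_real]
        simp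
      have h4 : Ph R (fun r => (r : ℂ) + (-1 : ℂ) * 1) z = 0 := by
        rw [Ph_add (by fun_prop) (by fun_prop), Ph_smul _ (by fun_prop), Ph_one hR.sa, Ph_ofReal]
        have h5 : cfc (fun r : ℝ => r) R = R := cfc_id' ℝ R hR.sa
        rw [h5]
        simp [hz]
      rw [h4, norm_zero] at h2
      exact norm_le_zero_iff.1 h2
    have h2 : ‖Ph R (fun r => f r + (-f 1) * 1) z‖ ≤
        ‖Ph R (fun r => (ε : ℂ) * 1 + (L : ℂ) * ((|r - 1| : ℝ) : ℂ)) z‖ := by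
      apply norm_Ph_le (by fun_prop) (by fun_prop)
      intro r hr
      have h3 : (ε : ℂ) * 1 + (L : ℂ) * ((|r - 1| : ℝ) : ℂ) = ((ε + L * |r - 1| : ℝ) : ℂ) := by
        push_cast; ring
      have h4 : f r + (-f 1) * 1 = f r - f 1 := by ring
      rw [h3, h4, Complex.norm_real, Real.norm_of_nonneg (by positivity)]
      by_cases hrd : |r - 1| < δ
      · have h5 := h1 r (hR.spec hr) (by rwa [Real.dist_eq])
        rw [dist_eq_norm] at h5
        have : 0 ≤ L * |r - 1| := by (clear * - hδ; positivity)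
        linarith
      · push Not at hrd
        have h5 : ‖f r - f 1‖ ≤ K := hK r (hR.spec hr)
        have h6 : |K| ≤ L * |r - 1| := by
          rw [hL, div_mul_eq_mul_div, le_div_iff₀ hδ]
          exact mul_le_mul_of_nonneg_left hrd (abs_nonneg _)
        linarith [le_abs_self K]
    rw [e2, e3, smul_zero, add_zero, norm_smul, Complex.norm_real, Real.norm_of_nonneg hε.le,
      ← e1] at h2
    exact h2
  have h0 : ‖Ph R f z - f 1 • z‖ ≤ 0 := by
    apply le_of_forall_pos_le_add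
    intro ε hε
    have h1 := key (ε / (‖z‖ + 1)) (by positivity)
    have h2 : ε / (‖z‖ + 1) * ‖z‖ ≤ ε := by
      rw [div_mul_eq_mul_div, div_le_iff₀ (by positivity)]
      linarith only [hε]
    linarith
  exact sub_eq_zero.1 (norm_le_zero_iff.1 h0)

lemma Th_fix (z : H) (hz : R z = z) (F : ℝ →ᵇ ℂ) : hR.Th F z = F 0 • z := by
  have h1 : Wop R z = z := by
    rw [hR.Wop_eq, mul_apply_eq_comp]
    have : ((2 : ℂ) • (1 : H →L[ℂ] H) - R) z = z := by
      simp only [sub_apply, smul_apply, one_apply_eq_self, hz]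
      rw [two_smul, add_sub_cancel_right]
    rw [this, hz]
  have h2 : hR.Th F z = Bop R F z := by
    conv_lhs => rw [← h1]
    rw [Th_apply, hR.ThOp_W]
  rw [h2]
  unfold Bop
  rw [hR.Ph_fix (continuousOn_GG F.continuous F.norm_coe_le_norm) z hz]
  congr 1
  simp only [GG, hh_one, ww]
  norm_num

end RData

/-! ### the antiunitary `J` -/

omit [CompleteSpace H] in
theorem inner_Jaux (J : H ≃ₗᵢ⋆[ℂ] H) (ζ η : H) : ⟪J ζ, J η⟫_ℂ = ⟪η, ζ⟫_ℂ := by
  have h1 := inner_eq_sum_norm_sq_div_four (𝕜 := ℂ) (J ζ) (J η)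
  have h2 := inner_eq_sum_norm_sq_div_four (𝕜 := ℂ) η ζ
  have e1 : ‖J ζ + J η‖ = ‖ζ + η‖ := by rw [← map_add, J.norm_map]
  have e2 : ‖J ζ - J η‖ = ‖ζ - η‖ := by rw [← map_sub, J.norm_map]
  have e3 : ‖J ζ - RCLike.I (K := ℂ) • J η‖ = ‖η - RCLike.I (K := ℂ) • ζ‖ := by
    have : J ζ - RCLike.I (K := ℂ) • J η = J (ζ + RCLike.I (K := ℂ) • η) := by
      simp [map_smulₛₗ, sub_eq_add_neg]
    rw [this, J.norm_map]
    have : ζ + RCLike.I (K := ℂ) • η = RCLike.I (K := ℂ) • (η - RCLike.I (K := ℂ) • ζ) := by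
      rw [smul_sub, smul_smul]; simp [add_comm]
    rw [this, norm_smul]; simp
  have e4 : ‖J ζ + RCLike.I (K := ℂ) • J η‖ = ‖η + RCLike.I (K := ℂ) • ζ‖ := by
    have : J ζ + RCLike.I (K := ℂ) • J η = J (ζ - RCLike.I (K := ℂ) • η) := by
      simp [map_smulₛₗ, sub_eq_add_neg]
    rw [this, J.norm_map]
    have : ζ - RCLike.I (K := ℂ) • η = -(RCLike.I (K := ℂ) • (η + RCLike.I (K := ℂ) • ζ)) := by
      rw [smul_add, smul_smul]; simp [sub_eq_add_neg]
    rw [this, norm_neg, norm_smul]; simp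
  rw [h1, h2, e1, e2, e3, e4, add_comm ζ η, norm_sub_rev ζ η]

theorem norm_jconj_le (J : H ≃ₗᵢ⋆[ℂ] H) (X : H →L[ℂ] H) : ‖jconj J X‖ ≤ ‖X‖ := by
  refine ContinuousLinearMap.opNorm_le_bound _ (norm_nonneg _) fun ζ => ?_
  rw [jconj_apply, J.norm_map]
  calc ‖X (J ζ)‖ ≤ ‖X‖ * ‖J ζ‖ := X.le_opNorm _
    _ = ‖X‖ * ‖ζ‖ := by rw [J.norm_map]

/-- `X ↦ J X J` as a real star algebra homomorphism -/
def jst (J : H ≃ₗᵢ⋆[ℂ] H) (hJ : ∀ ζ, J (J ζ) = ζ) : (H →L[ℂ] H) →⋆ₐ[ℝ] (H →L[ℂ] H) where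
  toFun X := jconj J X
  map_one' := by ext ζ; simp [hJ]
  map_mul' X Y := by ext ζ; simp [hJ]
  map_zero' := by ext ζ; simp
  map_add' X Y := by ext ζ; simp
  commutes' r := by
    ext ζ
    have h1 : (algebraMap ℝ (H →L[ℂ] H) r) = (r : ℂ) • (1 : H →L[ℂ] H) := by
      rw [Algebra.algebraMap_eq_smul_one, real_smul_op]
    rw [h1, jconj_apply, smul_apply, smul_apply, map_smulₛₗ, one_apply_eq_self,
      one_apply_eq_self, hJ, conj_ofReal]
  map_star' X := by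
    rw [ContinuousLinearMap.star_eq_adjoint (jconj J X), ContinuousLinearMap.eq_adjoint_iff]
    intro x y
    have h1 : ∀ ζ η : H, ⟪J ζ, η⟫_ℂ = ⟪J η, ζ⟫_ℂ := fun ζ η => by
      conv_lhs => rw [← hJ η]
      rw [inner_Jaux]
    have h2 : ∀ ζ η : H, ⟪ζ, J η⟫_ℂ = ⟪η, J ζ⟫_ℂ := fun ζ η => by
      conv_lhs => rw [← hJ ζ]
      rw [inner_Jaux]
    rw [jconj_apply, jconj_apply, h1, h2, ContinuousLinearMap.star_eq_adjoint,
      ContinuousLinearMap.adjoint_inner_right]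

theorem jst_apply (J : H ≃ₗᵢ⋆[ℂ] H) (hJ : ∀ ζ, J (J ζ) = ζ) (X : H →L[ℂ] H) :
    jst J hJ X = jconj J X := rfl

theorem continuous_jst (J : H ≃ₗᵢ⋆[ℂ] H) (hJ : ∀ ζ, J (J ζ) = ζ) : Continuous (jst J hJ) :=
  AddMonoidHomClass.continuous_of_bound (jst J hJ) 1 fun X => by
    rw [one_mul]; exact norm_jconj_le J X

theorem jconj_I_smul (J : H ≃ₗᵢ⋆[ℂ] H) (X : H →L[ℂ] H) :
    jconj J (Complex.I • X) = -(Complex.I • jconj J X) := by
  ext ζ; simp [map_smulₛₗ]

namespace RData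

variable {R : H →L[ℂ] H} (hR : RData R) {J : H ≃ₗᵢ⋆[ℂ] H} (hJ : ∀ ζ, J (J ζ) = ζ)
  (hJR : ∀ ζ, J (R ζ) = (2 : ℂ) • J ζ - R (J ζ))

include hR hJ hJR

lemma jconj_R : jconj J R = cfc (fun r : ℝ => 2 - r) R := by
  have h3 : cfc (fun r : ℝ => 2 - r) R = (2 : ℂ) • 1 - R := by
    rw [cfc_sub (fun _ => (2 : ℝ)) (fun r => r) R, cfc_id' ℝ R hR.sa, cfc_const (2 : ℝ) R hR.sa]
    congr 1
  rw [h3]
  ext ζ
  rw [jconj_apply, hJR, hJ]
  simp

lemma jconj_cfc {f : ℝ → ℝ} (hf : ContinuousOn f (Icc 0 2)) :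
    jconj J (cfc f R) = cfc (fun r => f (2 - r)) R := by
  have h1 := StarAlgHom.map_cfc (R := ℝ) (S := ℝ) (jst J hJ) f R (hf.mono hR.spec)
    (continuous_jst J hJ) hR.sa (by
      rw [jst_apply, hR.jconj_R hJ hJR]; exact cfc_predicate _ _)
  rw [jst_apply, jst_apply, hR.jconj_R hJ hJR] at h1
  rw [h1]
  have h2 := cfc_comp' (R := ℝ) f (fun r : ℝ => 2 - r) R (hf.mono (by
    rintro _ ⟨r, hr, rfl⟩
    have := hR.spec hr
    constructor <;> simp only [Set.mem_Icc] at * <;> linarith [this.1, this.2]))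
    (by fun_prop) hR.sa
  exact h2.symm

lemma jconj_Ph {f : ℝ → ℂ} (hf : ContinuousOn f (Icc 0 2)) :
    jconj J (Ph R f) = Ph R (fun r => conj (f (2 - r))) := by
  unfold Ph
  have h1 : ∀ X Y : H →L[ℂ] H, jconj J (X + Y) = jconj J X + jconj J Y := fun X Y => by
    ext ζ; simp
  rw [h1, jconj_I_smul J, hR.jconj_cfc hJ hJR (f := fun r => (f r).re)
      (continuous_re.comp_continuousOn hf),
    hR.jconj_cfc hJ hJR (f := fun r => (f r).im) (continuous_im.comp_continuousOn hf)]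
  simp only [conj_re, conj_im]
  rw [cfc_neg, smul_neg]

lemma jconj_Th (F : ℝ →ᵇ ℂ) : jconj J (hR.Th F) = hR.Th (reflB F) := by
  symm
  rw [Th_apply, Th_apply]
  apply hR.ThOp_eq_of
  have h1 : jconj J (Wop R) = Wop R := by
    unfold Wop
    rw [hR.jconj_Ph hJ hJR (f := fun r => (ww r : ℂ))
      (continuous_ofReal.comp continuous_ww).continuousOn]
    congr 1
    funext r
    rw [conj_ofReal]
    congr 1
    unfold ww; ring
  have h2 : ∀ X Y : H →L[ℂ] H, jconj J (X * Y) = jconj J X * jconj J Y := fun X Y =>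
    map_mul (jst J hJ) X Y
  nth_rewrite 1 [← h1]
  rw [← h2, hR.ThOp_W']
  unfold Bop
  rw [hR.jconj_Ph hJ hJR (continuousOn_GG F.continuous F.norm_coe_le_norm)]
  congr 1
  funext r
  simp only [GG, map_mul, conj_ofReal, reflB_apply, hh_sub]
  congr 2
  unfold ww; ring

lemma J_Th (F : ℝ →ᵇ ℂ) (ζ : H) : J (hR.Th F ζ) = hR.Th (reflB F) (J ζ) := by
  rw [← hR.jconj_Th hJ hJR, jconj_apply, hJ]

end RData

/-- G6 -/
theorem _root_.Vale.Agent.P132.g6_exists_ThData (R T : H →L[ℂ] H) (J : H ≃ₗᵢ⋆[ℂ] H)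
    (R_sa : star R = R)
    (R_nonneg : ∀ ζ, 0 ≤ (⟪ζ, R ζ⟫_ℂ).re)
    (R_le : ∀ ζ, (⟪ζ, R ζ⟫_ℂ).re ≤ 2 * ‖ζ‖ ^ 2)
    (R_inj : ∀ ζ, R ζ = 0 → ζ = 0)
    (R_inj' : ∀ ζ, R ζ = (2 : ℂ) • ζ → ζ = 0)
    (T_nonneg : 0 ≤ T)
    (T_sq : T * T = R * (2 - R))
    (J_J : ∀ ζ, J (J ζ) = ζ)
    (J_R : ∀ ζ, J (R ζ) = (2 : ℂ) • J ζ - R (J ζ)) :
    Nonempty (ThData R T J) := by
  have hR : RData R := RData.of_bounds R_sa R_nonneg R_le R_inj R_inj'
  exact ⟨{ Th := hR.Th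
           Th_r := hR.Th_rB
           Th_t := hR.Th_tB T_nonneg T_sq
           Th_nondeg := hR.Th_nondeg
           Th_fix := hR.Th_fix
           J_Th := hR.J_Th J_J J_R }⟩

end Vale.Agent.P132.G6
end
end

section

open Filter Topology
open scoped ComplexConjugate InnerProductSpace BoundedContinuousFunction

namespace Vale.Agent.P132

universe u

variable {H : Type u} [NormedAddCommGroup H] [InnerProductSpace ℂ H] [CompleteSpace H]

theorem jconj_jconj (J : H ≃ₗᵢ⋆[ℂ] H) (hJ : ∀ ζ, J (J ζ) = ζ) (a : H →L[ℂ] H) :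
    jconj J (jconj J a) = a := by
  ext ζ
  simp [hJ]

theorem expB_zero : expB 0 = 1 := by
  ext h
  simp

/-- G11, given the functional calculus (G6) -/
theorem exists_modData_of
    (G6 : ∀ (R T : H →L[ℂ] H) (J : H ≃ₗᵢ⋆[ℂ] H), star R = R →
      (∀ ζ, 0 ≤ (⟪ζ, R ζ⟫_ℂ).re) → (∀ ζ, (⟪ζ, R ζ⟫_ℂ).re ≤ 2 * ‖ζ‖ ^ 2) →
      (∀ ζ, R ζ = 0 → ζ = 0) → (∀ ζ, R ζ = (2 : ℂ) • ζ → ζ = 0) → 0 ≤ T →
      T * T = R * (2 - R) → (∀ ζ, J (J ζ) = ζ) →
      (∀ ζ, J (R ζ) = (2 : ℂ) • J ζ - R (J ζ)) → Nonempty (ThData R T J))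
    (M : VonNeumannAlgebra H) (ξ : H) (hξ : ‖ξ‖ = 1)
    (hcyc : Dense {ζ : H | ∃ a ∈ M, a ξ = ζ}) (hsep : ∀ a ∈ M, a ξ = 0 → a = 0) :
    Nonempty (ModData M ξ) := by
  have hcyc' := dense_commutant M ξ hsep
  obtain ⟨D, D', hR, hT, hJ⟩ := exists_RvD_pair M ξ hcyc hcyc'
  obtain ⟨E⟩ := G6 D.R D.T D.J D.R_sa D.R_nonneg D.R_le D.R_inj D.R_inj' D.T_nonneg D.T_sq D.J_J
    D.J_R
  obtain ⟨E'⟩ := G6 D'.R D'.T D'.J D'.R_sa D'.R_nonneg D'.R_le D'.R_inj D'.R_inj' D'.T_nonneg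
    D'.T_sq D'.J_J D'.J_R
  have hcc : M.commutant.commutant = M := VonNeumannAlgebra.commutant_commutant M
  have hcycc : Dense {ζ : H | ∃ a ∈ M.commutant.commutant, a ξ = ζ} := by
    rw [hcc]
    exact hcyc
  have hJ_mem : ∀ a ∈ M, jconj D.J a ∈ M.commutant := by
    intro a ha
    have h1 := sigma_mem' M.commutant ξ hcycc D' E' a (by rw [hcc]; exact ha) 0
    rw [neg_zero, expB_zero, map_one, one_mul, mul_one, hJ] at h1
    exact h1
  have hU_mem : ∀ a ∈ M, ∀ t : ℝ, E.Th (expB t) * a * E.Th (expB (-t)) ∈ M := by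
    intro a ha t
    have h1 := sigma_mem' M ξ hcyc' D E (jconj D.J a) (hJ_mem a ha) t
    rw [jconj_jconj D.J D.J_J] at h1
    exact h1
  exact ⟨{ norm_xi := hξ, cyc := hcyc, cyc' := hcyc', J := D.J, J_J := D.J_J, J_xi := D.J_xi
           Th := E.Th, Th_nondeg := E.Th_nondeg, Th_xi := E.Th_fix ξ D.R_xi, J_Th := E.J_Th
           kms := kms_of M ξ D E, J_mem := hJ_mem, U_mem := hU_mem }⟩

/-- G11: Tomita-Takesaki -/
theorem exists_modData (M : VonNeumannAlgebra H) (ξ : H) (hξ : ‖ξ‖ = 1)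
    (hcyc : Dense {ζ : H | ∃ a ∈ M, a ξ = ζ}) (hsep : ∀ a ∈ M, a ξ = 0 → a = 0) :
    Nonempty (ModData M ξ) :=
  exists_modData_of g6_exists_ThData M ξ hξ hcyc hsep

end Vale.Agent.P132
end

section

open Filter Topology
open scoped ComplexConjugate InnerProductSpace BoundedContinuousFunction

namespace Vale.Agent.P132

universe u

/-- ramp function: `0` for `h ≤ p`, `1` for `h ≥ q` -/
noncomputable def p1IRamp (p q : ℝ) : ℝ →ᵇ ℂ :=
  BoundedContinuousFunction.ofNormedAddCommGroup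
    (fun h : ℝ => ((max 0 (min 1 ((h - p) / (q - p))) : ℝ) : ℂ))
    (Complex.continuous_ofReal.comp (continuous_const.max
      (continuous_const.min ((continuous_id.sub continuous_const).div_const _)))) 1
    (fun h => by
      rw [Complex.norm_real, Real.norm_of_nonneg (le_max_left _ _)]
      exact max_le zero_le_one (min_le_left _ _))

theorem p1IRamp_apply (p q h : ℝ) :
    p1IRamp p q h = ((max 0 (min 1 ((h - p) / (q - p))) : ℝ) : ℂ) := rfl

theorem p1IRamp_zero {p q h : ℝ} (hpq : p < q) (hh : h ≤ p) : p1IRamp p q h = 0 := by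
  rw [p1IRamp_apply, max_eq_left, Complex.ofReal_zero]
  exact (min_le_right _ _).trans (div_nonpos_of_nonpos_of_nonneg (by linarith) (by linarith))

theorem p1IRamp_one {p q h : ℝ} (hpq : p < q) (hh : q ≤ h) : p1IRamp p q h = 1 := by
  have h1 : 1 ≤ (h - p) / (q - p) := by
    rw [le_div_iff₀ (by linarith)]
    linarith
  rw [p1IRamp_apply, min_eq_left h1, max_eq_right zero_le_one, Complex.ofReal_one]

theorem p1IRamp_norm_one_sub_le (p q h : ℝ) : ‖1 - p1IRamp p q h‖ ≤ 1 := by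
  rw [p1IRamp_apply, ← Complex.ofReal_one, ← Complex.ofReal_sub, Complex.norm_real,
    Real.norm_eq_abs, abs_le]
  have h1 : (0 : ℝ) ≤ max 0 (min 1 ((h - p) / (q - p))) := le_max_left _ _
  have h2 : max 0 (min 1 ((h - p) / (q - p))) ≤ 1 := max_le zero_le_one (min_le_left _ _)
  constructor <;> linarith

/-- smooth approximation of functions vanishing on the negative half line -/
theorem p1I_approx (φ : ℝ →ᵇ ℂ) (hc : HasCompactSupport φ) (h0 : ∀ h ≤ 0, φ h = 0) {ε : ℝ}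
    (hε : 0 < ε) : ∃ g : ℝ →ᵇ ℂ, ContDiff ℝ (⊤ : ℕ∞) g ∧ HasCompactSupport g ∧
      (∃ δ > 0, ∀ h < δ, g h = 0) ∧ ‖φ - g‖ ≤ ε := by
  -- smallness near zero
  have hφ0 : φ 0 = 0 := h0 0 le_rfl
  have hcont : ContinuousAt φ 0 := φ.continuous.continuousAt
  obtain ⟨δ, hδ, hsmall⟩ := Metric.continuousAt_iff.1 hcont (ε / 2) (half_pos hε)
  set ψ : ℝ → ℂ := fun h => φ h * p1IRamp (δ / 2) δ h with hψ
  have hψc : Continuous ψ := φ.continuous.mul (p1IRamp (δ / 2) δ).continuous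
  obtain ⟨g, hg1, hg2, hg3⟩ := Continuous.exists_contDiff_approx (ε := fun _ : ℝ => ε / 2) ⊤ hψc
    continuous_const (fun _ => half_pos hε)
  have hψs : HasCompactSupport ψ := hc.mul_right
  have hgs : HasCompactSupport g := hψs.mono hg3
  obtain ⟨C, hC⟩ := hg1.continuous.bounded_above_of_compact_support hgs
  refine ⟨BoundedContinuousFunction.ofNormedAddCommGroup g hg1.continuous C hC, hg1, hgs,
    ⟨δ / 2, half_pos hδ, fun h hh => ?_⟩, ?_⟩
  · by_contra hne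
    have h1 : h ∈ Function.support ψ := hg3 hne
    apply h1
    change φ h * p1IRamp (δ / 2) δ h = 0
    rw [p1IRamp_zero (by linarith only [hδ]) hh.le, mul_zero]
  · refine (BoundedContinuousFunction.norm_le hε.le).2 fun h => ?_
    change ‖φ h - g h‖ ≤ ε
    have h1 : ‖φ h - ψ h‖ ≤ ε / 2 := by
      have e1 : φ h - ψ h = φ h * (1 - p1IRamp (δ / 2) δ h) := by
        simp only [hψ]; ring
      rw [e1, norm_mul]
      by_cases hh : h < δ
      · by_cases hneg : h ≤ 0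
        · rw [h0 h hneg, norm_zero, zero_mul]
          exact (half_pos hε).le
        · have h2 : dist (φ h) (φ 0) < ε / 2 := hsmall (by
            rw [Real.dist_eq, sub_zero, abs_of_pos (not_le.1 hneg)]
            exact hh)
          rw [hφ0, dist_zero_right] at h2
          calc ‖φ h‖ * ‖1 - p1IRamp (δ / 2) δ h‖ ≤ ‖φ h‖ * 1 :=
                mul_le_mul_of_nonneg_left (p1IRamp_norm_one_sub_le _ _ _) (norm_nonneg _)
            _ ≤ ε / 2 := by rw [mul_one]; exact h2.le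
      · rw [p1IRamp_one (by linarith) (not_lt.1 hh), sub_self, norm_zero, mul_zero]
        exact (half_pos hε).le
    have h2 : ‖ψ h - g h‖ ≤ ε / 2 := by
      have := hg2 h
      rw [dist_comm, dist_eq_norm] at this
      exact this.le
    calc ‖φ h - g h‖ = ‖(φ h - ψ h) + (ψ h - g h)‖ := by rw [sub_add_sub_cancel]
      _ ≤ ‖φ h - ψ h‖ + ‖ψ h - g h‖ := norm_add_le _ _
      _ ≤ ε := by linarith

variable {H : Type u} [NormedAddCommGroup H] [InnerProductSpace ℂ H] [CompleteSpace H]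

theorem reflB_reflB (F : ℝ →ᵇ ℂ) : reflB (reflB F) = F := by
  ext h
  simp

theorem p1I_reflB_compact {F : ℝ →ᵇ ℂ} (hF : HasCompactSupport F) :
    HasCompactSupport (reflB F) := by
  have h1 : HasCompactSupport (fun h : ℝ => F (-h)) :=
    hF.comp_homeomorph (Homeomorph.neg ℝ)
  exact h1.comp_left (g := fun z : ℂ => conj z) (by simp)

namespace ModData

variable {M : VonNeumannAlgebra H} {ξ : H} (D : ModData M ξ)

theorem p1I_pos
    (hsmooth : ∀ x, D.InN x → ∀ f : ℝ →ᵇ ℂ, ContDiff ℝ (⊤ : ℕ∞) f → HasCompactSupport f →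
      ∃ y, D.InN y ∧ y ξ = D.Th f (x ξ))
    (hmain : ∀ x, D.InN x → ∀ h₁ h₂ : ℝ, 0 < h₁ → D.Win h₁ h₂ (x ξ) → x = 0)
    {x : H →L[ℂ] H} (hx : D.InN x) (φ : ℝ →ᵇ ℂ) (hc : HasCompactSupport φ)
    (h0 : ∀ h ≤ 0, φ h = 0) : D.Th φ (x ξ) = 0 := by
  have key : ∀ ε > 0, ‖D.Th φ (x ξ)‖ ≤ ε * ‖x ξ‖ := by
    intro ε hε
    obtain ⟨g, hg1, hg2, ⟨δ, hδ, hg3⟩, hg4⟩ := p1I_approx φ hc h0 hε
    obtain ⟨y, hy, hyξ⟩ := hsmooth x hx g hg1 hg2
    -- the window
    obtain ⟨R, hR⟩ := hg2.isCompact.bddAbove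
    have hgR : ∀ h, R < h → g h = 0 := by
      intro h hh
      by_contra hne
      have := hR (subset_tsupport g hne)
      linarith
    have hW : D.Win (δ / 2) (R + 1) (y ξ) := by
      refine ⟨p1IRamp (δ / 2) δ * (1 - p1IRamp R (R + 1)), ?_, ?_⟩
      · intro h hh
        rw [BoundedContinuousFunction.mul_apply]
        by_cases h1 : h ≤ δ / 2
        · rw [p1IRamp_zero (by linarith) h1, zero_mul]
        · have h2 : R + 1 ≤ h := by
            by_contra h3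
            exact hh ⟨not_le.1 h1, not_le.1 h3⟩
          have h3 : (1 - p1IRamp R (R + 1)) h = 1 - p1IRamp R (R + 1) h := rfl
          rw [h3, p1IRamp_one (by linarith) h2, sub_self, mul_zero]
      · rw [hyξ]
        have e1 : D.Th (p1IRamp (δ / 2) δ * (1 - p1IRamp R (R + 1))) (D.Th g (x ξ)) =
            D.Th (p1IRamp (δ / 2) δ * (1 - p1IRamp R (R + 1)) * g) (x ξ) := by
          rw [map_mul D.Th (p1IRamp (δ / 2) δ * (1 - p1IRamp R (R + 1))) g]
          rfl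
        rw [e1]
        have e2 : p1IRamp (δ / 2) δ * (1 - p1IRamp R (R + 1)) * g = g := by
          ext h
          rw [BoundedContinuousFunction.mul_apply, BoundedContinuousFunction.mul_apply]
          have h3 : (1 - p1IRamp R (R + 1)) h = 1 - p1IRamp R (R + 1) h := rfl
          rw [h3]
          by_cases h1 : h < δ
          · rw [hg3 h h1, mul_zero]
          · by_cases h2 : R < h
            · rw [hgR h h2, mul_zero]
            · rw [p1IRamp_one (by linarith) (not_lt.1 h1), p1IRamp_zero (by linarith)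
                (not_lt.1 h2)]
              simp
        rw [e2]
    have hy0 : y = 0 := hmain y hy _ _ (half_pos hδ) hW
    rw [hy0] at hyξ
    have e3 : D.Th φ (x ξ) = D.Th (φ - g) (x ξ) := by
      rw [map_sub, sub_apply, ← hyξ]
      simp
    rw [e3]
    calc ‖D.Th (φ - g) (x ξ)‖ ≤ ‖D.Th (φ - g)‖ * ‖x ξ‖ := ContinuousLinearMap.le_opNorm _ _
      _ ≤ ‖φ - g‖ * ‖x ξ‖ := mul_le_mul_of_nonneg_right (D.norm_Th_le _) (norm_nonneg _)
      _ ≤ ε * ‖x ξ‖ := mul_le_mul_of_nonneg_right hg4 (norm_nonneg _)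
  refine norm_eq_zero.1 (le_antisymm (le_of_forall_pos_le_add fun η hη => ?_) (norm_nonneg _))
  have h1 := key (η / (‖x ξ‖ + 1)) (by positivity)
  rw [zero_add]
  refine h1.trans ?_
  rw [div_mul_eq_mul_div, div_le_iff₀ (by positivity)]
  have := norm_nonneg (x ξ)
  linarith only [hη]

theorem p1I_neg
    (hstar : ∀ x, D.InN x → D.InN (star x))
    (hsmooth : ∀ x, D.InN x → ∀ f : ℝ →ᵇ ℂ, ContDiff ℝ (⊤ : ℕ∞) f → HasCompactSupport f →
      ∃ y, D.InN y ∧ y ξ = D.Th f (x ξ))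
    (hmain : ∀ x, D.InN x → ∀ h₁ h₂ : ℝ, 0 < h₁ → D.Win h₁ h₂ (x ξ) → x = 0)
    {x : H →L[ℂ] H} (hx : D.InN x) (φ : ℝ →ᵇ ℂ) (hc : HasCompactSupport φ)
    (h0 : ∀ h, 0 ≤ h → φ h = 0) : D.Th φ (x ξ) = 0 := by
  set G' : ℝ → ℂ := fun h => ((Real.exp (-(h / 2)) : ℝ) : ℂ) * φ h with hG'
  have hG'c : Continuous G' := by
    refine Continuous.mul ?_ φ.continuous
    exact Complex.continuous_ofReal.comp (Real.continuous_exp.comp (by fun_prop))
  have hG's : HasCompactSupport G' := hc.mul_left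
  obtain ⟨C, hC⟩ := hG'c.bounded_above_of_compact_support hG's
  set G : ℝ →ᵇ ℂ := BoundedContinuousFunction.ofNormedAddCommGroup G' hG'c C hC with hG
  have hGapp : ∀ h, G h = ((Real.exp (-(h / 2)) : ℝ) : ℂ) * φ h := fun h => rfl
  have hkms := D.kms x hx.1 φ G (fun h => by
    rw [hGapp, ← mul_assoc, ← Complex.ofReal_mul, ← Real.exp_add]
    simp)
  have h1 : D.Th (reflB G) (star x ξ) = 0 := by
    refine D.p1I_pos hsmooth hmain (hstar x hx) (reflB G) (p1I_reflB_compact hG's) ?_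
    intro h hh
    rw [reflB_apply, hGapp, h0 (-h) (by linarith), mul_zero, map_zero]
  have h2 := D.J_Th (reflB G) (star x ξ)
  rw [h1, map_zero, reflB_reflB] at h2
  rw [← hkms, ← h2]

/-- **Theorem 2**, relative to the results of the other files. -/
theorem scalar_of_erg_aux
    (hstar : ∀ x, D.InN x → D.InN (star x))
    (hsmooth : ∀ x, D.InN x → ∀ f : ℝ →ᵇ ℂ, ContDiff ℝ (⊤ : ℕ∞) f → HasCompactSupport f →
      ∃ y, D.InN y ∧ y ξ = D.Th f (x ξ))
    (hmain : ∀ x, D.InN x → ∀ h₁ h₂ : ℝ, 0 < h₁ → D.Win h₁ h₂ (x ξ) → x = 0)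
    (hE : D.Erg) {x : H →L[ℂ] H} (hx : D.InN x) : ∃ c : ℂ, x = c • 1 := by
  refine hE x hx fun t => ?_
  -- functions vanishing at `0`
  have hzero : ∀ φ : ℝ →ᵇ ℂ, HasCompactSupport φ → φ 0 = 0 → D.Th φ (x ξ) = 0 := by
    intro φ hφ hφ0
    set φp : ℝ →ᵇ ℂ := φ.compContinuous ⟨fun h => max h 0, by fun_prop⟩ with hφp
    set φm : ℝ →ᵇ ℂ := φ.compContinuous ⟨fun h => min h 0, by fun_prop⟩ with hφm
    have hpa : ∀ h, φp h = φ (max h 0) := fun h => rfl
    have hma : ∀ h, φm h = φ (min h 0) := fun h => rfl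
    have hps : HasCompactSupport φp := by
      refine hφ.mono ?_
      intro h hh
      have hh' : φ (max h 0) ≠ 0 := hh
      rcases le_total h 0 with h1 | h1
      · rw [max_eq_right h1, hφ0] at hh'
        exact absurd rfl hh'
      · rwa [max_eq_left h1] at hh'
    have hms : HasCompactSupport φm := by
      refine hφ.mono ?_
      intro h hh
      have hh' : φ (min h 0) ≠ 0 := hh
      rcases le_total h 0 with h1 | h1
      · rwa [min_eq_left h1] at hh'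
      · rw [min_eq_right h1, hφ0] at hh'
        exact absurd rfl hh'
    have hsum : φ = φp + φm := by
      ext h
      rw [BoundedContinuousFunction.add_apply, hpa, hma]
      rcases le_total h 0 with h1 | h1
      · rw [max_eq_right h1, min_eq_left h1, hφ0, zero_add]
      · rw [max_eq_left h1, min_eq_right h1, hφ0, add_zero]
    rw [hsum, map_add, add_apply,
      D.p1I_pos hsmooth hmain hx φp hps (fun h hh => by rw [hpa, max_eq_right hh, hφ0]),
      D.p1I_neg hstar hsmooth hmain hx φm hms (fun h hh => by rw [hma, min_eq_right hh, hφ0]),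
      add_zero]
  have key : ∀ ε > 0, ‖D.U t (x ξ) - x ξ‖ ≤ 2 * ε := by
    intro ε hε
    obtain ⟨F, hF1, -, hF3⟩ := D.Th_nondeg (x ξ) ε hε
    have h1 : D.Th ((expB t - 1) * F) (x ξ) = 0 := by
      refine hzero _ ?_ ?_
      · exact hF1.mul_left
      · rw [BoundedContinuousFunction.mul_apply]
        have : (expB t - 1) (0 : ℝ) = 0 := by
          change expB t 0 - 1 = 0
          rw [expB_apply]
          simp
        rw [this, zero_mul]
    have h2 : D.U t (D.Th F (x ξ)) = D.Th F (x ξ) := by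
      have e1 : D.Th ((expB t - 1) * F) (x ξ) = D.U t (D.Th F (x ξ)) - D.Th F (x ξ) := by
        rw [map_mul, map_sub, map_one, U]
        rfl
      rw [h1] at e1
      exact (sub_eq_zero.1 e1.symm)
    calc ‖D.U t (x ξ) - x ξ‖
        = ‖D.U t (x ξ - D.Th F (x ξ)) + (D.Th F (x ξ) - x ξ)‖ := by
          rw [map_sub, h2]; congr 1; abel
      _ ≤ ‖D.U t (x ξ - D.Th F (x ξ))‖ + ‖D.Th F (x ξ) - x ξ‖ := norm_add_le _ _
      _ = ‖D.Th F (x ξ) - x ξ‖ + ‖D.Th F (x ξ) - x ξ‖ := by rw [D.norm_U, norm_sub_rev]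
      _ ≤ 2 * ε := by linarith
  refine sub_eq_zero.1 (norm_eq_zero.1 (le_antisymm
    (le_of_forall_pos_le_add fun η hη => ?_) (norm_nonneg _)))
  have := key (η / 2) (half_pos hη)
  linarith

end ModData

end Vale.Agent.P132
end

section

open Filter Topology
open scoped ComplexConjugate InnerProductSpace BoundedContinuousFunction

namespace Vale.Agent.P132

universe u

variable {H : Type u} [NormedAddCommGroup H] [InnerProductSpace ℂ H] [CompleteSpace H]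

/-- the orthogonal projection on an invariant subspace commutes with the operator -/
theorem xl_proj_comm (S : Submodule ℂ H) [S.HasOrthogonalProjection] (T : H →L[ℂ] H)
    (h1 : ∀ s ∈ S, T s ∈ S) (h2 : ∀ s ∈ S, star T s ∈ S) (ζ : H) :
    S.starProjection (T ζ) = T (S.starProjection ζ) := by
  have e1 : T ζ = T (S.starProjection ζ) + T (ζ - S.starProjection ζ) := by
    rw [← map_add]; congr 1; abel
  have e2 : S.starProjection (T (S.starProjection ζ)) = T (S.starProjection ζ) :=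
    Submodule.starProjection_eq_self_iff.2 (h1 _ (S.starProjection_apply_mem ζ))
  have e3 : S.starProjection (T (ζ - S.starProjection ζ)) = 0 := by
    rw [Submodule.starProjection_apply_eq_zero_iff, Submodule.mem_orthogonal]
    intro s hs
    have h3 : ⟪s, T (ζ - S.starProjection ζ)⟫_ℂ = ⟪star T s, ζ - S.starProjection ζ⟫_ℂ := by
      rw [ContinuousLinearMap.star_eq_adjoint, ContinuousLinearMap.adjoint_inner_left]
    rw [h3]
    have h4 := S.starProjection_inner_eq_zero ζ _ (h2 s hs)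
    rw [← inner_conj_symm, h4, map_zero]
  rw [e1, map_add, e2, e3, add_zero]

omit [CompleteSpace H] in
/-- closed span of an invariant set is invariant -/
theorem xl_inv (G : Set H) (T : H →L[ℂ] H) (h : ∀ g ∈ G, T g ∈ G) :
    ∀ s ∈ (Submodule.span ℂ G).topologicalClosure, T s ∈ (Submodule.span ℂ G).topologicalClosure := by
  have hcl : IsClosed (((Submodule.span ℂ G).topologicalClosure.comap
      (T : H →ₗ[ℂ] H) : Submodule ℂ H) : Set H) :=
    (Submodule.isClosed_topologicalClosure _).preimage T.continuous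
  have hle : (Submodule.span ℂ G).topologicalClosure ≤
      (Submodule.span ℂ G).topologicalClosure.comap (T : H →ₗ[ℂ] H) := by
    refine Submodule.topologicalClosure_minimal _ ?_ hcl
    rw [Submodule.span_le]
    intro g hg
    exact Submodule.le_topologicalClosure _ (Submodule.subset_span (h g hg))
  exact fun s hs => hle hs

omit [CompleteSpace H] in
theorem xl_orth (G : Set H) (v : H) (h : ∀ g ∈ G, ⟪g, v⟫_ℂ = 0) :
    v ∈ (Submodule.span ℂ G).topologicalClosureᗮ := by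
  rw [Submodule.orthogonal_closure, Submodule.mem_orthogonal]
  intro s hs
  induction hs using Submodule.span_induction with
  | mem x hx => exact h x hx
  | zero => exact inner_zero_left _
  | add x y _ _ hx hy => rw [inner_add_left, hx, hy, add_zero]
  | smul a x _ hx => rw [inner_smul_left, hx, mul_zero]

/-- membership in a von Neumann algebra through its commutant -/
theorem xl_mem_of_comm {M : VonNeumannAlgebra H} {r : H →L[ℂ] H}
    (h : ∀ y ∈ M.commutant, ∀ ζ, r (y ζ) = y (r ζ)) : r ∈ M := by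
  rw [← M.commutant_commutant, VonNeumannAlgebra.mem_commutant_iff]
  intro y hy
  exact ContinuousLinearMap.ext fun ζ => (h y hy ζ).symm

theorem xl_factor {M : VonNeumannAlgebra H}
    (hfac : ∀ z ∈ M, z ∈ M.commutant → ∃ c : ℂ, z = c • 1)
    {c c' : H →L[ℂ] H} (hc : c ∈ M) (hc0 : c ≠ 0) (hc0' : c' ≠ 0) :
    ∃ a ∈ M, c' * a * c ≠ 0 := by
  by_contra hcon
  push Not at hcon
  set G : Set H := {v | ∃ a ∈ M, ∃ ζ, v = a (c ζ)} with hG
  set S := (Submodule.span ℂ G).topologicalClosure with hS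
  have : CompleteSpace S := (Submodule.isClosed_topologicalClosure _).completeSpace_coe
  have hGM : ∀ b ∈ M, ∀ g ∈ G, b g ∈ G := by
    rintro b hb _ ⟨a, ha, ζ, rfl⟩
    exact ⟨b * a, mul_mem hb ha, ζ, rfl⟩
  have hGM' : ∀ b ∈ M.commutant, ∀ g ∈ G, b g ∈ G := by
    rintro b hb _ ⟨a, ha, ζ, rfl⟩
    refine ⟨a, ha, b ζ, ?_⟩
    rw [← ModData.comm_apply ha hb, ← ModData.comm_apply hc hb]
  have hpM : S.starProjection ∈ M := xl_mem_of_comm fun y hy ζ =>
    xl_proj_comm S y (xl_inv G y (hGM' y hy)) (xl_inv G _ (hGM' _ (star_mem hy))) ζ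
  have hpM' : S.starProjection ∈ M.commutant := by
    rw [VonNeumannAlgebra.mem_commutant_iff]
    intro b hb
    exact ContinuousLinearMap.ext fun ζ =>
      (xl_proj_comm S b (xl_inv G b (hGM b hb)) (xl_inv G _ (hGM _ (star_mem hb))) ζ).symm
  obtain ⟨k, hk⟩ := hfac _ hpM hpM'
  obtain ⟨ζ₀, hζ₀⟩ : ∃ ζ, c ζ ≠ 0 := by
    by_contra h0
    push Not at h0
    exact hc0 (ContinuousLinearMap.ext h0)
  have hmem : c ζ₀ ∈ S := Submodule.le_topologicalClosure _ (Submodule.subset_span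
    ⟨1, one_mem M, ζ₀, rfl⟩)
  have h1 : S.starProjection (c ζ₀) = c ζ₀ := Submodule.starProjection_eq_self_iff.2 hmem
  have hk1 : k = 1 := by
    rw [hk] at h1
    have h2 : (k - 1) • c ζ₀ = 0 := by
      rw [sub_smul, one_smul]
      exact sub_eq_zero.2 h1
    rcases smul_eq_zero.1 h2 with h3 | h3
    · exact sub_eq_zero.1 h3
    · exact absurd h3 hζ₀
  rw [hk1, one_smul] at hk
  have hker : ∀ s ∈ S, c' s = 0 := by
    have hcl : IsClosed ((LinearMap.ker (c' : H →ₗ[ℂ] H) : Submodule ℂ H) : Set H) :=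
      c'.isClosed_ker
    have hle : S ≤ LinearMap.ker (c' : H →ₗ[ℂ] H) := by
      refine Submodule.topologicalClosure_minimal _ ?_ hcl
      rw [Submodule.span_le]
      rintro _ ⟨a, ha, ζ, rfl⟩
      have h2 := hcon a ha
      exact congrArg (fun f : H →L[ℂ] H => f ζ) h2
    exact fun s hs => hle hs
  refine hc0' (ContinuousLinearMap.ext fun ζ => ?_)
  have h2 : S.starProjection ζ = ζ := by rw [hk]; rfl
  rw [← h2]
  exact hker _ (S.starProjection_apply_mem ζ)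

namespace ModData

variable {M : VonNeumannAlgebra H} {ξ : H} (D : ModData M ξ)

theorem xl_sg_InC {c : H →L[ℂ] H} (hc : D.InC c) (t : ℝ) : D.sg t c = c :=
  D.ext_xi (D.sg_mem hc.1 t) hc.1 (by rw [D.sg_xi]; exact hc.2 t)

/-- the projection onto the closed span of the ranges of `sg t (x*)`, `t ∈ ℝ` -/
theorem exists_left_support {x : H →L[ℂ] H} (hx : x ∈ M) (hx0 : x ≠ 0) :
    ∃ r, D.InC r ∧ star r = r ∧ r * r = r ∧ r ≠ 0 ∧ x * r = x ∧
      (∀ y : H →L[ℂ] H, (∀ t : ℝ, D.sg t x * y = 0) → r * y = 0) := by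
  set G : Set H := {v | ∃ t : ℝ, ∃ ζ, v = D.sg t (star x) ζ} with hG
  set S := (Submodule.span ℂ G).topologicalClosure with hS
  have : CompleteSpace S := (Submodule.isClosed_topologicalClosure _).completeSpace_coe
  have hGM' : ∀ b ∈ M.commutant, ∀ g ∈ G, b g ∈ G := by
    rintro b hb _ ⟨t, ζ, rfl⟩
    exact ⟨t, b ζ, (comm_apply (D.sg_mem (star_mem hx) t) hb ζ).symm⟩
  have hGU : ∀ s : ℝ, ∀ g ∈ G, D.U s g ∈ G := by
    rintro s _ ⟨t, ζ, rfl⟩
    refine ⟨s + t, D.U s ζ, ?_⟩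
    rw [D.sg_add_left, D.sg_U_apply]
  have hrM : S.starProjection ∈ M := xl_mem_of_comm fun y hy ζ =>
    xl_proj_comm S y (xl_inv G y (hGM' y hy)) (xl_inv G _ (hGM' _ (star_mem hy))) ζ
  have hrU : ∀ t ζ, S.starProjection (D.U t ζ) = D.U t (S.starProjection ζ) := fun t ζ =>
    xl_proj_comm S (D.U t) (xl_inv G _ (hGU t)) (xl_inv G _ (by rw [D.star_U]; exact hGU (-t))) ζ
  have hsa : star S.starProjection = S.starProjection :=
    (isSelfAdjoint_starProjection S).star_eq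
  have hidem : S.starProjection * S.starProjection = S.starProjection :=
    ContinuousLinearMap.ext fun ζ =>
      Submodule.starProjection_eq_self_iff.2 (S.starProjection_apply_mem ζ)
  have hy : ∀ y : H →L[ℂ] H, (∀ t : ℝ, D.sg t x * y = 0) → S.starProjection * y = 0 := by
    intro y hy
    refine ContinuousLinearMap.ext fun ζ => ?_
    show S.starProjection (y ζ) = 0
    rw [Submodule.starProjection_apply_eq_zero_iff]
    refine xl_orth G _ ?_
    rintro _ ⟨t, η, rfl⟩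
    rw [← D.star_sg, ContinuousLinearMap.star_eq_adjoint, ContinuousLinearMap.adjoint_inner_left]
    have h2 := congrArg (fun f : H →L[ℂ] H => f ζ) (hy t)
    have h3 : (D.sg t x) (y ζ) = 0 := h2
    rw [h3, inner_zero_right]
  have hxr : x * S.starProjection = x := by
    refine ContinuousLinearMap.ext fun ζ => ?_
    refine ext_inner_left ℂ fun η => ?_
    show ⟪η, x (S.starProjection ζ)⟫_ℂ = ⟪η, x ζ⟫_ℂ
    have hmem : star x η ∈ S := Submodule.le_topologicalClosure _ (Submodule.subset_span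
      ⟨0, η, by rw [D.sg_zero]⟩)
    have h2 := S.starProjection_inner_eq_zero ζ _ hmem
    have h3 : ⟪star x η, ζ - S.starProjection ζ⟫_ℂ = 0 := by
      rw [← inner_conj_symm, h2, map_zero]
    rw [ContinuousLinearMap.star_eq_adjoint, ContinuousLinearMap.adjoint_inner_left, map_sub,
      inner_sub_right, sub_eq_zero] at h3
    exact h3.symm
  refine ⟨S.starProjection, ⟨hrM, fun t => ?_⟩, hsa, hidem, ?_, hxr, hy⟩
  · rw [← hrU, D.U_xi]
  · intro h0
    rw [h0, mul_zero] at hxr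
    exact hx0 hxr.symm

theorem xl_CW_mono {a b a' b' : ℝ} {ζ : H} (h : D.CW a b ζ) (ha : a' ≤ a) (hb : b ≤ b') :
    D.CW a' b' ζ := fun F hF => h F fun x hx => hF x ⟨ha.trans hx.1, hx.2.trans hb⟩

theorem xl_CW_U {a b : ℝ} {ζ : H} (h : D.CW a b ζ) (t : ℝ) : D.CW a b (D.U t ζ) := by
  intro F hF
  have h1 : D.Th F (D.U t ζ) = D.U t (D.Th F ζ) := by
    have h2 : D.Th F * D.Th (expB t) = D.Th (expB t) * D.Th F := by
      rw [← map_mul, mul_comm, map_mul]
    exact congrArg (fun f : H →L[ℂ] H => f ζ) h2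
  rw [h1, h F hF, map_zero]

/-- (XL), with the upstream facts as hypotheses -/
theorem XL_of
    (hfac : ∀ z ∈ M, z ∈ M.commutant → ∃ c : ℂ, z = c • 1)
    (hIII : ∀ e ∈ M, star e = e → e * e = e → e ≠ 0 → ∃ v ∈ M, star v * v = e ∧ v * star v = 1)
    (hleft : ∀ (a b : ℝ) (ζ : H) (c : H →L[ℂ] H), D.CW a b ζ → D.InC c → D.CW a b (c ζ))
    (hmul : ∀ (a b c d : ℝ) (x y : H →L[ℂ] H), x ∈ M → y ∈ M → D.CW a b (x ξ) →
      D.CW c d (y ξ) → D.CW (a + c) (b + d) ((x * y) ξ))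
    (hnarrow : ∀ (c c' a : H →L[ℂ] H), D.InC c → D.InC c' → a ∈ M → c' * a * c ≠ 0 →
      ∀ δ : ℝ, 0 < δ → ∃ κ : ℝ, ∃ x ∈ M, D.CW (κ - δ) (κ + δ) (x ξ) ∧ c' * x * c ≠ 0)
    (hcorner : ∀ (r v : H →L[ℂ] H), D.InC r → star r = r → r * r = r → v ∈ M →
      star v * v = r → v * star v = 1 → ∀ a b : ℝ, a < b →
      ∃ y ∈ M, y ≠ 0 ∧ r * y = y ∧ y * r = y ∧ D.CW a b (y ξ))
    {c c' : H →L[ℂ] H} (hc : D.InC c) (hcs : star c = c) (hc0 : c ≠ 0)
    (hc' : D.InC c') (hcs' : star c' = c') (hc0' : c' ≠ 0) {δ : ℝ} (hδ : 0 < δ) :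
    ∃ b ∈ M, D.CW (-δ) δ (b ξ) ∧ c' * b * c ≠ 0 := by
  obtain ⟨a, haM, ha⟩ := xl_factor hfac hc.1 hc0 hc0'
  obtain ⟨κ, x, hxM, hxw, hx⟩ := hnarrow c c' a hc hc' haM ha (δ / 2) (by linarith)
  have hx'M : c' * x * c ∈ M := mul_mem (mul_mem hc'.1 hxM) hc.1
  obtain ⟨r, hrC, hrs, hrr, hr0, hxr, hry⟩ := D.exists_left_support hx'M hx
  obtain ⟨v, hvM, hv1, hv2⟩ := hIII r hrC.1 hrs hrr hr0
  obtain ⟨y, hyM, hy0, hy1, hy2, hyw⟩ := hcorner r v hrC hrs hrr hvM hv1 hv2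
    (-κ - δ / 2) (-κ + δ / 2) (by linarith)
  -- some `sg t x' * y * c` is nonzero
  have hsgx : ∀ t, D.sg t (c' * x * c) = c' * D.sg t x * c := fun t => by
    rw [D.sg_mul, D.sg_mul, D.xl_sg_InC hc, D.xl_sg_InC hc']
  obtain ⟨t, ht⟩ : ∃ t : ℝ, D.sg t (c' * x * c) * (y * c) ≠ 0 := by
    by_contra hcon
    push Not at hcon
    have h1 := hry _ hcon
    have h2 : y * c = 0 := by
      rw [← mul_assoc, hy1] at h1; exact h1
    have h3 : ∀ t : ℝ, D.sg t (c' * x * c) * star y = 0 := by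
      intro t
      have h4 : y * star (D.sg t (c' * x * c)) = 0 := by
        rw [hsgx, star_mul, star_mul, hcs, hcs', ← mul_assoc, h2, zero_mul]
      have h5 := congrArg star h4
      rwa [star_mul, star_star, star_zero] at h5
    have h6 := hry _ h3
    have h7 := congrArg star h6
    rw [star_mul, star_star, star_zero, hrs, hy2] at h7
    exact hy0 h7
  refine ⟨D.sg t x * (c * y), mul_mem (D.sg_mem hxM t) (mul_mem hc.1 hyM), ?_, ?_⟩
  · have w1 : D.CW (κ - δ / 2) (κ + δ / 2) (D.sg t x ξ) := by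
      rw [D.sg_xi]; exact D.xl_CW_U hxw t
    have w2 : D.CW (-κ - δ / 2) (-κ + δ / 2) ((c * y) ξ) := hleft _ _ (y ξ) c hyw hc
    have w3 := hmul _ _ _ _ _ _ (D.sg_mem hxM t) (mul_mem hc.1 hyM) w1 w2
    exact D.xl_CW_mono w3 (by linarith) (by linarith)
  · have h1 : c' * (D.sg t x * (c * y)) * c = D.sg t (c' * x * c) * (y * c) := by
      rw [hsgx]; simp only [mul_assoc]
    rw [h1]; exact ht

end ModData

end Vale.Agent.P132
end

section

open Filter Topology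
open scoped ComplexConjugate InnerProductSpace BoundedContinuousFunction

namespace Vale.Agent.P132

universe u

variable {H : Type u} [NormedAddCommGroup H] [InnerProductSpace ℂ H] [CompleteSpace H]

namespace ModData

variable {M : VonNeumannAlgebra H} {ξ : H} (D : ModData M ξ)

theorem CW.InC_left {a b : ℝ} {ζ : H} (h : D.CW a b ζ) {c : H →L[ℂ] H} (hc : D.InC c) :
    D.CW a b (c ζ) := fun F hF => by
  rw [InC.Th_comm D hc, h F hF, map_zero]

theorem CW.Rm {a b : ℝ} {ζ : H} (h : D.CW a b ζ) {c : H →L[ℂ] H} (hc : D.InC c) :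
    D.CW a b (D.Rm c ζ) := fun F hF => by
  rw [InC.Th_Rm D hc, h F hF, map_zero]

/-- `x c ξ = (x ξ) c` for `c ∈ M_φ` -/
theorem InC.mul_xi {x : H →L[ℂ] H} (hx : x ∈ M) {c : H →L[ℂ] H} (hc : D.InC c) :
    (x * c) ξ = D.Rm c (x ξ) := by
  change x (c ξ) = _
  rw [← InC.Rm_xi D hc, D.comm_Rm hx hc.1]

/-- `x c ξ` for `c ∈ M_φ` -/
theorem CW.InC_right {a b : ℝ} {x : H →L[ℂ] H} (hx : x ∈ M) (h : D.CW a b (x ξ))
    {c : H →L[ℂ] H} (hc : D.InC c) : D.CW a b ((x * c) ξ) := by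
  rw [InC.mul_xi D hx hc]
  exact CW.Rm D h hc

/-- elements with narrow windows are total -/
theorem exists_narrow {c c' : H →L[ℂ] H} (hc : D.InC c) (hc' : D.InC c') {a : H →L[ℂ] H}
    (ha : a ∈ M) (h : c' * a * c ≠ 0) {δ : ℝ} (hδ : 0 < δ) :
    ∃ κ : ℝ, ∃ x ∈ M, D.CW (κ - δ) (κ + δ) (x ξ) ∧ c' * x * c ≠ 0 := by
  have key : ∀ x ∈ M, (c' * x * c) ξ = c' (D.Rm c (x ξ)) := by
    intro x hx
    change c' ((x * c) ξ) = _
    rw [InC.mul_xi D hx hc]
  have hu : c' (D.Rm c (a ξ)) ≠ 0 := by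
    intro h0
    apply h
    refine D.ext_xi (mul_mem (mul_mem hc'.1 ha) hc.1) (zero_mem M.toStarSubalgebra) ?_
    rw [key a ha, h0]
    rfl
  obtain ⟨κ, f, hf1, hf2, hf3, hf4⟩ := D.exists_bump hu hδ
  obtain ⟨x, hx, hxξ⟩ := D.smooth_mem ha f hf1 hf2
  refine ⟨κ, x, hx, ?_, ?_⟩
  · rw [hxξ]
    exact D.CW_of_support f hf3 _
  · intro h0
    apply hf4
    rw [InC.Th_comm D hc', InC.Th_Rm D hc, ← hxξ, ← key x hx, h0]
    rfl

end ModData

end Vale.Agent.P132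
end

section

open Filter Topology
open scoped ComplexConjugate InnerProductSpace BoundedContinuousFunction

namespace Vale.Agent.P132

universe u

variable {H : Type u} [NormedAddCommGroup H] [InnerProductSpace ℂ H] [CompleteSpace H]

namespace ModData

variable {M : VonNeumannAlgebra H} {ξ : H} (D : ModData M ξ)

theorem inner_cm_eq {b : H →L[ℂ] H} (hb : b ∈ M) (ζ : H) :
    ⟪D.cm b ζ, b ξ⟫_ℂ = ⟪ζ, (star b * b) ξ - b (D.J (b ξ))⟫_ℂ := by
  have h1 : D.Rm (star b) (b ξ) = b (D.J (b ξ)) := by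
    rw [← D.comm_Rm hb (star_mem hb), D.Rm_xi, star_star]
  rw [cm, inner_sub_left, inner_sub_right, pE_inner_star_left b, pE_inner_star_left (D.Rm b),
    D.star_Rm, h1]
  rfl

theorem norm_cm_xi_le {b : H →L[ℂ] H} (hb : b ∈ M) {δ : ℝ} (h0 : 0 ≤ δ) (hδ : δ ≤ 1)
    (hw : D.CW (-δ) δ (b ξ)) : ‖D.cm b ξ‖ ≤ (Real.exp (δ / 2) - 1) * ‖b ξ‖ := by
  have h1 : D.cm b ξ = -(D.Th (eB (1 / 2)) (b ξ) - b ξ) := by
    rw [cm, D.Rm_xi, D.J_star_xi hb hδ hw]; abel
  rw [h1, norm_neg]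
  exact CW.norm_sub_le D h0 hδ hw

theorem erg_sa
    (hXL : ∀ c c' : H →L[ℂ] H, D.InC c → star c = c → c ≠ 0 → D.InC c' → star c' = c' → c' ≠ 0 →
      ∀ δ > 0, ∃ b ∈ M, D.CW (-δ) δ (b ξ) ∧ c' * b * c ≠ 0)
    {z : H →L[ℂ] H} (hN : D.InN z) (hz : D.InC z) (hs : star z = z) :
    z = ⟪ξ, z ξ⟫_ℂ • (1 : H →L[ℂ] H) := by
  have hξξ : ⟪ξ, ξ⟫_ℂ = 1 := by
    rw [inner_self_eq_norm_sq_to_K, D.norm_xi]; simp
  set f : ℝ := (⟪ξ, z ξ⟫_ℂ).re with hf
  have hfr : ⟪ξ, z ξ⟫_ℂ = (f : ℂ) := by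
    have h1 : conj ⟪ξ, z ξ⟫_ℂ = ⟪ξ, z ξ⟫_ℂ := by
      rw [inner_conj_symm, pE_inner_star_left, hs]
    exact (Complex.conj_eq_iff_re.1 h1).symm
  set K0 : ℝ := ‖z‖ + 1 with hK0
  have hfabs : |f| ≤ ‖z‖ := by
    calc |f| ≤ ‖⟪ξ, z ξ⟫_ℂ‖ := Complex.abs_re_le_norm _
      _ ≤ ‖ξ‖ * ‖z ξ‖ := norm_inner_le_norm _ _
      _ ≤ ‖ξ‖ * (‖z‖ * ‖ξ‖) := by gcongr; exact z.le_opNorm _
      _ = ‖z‖ := by rw [D.norm_xi]; ring
  have hfK : 0 < f + K0 := by
    have := neg_le_of_abs_le hfabs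
    rw [hK0]; linarith
  set w : H →L[ℂ] H := z + (K0 : ℂ) • (1 : H →L[ℂ] H) with hw
  have hwC : D.InC w := InC.add D hz (InC.smul D (InC.one D) _)
  have hws : star w = w := by
    rw [hw, star_add, hs, star_smul, star_one]
    simp
  have hw0 : 0 ≤ w := by
    refine pE_nonneg hws fun x => ?_
    have e : ⟪x, w x⟫_ℂ = ⟪x, z x⟫_ℂ + (K0 : ℂ) * ⟪x, x⟫_ℂ := by
      rw [hw, _root_.add_apply, inner_add_right, _root_.smul_apply, inner_smul_right]
      rfl
    rw [e, Complex.add_re, Complex.re_ofReal_mul, pE_inner_self]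
    have h1 : |(⟪x, z x⟫_ℂ).re| ≤ ‖z‖ * ‖x‖ ^ 2 := by
      calc |(⟪x, z x⟫_ℂ).re| ≤ ‖⟪x, z x⟫_ℂ‖ := Complex.abs_re_le_norm _
        _ ≤ ‖x‖ * ‖z x‖ := norm_inner_le_norm _ _
        _ ≤ ‖x‖ * (‖z‖ * ‖x‖) := by gcongr; exact z.le_opNorm _
        _ = ‖z‖ * ‖x‖ ^ 2 := by ring
    have h2 := neg_le_of_abs_le h1
    rw [hK0]
    linarith only [sq_nonneg ‖x‖, h2]
  set c : H →L[ℂ] H := (((f + K0)⁻¹ : ℝ) : ℂ) • w with hc
  have hcC : D.InC c := InC.smul D hwC _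
  have hc0 : 0 ≤ c := pE_smul_nonneg hw0 (inv_pos.2 hfK).le
  have hcξ : c ξ = (((f + K0)⁻¹ : ℝ) : ℂ) • (z ξ + (K0 : ℂ) • ξ) := by
    rw [hc, hw]; rfl
  have hc1 : ⟪ξ, c ξ⟫_ℂ = 1 := by
    rw [hcξ, inner_smul_right, inner_add_right, inner_smul_right, hξξ, hfr, mul_one,
      ← Complex.ofReal_add, ← Complex.ofReal_mul, inv_mul_cancel₀ hfK.ne', Complex.ofReal_one]
  -- the main estimate
  set A : ℝ := ‖ξ - c ξ‖ with hA
  have hmain : ∀ ε : ℝ, 0 < ε → ‖⟪z ξ, ξ - c ξ⟫_ℂ‖ ≤ ε * (A + 2 * ‖z ξ‖ + 1) := by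
    intro ε hε
    obtain ⟨C, hC, hB⟩ := D.lemmaB hN hε
    -- choose the window
    obtain ⟨d, hd0, hd1, hd2⟩ : ∃ d : ℝ, 0 < d ∧ d ≤ 1 ∧
        2 * Real.sqrt C * (Real.exp (d / 2) - 1) ≤ ε := by
      have hcont : Tendsto (fun d : ℝ => 2 * Real.sqrt C * (Real.exp (d / 2) - 1)) (𝓝 0)
          (𝓝 0) := by
        have : Continuous fun d : ℝ => 2 * Real.sqrt C * (Real.exp (d / 2) - 1) := by fun_prop
        have h2 := this.tendsto 0
        simpa using h2
      have hev := hcont.eventually (gt_mem_nhds hε)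
      obtain ⟨r, hr0, hr⟩ := Metric.eventually_nhds_iff.1 hev
      refine ⟨min (r / 2) 1, by positivity, min_le_right _ _, (hr ?_).le⟩
      rw [Real.dist_eq, sub_zero, abs_of_pos (by positivity)]
      exact (min_le_left _ _).trans_lt (by linarith)
    set ε' : ℝ := min ε 1 with hε'
    have hε'0 : 0 < ε' := lt_min hε one_pos
    obtain ⟨ι, hι, b, hb1, hb2, hb3, hb4⟩ := D.cone_approx hXL hcC hc0 hc1 hd0 hε'0
    set X1 : H := ∑ i, (star (b i) * b i) ξ with hX1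
    set X2 : H := ∑ i, b i (D.J (b i ξ)) with hX2
    have hS : ∑ i, ‖b i ξ‖ ^ 2 ≤ 2 := by
      have e1 : ∑ i, ‖b i ξ‖ ^ 2 = (⟪ξ, X1⟫_ℂ).re := by
        rw [hX1, inner_sum, Complex.re_sum]
        refine Finset.sum_congr rfl fun i _ => ?_
        rw [mul_apply_eq_comp, pE_inner_star_right, star_star, pE_inner_self]
      have e2 : (⟪ξ, X1⟫_ℂ).re = (⟪ξ, ξ⟫_ℂ).re + (⟪ξ, X1 - ξ⟫_ℂ).re := by
        rw [← Complex.add_re, ← inner_add_right]; congr 2; abel
      rw [e1, e2, hξξ]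
      have h1 : (⟪ξ, X1 - ξ⟫_ℂ).re ≤ 1 := by
        calc (⟪ξ, X1 - ξ⟫_ℂ).re ≤ ‖⟪ξ, X1 - ξ⟫_ℂ‖ := Complex.re_le_norm _
          _ ≤ ‖ξ‖ * ‖X1 - ξ‖ := norm_inner_le_norm _ _
          _ ≤ 1 * 1 := by
              rw [D.norm_xi]
              gcongr
              exact hb3.trans (min_le_right _ _)
          _ = 1 := one_mul 1
      rw [Complex.one_re]
      linarith
    set E : ℝ := Real.exp (d / 2) - 1 with hE
    have hE0 : 0 < E := by
      rw [hE]
      have := Real.add_one_lt_exp (x := d / 2) (by positivity)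
      linarith
    have hsum : ∑ i, ‖D.cm (b i) ξ‖ ^ 2 ≤ 2 * E ^ 2 := by
      calc ∑ i, ‖D.cm (b i) ξ‖ ^ 2 ≤ ∑ i, (E ^ 2 * ‖b i ξ‖ ^ 2) := by
            refine Finset.sum_le_sum fun i _ => ?_
            rw [← mul_pow]
            exact pow_le_pow_left₀ (norm_nonneg _) (D.norm_cm_xi_le (hb1 i) hd0.le hd1 (hb2 i)) 2
        _ = E ^ 2 * ∑ i, ‖b i ξ‖ ^ 2 := by rw [Finset.mul_sum]
        _ ≤ E ^ 2 * 2 := by gcongr
        _ = 2 * E ^ 2 := by ring
    obtain ⟨ζ, hζ1, hζ2, hζ3⟩ := hB ι b hb1 (2 * E ^ 2) (by positivity) hsum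
    have hpair : ⟪ζ, X1 - X2⟫_ℂ = ∑ i, ⟪D.cm (b i) ζ, b i ξ⟫_ℂ := by
      rw [hX1, hX2, ← Finset.sum_sub_distrib, inner_sum]
      exact Finset.sum_congr rfl fun i _ => (D.inner_cm_eq (hb1 i) ζ).symm
    have hpair2 : ‖⟪ζ, X1 - X2⟫_ℂ‖ ≤ ε := by
      rw [hpair]
      calc ‖∑ i, ⟪D.cm (b i) ζ, b i ξ⟫_ℂ‖ ≤ ∑ i, ‖⟪D.cm (b i) ζ, b i ξ⟫_ℂ‖ := norm_sum_le _ _
        _ ≤ ∑ i, ‖D.cm (b i) ζ‖ * ‖b i ξ‖ :=
            Finset.sum_le_sum fun i _ => norm_inner_le_norm _ _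
        _ ≤ Real.sqrt (∑ i, ‖D.cm (b i) ζ‖ ^ 2) * Real.sqrt (∑ i, ‖b i ξ‖ ^ 2) :=
            Real.sum_mul_le_sqrt_mul_sqrt _ _ _
        _ ≤ Real.sqrt (C * (2 * E ^ 2)) * Real.sqrt 2 := by gcongr
        _ = 2 * Real.sqrt C * E := by
            rw [← Real.sqrt_mul (by (clear * - hC hE0; positivity))]
            have e3 : C * (2 * E ^ 2) * 2 = (2 * E) ^ 2 * C := by ring
            rw [e3, Real.sqrt_mul (by (clear * - hE0; positivity)), Real.sqrt_sq (by (clear * - hE0; positivity))]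
            ring
        _ ≤ ε := hd2
    have h3 : ‖⟪ζ, ξ - c ξ⟫_ℂ‖ ≤ 2 * ε * ‖z ξ‖ + ε := by
      have e4 : ξ - c ξ = (X1 - X2) - (X1 - ξ) + (X2 - c ξ) := by abel
      rw [e4, inner_add_right, inner_sub_right]
      calc ‖⟪ζ, X1 - X2⟫_ℂ - ⟪ζ, X1 - ξ⟫_ℂ + ⟪ζ, X2 - c ξ⟫_ℂ‖
          ≤ ‖⟪ζ, X1 - X2⟫_ℂ - ⟪ζ, X1 - ξ⟫_ℂ‖ + ‖⟪ζ, X2 - c ξ⟫_ℂ‖ := norm_add_le _ _
        _ ≤ ‖⟪ζ, X1 - X2⟫_ℂ‖ + ‖⟪ζ, X1 - ξ⟫_ℂ‖ + ‖⟪ζ, X2 - c ξ⟫_ℂ‖ := by
            gcongr; exact norm_sub_le _ _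
        _ ≤ ε + ‖ζ‖ * ‖X1 - ξ‖ + ‖ζ‖ * ‖X2 - c ξ‖ := by
            gcongr
            · exact norm_inner_le_norm _ _
            · exact norm_inner_le_norm _ _
        _ ≤ ε + ‖z ξ‖ * ε + ‖z ξ‖ * ε := by
            have h5 : ‖X1 - ξ‖ ≤ ε := hb3.trans (min_le_left _ _)
            have h6 : ‖X2 - c ξ‖ ≤ ε := hb4.trans (min_le_left _ _)
            gcongr
        _ = 2 * ε * ‖z ξ‖ + ε := by ring
    have e5 : ⟪z ξ, ξ - c ξ⟫_ℂ = ⟪ζ, ξ - c ξ⟫_ℂ - ⟪ζ - z ξ, ξ - c ξ⟫_ℂ := by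
      rw [← inner_sub_left]; congr 1; abel
    rw [e5]
    calc ‖⟪ζ, ξ - c ξ⟫_ℂ - ⟪ζ - z ξ, ξ - c ξ⟫_ℂ‖
        ≤ ‖⟪ζ, ξ - c ξ⟫_ℂ‖ + ‖⟪ζ - z ξ, ξ - c ξ⟫_ℂ‖ := norm_sub_le _ _
      _ ≤ (2 * ε * ‖z ξ‖ + ε) + ε * A := by
          gcongr
          exact (norm_inner_le_norm _ _).trans (by gcongr)
      _ = ε * (A + 2 * ‖z ξ‖ + 1) := by ring
  have hzero : ⟪z ξ, ξ - c ξ⟫_ℂ = 0 := by
    have hB0 : 0 < A + 2 * ‖z ξ‖ + 1 := by (clear * -; positivity)
    have h1 : ‖⟪z ξ, ξ - c ξ⟫_ℂ‖ ≤ 0 := by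
      refine le_of_forall_pos_le_add fun κ hκ => ?_
      have := hmain (κ / (A + 2 * ‖z ξ‖ + 1)) (by (clear * - hκ; positivity))
      rw [div_mul_cancel₀ _ hB0.ne'] at this
      linarith
    exact norm_le_zero_iff.1 h1
  -- conclusion
  have hzz : ⟪z ξ, ξ⟫_ℂ = (f : ℂ) := by
    rw [pE_inner_star_left, hs, hfr]
  have hn : (‖z ξ‖ ^ 2 : ℝ) = f ^ 2 := by
    rw [inner_sub_right, hzz, hcξ, inner_smul_right, inner_add_right, inner_smul_right, hzz,
      inner_self_eq_norm_sq_to_K] at hzero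
    have h1 : ((f - (f + K0)⁻¹ * (‖z ξ‖ ^ 2 + K0 * f) : ℝ) : ℂ) = 0 := by
      rw [← hzero]; push_cast; rfl
    have h2 : f - (f + K0)⁻¹ * (‖z ξ‖ ^ 2 + K0 * f) = 0 := by exact_mod_cast h1
    field_simp at h2
    nlinarith
  have hzξ : z ξ = (f : ℂ) • ξ := by
    have h1 : ‖z ξ - (f : ℂ) • ξ‖ ^ 2 = 0 := by
      rw [← pE_inner_self, inner_sub_left, inner_sub_right, inner_sub_right, inner_smul_left,
        inner_smul_left, inner_smul_right, inner_smul_right, hξξ, hzz, hfr]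
      simp only [Complex.sub_re, pE_inner_self, Complex.conj_ofReal, mul_one]
      rw [← Complex.ofReal_mul, Complex.ofReal_re, hn]
      ring
    have h2 : ‖z ξ - (f : ℂ) • ξ‖ = 0 := by
      exact pow_eq_zero_iff (two_ne_zero) |>.1 h1
    exact sub_eq_zero.1 (norm_eq_zero.1 h2)
  refine D.ext_xi hz.1 (M.toStarSubalgebra.smul_mem (one_mem M) _) ?_
  rw [hfr, hzξ]
  rfl

theorem erg_of_XL
    (hXL : ∀ c c' : H →L[ℂ] H, D.InC c → star c = c → c ≠ 0 → D.InC c' → star c' = c' → c' ≠ 0 →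
      ∀ δ > 0, ∃ b ∈ M, D.CW (-δ) δ (b ξ) ∧ c' * b * c ≠ 0) : D.Erg := by
  intro x hx hfix
  have hxC : D.InC x := ⟨hx.1, hfix⟩
  have hsN : D.InN (star x) := InN.star hx
  have hsC : D.InC (star x) := InC.adj D hxC
  have h1 := D.erg_sa hXL (z := (1 / 2 : ℂ) • (x + star x)) ((hx.add hsN).smul _)
    (InC.smul D (InC.add D hxC hsC) _) (by
      rw [star_smul, star_add, star_star, add_comm]; simp)
  have h2 := D.erg_sa hXL (z := (-Complex.I / 2 : ℂ) • (x - star x)) ((hx.sub hsN).smul _)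
    (InC.smul D (InC.sub D hxC hsC) _) (by
      rw [star_smul, star_sub, star_star, ← neg_sub x, smul_neg, ← neg_smul]
      congr 1
      simp [neg_div])
  refine ⟨⟪ξ, ((1 / 2 : ℂ) • (x + star x)) ξ⟫_ℂ +
    Complex.I * ⟪ξ, ((-Complex.I / 2 : ℂ) • (x - star x)) ξ⟫_ℂ, ?_⟩
  have e : x = (1 / 2 : ℂ) • (x + star x) + Complex.I • ((-Complex.I / 2 : ℂ) • (x - star x)) := by
    rw [smul_smul]
    have h : Complex.I * (-Complex.I / 2) = (1 / 2 : ℂ) := by
      have := Complex.I_mul_I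
      linear_combination (-1 / 2 : ℂ) * this
    rw [h]
    module
  rw [add_smul, mul_smul, ← h1, ← h2]
  exact e

end ModData

end Vale.Agent.P132
end

section

open Filter Topology
open scoped ComplexConjugate InnerProductSpace BoundedContinuousFunction

namespace Vale.Agent.P132

universe u

variable {H : Type u} [NormedAddCommGroup H] [InnerProductSpace ℂ H] [CompleteSpace H]

namespace ModData

variable {M : VonNeumannAlgebra H} {ξ : H} (D : ModData M ξ)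

/-- Lemma B for finsets -/
theorem H_lemmaB {x : H →L[ℂ] H} (hx : D.InN x) {ε : ℝ} (hε : 0 < ε) :
    ∃ C : ℝ, 0 ≤ C ∧ ∀ (ι : Type) (s : Finset ι) (a : ι → H →L[ℂ] H), (∀ i ∈ s, a i ∈ M) →
      ∀ δ > 0, ∑ i ∈ s, ‖D.cm (a i) ξ‖ ^ 2 ≤ δ →
        ∃ ζ : H, ‖ζ - x ξ‖ ≤ ε ∧ ∑ i ∈ s, ‖D.cm (a i) ζ‖ ^ 2 ≤ C * δ := by
  obtain ⟨C, hC, h⟩ := D.lemmaB hx hε
  refine ⟨C, hC.le, fun ι s a ha δ hδ hs => ?_⟩
  obtain ⟨z, hz1, -, hz2⟩ := h s (fun i => a i) (fun i => ha i i.2) δ hδ (by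
    rw [Finset.sum_coe_sort s (fun i => ‖D.cm (a i) ξ‖ ^ 2)]
    exact hs)
  refine ⟨z, hz1, ?_⟩
  rw [Finset.sum_coe_sort s (fun i => ‖D.cm (a i) z‖ ^ 2)] at hz2
  exact hz2

theorem H_smul_mem {a : H →L[ℂ] H} (c : ℂ) (ha : a ∈ M) : c • a ∈ M :=
  M.toStarSubalgebra.smul_mem ha c

/-- the pairing identity -/
theorem H_pair {X b : H →L[ℂ] H} (hX : X ∈ M) (hb : b ∈ M) (ζ : H) :
    ⟪D.cm (star X * star b) ζ, D.Rm (star b) ξ⟫_ℂ =
      ⟪ζ, (b * D.Rm (star b)) (X ξ)⟫_ℂ - ⟪ζ, D.Rm X (D.Rm (star b * b) ξ)⟫_ℂ := by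
  rw [cm, inner_sub_left]
  congr 1
  · have : star X * star b = ContinuousLinearMap.adjoint (b * X) := by
      rw [← ContinuousLinearMap.star_eq_adjoint, star_mul]
    rw [this, ContinuousLinearMap.adjoint_inner_left]
    show ⟪ζ, b (X (D.Rm (star b) ξ))⟫_ℂ = ⟪ζ, b (D.Rm (star b) (X ξ))⟫_ℂ
    rw [D.comm_Rm hX (star_mem hb)]
  · have : D.Rm (star X * star b) = ContinuousLinearMap.adjoint (D.Rm (b * X)) := by
      rw [← ContinuousLinearMap.star_eq_adjoint, star_Rm, star_mul]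
    rw [this, ContinuousLinearMap.adjoint_inner_left, D.Rm_mul, D.Rm_mul]
    rfl

omit [CompleteSpace H] in
theorem H_inner_avg (τ : ℝ) (n : ℕ) (f : ℝ → H) (ζ : H) :
    ⟪ζ, avg τ n f⟫_ℂ = (((n : ℝ) ^ 3)⁻¹ : ℝ) * ∑ j ∈ Finset.range (n ^ 3), ⟪ζ, f (j * τ / n)⟫_ℂ := by
  rw [avg, RCLike.real_smul_eq_coe_smul (K := ℂ), inner_smul_right, inner_sum]
  rfl

theorem H_TT_apply (τ : ℝ) (n : ℕ) (b : H →L[ℂ] H) (η : H) :
    D.TT τ n b η = avg τ n (fun t => (D.sg t b * D.Rm (star (D.sg t b))) η) := by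
  simp [TT, avg]

omit [CompleteSpace H] in
theorem H_map_avg (L : H →L[ℂ] H) (τ : ℝ) (n : ℕ) (f : ℝ → H) :
    L (avg τ n f) = avg τ n (fun t => L (f t)) := by
  simp only [avg, RCLike.real_smul_eq_coe_smul (K := ℂ), map_smul, map_sum]

theorem H_one {x : H →L[ℂ] H} {ε Cε : ℝ}
    (hB : ∀ (ι : Type) (s : Finset ι) (a : ι → H →L[ℂ] H), (∀ i ∈ s, a i ∈ M) →
      ∀ δ > 0, ∑ i ∈ s, ‖D.cm (a i) ξ‖ ^ 2 ≤ δ →
        ∃ ζ : H, ‖ζ - x ξ‖ ≤ ε ∧ ∑ i ∈ s, ‖D.cm (a i) ζ‖ ^ 2 ≤ Cε * δ)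
    (S : Finset ℕ) (X b : ℕ → H →L[ℂ] H) (hX : ∀ k, X k ∈ M) (hb : ∀ k, b k ∈ M)
    (hb1 : ∀ k ∈ S, ‖b k ξ‖ = 1) (τ : ℝ) {n : ℕ} (hn : 0 < n) {δ : ℝ} (hδ : 0 < δ)
    (hsum : ∑ k ∈ S, avg τ n (fun t => ‖D.cm (star (X k) * star (D.sg t (b k))) ξ‖ ^ 2) ≤ δ) :
    ∃ ζ : H, ‖ζ - x ξ‖ ≤ ε ∧
      ‖⟪ζ, ∑ k ∈ S, D.TT τ n (b k) (X k ξ)⟫_ℂ -
        ⟪ζ, ∑ k ∈ S, D.Rm (X k) (avg τ n (fun t => D.Rm (D.sg t (star (b k) * b k)) ξ))⟫_ℂ‖ ^ 2
        ≤ Cε * δ * S.card := by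
  set A : ℝ := ((n : ℝ) ^ 3)⁻¹ with hA
  have hn' : (0 : ℝ) < n := by exact_mod_cast hn
  have hApos : 0 < A := by positivity
  set q : ℝ := Real.sqrt A with hq
  have hq2 : q ^ 2 = A := Real.sq_sqrt hApos.le
  set T : ℕ → ℝ := fun j => j * τ / n with hT
  -- family
  let a : ℕ × ℕ → H →L[ℂ] H := fun p => (q : ℂ) • (star (X p.1) * star (D.sg (T p.2) (b p.1)))
  have haM : ∀ p ∈ S ×ˢ Finset.range (n ^ 3), a p ∈ M := fun p _ =>
    H_smul_mem _ (mul_mem (star_mem (hX _)) (star_mem (D.sg_mem (hb _) _)))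
  have hnorm : ∀ (η : H), ∑ p ∈ S ×ˢ Finset.range (n ^ 3), ‖D.cm (a p) η‖ ^ 2 =
      ∑ k ∈ S, avg τ n (fun t => ‖D.cm (star (X k) * star (D.sg t (b k))) η‖ ^ 2) := by
    intro η
    rw [Finset.sum_product]
    refine Finset.sum_congr rfl fun k _ => ?_
    simp only [avg, smul_eq_mul, Finset.mul_sum]
    refine Finset.sum_congr rfl fun j _ => ?_
    simp only [a, D.cm_smul, norm_smul, mul_pow]
    rw [Complex.norm_real, Real.norm_eq_abs, sq_abs, hq2]
  obtain ⟨ζ, hζ1, hζ2⟩ := hB (ℕ × ℕ) (S ×ˢ Finset.range (n ^ 3)) a haM δ hδ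
    (by rw [hnorm]; exact hsum)
  refine ⟨ζ, hζ1, ?_⟩
  -- identity
  have hid : ⟪ζ, ∑ k ∈ S, D.TT τ n (b k) (X k ξ)⟫_ℂ -
      ⟪ζ, ∑ k ∈ S, D.Rm (X k) (avg τ n (fun t => D.Rm (D.sg t (star (b k) * b k)) ξ))⟫_ℂ =
      ∑ p ∈ S ×ˢ Finset.range (n ^ 3),
        ⟪D.cm (a p) ζ, (q : ℂ) • D.Rm (star (D.sg (T p.2) (b p.1))) ξ⟫_ℂ := by
    rw [Finset.sum_product, inner_sum, inner_sum, ← Finset.sum_sub_distrib]
    refine Finset.sum_congr rfl fun k _ => ?_
    rw [H_TT_apply, H_map_avg, H_inner_avg, H_inner_avg, ← mul_sub, ← Finset.sum_sub_distrib,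
      Finset.mul_sum]
    refine Finset.sum_congr rfl fun j _ => ?_
    have h1 := D.H_pair (hX k) (D.sg_mem (hb k) (T j)) ζ
    have h2 : D.sg (T j) (star (b k) * b k) = star (D.sg (T j) (b k)) * D.sg (T j) (b k) := by
      rw [sg_mul, star_sg]
    simp only [a, D.cm_smul, inner_smul_left, inner_smul_right, Complex.conj_ofReal]
    have hqA : ((((n : ℝ) ^ 3)⁻¹ : ℝ) : ℂ) = (q : ℂ) * (q : ℂ) := by
      rw [← hA, ← hq2]; push_cast; ring
    rw [h1, ← mul_assoc, ← h2, hqA]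
  rw [hid]
  have hw : ∑ p ∈ S ×ˢ Finset.range (n ^ 3),
      ‖(q : ℂ) • D.Rm (star (D.sg (T p.2) (b p.1))) ξ‖ ^ 2 = S.card := by
    rw [Finset.sum_product]
    have : ∀ k ∈ S, ∑ j ∈ Finset.range (n ^ 3),
        ‖(q : ℂ) • D.Rm (star (D.sg (T j) (b k))) ξ‖ ^ 2 = 1 := by
      intro k hk
      have : ∀ j ∈ Finset.range (n ^ 3),
          ‖(q : ℂ) • D.Rm (star (D.sg (T j) (b k))) ξ‖ ^ 2 = A := by
        intro j _
        rw [norm_smul, D.norm_Rm_xi, star_star, D.sg_xi, D.norm_U, hb1 k hk, mul_one,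
          Complex.norm_real, Real.norm_eq_abs, sq_abs, hq2]
      rw [Finset.sum_congr rfl this, Finset.sum_const, Finset.card_range, nsmul_eq_mul, hA]
      push_cast
      field_simp
    rw [Finset.sum_congr rfl this]
    simp
  calc ‖∑ p ∈ S ×ˢ Finset.range (n ^ 3),
        ⟪D.cm (a p) ζ, (q : ℂ) • D.Rm (star (D.sg (T p.2) (b p.1))) ξ⟫_ℂ‖ ^ 2
      ≤ (∑ p ∈ S ×ˢ Finset.range (n ^ 3),
        ‖D.cm (a p) ζ‖ * ‖(q : ℂ) • D.Rm (star (D.sg (T p.2) (b p.1))) ξ‖) ^ 2 := by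
        refine pow_le_pow_left₀ (norm_nonneg _) ?_ 2
        refine (norm_sum_le _ _).trans (Finset.sum_le_sum fun p _ => norm_inner_le_norm _ _)
    _ ≤ (∑ p ∈ S ×ˢ Finset.range (n ^ 3), ‖D.cm (a p) ζ‖ ^ 2) *
        (∑ p ∈ S ×ˢ Finset.range (n ^ 3),
          ‖(q : ℂ) • D.Rm (star (D.sg (T p.2) (b p.1))) ξ‖ ^ 2) :=
        Finset.sum_mul_sq_le_sq_mul_sq _ _ _
    _ ≤ Cε * δ * S.card := by
        rw [hw]
        gcongr

theorem H_norm_U_le (t : ℝ) : ‖D.U t‖ ≤ 1 :=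
  ContinuousLinearMap.opNorm_le_bound _ zero_le_one fun ζ => by rw [norm_U, one_mul]

theorem H_TT_comm_neg (τ : ℝ) (b : H →L[ℂ] H) (m : ℕ) :
    Tendsto (fun n : ℕ => ‖D.TT τ n b * D.U (-(m * τ)) - D.U (-(m * τ)) * D.TT τ n b‖)
      atTop (𝓝 0) := by
  refine squeeze_zero (fun _ => norm_nonneg _) (fun n => ?_) (D.TT_comm τ b m)
  have h : D.TT τ n b * D.U (-(m * τ)) - D.U (-(m * τ)) * D.TT τ n b =
      -(D.U (-(m * τ)) * (D.TT τ n b * D.U (m * τ) - D.U (m * τ) * D.TT τ n b) *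
        D.U (-(m * τ))) := by
    rw [mul_sub, sub_mul, neg_sub]
    congr 1
    · rw [← mul_assoc (D.U (-(m * τ))) (D.U (m * τ)), D.U_neg_mul_U, one_mul]
    · rw [mul_assoc, mul_assoc, D.U_mul_U_neg, mul_one]
  rw [h, norm_neg]
  calc ‖D.U (-(m * τ)) * (D.TT τ n b * D.U (m * τ) - D.U (m * τ) * D.TT τ n b) *
        D.U (-(m * τ))‖
      ≤ ‖D.U (-(m * τ))‖ * ‖D.TT τ n b * D.U (m * τ) - D.U (m * τ) * D.TT τ n b‖ *
        ‖D.U (-(m * τ))‖ :=
        (norm_mul_le _ _).trans (mul_le_mul_of_nonneg_right (norm_mul_le _ _) (norm_nonneg _))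
    _ ≤ 1 * ‖D.TT τ n b * D.U (m * τ) - D.U (m * τ) * D.TT τ n b‖ * 1 := by
        gcongr
        · exact D.H_norm_U_le _
        · exact D.H_norm_U_le _
    _ = _ := by rw [one_mul, mul_one]

theorem H_star_gg (τ : ℝ) (K k : ℕ) : star (D.gg τ K k) =
    (conj (K : ℂ)⁻¹) • ∑ r ∈ Finset.range K,
      conj (Complex.exp (-(2 * Real.pi * Complex.I * (r * k : ℕ) / K))) • D.U (-(r * τ)) := by
  rw [gg, star_smul, star_sum]
  congr 1
  refine Finset.sum_congr rfl fun r _ => ?_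
  rw [star_smul, star_U]
  rfl

theorem H_comm_gg (τ : ℝ) (b : H →L[ℂ] H) (K k : ℕ) :
    Tendsto (fun n : ℕ => D.TT τ n b * star (D.gg τ K k) - star (D.gg τ K k) * D.TT τ n b)
      atTop (𝓝 0) := by
  have h : ∀ n : ℕ, D.TT τ n b * star (D.gg τ K k) - star (D.gg τ K k) * D.TT τ n b =
      (conj (K : ℂ)⁻¹) • ∑ r ∈ Finset.range K,
      conj (Complex.exp (-(2 * Real.pi * Complex.I * (r * k : ℕ) / K))) •
        (D.TT τ n b * D.U (-(r * τ)) - D.U (-(r * τ)) * D.TT τ n b) := by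
    intro n
    rw [H_star_gg, mul_smul_comm, smul_mul_assoc, ← smul_sub, Finset.mul_sum, Finset.sum_mul,
      ← Finset.sum_sub_distrib]
    congr 1
    refine Finset.sum_congr rfl fun r _ => ?_
    rw [mul_smul_comm, smul_mul_assoc, ← smul_sub]
  simp only [h]
  have h2 : ∀ r : ℕ, Tendsto (fun n : ℕ =>
      D.TT τ n b * D.U (-(r * τ)) - D.U (-(r * τ)) * D.TT τ n b) atTop (𝓝 0) := fun r =>
    tendsto_zero_iff_norm_tendsto_zero.2 (D.H_TT_comm_neg τ b r)
  have h3 := (tendsto_finsetSum (Finset.range K) fun r _ =>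
    (h2 r).const_smul (conj (Complex.exp (-(2 * Real.pi * Complex.I * (r * k : ℕ) / K))))).const_smul
      (conj (K : ℂ)⁻¹)
  simpa using h3

theorem H_FG (S : Finset ℕ) (b : ℕ → H →L[ℂ] H) (τ : ℝ) (K : ℕ) (η : H) :
    Tendsto (fun n : ℕ => ∑ k ∈ S, D.TT τ n (b k) (star (D.gg τ K k) (D.gg τ K k η)) -
      ∑ k ∈ S, star (D.gg τ K k) (D.TT τ n (b k) (D.gg τ K k η))) atTop (𝓝 0) := by
  have h : ∀ k : ℕ, Tendsto (fun n : ℕ =>
      (D.TT τ n (b k) * star (D.gg τ K k) - star (D.gg τ K k) * D.TT τ n (b k))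
        (D.gg τ K k η)) atTop (𝓝 0) := fun k => by
    have := ((ContinuousLinearMap.apply ℂ H (D.gg τ K k η)).continuous.tendsto 0).comp
      (D.H_comm_gg τ (b k) K k)
    rw [map_zero] at this
    exact this
  have h3 := tendsto_finsetSum S fun k _ => h k
  simp only [Finset.sum_const_zero] at h3
  refine h3.congr fun n => ?_
  rw [← Finset.sum_sub_distrib]
  rfl

theorem H_scale {X : H →L[ℂ] H} (hX : X ∈ M) (h0 : X ≠ 0) {h₁ h₂ : ℝ}
    (hW : D.Win h₁ h₂ (X ξ)) :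
    ‖((‖star X ξ‖⁻¹ : ℂ) • star X) ξ‖ = 1 ∧
      ‖star ((‖star X ξ‖⁻¹ : ℂ) • star X) ξ‖ ^ 2 ≤ Real.exp (-h₁) := by
  have hne : star X ξ ≠ 0 := by
    intro h
    have h' : star X = 0 := D.ext_xi (star_mem hX) (zero_mem _) (by rw [h]; simp)
    exact h0 (star_eq_zero.1 h')
  have hpos : 0 < ‖star X ξ‖ := norm_pos_iff.2 hne
  constructor
  · rw [_root_.smul_apply, norm_smul, norm_inv, Complex.norm_real, norm_norm,
      inv_mul_cancel₀ hpos.ne']
  · rw [star_smul, star_star, _root_.smul_apply, norm_smul, norm_star, norm_inv,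
      Complex.norm_real, norm_norm]
    have h1 := (D.Rm_xi_lower hX hW).1
    rw [D.norm_Rm_xi] at h1
    have h2 : ‖star X ξ‖⁻¹ * ‖X ξ‖ ≤ Real.exp (-(h₁ / 2)) := by
      rw [Real.exp_neg, inv_mul_le_iff₀ hpos, ← div_eq_mul_inv, le_div_iff₀ (Real.exp_pos _)]
      linarith [mul_comm ‖X ξ‖ (Real.exp (h₁ / 2))]
    calc (‖star X ξ‖⁻¹ * ‖X ξ‖) ^ 2 ≤ (Real.exp (-(h₁ / 2))) ^ 2 :=
        pow_le_pow_left₀ (by positivity) h2 2
      _ = Real.exp (-h₁) := by
        rw [← Real.exp_nat_mul]; congr 1; push_cast; ring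

theorem H_RR (hE : D.Erg) {τ : ℝ} (hτ : τ ≠ 0) (S : Finset ℕ) (X b : ℕ → H →L[ℂ] H)
    (hb : ∀ k, D.InN (b k)) (hb1 : ∀ k ∈ S, ‖b k ξ‖ = 1)
    {x : H →L[ℂ] H} (hx : ∑ k ∈ S, X k = x) :
    Tendsto (fun n : ℕ => ∑ k ∈ S,
      D.Rm (X k) (avg τ n (fun t => D.Rm (D.sg t (star (b k) * b k)) ξ))) atTop
      (𝓝 (D.Rm x ξ)) := by
  have h : ∀ k ∈ S, Tendsto (fun n : ℕ =>
      D.Rm (X k) (avg τ n (fun t => D.Rm (D.sg t (star (b k) * b k)) ξ))) atTop
      (𝓝 (D.Rm (X k) ξ)) := by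
    intro k hk
    have h1 := D.tendsto_avg_Rm_sg hE hτ ((hb k).star.mul (hb k)) ξ
    have h2 : ⟪ξ, (star (b k) * b k) ξ⟫_ℂ = 1 := by
      rw [mul_apply_eq_comp, ContinuousLinearMap.star_eq_adjoint,
        ContinuousLinearMap.adjoint_inner_right, inner_self_eq_norm_sq_to_K, hb1 k hk]
      simp
    rw [h2, one_smul] at h1
    exact ((D.Rm (X k)).continuous.tendsto _).comp h1
  have h3 := tendsto_finsetSum S h
  have h4 : ∑ k ∈ S, D.Rm (X k) ξ = D.Rm x ξ := by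
    rw [← hx, Rm_sum, _root_.sum_apply]
  rw [h4] at h3
  exact h3

theorem H_main (hE : D.Erg) {x : H →L[ℂ] H} (hx : D.InN x) {h₁ h₂ : ℝ} (h0 : 0 < h₁)
    (hW : D.Win h₁ h₂ (x ξ)) {ε : ℝ} (hε : 0 < ε) :
    ∃ C' : ℝ, 0 ≤ C' ∧ ∀ K : ℕ, 0 < K →
      Real.exp (h₁ / 2) * ‖x ξ‖ ^ 2 ≤
        (‖x ξ‖ + ε) * (Real.sqrt (Real.exp (-h₁) * ‖x ξ‖ ^ 2 + 1 / (K : ℝ) ^ 2) + 2 / K) +
          Real.sqrt (C' / K) + ε * ‖D.Rm x ξ‖ := by
  obtain ⟨Cε, hCε, hB⟩ := D.H_lemmaB hx hε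
  set τ : ℝ := Real.pi / (|h₂| + 1) with hτdef
  have hτ : 0 < τ := by positivity
  have hP : h₂ < 2 * Real.pi / τ := by
    rw [hτdef]
    have : 2 * Real.pi / (Real.pi / (|h₂| + 1)) = 2 * (|h₂| + 1) := by
      field_simp
    rw [this]
    linarith [le_abs_self h₂, abs_nonneg h₂]
  obtain ⟨C, hC, hpieces⟩ := D.pieces_bound h0 hτ hP
  refine ⟨Cε * (4 * C * ‖x ξ‖ ^ 2 + 1), by (clear * - hCε hC; positivity), ?_⟩
  intro K hK
  have hK' : (0 : ℝ) < K := by exact_mod_cast hK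
  obtain ⟨X, hXN, hXsum, hXξ⟩ := D.exists_pieces hx τ hK
  obtain ⟨hWk, hsumk⟩ := hpieces x hx.1 hW K hK X (fun k => (hXN k).1) hXξ
  classical
  set S : Finset ℕ := (Finset.range K).filter (fun k => X k ≠ 0) with hS
  have hSX : ∑ k ∈ S, X k = x := by
    rw [hS, Finset.sum_filter_ne_zero, hXsum]
  have hScard : (S.card : ℝ) ≤ K := by
    have : S.card ≤ (Finset.range K).card := Finset.card_filter_le _ _
    rw [Finset.card_range] at this
    exact_mod_cast this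
  set b : ℕ → H →L[ℂ] H := fun k => (‖star (X k) ξ‖⁻¹ : ℂ) • star (X k) with hb
  have hbN : ∀ k, D.InN (b k) := fun k => (hXN k).star.smul _
  have hsc : ∀ k ∈ S, ‖b k ξ‖ = 1 ∧ ‖star (b k) ξ‖ ^ 2 ≤ Real.exp (-h₁) := fun k hk =>
    D.H_scale (hXN k).1 (Finset.mem_filter.1 hk).2 (hWk k)
  set κ : ℝ := 1 / (K : ℝ) ^ 3 with hκdef
  have hκ : 0 < κ := by positivity
  set δ : ℝ := (4 * C * ‖x ξ‖ ^ 2 + 1) / (K : ℝ) ^ 2 with hδdef
  have hδ : 0 < δ := by (clear * - hC hK; positivity)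
  -- the eventual statements
  have e1 : ∀ᶠ n : ℕ in atTop, ∀ k ∈ S,
      avg τ n (fun t => ‖D.cm (star (X k) * star (D.sg t (b k))) ξ‖ ^ 2) ≤
        4 * ‖X k ξ - ((Real.exp (-(Real.pi * k / (τ * K))) : ℝ) : ℂ) • D.Rm (X k) ξ‖ ^ 2 + κ :=
    (Filter.eventually_all_finset S).2 fun k hk =>
      D.cm_family_bound hE hτ.ne' (hXN k) (Finset.mem_filter.1 hk).2 _ hκ
  have e2 : ∀ᶠ n : ℕ in atTop, ∀ k ∈ S, ‖D.TT τ n (b k) (D.gg τ K k (x ξ))‖ ^ 2 ≤
      ‖b k ξ‖ ^ 2 * ‖star (b k) ξ‖ ^ 2 * ‖D.gg τ K k (x ξ)‖ ^ 2 + κ :=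
    (Filter.eventually_all_finset S).2 fun k _ => D.TT_bound hE hτ.ne' (hbN k) _ hκ
  have hinv : (0 : ℝ) < 1 / K := by positivity
  have e3 : ∀ᶠ n : ℕ in atTop,
      ‖∑ k ∈ S, D.TT τ n (b k) (star (D.gg τ K k) (D.gg τ K k (x ξ))) -
      ∑ k ∈ S, star (D.gg τ K k) (D.TT τ n (b k) (D.gg τ K k (x ξ)))‖ < 1 / K := by
    have := (D.H_FG S b τ K (x ξ)).norm
    rw [norm_zero] at this
    exact this.eventually (gt_mem_nhds hinv)
  have e4 : ∀ᶠ n : ℕ in atTop,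
      ‖∑ k ∈ S, D.Rm (X k) (avg τ n (fun t => D.Rm (D.sg t (star (b k) * b k)) ξ)) -
        D.Rm x ξ‖ < 1 / K := by
    have := ((D.H_RR hE hτ.ne' S X b hbN (fun k hk => (hsc k hk).1) hSX).sub_const
      (D.Rm x ξ)).norm
    rw [sub_self, norm_zero] at this
    exact this.eventually (gt_mem_nhds hinv)
  obtain ⟨n, ⟨⟨⟨⟨h1, h2⟩, h3⟩, h4⟩, hn⟩⟩ :=
    ((((e1.and e2).and e3).and e4).and (eventually_gt_atTop 0)).exists
  have hsum : ∑ k ∈ S, avg τ n (fun t => ‖D.cm (star (X k) * star (D.sg t (b k))) ξ‖ ^ 2)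
      ≤ δ := by
    calc ∑ k ∈ S, avg τ n (fun t => ‖D.cm (star (X k) * star (D.sg t (b k))) ξ‖ ^ 2)
        ≤ ∑ k ∈ S, (4 * ‖X k ξ - ((Real.exp (-(Real.pi * k / (τ * K))) : ℝ) : ℂ) •
          D.Rm (X k) ξ‖ ^ 2 + κ) := Finset.sum_le_sum h1
      _ ≤ ∑ k ∈ Finset.range K, (4 * ‖X k ξ - ((Real.exp (-(Real.pi * k / (τ * K))) : ℝ) : ℂ) •
          D.Rm (X k) ξ‖ ^ 2 + κ) :=
          Finset.sum_le_sum_of_subset_of_nonneg (Finset.filter_subset _ _)
            fun _ _ _ => by (clear * - hK; positivity)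
      _ = 4 * ∑ k ∈ Finset.range K, ‖X k ξ - ((Real.exp (-(Real.pi * k / (τ * K))) : ℝ) : ℂ) •
          D.Rm (X k) ξ‖ ^ 2 + K * κ := by
          rw [Finset.sum_add_distrib, ← Finset.mul_sum, Finset.sum_const, Finset.card_range,
            nsmul_eq_mul]
      _ ≤ 4 * (C / (K : ℝ) ^ 2 * ‖x ξ‖ ^ 2) + K * κ := by gcongr
      _ = δ := by rw [hδdef, hκdef]; field_simp
  obtain ⟨ζ, hζ1, hζ2⟩ := D.H_one hB S X b (fun k => (hXN k).1) (fun k => (hbN k).1)
    (fun k hk => (hsc k hk).1) τ hn hδ hsum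
  set F : H := ∑ k ∈ S, D.TT τ n (b k) (X k ξ) with hF
  set G : H := ∑ k ∈ S, star (D.gg τ K k) (D.TT τ n (b k) (D.gg τ K k (x ξ))) with hG
  set R : H := ∑ k ∈ S, D.Rm (X k) (avg τ n (fun t => D.Rm (D.sg t (star (b k) * b k)) ξ))
    with hR
  have hFG : ‖F - G‖ ≤ 1 / K := by
    have : F = ∑ k ∈ S, D.TT τ n (b k) (star (D.gg τ K k) (D.gg τ K k (x ξ))) := by
      rw [hF]; exact Finset.sum_congr rfl fun k _ => by rw [hXξ]
    rw [this]
    exact h3.le
  have hGn : ‖G‖ ^ 2 ≤ Real.exp (-h₁) * ‖x ξ‖ ^ 2 + 1 / (K : ℝ) ^ 2 := by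
    have hG' : G = ∑ k ∈ Finset.range K, star (D.gg τ K k)
        (if X k ≠ 0 then D.TT τ n (b k) (D.gg τ K k (x ξ)) else 0) := by
      rw [hG, hS, Finset.sum_filter]
      refine Finset.sum_congr rfl fun k _ => ?_
      split_ifs <;> simp
    rw [hG']
    refine (D.norm_sum_star_gg τ hK _).trans ?_
    calc ∑ k ∈ Finset.range K,
          ‖(if X k ≠ 0 then D.TT τ n (b k) (D.gg τ K k (x ξ)) else 0)‖ ^ 2
        ≤ ∑ k ∈ Finset.range K, (Real.exp (-h₁) * ‖D.gg τ K k (x ξ)‖ ^ 2 + κ) := by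
          refine Finset.sum_le_sum fun k hk => ?_
          split_ifs with hk0
          · have hkS : k ∈ S := Finset.mem_filter.2 ⟨hk, hk0⟩
            refine (h2 k hkS).trans ?_
            rw [(hsc k hkS).1, one_pow, one_mul]
            gcongr
            exact (hsc k hkS).2
          · rw [norm_zero, zero_pow two_ne_zero]
            (clear * - hK; positivity)
      _ = Real.exp (-h₁) * ‖x ξ‖ ^ 2 + K * κ := by
          rw [Finset.sum_add_distrib, ← Finset.mul_sum, D.gg_sum τ hK, Finset.sum_const,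
            Finset.card_range, nsmul_eq_mul]
      _ = _ := by rw [hκdef]; field_simp
  have hGn' : ‖G‖ ≤ Real.sqrt (Real.exp (-h₁) * ‖x ξ‖ ^ 2 + 1 / (K : ℝ) ^ 2) :=
    Real.le_sqrt_of_sq_le hGn
  have hζn : ‖ζ‖ ≤ ‖x ξ‖ + ε := by
    calc ‖ζ‖ = ‖x ξ + (ζ - x ξ)‖ := by rw [add_sub_cancel]
      _ ≤ ‖x ξ‖ + ‖ζ - x ξ‖ := norm_add_le _ _
      _ ≤ ‖x ξ‖ + ε := by gcongr
  have hpair : ‖⟪ζ, F⟫_ℂ - ⟪ζ, R⟫_ℂ‖ ≤ Real.sqrt (Cε * (4 * C * ‖x ξ‖ ^ 2 + 1) / K) := by
    refine Real.le_sqrt_of_sq_le (hζ2.trans ?_)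
    calc Cε * δ * S.card ≤ Cε * δ * K := by gcongr
      _ = Cε * (4 * C * ‖x ξ‖ ^ 2 + 1) / K := by rw [hδdef]; field_simp
  -- final estimate
  have f1 : ‖⟪x ξ, D.Rm x ξ⟫_ℂ‖ ≤ ‖⟪ζ, D.Rm x ξ⟫_ℂ‖ + ε * ‖D.Rm x ξ‖ := by
    have : ⟪x ξ, D.Rm x ξ⟫_ℂ = ⟪ζ, D.Rm x ξ⟫_ℂ - ⟪ζ - x ξ, D.Rm x ξ⟫_ℂ := by
      rw [inner_sub_left]; ring
    rw [this]
    refine (norm_sub_le _ _).trans ?_
    gcongr
    exact (norm_inner_le_norm _ _).trans (by gcongr)
  have f2 : ‖⟪ζ, D.Rm x ξ⟫_ℂ‖ ≤ ‖⟪ζ, R⟫_ℂ‖ + (‖x ξ‖ + ε) * (1 / K) := by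
    have : ⟪ζ, D.Rm x ξ⟫_ℂ = ⟪ζ, R⟫_ℂ - ⟪ζ, R - D.Rm x ξ⟫_ℂ := by
      rw [inner_sub_right]; ring
    rw [this]
    refine (norm_sub_le _ _).trans ?_
    gcongr
    refine (norm_inner_le_norm _ _).trans ?_
    gcongr
  have f3 : ‖⟪ζ, R⟫_ℂ‖ ≤ ‖⟪ζ, F⟫_ℂ‖ + Real.sqrt (Cε * (4 * C * ‖x ξ‖ ^ 2 + 1) / K) := by
    have : ⟪ζ, R⟫_ℂ = ⟪ζ, F⟫_ℂ - (⟪ζ, F⟫_ℂ - ⟪ζ, R⟫_ℂ) := by ring
    rw [this]
    refine (norm_sub_le _ _).trans ?_
    gcongr
  have f4 : ‖⟪ζ, F⟫_ℂ‖ ≤ (‖x ξ‖ + ε) *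
      (Real.sqrt (Real.exp (-h₁) * ‖x ξ‖ ^ 2 + 1 / (K : ℝ) ^ 2) + 1 / K) := by
    refine (norm_inner_le_norm _ _).trans ?_
    gcongr
    calc ‖F‖ = ‖G + (F - G)‖ := by rw [add_sub_cancel]
      _ ≤ ‖G‖ + ‖F - G‖ := norm_add_le _ _
      _ ≤ _ := by gcongr
  have f5 : (⟪x ξ, D.Rm x ξ⟫_ℂ).re ≤ ‖⟪x ξ, D.Rm x ξ⟫_ℂ‖ := Complex.re_le_norm _
  have f6 := (D.Rm_xi_lower hx.1 hW).2
  have f7 : (‖x ξ‖ + ε) * (Real.sqrt (Real.exp (-h₁) * ‖x ξ‖ ^ 2 + 1 / (K : ℝ) ^ 2) + 2 / K) =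
      (‖x ξ‖ + ε) * (Real.sqrt (Real.exp (-h₁) * ‖x ξ‖ ^ 2 + 1 / (K : ℝ) ^ 2) + 1 / K) +
      (‖x ξ‖ + ε) * (1 / K) := by ring
  rw [f7]
  linarith only [f6, f5, f4, f3, f2, f1]

/-- main window theorem -/
theorem main_window (hE : D.Erg) {x : H →L[ℂ] H} (hx : D.InN x) {h₁ h₂ : ℝ} (h0 : 0 < h₁)
    (hW : D.Win h₁ h₂ (x ξ)) : x = 0 := by
  set N : ℝ := ‖x ξ‖ with hN
  have key : ∀ ε : ℝ, 0 < ε → Real.exp (h₁ / 2) * N ^ 2 ≤
      (N + ε) * (Real.exp (-(h₁ / 2)) * N) + ε * ‖D.Rm x ξ‖ := by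
    intro ε hε
    obtain ⟨C', hC', hm⟩ := D.H_main hE hx h0 hW hε
    have hinv : Tendsto (fun K : ℕ => ((K : ℝ))⁻¹) atTop (𝓝 0) :=
      tendsto_inv_atTop_nhds_zero_nat
    have t1 : Tendsto (fun K : ℕ => (N + ε) *
        (Real.sqrt (Real.exp (-h₁) * N ^ 2 + 1 / (K : ℝ) ^ 2) + 2 / K) +
          Real.sqrt (C' / K) + ε * ‖D.Rm x ξ‖) atTop
        (𝓝 ((N + ε) * (Real.sqrt (Real.exp (-h₁) * N ^ 2 + 0 ^ 2) + 2 * 0) +
          Real.sqrt (C' * 0) + ε * ‖D.Rm x ξ‖)) := by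
      refine Tendsto.add_const _ (Tendsto.add (Tendsto.const_mul _ (Tendsto.add ?_ ?_)) ?_)
      · refine (Real.continuous_sqrt.tendsto _).comp (Tendsto.const_add _ ?_)
        simpa [one_div, inv_pow] using hinv.pow 2
      · simpa [div_eq_mul_inv] using hinv.const_mul 2
      · refine (Real.continuous_sqrt.tendsto _).comp ?_
        simpa [div_eq_mul_inv] using hinv.const_mul C'
    have t2 := ge_of_tendsto t1 (b := Real.exp (h₁ / 2) * N ^ 2) (by
      filter_upwards [eventually_gt_atTop 0] with K hK using hm K hK)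
    have t3 : Real.sqrt (Real.exp (-h₁) * N ^ 2 + 0 ^ 2) = Real.exp (-(h₁ / 2)) * N := by
      have : Real.exp (-h₁) * N ^ 2 + 0 ^ 2 = (Real.exp (-(h₁ / 2)) * N) ^ 2 := by
        rw [mul_pow, ← Real.exp_nat_mul]
        have : ((2 : ℕ) : ℝ) * -(h₁ / 2) = -h₁ := by push_cast; ring
        rw [this]; ring
      rw [this, Real.sqrt_sq (by positivity)]
    rw [t3] at t2
    simpa using t2
  have key2 : Real.exp (h₁ / 2) * N ^ 2 ≤ N * (Real.exp (-(h₁ / 2)) * N) := by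
    have t : Tendsto (fun ε : ℝ => (N + ε) * (Real.exp (-(h₁ / 2)) * N) + ε * ‖D.Rm x ξ‖)
        (𝓝[>] 0) (𝓝 ((N + 0) * (Real.exp (-(h₁ / 2)) * N) + 0 * ‖D.Rm x ξ‖)) := by
      apply tendsto_nhdsWithin_of_tendsto_nhds
      have : Continuous (fun ε : ℝ => (N + ε) * (Real.exp (-(h₁ / 2)) * N) + ε * ‖D.Rm x ξ‖) := by
        fun_prop
      exact this.tendsto 0
    have := ge_of_tendsto t (by
      filter_upwards [self_mem_nhdsWithin] with ε hε using key ε hε)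
    simpa using this
  have hexp : Real.exp (-(h₁ / 2)) < Real.exp (h₁ / 2) := Real.exp_lt_exp.2 (by linarith)
  have hN0 : N = 0 := by
    by_contra hne
    have hNpos : 0 < N ^ 2 := by positivity
    linarith only [mul_pos (sub_pos.2 hexp) (sub_pos.2 hNpos), key2]
  refine D.ext_xi hx.1 (zero_mem _) ?_
  rw [norm_eq_zero.1 hN0]
  simp

end ModData

end Vale.Agent.P132
end

section

/-!
# P132: the core theorem
-/

open Filter Topology
open scoped ComplexConjugate InnerProductSpace BoundedContinuousFunction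

namespace Vale.Agent.P132

universe u

variable {H : Type u} [NormedAddCommGroup H] [InnerProductSpace ℂ H] [CompleteSpace H]

namespace ModData

variable {M : VonNeumannAlgebra H} {ξ : H} (D : ModData M ξ)

/-- `N ∩ M_φ = ℂ` for type III₁ factors. -/
theorem erg_of_typeIII
    (hfac : ∀ z ∈ M, z ∈ M.commutant → ∃ c : ℂ, z = c • 1)
    (hIII : ∀ e ∈ M, star e = e → e * e = e → e ≠ 0 → ∃ v ∈ M, star v * v = e ∧ v * star v = 1)
    (hspec : ∀ (η : H) (E : ModData M η) (a b : ℝ), a < b →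
      ∃ F : ℝ →ᵇ ℂ, tsupport F ⊆ Set.Ioo a b ∧ E.Th F ≠ 0) : D.Erg := by
  refine D.erg_of_XL ?_
  intro c c' hc hcs hc0 hc' hcs' hc0' δ hδ
  exact D.XL_of hfac hIII (fun _ _ _ _ h hc => CW.InC_left D h hc)
    (fun _ _ _ _ _ _ hx hy h1 h2 => CW.mul D hx hy h1 h2)
    (fun _ _ _ hc hc' ha h _ hd => exists_narrow D hc hc' ha h hd)
    (fun _ _ hr hr1 hr2 hv hv1 hv2 _ _ hab => D.exists_corner_window hspec hr hr1 hr2 hv hv1 hv2 hab)
    hc hcs hc0 hc' hcs' hc0' hδ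

/-- The core theorem. -/
theorem core
    (hfac : ∀ z ∈ M, z ∈ M.commutant → ∃ c : ℂ, z = c • 1)
    (hIII : ∀ e ∈ M, star e = e → e * e = e → e ≠ 0 → ∃ v ∈ M, star v * v = e ∧ v * star v = 1)
    (hspec : ∀ (η : H) (E : ModData M η) (a b : ℝ), a < b →
      ∃ F : ℝ →ᵇ ℂ, tsupport F ⊆ Set.Ioo a b ∧ E.Th F ≠ 0)
    (x : H →L[ℂ] H) (hx : D.InN x) : ∃ c : ℂ, x = c • 1 := by
  have hE : D.Erg := D.erg_of_typeIII hfac hIII hspec
  exact D.scalar_of_erg_aux (fun x hx => hx.star)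
    (fun x hx f hf hf' => InN.smooth D hx f hf hf')
    (fun x hx h₁ h₂ h0 hW => D.main_window hE hx h0 hW) hE hx

end ModData

end Vale.Agent.P132
end

section

/-!
# P132: the final theorem, from Tomita-Takesaki (`hmod`) and the core theorem (`hcore`)
-/

open Filter Topology
open scoped ComplexConjugate InnerProductSpace BoundedContinuousFunction

namespace Vale.Agent.P132

universe u

variable {H : Type u} [NormedAddCommGroup H] [InnerProductSpace ℂ H] [CompleteSpace H]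

theorem bicentralizer_eq_of {M : VonNeumannAlgebra H} (hfac : IsFactor M)
    (hAll : ∀ e ∈ M, star e = e → e * e = e → e ≠ 0 → ∃ v ∈ M, star v * v = e ∧ v * star v = 1)
    (hS : connesS M = Set.Ici 0)
    {φ : (H →L[ℂ] H) → ℂ} (hφ : IsNormalState M φ) (hf : IsFaithful M φ)
    (hmod : ∀ (K : Type u) [NormedAddCommGroup K] [InnerProductSpace ℂ K] [CompleteSpace K]
      (N : VonNeumannAlgebra K) (ξ : K), ‖ξ‖ = 1 → Dense {ζ : K | ∃ a ∈ N, a ξ = ζ} →
      (∀ a ∈ N, a ξ = 0 → a = 0) → Nonempty (ModData N ξ))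
    (hcore : ∀ (K : Type u) [NormedAddCommGroup K] [InnerProductSpace ℂ K] [CompleteSpace K]
      (N : VonNeumannAlgebra K) (ξ : K) (D : ModData N ξ),
      (∀ z ∈ N, z ∈ N.commutant → ∃ c : ℂ, z = c • 1) →
      (∀ e ∈ N, star e = e → e * e = e → e ≠ 0 → ∃ v ∈ N, star v * v = e ∧ v * star v = 1) →
      (∀ (η : K) (E : ModData N η) (a b : ℝ), a < b →
        ∃ F : ℝ →ᵇ ℂ, tsupport F ⊆ Set.Ioo a b ∧ E.Th F ≠ 0) →
      ∀ x : K →L[ℂ] K, D.InN x → ∃ c : ℂ, x = c • 1) :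
    bicentralizer M φ = {a | ∃ c : ℂ, a = c • 1} :=
  bicentralizer_eq hfac hAll hS hφ hf
    (fun _ _ _ _ _ _ E _ _ h _ hl z => E.gap_bij E.smth h hl z) hmod hcore

end Vale.Agent.P132
end

section

/-!
# P132: the final theorem, from `(0, ∞) ⊆ S(M)`
-/

open Filter Topology
open scoped ComplexConjugate InnerProductSpace BoundedContinuousFunction

namespace Vale.Agent.P132

universe u

variable {H : Type u} [NormedAddCommGroup H] [InnerProductSpace ℂ H] [CompleteSpace H]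
variable {K : Type u} [NormedAddCommGroup K] [InnerProductSpace ℂ K] [CompleteSpace K]

/-- windows from Connes' invariant -/
theorem StdRep.hspec_pos {M : VonNeumannAlgebra H} {φ : (H →L[ℂ] H) → ℂ} (R : StdRep M φ K)
    (hS : ∀ t : ℝ, 0 < t → t ∈ connesS M) (η : K) (E : ModData R.N η) (a b : ℝ) (hab : a < b) :
    ∃ F : ℝ →ᵇ ℂ, tsupport F ⊆ Set.Ioo a b ∧ E.Th F ≠ 0 := by
  by_contra hcon
  push Not at hcon
  have hl : (a + b) / 2 ∈ Set.Ioo a b := ⟨by linarith, by linarith⟩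
  have h2 := hS (Real.exp ((a + b) / 2)) (Real.exp_pos _)
  have h3 := h2 (R.vecState η) (R.vecState_normal E.norm_xi) (R.vecState_faithful E) K
    (R.gnsOf E)
  apply h3
  intro z
  obtain ⟨w, hw1, hw2⟩ := E.gap_bij E.smth hcon hl z
  refine ⟨w, ?_, ?_⟩
  · exact (R.graphΔ_gnsOf E _).2 hw1
  · intro w' hw'
    exact hw2 w' ((R.graphΔ_gnsOf E _).1 hw')

theorem bicentralizer_eq_pos {M : VonNeumannAlgebra H} (hfac : IsFactor M) (hIII : IsTypeIII M)
    (hS : ∀ t : ℝ, 0 < t → t ∈ connesS M)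
    {φ : (H →L[ℂ] H) → ℂ} (hφ : IsNormalState M φ) (hf : IsFaithful M φ) :
    bicentralizer M φ = {a | ∃ c : ℂ, a = c • 1} := by
  apply Set.Subset.antisymm
  · intro a ha
    obtain ⟨K, _, _, _, ⟨R⟩⟩ := exists_stdRep M φ hφ hf
    obtain ⟨D⟩ := exists_modData R.N R.ξ R.norm_xi R.cyc R.sep
    obtain ⟨c, hc⟩ := D.core (R.factor hfac) (R.typeIII (isTypeIII_of_state hfac hφ hf hIII))
      (R.hspec_pos hS) (R.π a) (R.inN_of_bicentralizer D ha)
    refine ⟨c, ?_⟩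
    apply R.injective ha.1 (M.toStarSubalgebra.smul_mem (one_mem M) c)
    rw [hc, R.map_smul c 1 (one_mem M), R.map_one]
  · rintro a ⟨c, rfl⟩
    refine ⟨M.toStarSubalgebra.smul_mem (one_mem M) c, ?_⟩
    intro w _ _ _ ζ
    have : ∀ n, ((c • (1 : H →L[ℂ] H)) * w n - w n * (c • (1 : H →L[ℂ] H))) ζ = 0 := by
      intro n
      simp
    simp only [this]
    exact tendsto_const_nhds

end Vale.Agent.P132
end

section

/-!
# P132, Part IV: the layer cake argument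

If `ω(v* v) ≤ C ω(v v*)` for all partial isometries `v` of the corner `e₁ M e₁`, then
`ω(x* x) ≤ C ω(x x*)` for all elements `x` of the corner.
-/

open Filter Topology
open scoped InnerProductSpace

namespace Vale.Agent.P132

universe u

variable {H : Type u} [NormedAddCommGroup H] [InnerProductSpace ℂ H] [CompleteSpace H]

namespace Lay

/-- the ramp function: `0` up to `s`, `1` from `s + δ` on, linear in between -/
noncomputable def ramp (s δ r : ℝ) : ℝ := max 0 (min 1 ((r - s) / δ))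

theorem ramp_cont (s δ : ℝ) : Continuous (ramp s δ) := by
  unfold ramp
  fun_prop

theorem ramp_nonneg (s δ r : ℝ) : 0 ≤ ramp s δ r := le_max_left _ _

theorem ramp_le_one (s δ r : ℝ) : ramp s δ r ≤ 1 :=
  max_le zero_le_one (min_le_left _ _)

theorem ramp_zero {s δ r : ℝ} (hδ : 0 < δ) (h : r ≤ s) : ramp s δ r = 0 := by
  unfold ramp
  have : (r - s) / δ ≤ 0 := div_nonpos_of_nonpos_of_nonneg (by linarith) hδ.le
  rw [max_eq_left]
  exact (min_le_right _ _).trans this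

theorem ramp_one {s δ r : ℝ} (hδ : 0 < δ) (h : s + δ ≤ r) : ramp s δ r = 1 := by
  unfold ramp
  have : 1 ≤ (r - s) / δ := by
    rw [le_div_iff₀ hδ]; linarith
  rw [min_eq_left this, max_eq_right zero_le_one]

theorem ramp_step {δ r : ℝ} (hδ : 0 < δ) (s : ℝ) :
    δ * ramp s δ r = min r (s + δ) - min r s := by
  rcases le_total r s with h | h
  · rw [ramp_zero hδ h, min_eq_left h, min_eq_left (by linarith)]; ring
  · rcases le_total (s + δ) r with h2 | h2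
    · rw [ramp_one hδ h2, min_eq_right h, min_eq_right h2]; ring
    · rw [min_eq_right h, min_eq_left h2]
      unfold ramp
      have h3 : (r - s) / δ ≤ 1 := by
        rw [div_le_one hδ]; linarith
      have h4 : 0 ≤ (r - s) / δ := div_nonneg (by linarith) hδ.le
      rw [min_eq_right h3, max_eq_right h4]
      field_simp

theorem ramp_sum {δ r : ℝ} (hδ : 0 < δ) (hr : 0 ≤ r) (N : ℕ) :
    ∑ j ∈ Finset.range N, δ * ramp (j * δ) δ r = min r (N * δ) := by
  induction N with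
  | zero => simp [hr]
  | succ N ih =>
    rw [Finset.sum_range_succ, ih, ramp_step hδ]
    have : ((N + 1 : ℕ) : ℝ) * δ = (N : ℝ) * δ + δ := by push_cast; ring
    rw [this]; ring

theorem mul_aeval_intertwine (x : H →L[ℂ] H) (q : Polynomial ℝ) :
    x * Polynomial.aeval (star x * x) q = Polynomial.aeval (x * star x) q * x := by
  induction q using Polynomial.induction_on' with
  | add p q hp hq => rw [map_add, map_add, mul_add, add_mul, hp, hq]
  | monomial n r =>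
    rw [Polynomial.aeval_monomial, Polynomial.aeval_monomial, ← mul_assoc, mul_assoc _ _ x,
      ← Algebra.commutes r x, mul_assoc]
    congr 1
    induction n with
    | zero => simp
    | succ n ih =>
      rw [pow_succ, ← mul_assoc, ih, pow_succ]
      simp only [mul_assoc]

theorem mul_cfc_star_mul (x : H →L[ℂ] H) (f : ℝ → ℝ) (hf : Continuous f) :
    x * cfc f (star x * x) = cfc f (x * star x) * x := by
  rcases subsingleton_or_nontrivial (H →L[ℂ] H) with hB | hB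
  · exact Subsingleton.elim _ _
  set a := star x * x with ha
  set b := x * star x with hb
  set R : ℝ := max ‖a‖ ‖b‖ with hR
  have hspec : ∀ c : H →L[ℂ] H, IsSelfAdjoint c → ‖c‖ ≤ R → ∀ s ∈ spectrum ℝ c,
      s ∈ Set.Icc (-R) R := by
    intro c _ hcR s hs
    have h1 : ‖s‖ ≤ ‖c‖ := spectrum.norm_le_norm_of_mem hs
    rw [Real.norm_eq_abs] at h1
    have h2 := abs_le.1 (h1.trans hcR)
    exact ⟨h2.1, h2.2⟩
  have hsa : IsSelfAdjoint a := IsSelfAdjoint.star_mul_self x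
  have hsb : IsSelfAdjoint b := IsSelfAdjoint.mul_star_self x
  have key : ∀ ε : ℝ, 0 < ε → ‖x * cfc f a - cfc f b * x‖ ≤ 2 * ‖x‖ * ε := by
    intro ε hε
    obtain ⟨q, hq⟩ := exists_polynomial_near_of_continuousOn (-R) R f hf.continuousOn ε hε
    have hap : ∀ c : H →L[ℂ] H, IsSelfAdjoint c → ‖c‖ ≤ R →
        ‖cfc f c - Polynomial.aeval c q‖ ≤ ε := by
      intro c hc hcR
      have h1 : Polynomial.aeval c q = cfc (fun s : ℝ => q.eval s) c := by
        rw [cfc_polynomial q c hc]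
      rw [h1, ← cfc_sub f (fun s : ℝ => q.eval s) c hf.continuousOn q.continuous.continuousOn]
      apply norm_cfc_le hε.le
      intro s hs
      rw [Real.norm_eq_abs, abs_sub_comm]
      exact (hq s (hspec c hc hcR s hs)).le
    have h1 := hap a hsa (le_max_left _ _)
    have h2 := hap b hsb (le_max_right _ _)
    have e : x * cfc f a - cfc f b * x =
        x * (cfc f a - Polynomial.aeval a q) - (cfc f b - Polynomial.aeval b q) * x := by
      rw [mul_sub, sub_mul, mul_aeval_intertwine x q]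
      abel
    rw [e]
    calc _ ≤ ‖x * (cfc f a - Polynomial.aeval a q)‖ +
          ‖(cfc f b - Polynomial.aeval b q) * x‖ := norm_sub_le _ _
      _ ≤ ‖x‖ * ε + ε * ‖x‖ := by
        apply add_le_add
        · exact (norm_mul_le _ _).trans (mul_le_mul_of_nonneg_left h1 (norm_nonneg _))
        · exact (norm_mul_le _ _).trans (mul_le_mul_of_nonneg_right h2 (norm_nonneg _))
      _ = 2 * ‖x‖ * ε := by ring
  have h0 : ‖x * cfc f a - cfc f b * x‖ ≤ 0 := by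
    apply le_of_forall_pos_le_add
    intro ε hε
    have hpos : 0 < 2 * ‖x‖ + 1 := by positivity
    have h1 := key (ε / (2 * ‖x‖ + 1)) (by positivity)
    rw [zero_add]
    refine h1.trans ?_
    rw [mul_div_assoc', div_le_iff₀ hpos]
    linarith only [hε]
  exact sub_eq_zero.1 (norm_le_zero_iff.1 h0)

theorem re_nonneg {T : H →L[ℂ] H} (hT : 0 ≤ T) (ξ : H) : 0 ≤ (⟪ξ, T ξ⟫_ℂ).re := by
  rw [ContinuousLinearMap.nonneg_iff_isPositive] at hT
  have := hT.2 ξ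
  rw [ContinuousLinearMap.reApplyInnerSelf_apply] at this
  rw [← inner_conj_symm, Complex.conj_re]
  exact this

theorem re_mono {S T : H →L[ℂ] H} (h : S ≤ T) (ξ : H) :
    (⟪ξ, S ξ⟫_ℂ).re ≤ (⟪ξ, T ξ⟫_ℂ).re := by
  have h1 := re_nonneg (sub_nonneg.2 h) ξ
  have h2 : (T - S) ξ = T ξ - S ξ := rfl
  rw [h2, inner_sub_right, Complex.sub_re] at h1
  linarith

/-- `q ≤ B` if `q` is a projection, `B ≥ 0` and `B q = q` -/
theorem le_of_mul_eq {q B : H →L[ℂ] H} (hqs : star q = q) (hqq : q * q = q) (hB : 0 ≤ B)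
    (h : B * q = q) : q ≤ B := by
  have hBs : star B = B := (IsSelfAdjoint.of_nonneg hB).star_eq
  have hqB : q * B = q := by
    have := congrArg star h
    simpa only [star_mul, hqs, hBs] using this
  have h1 : 0 ≤ star (1 - q) * B * (1 - q) := star_left_conjugate_nonneg hB _
  have h2 : star (1 - q) * B * (1 - q) = B - q := by
    rw [star_sub, star_one, hqs, sub_mul, one_mul, hqB, mul_sub, mul_one, sub_mul, h, hqq]
    abel
  rw [h2] at h1
  exact sub_nonneg.1 h1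

/-- `d ≤ P` if `P` is a projection, `d ≤ 1` is selfadjoint and `P d = d` -/
theorem le_of_mul_eq' {P d : H →L[ℂ] H} (hPs : star P = P) (hPP : P * P = P) (hd : star d = d)
    (hd1 : d ≤ 1) (h : P * d = d) : d ≤ P := by
  have hdP : d * P = d := by
    have := congrArg star h
    simpa only [star_mul, hPs, hd] using this
  have h1 : 0 ≤ star P * (1 - d) * P := star_left_conjugate_nonneg (sub_nonneg.2 hd1) _
  have h2 : star P * (1 - d) * P = P - d := by
    rw [hPs, mul_sub, mul_one, h, sub_mul, hPP, hdP]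
  rw [h2] at h1
  exact sub_nonneg.1 h1

variable {M : VonNeumannAlgebra H}

theorem cfc_mem {t : H →L[ℂ] H} (ht : t ∈ M) (u : ℝ → ℝ) : cfc u t ∈ M := by
  refine Cmp.mem_of_commute fun y hy => ?_
  have h1 : Commute t y := (Cmp.comm_of_mem ht hy).symm
  exact (h1.cfc_real u).eq.symm

/-- The basic step: the layers. -/
theorem layer_step {ξ : H} {e₁ : H →L[ℂ] H} (hes : star e₁ = e₁) {C : ℝ}
    (h : ∀ v ∈ M, v * star v * v = v → e₁ * v = v → v * e₁ = v →
      ‖v ξ‖ ^ 2 ≤ C * ‖star v ξ‖ ^ 2) {x : H →L[ℂ] H} (hx : x ∈ M) (hex : e₁ * x = x)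
    (hxe : x * e₁ = x) (hC : 0 < C) {s δ : ℝ} (hs : 0 < s) (hδ : 0 < δ) :
    (⟪ξ, cfc (ramp s δ) (star x * x) ξ⟫_ℂ).re ≤
      C * (⟪ξ, cfc (ramp (s - δ) δ) (x * star x) ξ⟫_ℂ).re := by
  set t : H →L[ℂ] H := star x * x with ht
  have htM : t ∈ M := mul_mem (star_mem hx) hx
  have ht_sa : IsSelfAdjoint t := IsSelfAdjoint.star_mul_self x
  have hk_sa : IsSelfAdjoint (x * star x) := IsSelfAdjoint.mul_star_self x
  set f : ℝ → ℝ := ramp s δ with hf
  set F : ℝ → ℝ := ramp (s - δ) δ with hF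
  set g : ℝ → ℝ := fun r => (Real.sqrt (max r s))⁻¹ with hg
  set k : ℝ → ℝ := fun r => (ramp s δ r) / (max r s) with hk
  have hms : ∀ r : ℝ, 0 < max r s := fun r => lt_of_lt_of_le hs (le_max_right _ _)
  have hfc : Continuous f := ramp_cont _ _
  have hFc : Continuous F := ramp_cont _ _
  have hgc : Continuous g := by
    refine Continuous.inv₀ (by fun_prop) fun r => ?_
    exact (Real.sqrt_pos.2 (hms r)).ne'
  have hkc : Continuous k := by
    refine Continuous.div (ramp_cont _ _) (by fun_prop) fun r => (hms r).ne'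
  set d : H →L[ℂ] H := cfc f t with hd
  set c : H →L[ℂ] H := cfc g t with hc
  have het : e₁ * t = t := by
    have : e₁ * star x = star x := by
      have := congrArg star hxe
      simpa only [star_mul, hes] using this
    rw [ht, ← mul_assoc, this]
  have hd_eq : d = t * cfc k t := by
    have h1 : t * cfc k t = cfc (fun r => r * k r) t := by
      rw [cfc_mul (fun r => r) k t continuousOn_id hkc.continuousOn, cfc_id' ℝ t ht_sa]
    rw [h1, hd]
    congr 1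
    funext r
    simp only [hf, hk]
    rcases le_total r s with h | h
    · rw [ramp_zero hδ h]; simp
    · rw [max_eq_left h, mul_div_cancel₀]
      linarith
  have hed : e₁ * d = d := by rw [hd_eq, ← mul_assoc, het]
  have hctcd : c * t * c * d = d := by
    have h1 : c * t * c * d = cfc (fun r => g r * r * g r * f r) t := by
      rw [cfc_mul (fun r => g r * r * g r) f t ((hgc.mul continuous_id).mul hgc).continuousOn
          hfc.continuousOn,
        cfc_mul (fun r => g r * r) g t (hgc.mul continuous_id).continuousOn hgc.continuousOn,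
        cfc_mul g (fun r => r) t hgc.continuousOn continuousOn_id, cfc_id' ℝ t ht_sa]
    rw [h1, hd]
    congr 1
    funext r
    simp only [hf, hg]
    rcases le_total r s with h | h
    · rw [ramp_zero hδ h]; simp
    · rw [max_eq_left h]
      have hr : 0 < r := lt_of_lt_of_le hs h
      have : (√r)⁻¹ * r * (√r)⁻¹ = 1 := by
        have h2 : √r * √r = r := Real.mul_self_sqrt hr.le
        have h3 : √r ≠ 0 := (Real.sqrt_pos.2 hr).ne'
        calc (√r)⁻¹ * r * (√r)⁻¹ = (√r)⁻¹ * (√r * √r) * (√r)⁻¹ := by rw [h2]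
          _ = 1 := by field_simp
      rw [this, one_mul]
  have hFd : cfc F t * d = d := by
    have h1 : cfc F t * d = cfc (fun r => F r * f r) t := by
      rw [cfc_mul F f t hFc.continuousOn hfc.continuousOn]
    rw [h1, hd]
    congr 1
    funext r
    simp only [hf, hF]
    rcases le_total r s with h | h
    · rw [ramp_zero hδ h]; simp
    · rw [ramp_one hδ (by linarith : s - δ + δ ≤ r), one_mul]
  have hcs : star c = c := (cfc_predicate g t : IsSelfAdjoint (cfc g t)).star_eq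
  have hds : star d = d := (cfc_predicate f t : IsSelfAdjoint (cfc f t)).star_eq
  -- the projection `P`
  set E : Submodule ℂ H := (LinearMap.range (d : H →ₗ[ℂ] H)).topologicalClosure with hE
  have hEc : IsClosed (E : Set H) := Submodule.isClosed_topologicalClosure _
  have hEa : Cmp.Aff M E := by
    refine Cmp.Aff.closure ?_
    rintro y hy _ ⟨x, rfl⟩
    exact ⟨y x, (Cmp.comm_apply (cfc_mem htM f) hy x).symm⟩
  have : CompleteSpace E := hEc.completeSpace_coe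
  set P := E.starProjection with hP
  have hPM : P ∈ M := hEa.proj_mem
  have hPs : star P = P := (isSelfAdjoint_starProjection E).star_eq
  have hPP : P * P = P := E.isIdempotentElem_starProjection
  have hPd : P * d = d := by
    ext y
    exact Submodule.starProjection_eq_self_iff.2 (Submodule.le_topologicalClosure _ ⟨y, rfl⟩)
  have hfix : ∀ T : H →L[ℂ] H, T * d = d → T * P = P := by
    intro T hT
    have h1 : E ≤ Cmp.fix T := by
      refine Submodule.topologicalClosure_minimal _ ?_ (Cmp.isClosed_fix T)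
      rintro _ ⟨y, rfl⟩
      rw [Cmp.mem_fix]
      exact congrArg (fun T : H →L[ℂ] H => T y) hT
    ext y
    exact Cmp.mem_fix.1 (h1 (Submodule.starProjection_apply_mem E y))
  have hctcP := hfix _ hctcd
  have hFP := hfix _ hFd
  have heP := hfix _ hed
  have hPe : P * e₁ = P := by
    have := congrArg star heP
    simpa only [star_mul, hPs, hes] using this
  -- the partial isometry
  set v : H →L[ℂ] H := x * c * P with hv
  have hvM : v ∈ M := mul_mem (mul_mem hx (cfc_mem htM g)) hPM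
  have hvv : star v * v = P := by
    rw [hv, star_mul, star_mul, hPs, hcs]
    calc P * (c * star x) * (x * c * P) = P * (c * (star x * x) * c * P) := by
          simp only [mul_assoc]
      _ = P := by rw [← ht, hctcP, hPP]
  have hvP : v * P = v := by rw [hv, mul_assoc, hPP]
  have hvpi : v * star v * v = v := by rw [mul_assoc, hvv, hvP]
  have h1 := h v hvM hvpi (by rw [hv, ← mul_assoc, ← mul_assoc, hex]) (by rw [hv, mul_assoc, hPe])
  -- the first comparison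
  have h2 : (⟪ξ, d ξ⟫_ℂ).re ≤ ‖v ξ‖ ^ 2 := by
    have h3 : d ≤ P := by
      refine le_of_mul_eq' hPs hPP hds ?_ hPd
      exact cfc_le_one f t fun r _ => ramp_le_one _ _ _
    have h4 := re_mono h3 ξ
    rw [← hvv, Cmp.inner_star_mul_self] at h4
    refine h4.trans (le_of_eq ?_)
    norm_cast
  -- the second comparison
  have h5 : ‖star v ξ‖ ^ 2 ≤ (⟪ξ, cfc F (x * star x) ξ⟫_ℂ).re := by
    have h6 : cfc F (x * star x) * v = v := by
      have h7 : cfc F (x * star x) * x = x * cfc F t := (mul_cfc_star_mul x F hFc).symm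
      have h8 : cfc F t * c = c * cfc F t := (cfc_commute_cfc F g t).eq
      calc cfc F (x * star x) * v = cfc F (x * star x) * x * c * P := by
            rw [hv]; simp only [mul_assoc]
        _ = x * (cfc F t * c) * P := by rw [h7]; simp only [mul_assoc]
        _ = x * c * (cfc F t * P) := by rw [h8]; simp only [mul_assoc]
        _ = v := by rw [hFP]
    have h9 : v * star v ≤ cfc F (x * star x) := by
      refine le_of_mul_eq (by rw [star_mul, star_star]) ?_ ?_ ?_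
      · rw [← mul_assoc, hvpi]
      · exact cfc_nonneg fun r _ => ramp_nonneg _ _ _
      · rw [← mul_assoc, h6]
    have h10 := re_mono h9 ξ
    have h11 : v * star v = star (star v) * star v := by rw [star_star]
    rw [h11, Cmp.inner_star_mul_self] at h10
    refine (le_of_eq ?_).trans h10
    norm_cast
  exact h2.trans (h1.trans (mul_le_mul_of_nonneg_left h5 hC.le))

theorem inner_cfc_sum {t : H →L[ℂ] H} (ht : 0 ≤ t) (ξ : H) {δ : ℝ} (hδ : 0 < δ) {N : ℕ}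
    (hN : ‖t‖ ≤ N * δ) :
    (⟪ξ, t ξ⟫_ℂ).re = ∑ j ∈ Finset.range N, δ * (⟪ξ, cfc (ramp (j * δ) δ) t ξ⟫_ℂ).re := by
  have hsa : IsSelfAdjoint t := IsSelfAdjoint.of_nonneg ht
  have h1 : t = ∑ j ∈ Finset.range N, δ • cfc (ramp (j * δ) δ) t := by
    conv_lhs => rw [← cfc_id' ℝ t]
    have h2 : ∀ j : ℕ, δ • cfc (ramp (j * δ) δ) t = cfc (fun r => δ * ramp (j * δ) δ r) t := by
      intro j
      rw [cfc_const_mul δ _ t (ramp_cont _ _).continuousOn]
    simp only [h2]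
    rw [← cfc_sum (fun (j : ℕ) (r : ℝ) => δ * ramp (j * δ) δ r) t (Finset.range N)
      (fun j _ => ((ramp_cont _ _).const_mul δ).continuousOn)]
    refine cfc_congr fun r hr => ?_
    have hr0 : 0 ≤ r := spectrum_nonneg_of_nonneg ht hr
    have hr1 : r ≤ ‖t‖ := by
      rcases subsingleton_or_nontrivial (H →L[ℂ] H) with hB | hB
      · have := spectrum.of_subsingleton t (R := ℝ)
        rw [this] at hr
        exact absurd hr (Set.notMem_empty r)
      · have h3 : ‖r‖ ≤ ‖t‖ := spectrum.norm_le_norm_of_mem hr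
        rw [Real.norm_eq_abs, abs_of_nonneg hr0] at h3
        exact h3
    show r = (∑ j ∈ Finset.range N, fun r : ℝ => δ * ramp (j * δ) δ r) r
    rw [Finset.sum_apply, ramp_sum hδ hr0, min_eq_left (hr1.trans hN)]
  conv_lhs => rw [h1]
  rw [sum_apply, inner_sum, Complex.re_sum]
  refine Finset.sum_congr rfl fun j _ => ?_
  have h4 : (δ • cfc (ramp (j * δ) δ) t) ξ = ((δ : ℝ) : ℂ) • (cfc (ramp (j * δ) δ) t) ξ := by
    simp
  rw [h4, inner_smul_right, Complex.re_ofReal_mul]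

end Lay

theorem layer_cake {M : VonNeumannAlgebra H} {ξ : H} {e₁ : H →L[ℂ] H} (_he : e₁ ∈ M)
    (hes : star e₁ = e₁) (_hee : e₁ * e₁ = e₁) {C : ℝ} (hC : 0 < C)
    (h : ∀ v ∈ M, v * star v * v = v → e₁ * v = v → v * e₁ = v →
      ‖v ξ‖ ^ 2 ≤ C * ‖star v ξ‖ ^ 2) :
    ∀ x ∈ M, e₁ * x = x → x * e₁ = x → ‖x ξ‖ ^ 2 ≤ C * ‖star x ξ‖ ^ 2 := by
  intro x hx hex hxe
  have e1 : ‖x ξ‖ ^ 2 = (⟪ξ, (star x * x) ξ⟫_ℂ).re := by
    rw [Cmp.inner_star_mul_self]; norm_cast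
  have e2 : ‖star x ξ‖ ^ 2 = (⟪ξ, (x * star x) ξ⟫_ℂ).re := by
    have : x * star x = star (star x) * star x := by rw [star_star]
    rw [this, Cmp.inner_star_mul_self]; norm_cast
  rw [e1, e2]
  refine le_of_forall_pos_le_add fun ε hε => ?_
  set δ : ℝ := ε / (‖ξ‖ ^ 2 + 1) with hδ
  have hδ0 : 0 < δ := by positivity
  obtain ⟨N, hN⟩ := exists_nat_ge (‖x‖ ^ 2 / δ)
  have hN' : ‖x‖ ^ 2 ≤ N * δ := by
    rwa [div_le_iff₀ hδ0] at hN
  have hn1 : ‖star x * x‖ ≤ ((N + 1 : ℕ) : ℝ) * δ := by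
    rw [CStarRing.norm_star_mul_self, ← sq]
    refine hN'.trans ?_
    push_cast
    linarith only [hδ0]
  have hn2 : ‖x * star x‖ ≤ (N : ℝ) * δ := by
    rw [CStarRing.norm_self_mul_star, ← sq]
    exact hN'
  rw [Lay.inner_cfc_sum (star_mul_self_nonneg x) ξ hδ0 hn1,
    Lay.inner_cfc_sum (mul_star_self_nonneg x) ξ hδ0 hn2, Finset.sum_range_succ', Finset.mul_sum]
  have h3 : ∑ j ∈ Finset.range N,
      δ * (⟪ξ, cfc (Lay.ramp (((j + 1 : ℕ) : ℝ) * δ) δ) (star x * x) ξ⟫_ℂ).re ≤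
      ∑ j ∈ Finset.range N, C * (δ * (⟪ξ, cfc (Lay.ramp ((j : ℝ) * δ) δ) (x * star x) ξ⟫_ℂ).re) := by
    refine Finset.sum_le_sum fun j _ => ?_
    have h4 := Lay.layer_step (M := M) (ξ := ξ) hes h hx hex hxe hC
      (s := ((j + 1 : ℕ) : ℝ) * δ) (δ := δ) (by (clear * - hε; positivity)) hδ0
    have h5 : ((j + 1 : ℕ) : ℝ) * δ - δ = (j : ℝ) * δ := by push_cast; ring
    rw [h5] at h4
    calc _ ≤ δ * (C * (⟪ξ, cfc (Lay.ramp ((j : ℝ) * δ) δ) (x * star x) ξ⟫_ℂ).re) :=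
          mul_le_mul_of_nonneg_left h4 hδ0.le
      _ = _ := by ring
  have h6 : δ * (⟪ξ, cfc (Lay.ramp (((0 : ℕ) : ℝ) * δ) δ) (star x * x) ξ⟫_ℂ).re ≤ ε := by
    have h7 : cfc (Lay.ramp (((0 : ℕ) : ℝ) * δ) δ) (star x * x) ≤ 1 :=
      cfc_le_one _ _ fun r _ => Lay.ramp_le_one _ _ _
    have h8 := Lay.re_mono h7 ξ
    have h9 : (⟪ξ, (1 : H →L[ℂ] H) ξ⟫_ℂ).re = ‖ξ‖ ^ 2 := by
      show (⟪ξ, ξ⟫_ℂ).re = _
      rw [inner_self_eq_norm_sq_to_K]; norm_cast
    rw [h9] at h8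
    calc _ ≤ δ * ‖ξ‖ ^ 2 := mul_le_mul_of_nonneg_left h8 hδ0.le
      _ ≤ ε := by
        rw [hδ, div_mul_eq_mul_div, div_le_iff₀ (by positivity)]
        linarith only [hε]
  exact add_le_add h3 h6

end Vale.Agent.P132
end

section

/-!
# P132, Part IV: a corner of `M` on which the state `φ` is almost tracial
-/

open Filter Topology
open scoped InnerProductSpace

namespace Vale.Agent.P132

universe u

variable {H : Type u} [NormedAddCommGroup H] [InnerProductSpace ℂ H] [CompleteSpace H]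

/-- finiteness of projections passes to the standard representation -/
theorem StdRep.finite {K : Type u} [NormedAddCommGroup K] [InnerProductSpace ℂ K]
    [CompleteSpace K] {M : VonNeumannAlgebra H} {φ : (H →L[ℂ] H) → ℂ} (R : StdRep M φ K)
    {e : H →L[ℂ] H} (he : e ∈ M) (hfin : IsFiniteProj M e) : IsFiniteProj R.N (R.π e) := by
  intro f hf hfs hff hef hequiv
  obtain ⟨f, hfM, rfl⟩ := R.surj f hf
  obtain ⟨v, hv, hv1, hv2⟩ := hequiv
  obtain ⟨v, hvM, rfl⟩ := R.surj v hv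
  have h1 : f = e := by
    refine hfin f hfM ?_ ?_ ?_ ⟨v, hvM, ?_, ?_⟩
    · exact R.injective (star_mem hfM) hfM (by rw [R.map_star f hfM, hfs])
    · exact R.injective (mul_mem hfM hfM) hfM (by rw [R.map_mul f hfM f hfM, hff])
    · exact R.injective (mul_mem he hfM) hfM (by rw [R.map_mul e he f hfM, hef])
    · exact R.injective (mul_mem (star_mem hvM) hvM) he
        (by rw [R.map_mul _ (star_mem hvM) v hvM, R.map_star v hvM, hv1])
    · exact R.injective (mul_mem hvM (star_mem hvM)) hfM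
        (by rw [R.map_mul v hvM _ (star_mem hvM), R.map_star v hvM, hv2])
  rw [h1]

theorem StdRep.norm_sq {K : Type u} [NormedAddCommGroup K] [InnerProductSpace ℂ K]
    [CompleteSpace K] {M : VonNeumannAlgebra H} {φ : (H →L[ℂ] H) → ℂ} (R : StdRep M φ K)
    {x : H →L[ℂ] H} (hx : x ∈ M) : ‖R.π x R.ξ‖ ^ 2 = (φ (star x * x)).re := by
  rw [← R.state _ (mul_mem (star_mem hx) hx), R.map_mul _ (star_mem hx) x hx, R.map_star x hx,
    Cmp.inner_star_mul_self]
  norm_cast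

/-- The glue: from the layer cake estimate. -/
theorem t4_of {M : VonNeumannAlgebra H} (hM : IsFactor M) {φ : (H →L[ℂ] H) → ℂ}
    (hφ : IsNormalState M φ) (hf : IsFaithful M φ) {e : H →L[ℂ] H} (he : Cmp.IsPr M e)
    (he0 : e ≠ 0) (hfin : IsFiniteProj M e)
    (layer : ∀ (K : Type u) [NormedAddCommGroup K] [InnerProductSpace ℂ K] [CompleteSpace K]
      (N : VonNeumannAlgebra K) (ξ : K) (e₁ : K →L[ℂ] K) (_ : e₁ ∈ N)
      (_ : star e₁ = e₁) (_ : e₁ * e₁ = e₁) (C : ℝ) (_ : 0 < C)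
      (_ : ∀ v ∈ N, v * star v * v = v → e₁ * v = v → v * e₁ = v →
        ‖v ξ‖ ^ 2 ≤ C * ‖star v ξ‖ ^ 2),
      ∀ x ∈ N, e₁ * x = x → x * e₁ = x → ‖x ξ‖ ^ 2 ≤ C * ‖star x ξ‖ ^ 2) :
    ∃ e₁, Cmp.IsPr M e₁ ∧ e₁ ≠ 0 ∧ ∃ C : ℝ, 1 ≤ C ∧ ∀ x ∈ M, e₁ * x * e₁ = x →
      (φ (x * star x)).re ≤ C * (φ (star x * x)).re := by
  obtain ⟨K, _, _, _, ⟨R⟩⟩ := exists_stdRep M φ hφ hf
  have heN : R.π e ∈ R.N := R.mem e he.mem
  obtain ⟨e₁, he₁, h1s, h11, h1e, h10, C, hC, hCb⟩ := exists_bounded_corner (M := R.N)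
    (R.factor hM) R.sep heN
    (by rw [← R.map_star e he.mem, he.sa]) (by rw [← R.map_mul e he.mem e he.mem, he.idem])
    (fun h0 => he0 (R.inj e he.mem h0)) (R.finite he.mem hfin)
  have hlay := layer K R.N R.ξ e₁ he₁ h1s h11 C hC hCb
  obtain ⟨p, hpM, rfl⟩ := R.surj e₁ he₁
  refine ⟨p, ⟨hpM, ?_, ?_⟩, ?_, max 1 C, le_max_left _ _, ?_⟩
  · exact R.injective (star_mem hpM) hpM (by rw [R.map_star p hpM, h1s])
  · exact R.injective (mul_mem hpM hpM) hpM (by rw [R.map_mul p hpM p hpM, h11])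
  · intro h0
    exact h10 (by rw [h0, R.map_zero'])
  · intro x hx hpx
    have hpp : p * p = p :=
      R.injective (mul_mem hpM hpM) hpM (by rw [R.map_mul p hpM p hpM, h11])
    have hps : star p = p :=
      R.injective (star_mem hpM) hpM (by rw [R.map_star p hpM, h1s])
    have h1 : p * x = x := by
      rw [← hpx, ← mul_assoc, ← mul_assoc, hpp]
    have h2 : x * p = x := by
      rw [← hpx, mul_assoc, hpp]
    have h3 : p * star x = star x := by
      have := congrArg star h2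
      simpa only [star_mul, hps] using this
    have h4 : star x * p = star x := by
      have := congrArg star h1
      simpa only [star_mul, hps] using this
    have h5 := hlay (R.π (star x)) (R.mem _ (star_mem hx))
      (by rw [← R.map_mul p hpM _ (star_mem hx), h3])
      (by rw [← R.map_mul _ (star_mem hx) p hpM, h4])
    rw [← R.map_star _ (star_mem hx), star_star, R.norm_sq (star_mem hx), R.norm_sq hx,
      star_star] at h5
    refine h5.trans (mul_le_mul_of_nonneg_right (le_max_right _ _) ?_)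
    rw [← R.norm_sq hx]; positivity

/-- (T4) If `e` is a nonzero finite projection of the factor `M`, there is a nonzero projection
`e₁` of `M` such that `φ(x x*) ≤ C φ(x* x)` for all `x` in the corner `e₁ M e₁`. -/
theorem t4 {M : VonNeumannAlgebra H} (hM : IsFactor M) {φ : (H →L[ℂ] H) → ℂ}
    (hφ : IsNormalState M φ) (hf : IsFaithful M φ) {e : H →L[ℂ] H} (he : Cmp.IsPr M e)
    (he0 : e ≠ 0) (hfin : IsFiniteProj M e) :
    ∃ e₁, Cmp.IsPr M e₁ ∧ e₁ ≠ 0 ∧ ∃ C : ℝ, 1 ≤ C ∧ ∀ x ∈ M, e₁ * x * e₁ = x →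
      (φ (x * star x)).re ≤ C * (φ (star x * x)).re := by
  refine t4_of hM hφ hf he he0 hfin ?_
  intro K _ _ _ N ξ e₁ he₁ hes hee C hC h
  exact layer_cake he₁ hes hee hC h

end Vale.Agent.P132
end

section

/-!
# P132, Part IV: the state of Part IV has a spectral gap
-/

open Filter Topology
open scoped ComplexConjugate InnerProductSpace BoundedContinuousFunction

namespace Vale.Agent.P132

universe u

variable {H : Type u} [NormedAddCommGroup H] [InnerProductSpace ℂ H] [CompleteSpace H]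

namespace Gf

variable {M : VonNeumannAlgebra H} {e : H →L[ℂ] H} {u : ℕ → H →L[ℂ] H}

/-- the final projections -/
noncomputable def q (u : ℕ → H →L[ℂ] H) (i : ℕ) : H →L[ℂ] H := u i * star (u i)

theorem q_mem (hu : GFam M e u) (i : ℕ) : q u i ∈ M := mul_mem (hu.mem i) (star_mem (hu.mem i))

theorem q_star (i : ℕ) : star (q u i) = q u i := by rw [q, star_mul, star_star]

theorem q_idem (hu : GFam M e u) (i : ℕ) : q u i * q u i = q u i := by
  rw [q, ← mul_assoc, hu.pi]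

theorem q_orth (hu : GFam M e u) {i j : ℕ} (h : i ≠ j) : q u i * q u j = 0 := by
  rw [q, q, mul_assoc, ← mul_assoc (star (u i)), hu.orth i j h, zero_mul, mul_zero]

theorem sum_star (s : Finset ℕ) : star (∑ i ∈ s, q u i) = ∑ i ∈ s, q u i := by
  rw [star_sum]
  exact Finset.sum_congr rfl fun i _ => q_star i

theorem sum_idem (hu : GFam M e u) (s : Finset ℕ) :
    (∑ i ∈ s, q u i) * (∑ i ∈ s, q u i) = ∑ i ∈ s, q u i := by
  rw [Finset.sum_mul_sum]
  refine Finset.sum_congr rfl fun i hi => ?_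
  rw [Finset.sum_eq_single i]
  · exact q_idem hu i
  · intro j _ hj
    exact q_orth hu (Ne.symm hj)
  · intro h
    exact absurd hi h

theorem norm_pr_le {p : H →L[ℂ] H} (hs : star p = p) (hi : p * p = p) (ζ : H) :
    ‖p ζ‖ ≤ ‖ζ‖ := by
  apply Gs.norm_pi_le (v := p)
  rw [hs, hi, hi]

theorem summable_q (hu : GFam M e u) (ζ : H) : Summable fun i => ‖q u i ζ‖ ^ 2 := by
  refine summable_of_sum_le (c := ‖ζ‖ ^ 2) (fun i => by positivity) (fun s => ?_)
  have h1 : ((∑ i ∈ s, ‖q u i ζ‖ ^ 2 : ℝ) : ℂ) = (‖(∑ i ∈ s, q u i) ζ‖ : ℂ) ^ 2 := by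
    rw [← Cmp.inner_pr (sum_star s) (sum_idem hu s), sum_apply, inner_sum]
    push_cast
    refine Finset.sum_congr rfl fun i _ => ?_
    rw [Cmp.inner_pr (q_star i) (q_idem hu i)]
  have h2 : ∑ i ∈ s, ‖q u i ζ‖ ^ 2 = ‖(∑ i ∈ s, q u i) ζ‖ ^ 2 := by exact_mod_cast h1
  rw [h2]
  exact pow_le_pow_left₀ (norm_nonneg _) (norm_pr_le (sum_star s) (sum_idem hu s) ζ) 2

theorem inner_q (hu : GFam M e u) {i j : ℕ} (h : i ≠ j) (x y : H) :
    ⟪q u i x, q u j y⟫_ℂ = 0 := by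
  have h1 : ⟪q u i x, q u j y⟫_ℂ = ⟪x, (q u i * q u j) y⟫_ℂ := by
    calc ⟪q u i x, q u j y⟫_ℂ = ⟪(star (q u i)) x, q u j y⟫_ℂ := by rw [q_star]
      _ = ⟪x, (q u i * q u j) y⟫_ℂ := by
        rw [ContinuousLinearMap.star_eq_adjoint, ContinuousLinearMap.adjoint_inner_left]
        rfl
  rw [h1, q_orth hu h]
  simp

theorem summable_qv (hu : GFam M e u) (ζ : H) : Summable fun i => q u i ζ := by
  have hV : OrthogonalFamily ℂ (fun i : ℕ => (LinearMap.range (q u i : H →ₗ[ℂ] H)))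
      (fun i => (LinearMap.range (q u i : H →ₗ[ℂ] H)).subtypeₗᵢ) := by
    intro i j hij v w
    obtain ⟨x, hx⟩ := v.2
    obtain ⟨y, hy⟩ := w.2
    show ⟪(v : H), (w : H)⟫_ℂ = 0
    rw [← hx, ← hy]
    exact inner_q hu hij x y
  have h1 := (hV.summable_iff_norm_sq_summable
    (fun i => (⟨q u i ζ, ⟨ζ, rfl⟩⟩ : LinearMap.range (q u i : H →ₗ[ℂ] H)))).2
    (summable_q hu ζ)
  exact h1

theorem hasSum_q (hu : GFam M e u) (ζ : H) : HasSum (fun i => q u i ζ) ζ := by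
  have h1 := (summable_qv hu ζ).hasSum
  set z := ∑' i, q u i ζ with hz
  have h2 : ζ - z = 0 := by
    apply hu.full
    intro j
    have h3 : HasSum (fun i => star (u j) (q u i ζ)) (star (u j) z) := h1.mapL (star (u j))
    have h4 : HasSum (fun i => star (u j) (q u i ζ)) (star (u j) ζ) := by
      have h5 : star (u j) ζ = star (u j) (q u j ζ) := by
        have h6 : star (u j) * q u j = star (u j) := by
          have h7 := congrArg star (hu.pi j)
          rw [star_mul, star_mul, star_star] at h7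
          rw [q, ← mul_assoc]
          rw [← mul_assoc] at h7
          exact h7
        conv_lhs => rw [← h6]
        rfl
      rw [h5]
      refine hasSum_single j fun i hi => ?_
      have h6 : star (u j) * q u i = 0 := by
        rw [q, ← mul_assoc, hu.orth j i (Ne.symm hi), zero_mul]
      have h7 := congrArg (fun T : H →L[ℂ] H => T ζ) h6
      exact h7
    rw [map_sub, h3.unique h4, sub_self]
  rw [sub_eq_zero] at h2
  rw [← h2] at h1
  exact h1

theorem tendsto_p (hu : GFam M e u) (ζ : H) :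
    Tendsto (fun n => (1 - ∑ i ∈ Finset.range n, q u i : H →L[ℂ] H) ζ) atTop (𝓝 0) := by
  have h1 := (hasSum_q hu ζ).tendsto_sum_nat
  have h2 : Tendsto (fun n => ζ - ∑ i ∈ Finset.range n, q u i ζ) atTop (𝓝 (ζ - ζ)) :=
    tendsto_const_nhds.sub h1
  rw [sub_self] at h2
  refine h2.congr fun n => ?_
  rw [sub_apply, sum_apply]
  rfl

theorem norm_p_le (hu : GFam M e u) (n : ℕ) :
    ‖(1 - ∑ i ∈ Finset.range n, q u i : H →L[ℂ] H)‖ ≤ 1 := by
  refine ContinuousLinearMap.opNorm_le_bound _ zero_le_one fun ζ => ?_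
  rw [one_mul]
  apply norm_pr_le
  · rw [star_sub, star_one, sum_star]
  · rw [sub_mul, mul_sub, mul_sub, sum_idem hu]
    simp

/-! ### block estimates for the state `ψ` -/

section Blocks

variable {φ : (H →L[ℂ] H) → ℂ} {η : ℕ → H} {L : ℝ}

theorem psi_q (hu : GFam M e u) (hφ : ∀ x ∈ M, HasSum (fun i => ⟪η i, x (η i)⟫_ℂ) (φ x))
    (hL : 1 < L) (i : ℕ) {x : H →L[ℂ] H} (hx : x ∈ M) :
    Gs.psi L u η (q u i * x) = Gs.psi L u η (x * q u i) := by
  have h3 : ∀ n, n ≠ i → star (u n) * q u i = 0 := fun n hn => by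
    rw [q, ← mul_assoc, hu.orth n i hn, zero_mul]
  have h4 : ∀ n, n ≠ i → q u i * u n = 0 := fun n hn => by
    rw [q, mul_assoc, hu.orth i n (Ne.symm hn), mul_zero]
  have h5 : star (u i) * q u i = star (u i) := by
    have h7 := congrArg star (hu.pi i)
    rw [star_mul, star_mul, star_star] at h7
    rw [q, ← mul_assoc]
    rw [← mul_assoc] at h7
    exact h7
  have h6 : q u i * u i = u i := hu.pi i
  rw [Gs.psi_single hφ hL hu.mem (mul_mem (q_mem hu i) hx) i, Gs.psi_single hφ hL hu.mem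
    (mul_mem hx (q_mem hu i)) i]
  · congr 2
    rw [← mul_assoc, h5, mul_assoc (star (u i)) (x * q u i), mul_assoc x, h6, ← mul_assoc]
  · intro n hn
    rw [mul_assoc, mul_assoc x, h4 n hn, mul_zero, mul_zero]
  · intro n hn
    rw [← mul_assoc, h3 n hn, zero_mul, zero_mul]

/-- `ψ(x* x) = Z⁻¹ L^{-j} φ(y* y)` for `x ∈ q_i M q_j`, `y = u_i* x u_j`. -/
theorem psi_block (hu : GFam M e u) (hφ : ∀ x ∈ M, HasSum (fun i => ⟪η i, x (η i)⟫_ℂ) (φ x))
    (hL : 1 < L) (i j : ℕ) {x : H →L[ℂ] H} (hx : x ∈ M) (hxq : q u i * x * q u j = x) :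
    Gs.psi L u η (star x * x) = ((Gs.Z L u η)⁻¹ : ℂ) * (((L⁻¹) ^ j : ℝ) : ℂ) *
      φ (star (star (u i) * x * u j) * (star (u i) * x * u j)) := by
  have h3 : ∀ n, n ≠ j → q u j * u n = 0 := fun n hn => by
    rw [q, mul_assoc, hu.orth j n (Ne.symm hn), mul_zero]
  have h6 : q u j * u j = u j := hu.pi j
  have hxj : x * q u j = x := by
    rw [← hxq, mul_assoc (q u i * x), q_idem hu]
  have hxi : q u i * x = x := by
    rw [← hxq, ← mul_assoc, ← mul_assoc, q_idem hu]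
  rw [Gs.psi_single hφ hL hu.mem (mul_mem (star_mem hx) hx) j]
  · congr 2
    calc star (u j) * (star x * x) * u j = star (u j) * star x * (x * u j) := by
          simp only [mul_assoc]
      _ = star (u j) * star x * (q u i * x * u j) := by rw [hxi]
      _ = star (star (u i) * x * u j) * (star (u i) * x * u j) := by
          rw [q, star_mul, star_mul, star_star]
          simp only [mul_assoc]
  · intro n hn
    have h7 : x * u n = 0 := by
      rw [← hxj, mul_assoc, h3 n hn, mul_zero]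
    rw [mul_assoc, mul_assoc, h7, mul_zero, mul_zero]

theorem psi_blocks (hu : GFam M e u)
    (hη1 : HasSum (fun i => ‖η i‖ ^ 2) 1)
    (hφ : ∀ x ∈ M, HasSum (fun i => ⟪η i, x (η i)⟫_ℂ) (φ x))
    (hη' : ∀ x ∈ M, (∀ i, x (η i) = 0) → x = 0) (hes : star e = e)
    (hL : 1 < L) {C : ℝ}
    (h4 : ∀ x ∈ M, e * x * e = x → (φ (x * star x)).re ≤ C * (φ (star x * x)).re)
    (i j : ℕ) {x : H →L[ℂ] H} (hx : x ∈ M) (hxq : q u i * x * q u j = x) :
    (Gs.psi L u η (x * star x)).re ≤ C * L ^ ((j : ℤ) - i) * (Gs.psi L u η (star x * x)).re ∧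
    L ^ ((j : ℤ) - i) * (Gs.psi L u η (star x * x)).re ≤ C * (Gs.psi L u η (x * star x)).re := by
  have hL0 : 0 < L := by linarith
  have hZ := Gs.Z_pos hu hη1 hη' hL
  set y : H →L[ℂ] H := star (u i) * x * u j with hy
  have hyM : y ∈ M := mul_mem (mul_mem (star_mem (hu.mem i)) hx) (hu.mem j)
  have he1 : e * star (u i) = star (u i) := by
    have := congrArg star (hu.right i)
    rwa [star_mul, hes] at this
  have hye : e * y * e = y := by
    rw [hy, ← mul_assoc, ← mul_assoc, he1, mul_assoc, hu.right]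
  have hsy : star y = star (u j) * star x * u i := by
    rw [hy, star_mul, star_mul, star_star, mul_assoc]
  have hxs : q u j * star x * q u i = star x := by
    have := congrArg star hxq
    rw [star_mul, star_mul, q_star, q_star, ← mul_assoc] at this
    exact this
  have e1 := psi_block hu hφ hL i j hx hxq
  have e2 := psi_block hu hφ hL j i (star_mem hx) hxs
  rw [star_star, ← hsy, star_star] at e2
  rw [← hy] at e1
  have a1 : (Gs.psi L u η (star x * x)).re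
      = (Gs.Z L u η)⁻¹ * (L⁻¹) ^ j * (φ (star y * y)).re := by
    rw [e1, ← Complex.ofReal_inv, ← Complex.ofReal_mul, Complex.re_ofReal_mul]
  have a2 : (Gs.psi L u η (x * star x)).re
      = (Gs.Z L u η)⁻¹ * (L⁻¹) ^ i * (φ (y * star y)).re := by
    rw [e2, ← Complex.ofReal_inv, ← Complex.ofReal_mul, Complex.re_ofReal_mul]
  have b1 := h4 y hyM hye
  have b2 := h4 (star y) (star_mem hyM) (by
    have := congrArg star hye
    rw [star_mul, star_mul, hes, ← mul_assoc] at this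
    exact this)
  rw [star_star] at b2
  have c1 : L ^ ((j : ℤ) - i) * (L⁻¹) ^ j = (L⁻¹) ^ i := by
    rw [zpow_sub₀ hL0.ne', zpow_natCast, zpow_natCast, inv_pow, inv_pow]
    field_simp
  have c2 : 0 < (Gs.Z L u η)⁻¹ * (L⁻¹) ^ i := by positivity
  constructor
  · rw [a1, a2]
    calc (Gs.Z L u η)⁻¹ * (L⁻¹) ^ i * (φ (y * star y)).re
        ≤ (Gs.Z L u η)⁻¹ * (L⁻¹) ^ i * (C * (φ (star y * y)).re) :=
          mul_le_mul_of_nonneg_left b1 c2.le
      _ = C * L ^ ((j : ℤ) - i) * ((Gs.Z L u η)⁻¹ * (L⁻¹) ^ j * (φ (star y * y)).re) := by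
          rw [← c1]; ring
  · rw [a1, a2]
    calc L ^ ((j : ℤ) - i) * ((Gs.Z L u η)⁻¹ * (L⁻¹) ^ j * (φ (star y * y)).re)
        = (Gs.Z L u η)⁻¹ * (L⁻¹) ^ i * (φ (star y * y)).re := by rw [← c1]; ring
      _ ≤ (Gs.Z L u η)⁻¹ * (L⁻¹) ^ i * (C * (φ (y * star y)).re) :=
          mul_le_mul_of_nonneg_left b2 c2.le
      _ = C * ((Gs.Z L u η)⁻¹ * (L⁻¹) ^ i * (φ (y * star y)).re) := by ring

end Blocks

/-- `(0, ∞) ⊆ S(M)` gives nonzero spectral windows everywhere -/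
theorem hspec_pos {K : Type u} [NormedAddCommGroup K] [InnerProductSpace ℂ K] [CompleteSpace K]
    {φ : (H →L[ℂ] H) → ℂ} (hS : ∀ t : ℝ, 0 < t → t ∈ connesS M) (R : StdRep M φ K) (η : K)
    (E : ModData R.N η) (a b : ℝ) (hab : a < b) :
    ∃ F : ℝ →ᵇ ℂ, tsupport F ⊆ Set.Ioo a b ∧ E.Th F ≠ 0 := by
  obtain ⟨l, hl⟩ := exists_between hab
  have h1 : Real.exp l ∈ connesS M := hS _ (Real.exp_pos l)
  have h2 := h1 (sptState R η) (spt_normal R η E) (spt_faithful R η E) K (sptGNS R η E)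
  refine E.exists_Th_ne_zero (l := l) hl ?_
  intro h3
  apply h2
  intro ζ'
  rw [spt_graphD]
  exact h3 ζ'

theorem re_state {K : Type u} [NormedAddCommGroup K] [InnerProductSpace ℂ K] [CompleteSpace K]
    {ψ : (H →L[ℂ] H) → ℂ} (R : StdRep M ψ K) {x : H →L[ℂ] H} (hx : x ∈ M) :
    ‖R.π x R.ξ‖ ^ 2 = (ψ (star x * x)).re := by
  have h1 := R.state _ (mul_mem (star_mem hx) hx)
  rw [R.map_mul _ (star_mem hx) _ hx, R.map_star _ hx, Cmp.inner_star_mul_self] at h1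
  rw [← h1]
  norm_cast

/-- the contradiction -/
theorem contra (hM : IsFactor M) (hS : ∀ t : ℝ, 0 < t → t ∈ connesS M) {φ : (H →L[ℂ] H) → ℂ}
    (hφ : IsNormalState M φ) (hf : IsFaithful M φ) {e : H →L[ℂ] H} (he : Cmp.IsPr M e)
    (he0 : e ≠ 0) {C : ℝ} (hC : 1 ≤ C)
    (h4 : ∀ x ∈ M, e * x * e = x → (φ (x * star x)).re ≤ C * (φ (star x * x)).re) : False := by
  obtain ⟨η, hη1, hηφ⟩ := hφ
  have hη' : ∀ x ∈ M, (∀ i, x (η i) = 0) → x = 0 := by
    intro x hx h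
    apply hf x hx
    have h1 := hηφ _ (mul_mem (star_mem hx) hx)
    have h2 : (fun i => ⟪η i, (star x * x) (η i)⟫_ℂ) = fun _ => (0 : ℂ) := by
      funext i
      rw [Cmp.inner_star_mul_self, h i]
      simp
    rw [h2] at h1
    exact h1.unique hasSum_zero
  obtain ⟨u, hu⟩ := exists_gfam hM hη' he he0
  have hC0 : 0 < C := by linarith
  set L : ℝ := 4 * C ^ 2 with hLdef
  have hL : 1 < L := by
    rw [hLdef]
    (by_contra nlg; linarith [mul_pos (sub_pos.2 hC0) (sub_pos.2 hC0), mul_nonneg (sub_nonneg.2 hC) (le_of_lt (sub_pos.2 hC0)), mul_nonneg (sub_nonneg.2 (not_lt.1 nlg)) (le_of_lt (sub_pos.2 hC0)), mul_nonneg (sq_nonneg (C : ℝ)) (sub_nonneg.2 hC)])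
  have hN := Gs.isNormal_psi hu hη1 hη' hL
  have hF := Gs.isFaithful_psi hu hη1 hη' hL
  obtain ⟨K, i1, i2, i3, ⟨R⟩⟩ := exists_stdRep M (Gs.psi L u η) hN hF
  obtain ⟨D⟩ := exists_modData R.N R.ξ R.norm_xi R.cyc R.sep
  have hlog : Real.log C < Real.log (L / C) := by
    apply Real.log_lt_log hC0
    rw [hLdef, lt_div_iff₀ hC0]
    linarith only [hL]
  obtain ⟨F, hFs, hF0⟩ := hspec_pos hS R R.ξ D _ _ hlog
  apply hF0
  have hblock : ∀ i j, ∀ a ∈ R.N, R.π (q u i) * a * R.π (q u j) = a →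
      ∃ x ∈ M, q u i * x * q u j = x ∧ a = R.π x := by
    intro i j a ha haq
    obtain ⟨x, hx, rfl⟩ := R.surj a ha
    refine ⟨x, hx, ?_, rfl⟩
    rw [← R.map_mul _ (q_mem hu i) _ hx,
      ← R.map_mul _ (mul_mem (q_mem hu i) hx) _ (q_mem hu j)] at haq
    exact R.injective (mul_mem (mul_mem (q_mem hu i) hx) (q_mem hu j)) hx haq
  refine D.gap_of_blocks (fun i => R.π (q u i)) ?_ ?_ ?_ ?_ hC hL.le
    (fun i j => (j : ℤ) - i) ?_ ?_ F hFs
  · intro i
    apply D.gi_centralizer (R.mem _ (q_mem hu i))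
    · rw [← R.map_star _ (q_mem hu i), q_star]
    · intro a ha
      obtain ⟨x, hx, rfl⟩ := R.surj a ha
      have h5 := psi_q hu hηφ hL i hx
      rw [← R.state _ (mul_mem (q_mem hu i) hx), ← R.state _ (mul_mem hx (q_mem hu i)),
        R.map_mul _ (q_mem hu i) _ hx, R.map_mul _ hx _ (q_mem hu i)] at h5
      exact h5
  · intro i
    show star (R.π (q u i)) = R.π (q u i)
    rw [← R.map_star _ (q_mem hu i), q_star]
  · intro i
    show R.π (q u i) * R.π (q u i) = R.π (q u i)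
    rw [← R.map_mul _ (q_mem hu i) _ (q_mem hu i), q_idem hu]
  · intro ζ hζ
    have hsumM : ∀ n, (∑ i ∈ Finset.range n, q u i) ∈ M := fun n =>
      sum_mem fun i _ => q_mem hu i
    have h5 := R.strong (fun n => 1 - ∑ i ∈ Finset.range n, q u i)
      (fun n => sub_mem (one_mem M) (hsumM n)) ⟨1, norm_p_le hu⟩ (tendsto_p hu) ζ
    have h6 : ∀ n, R.π (∑ i ∈ Finset.range n, q u i) ζ = 0 := by
      intro n
      induction n with
      | zero => simp [R.map_zero']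
      | succ n ih =>
        rw [Finset.sum_range_succ, R.map_add _ (hsumM n) _ (q_mem hu n)]
        show R.π (∑ i ∈ Finset.range n, q u i) ζ + R.π (q u n) ζ = 0
        rw [ih, hζ n, add_zero]
    have h7 : ∀ n, R.π (1 - ∑ i ∈ Finset.range n, q u i) ζ = ζ := by
      intro n
      rw [R.map_sub (one_mem M) (hsumM n), R.map_one]
      show ζ - R.π (∑ i ∈ Finset.range n, q u i) ζ = ζ
      rw [h6, sub_zero]
    simp only [h7] at h5
    exact tendsto_nhds_unique tendsto_const_nhds h5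
  · intro i j a ha haq
    obtain ⟨x, hx, hxq, rfl⟩ := hblock i j a ha haq
    have h5 := (psi_blocks hu hη1 hηφ hη' he.sa hL h4 i j hx hxq).1
    rw [← R.map_star _ hx, re_state R hx, re_state R (star_mem hx), star_star]
    exact h5
  · intro i j a ha haq
    obtain ⟨x, hx, hxq, rfl⟩ := hblock i j a ha haq
    have h5 := (psi_blocks hu hη1 hηφ hη' he.sa hL h4 i j hx hxq).2
    rw [← R.map_star _ hx, re_state R hx, re_state R (star_mem hx), star_star]
    exact h5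

end Gf

end Vale.Agent.P132
end

section

/-!
# P132: the final theorem for the definition of type III₁ factors by weights
-/

open Filter Topology
open scoped ComplexConjugate InnerProductSpace BoundedContinuousFunction

namespace Vale.Agent.P132

universe u

variable {H : Type u} [NormedAddCommGroup H] [InnerProductSpace ℂ H] [CompleteSpace H]

/-- `(0, ∞) ⊆ S(M)` (over faithful normal states) implies type III. -/
theorem isTypeIII_of_connesS {M : VonNeumannAlgebra H} (hM : IsFactor M)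
    (hS : ∀ t : ℝ, 0 < t → t ∈ connesS M) {φ : (H →L[ℂ] H) → ℂ} (hφ : IsNormalState M φ)
    (hf : IsFaithful M φ) : IsTypeIII M := by
  intro e heM hes hee he0 hfin
  obtain ⟨e₁, he₁, h10, C, hC, h4⟩ := t4 hM hφ hf ⟨heM, hes, hee⟩ he0 hfin
  exact Gf.contra hM hS hφ hf he₁ h10 hC h4

/-- **Connes' bicentralizer conjecture**, with the definition of type III₁ factors by weights. -/
theorem bicentralizer_eq_of_weights {M : VonNeumannAlgebra H} (hM : IsTypeIIIOneFactor M)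
    {φ : (H →L[ℂ] H) → ℂ} (hφ : IsNormalState M φ) (hf : IsFaithful M φ) :
    bicentralizer M φ = {a | ∃ c : ℂ, a = c • 1} := by
  have hS : ∀ t : ℝ, 0 < t → t ∈ connesS M := fun t ht =>
    connesInvariant_subset (by rw [hM.connes]; exact ht.le)
  exact bicentralizer_eq_pos hM.factor (isTypeIII_of_connesS hM.factor hS hφ hf) hS hφ hf

end Vale.Agent.P132
end
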